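import Mathlib
import Vale.Agent.P204.Torus.Wedge

/-!
# P204: determinant identities for the smoothing double form
-/

open Matrix

namespace Vale.Agent.P204.Kernel

open Vale.Agent.P204.Torus

/-- Five vectors and a covector in four-space. -/
theorem five (l a b c d e : Pt) :
    (l ⬝ᵥ a) * det4 b c d e - (l ⬝ᵥ b) * det4 a c d e + (l ⬝ᵥ c) * det4 a b d e
      - (l ⬝ᵥ d) * det4 a b c e + (l ⬝ᵥ e) * det4 a b c d = 0 := by
  simp only [dotProduct, Fin.sum_univ_four, det4_expand]
  ring

/-- The contraction of a bivector with a covector. -/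
theorem det4_contract (l α β c d e : Pt) :
    (l ⬝ᵥ c) * det4 α β d e + (l ⬝ᵥ d) * det4 α β e c + (l ⬝ᵥ e) * det4 α β c d =
      det4 ((l ⬝ᵥ β) • α - (l ⬝ᵥ α) • β) c d e := by
  simp only [dotProduct, Fin.sum_univ_four, det4_expand, Pi.sub_apply, Pi.smul_apply, smul_eq_mul]
  ring

variable (a b c d e : Pt) (t : ℝ)

theorem det4_add₁ : det4 (a + e) b c d = det4 a b c d + det4 e b c d := by
  simp only [det4_expand, Pi.add_apply]; ring
theorem det4_add₂ : det4 a (b + e) c d = det4 a b c d + det4 a e c d := by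
  simp only [det4_expand, Pi.add_apply]; ring
theorem det4_add₃ : det4 a b (c + e) d = det4 a b c d + det4 a b e d := by
  simp only [det4_expand, Pi.add_apply]; ring
theorem det4_add₄ : det4 a b c (d + e) = det4 a b c d + det4 a b c e := by
  simp only [det4_expand, Pi.add_apply]; ring
theorem det4_smul₁ : det4 (t • a) b c d = t * det4 a b c d := by
  simp only [det4_expand, Pi.smul_apply, smul_eq_mul]; ring
theorem det4_swap₁₂ : det4 b a c d = -det4 a b c d := by simp only [det4_expand]; ring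
theorem det4_swap₂₃ : det4 a c b d = -det4 a b c d := by simp only [det4_expand]; ring
theorem det4_swap₃₄ : det4 a b d c = -det4 a b c d := by simp only [det4_expand]; ring

/-- A linear map inserted in each slot in turn gives the trace. -/
theorem det4_derivation (M : M4) :
    det4 (M *ᵥ a) b c d + det4 a (M *ᵥ b) c d + det4 a b (M *ᵥ c) d + det4 a b c (M *ᵥ d) =
      M.trace * det4 a b c d := by
  simp only [det4_expand, mulVec, dotProduct, Fin.sum_univ_four, Matrix.trace, Matrix.diag_apply]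
  ring

/-- The second curvature pairing: the sum over ambient directions. -/
def curvE {N : ℕ} (U V : Matrix (Fin 4) (Fin N) ℝ) (Y Z : Pt) : ℝ :=
  ∑ k, det4 (fun i => U i k) (fun i => V i k) Y Z

/-- `curvE` only depends on `U Vᵀ`. -/
theorem curvE_congr {N : ℕ} {U V U' V' : Matrix (Fin 4) (Fin N) ℝ} (h : U * Vᵀ = U' * V'ᵀ)
    (Y Z : Pt) : curvE U V Y Z = curvE U' V' Y Z := by
  have key : ∀ U V : Matrix (Fin 4) (Fin N) ℝ, curvE U V Y Z =
      ∑ i, ∑ j, (U * Vᵀ) i j * det4 (Pi.single i 1) (Pi.single j 1) Y Z := by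
    intro U V
    simp only [curvE, Matrix.mul_apply, Matrix.transpose_apply, Finset.sum_mul]
    rw [Finset.sum_congr rfl fun i _ => Finset.sum_comm, Finset.sum_comm]
    refine Finset.sum_congr rfl fun k _ => ?_
    simp only [Fin.sum_univ_four, det4_expand, Pi.single_eq_same, ne_eq, Fin.reduceEq,
      not_false_eq_true, Pi.single_eq_of_ne]
    ring
  rw [key, key, h]

theorem curvE_add_left {N : ℕ} (U U' V : Matrix (Fin 4) (Fin N) ℝ) (Y Z : Pt) :
    curvE (U + U') V Y Z = curvE U V Y Z + curvE U' V Y Z := by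
  simp only [curvE, ← Finset.sum_add_distrib]
  exact Finset.sum_congr rfl fun k _ => det4_add₁ _ _ _ _ _

theorem curvE_swap {N : ℕ} (U V : Matrix (Fin 4) (Fin N) ℝ) (Y Z : Pt) :
    curvE V U Y Z = -curvE U V Y Z := by
  simp only [curvE, ← Finset.sum_neg_distrib]
  exact Finset.sum_congr rfl fun k _ => det4_swap₁₂ _ _ _ _

theorem curvE_sub_left {N : ℕ} (U U' V : Matrix (Fin 4) (Fin N) ℝ) (Y Z : Pt) :
    curvE (U - U') V Y Z = curvE U V Y Z - curvE U' V Y Z := by
  have := curvE_add_left (U - U') U' V Y Z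
  rw [sub_add_cancel] at this
  linarith

theorem curvE_zero_left {N : ℕ} (V : Matrix (Fin 4) (Fin N) ℝ) (Y Z : Pt) :
    curvE (0 : Matrix (Fin 4) (Fin N) ℝ) V Y Z = 0 := by
  simp [curvE, det4_expand]

/-- The derivative of the curvature pairing along the fibre, against a covector. -/
theorem curvE_contract {N : ℕ} (U V : Matrix (Fin 4) (Fin N) ℝ) (l c d e : Pt) :
    (l ⬝ᵥ c) * curvE U V d e + (l ⬝ᵥ d) * curvE U V e c + (l ⬝ᵥ e) * curvE U V c d =
      det4 ((U * Vᵀ - V * Uᵀ) *ᵥ l) c d e := by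
  have h : (U * Vᵀ - V * Uᵀ) *ᵥ l =
      ∑ k, ((l ⬝ᵥ fun i => V i k) • (fun i => U i k) - (l ⬝ᵥ fun i => U i k) • fun i => V i k) := by
    funext i
    simp only [mulVec, dotProduct, Matrix.sub_apply, Matrix.mul_apply, Matrix.transpose_apply,
      Finset.sum_apply, Pi.sub_apply, Pi.smul_apply, smul_eq_mul, Finset.sum_mul]
    simp only [sub_mul, Finset.sum_mul, ← Finset.sum_sub_distrib]
    rw [Finset.sum_comm]
    exact Finset.sum_congr rfl fun j _ => Finset.sum_congr rfl fun k _ => by ring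
  have hs : ∀ f : Fin N → Pt, det4 (∑ k, f k) c d e = ∑ k, det4 (f k) c d e := fun f =>
    map_sum (AddMonoidHom.mk' (fun v => det4 v c d e) fun x y => det4_add₁ x c d e y) f _
  rw [h, hs]
  simp only [curvE, Finset.mul_sum, ← Finset.sum_add_distrib]
  exact Finset.sum_congr rfl fun k _ => det4_contract l _ _ c d e

end Vale.Agent.P204.Kernel
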