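import Mathlib
import Vale.Agent.P204.General.Charts
import Vale.Agent.P204.Kernel.Alg

/-!
# P204: the projection connection of a chart

`gram` is the induced metric, `pim` the orthogonal projection in coordinates, `gam` the projection
connection and `wop` the second fundamental operator.
-/

open Matrix Filter
open scoped ContDiff Topology

namespace Vale.Agent.P204.Kernel

open Vale.Agent.P204.General Vale.Agent.P204.Torus

section Der

variable {m n l : ℕ} {p : Pt} {a : Fin 4}

/-- Entrywise derivative of a matrix field along the axis `a`. -/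
def PD (a : Fin 4) (F : Pt → Matrix (Fin m) (Fin n) ℝ) (F' : Matrix (Fin m) (Fin n) ℝ) (p : Pt) :
    Prop :=
  ∀ i j, HasDerivAt (fun t : ℝ => F (p + t • Pi.single a 1) i j) (F' i j) 0

/-- A differentiable function has its partial derivative along the axis. -/
theorem hasDerivAt_pd {f : Pt → ℝ} (hf : DifferentiableAt ℝ f p) (a : Fin 4) :
    HasDerivAt (fun t : ℝ => f (p + t • Pi.single a 1)) (pd a f p) 0 :=
  hf.hasFDerivAt.hasLineDerivAt (Pi.single a 1)

theorem PD.of_diff {F : Pt → Matrix (Fin m) (Fin n) ℝ}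
    (hF : ∀ i j, DifferentiableAt ℝ (fun q => F q i j) p) (a : Fin 4) :
    PD a F (Matrix.of fun i j => pd a (fun q => F q i j) p) p :=
  fun i j => hasDerivAt_pd (hF i j) a

theorem PD.const (C : Matrix (Fin m) (Fin n) ℝ) : PD a (fun _ => C) 0 p :=
  fun i j => by simpa using hasDerivAt_const (0 : ℝ) (C i j)

theorem PD.transpose {F : Pt → Matrix (Fin m) (Fin n) ℝ} {F'} (h : PD a F F' p) :
    PD a (fun q => (F q)ᵀ) F'ᵀ p := fun i j => h j i

theorem PD.sub {F H : Pt → Matrix (Fin m) (Fin n) ℝ} {F' H'} (hF : PD a F F' p)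
    (hH : PD a H H' p) : PD a (fun q => F q - H q) (F' - H') p :=
  fun i j => by simpa using (hF i j).fun_sub (hH i j)

theorem PD.mul {F : Pt → Matrix (Fin m) (Fin n) ℝ} {H : Pt → Matrix (Fin n) (Fin l) ℝ} {F' H'}
    (hF : PD a F F' p) (hH : PD a H H' p) :
    PD a (fun q => F q * H q) (F' * H p + F p * H') p := fun i j => by
  have h := HasDerivAt.fun_sum fun k (_ : k ∈ Finset.univ) => (hF i k).fun_mul (hH k j)
  simp only [zero_smul, add_zero, Finset.sum_add_distrib] at h
  simpa [Matrix.mul_apply, Matrix.add_apply] using h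

theorem PD.unique {F : Pt → Matrix (Fin m) (Fin n) ℝ} {F' F''} (h : PD a F F' p)
    (h' : PD a F F'' p) : F' = F'' := by
  ext i j; exact (h i j).unique (h' i j)

theorem PD.congr {F H : Pt → Matrix (Fin m) (Fin n) ℝ} {F'} (h : PD a F F' p)
    (he : ∀ᶠ q in 𝓝 p, F q = H q) : PD a H F' p := fun i j => by
  have hc : Tendsto (fun t : ℝ => p + t • Pi.single (M := fun _ => ℝ) a 1) (𝓝 0) (𝓝 p) := by
    have : Continuous fun t : ℝ => p + t • Pi.single (M := fun _ => ℝ) a 1 := by fun_prop
    simpa using this.tendsto 0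
  exact (h i j).congr_of_eventuallyEq ((hc.eventually he).mono fun t ht => by simp [ht])

theorem pd_of_PD {F : Pt → Matrix (Fin m) (Fin n) ℝ} {F'} (h : PD a F F' p) {i j}
    (hd : DifferentiableAt ℝ (fun q => F q i j) p) : pd a (fun q => F q i j) p = F' i j :=
  (hasDerivAt_pd hd a).unique (h i j)

end Der

variable {N K : ℕ} (A : Atlas N K) (c : Fin K)

/-- The derivative of the differential along the axis `a`. -/
noncomputable def dD (a : Fin 4) (p : Pt) : Matrix (Fin N) (Fin 4) ℝ :=
  Matrix.of fun k i => pd a (fun q => A.dmat c q k i) p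

/-- The second derivative of the differential. -/
noncomputable def ddD (a b : Fin 4) (p : Pt) : Matrix (Fin N) (Fin 4) ℝ :=
  Matrix.of fun k i => pd a (fun q => dD A c b q k i) p

/-- The induced metric. -/
noncomputable def gram (p : Pt) : M4 := (A.dmat c p)ᵀ * A.dmat c p

/-- The orthogonal projection, in coordinates. -/
noncomputable def pim (p : Pt) : Matrix (Fin 4) (Fin N) ℝ := (gram A c p)⁻¹ * (A.dmat c p)ᵀ

/-- The orthogonal projection on the normal space. -/
noncomputable def nor (p : Pt) : MN N := 1 - A.dmat c p * pim A c p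

/-- The projection connection. -/
noncomputable def gam (a : Fin 4) (p : Pt) : M4 := pim A c p * dD A c a p

/-- The second fundamental operator. -/
noncomputable def wop (a : Fin 4) (p : Pt) : Matrix (Fin 4) (Fin N) ℝ :=
  (gram A c p)⁻¹ * (dD A c a p)ᵀ * nor A c p

theorem dD_smooth (a : Fin 4) (k : Fin N) (i : Fin 4) :
    ContDiff ℝ ∞ fun p => dD A c a p k i :=
  ((A.dmat_smooth c k i).fderiv_right (m := ∞) (by norm_num)).clm_apply contDiff_const

theorem PD_dmat (a : Fin 4) (p : Pt) : PD a (A.dmat c) (dD A c a p) p :=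
  PD.of_diff (fun k i => ((A.dmat_smooth c k i).differentiable (by norm_num)).differentiableAt) a

theorem PD_dD (a b : Fin 4) (p : Pt) : PD a (dD A c b) (ddD A c a b p) p :=
  PD.of_diff (fun k i => ((dD_smooth A c b k i).differentiable (by norm_num)).differentiableAt) a

theorem pd_comm {f : Pt → ℝ} (hf : ContDiff ℝ ∞ f) (a b : Fin 4) (p : Pt) :
    pd a (pd b f) p = pd b (pd a f) p := by
  have h2 : ∀ a b, pd a (pd b f) p = fderiv ℝ (fderiv ℝ f) p (Pi.single a 1) (Pi.single b 1) := by
    intro a b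
    have hd : DifferentiableAt ℝ (fderiv ℝ f) p :=
      ((hf.fderiv_right (m := ∞) (by norm_num)).differentiable (by norm_num)).differentiableAt
    show fderiv ℝ (fun x => fderiv ℝ f x (Pi.single b 1)) p (Pi.single a 1) = _
    rw [show (fun x => fderiv ℝ f x (Pi.single b 1)) = fun x =>
      (fderiv ℝ f x) ((fun _ => (Pi.single b 1 : Pt)) x) from rfl,
      fderiv_clm_apply hd (differentiableAt_const _)]
    simp
  rw [h2, h2]
  exact (hf.contDiffAt.isSymmSndFDerivAt (by rw [minSmoothness_of_isRCLikeNormedField]; exact WithTop.coe_le_coe.2 le_top)) _ _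

theorem dD_symm (a b : Fin 4) (p : Pt) (k : Fin N) : dD A c a p k b = dD A c b p k a := by
  have hs : ContDiff ℝ ∞ fun q => A.psi c q k := contDiff_pi.1 (A.psi_smooth c) k
  exact pd_comm hs a b p

theorem ddD_symm (a b : Fin 4) (p : Pt) : ddD A c a b p = ddD A c b a p := by
  ext k i
  exact pd_comm (A.dmat_smooth c k i) a b p

variable {p : Pt}

theorem gram_det_ne (hp : p ∈ box) : (gram A c p).det ≠ 0 := by
  intro h
  obtain ⟨u, hu, h0⟩ := exists_mulVec_eq_zero_iff.2 h
  apply hu
  have : A.dmat c p *ᵥ u = 0 := by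
    rw [← dotProduct_self_eq_zero]
    have h1 : u ⬝ᵥ (gram A c p *ᵥ u) = 0 := by rw [h0, dotProduct_zero]
    rwa [gram, ← mulVec_mulVec, dotProduct_mulVec, vecMul_transpose] at h1
  rw [← A.L_mulVec_dmat c hp u, this, mulVec_zero]

theorem gram_inv_mul (hp : p ∈ box) : (gram A c p)⁻¹ * gram A c p = 1 :=
  Matrix.nonsing_inv_mul _ (Ne.isUnit (gram_det_ne A c hp))

theorem gram_mul_inv (hp : p ∈ box) : gram A c p * (gram A c p)⁻¹ = 1 :=
  Matrix.mul_nonsing_inv _ (Ne.isUnit (gram_det_ne A c hp))

theorem gram_symm : (gram A c p)ᵀ = gram A c p := by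
  simp [gram, transpose_mul]

theorem pim_mul_dmat (hp : p ∈ box) : pim A c p * A.dmat c p = 1 := by
  rw [pim, Matrix.mul_assoc]; exact gram_inv_mul A c hp

theorem pim_nor (hp : p ∈ box) : pim A c p * nor A c p = 0 := by
  rw [nor, Matrix.mul_sub, Matrix.mul_one, ← Matrix.mul_assoc, pim_mul_dmat A c hp,
    Matrix.one_mul, sub_self]

theorem nor_dmat (hp : p ∈ box) : nor A c p * A.dmat c p = 0 := by
  rw [nor, Matrix.sub_mul, Matrix.one_mul, Matrix.mul_assoc, pim_mul_dmat A c hp, Matrix.mul_one,
    sub_self]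

theorem dmatT_nor (hp : p ∈ box) : (A.dmat c p)ᵀ * nor A c p = 0 := by
  rw [nor, Matrix.mul_sub, Matrix.mul_one, pim, ← Matrix.mul_assoc, ← Matrix.mul_assoc, ← gram,
    gram_mul_inv A c hp, Matrix.one_mul, sub_self]

theorem nor_symm : (nor A c p)ᵀ = nor A c p := by
  simp [nor, pim, transpose_mul, transpose_nonsing_inv, gram_symm, Matrix.mul_assoc]

theorem nor_nor (hp : p ∈ box) : nor A c p * nor A c p = nor A c p := by
  conv_lhs => arg 1; rw [nor]
  rw [Matrix.sub_mul, Matrix.one_mul, Matrix.mul_assoc, pim_nor A c hp, Matrix.mul_zero, sub_zero]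

theorem wop_nor (hp : p ∈ box) (a : Fin 4) : wop A c a p * nor A c p = wop A c a p := by
  rw [wop, Matrix.mul_assoc, nor_nor A c hp]

theorem wop_dmat (hp : p ∈ box) (a : Fin 4) : wop A c a p * A.dmat c p = 0 := by
  rw [wop, Matrix.mul_assoc, nor_dmat A c hp, Matrix.mul_zero]

theorem nor_dD (hp : p ∈ box) (a : Fin 4) :
    nor A c p * dD A c a p = (wop A c a p)ᵀ * gram A c p := by
  rw [wop, transpose_mul, transpose_mul, transpose_transpose, nor_symm, transpose_nonsing_inv,
    gram_symm, Matrix.mul_assoc, Matrix.mul_assoc, gram_inv_mul A c hp, Matrix.mul_one]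

theorem PD_gram (a : Fin 4) (p : Pt) :
    PD a (gram A c) ((dD A c a p)ᵀ * A.dmat c p + (A.dmat c p)ᵀ * dD A c a p) p :=
  (PD_dmat A c a p).transpose.mul (PD_dmat A c a p)

theorem gram_inv_smooth (i k : Fin 4) :
    ContDiffOn ℝ ∞ (fun q => (gram A c q)⁻¹ i k) box := by
  have hg : ∀ i k, ContDiff ℝ ∞ fun q => gram A c q i k := fun i k => by
    simp only [gram, Matrix.mul_apply, Matrix.transpose_apply]
    exact ContDiff.sum fun a _ => (A.dmat_smooth c a i).mul (A.dmat_smooth c a k)
  have hdet : ∀ {f : Pt → M4}, (∀ i k, ContDiff ℝ ∞ fun q => f q i k) →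
      ContDiff ℝ ∞ fun q => (f q).det := fun hf => by
    simp only [Matrix.det_apply']
    exact ContDiff.sum fun σ _ => contDiff_const.mul (contDiff_prod fun j _ => hf _ _)
  have hadj : ContDiff ℝ ∞ fun q => (gram A c q).adjugate i k := by
    simp only [Matrix.adjugate_apply]
    refine hdet fun r s => ?_
    simp only [Matrix.updateRow_apply]
    split_ifs
    · exact contDiff_const
    · exact hg r s
  have := ((hdet hg).contDiffOn (s := box)).inv fun q hq => gram_det_ne A c hq
  refine (this.mul hadj.contDiffOn).congr fun q hq => ?_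
  simp [Matrix.inv_def, Ring.inverse_eq_inv']

theorem PD_gram_inv (hp : p ∈ box) (a : Fin 4) :
    PD a (fun q => (gram A c q)⁻¹) (-((gram A c p)⁻¹ *
      ((dD A c a p)ᵀ * A.dmat c p + (A.dmat c p)ᵀ * dD A c a p) * (gram A c p)⁻¹)) p := by
  have hd := PD.of_diff (F := fun q => (gram A c q)⁻¹) (fun i k =>
    ((gram_inv_smooth A c i k).differentiableOn (by norm_num)).differentiableAt
      (isOpen_box.mem_nhds hp)) a
  set Y := Matrix.of fun i k => pd a (fun q => (gram A c q)⁻¹ i k) p
  have h1 : PD a (fun q => gram A c q * (gram A c q)⁻¹) 0 p :=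
    (PD.const (1 : M4)).congr (eventually_of_mem (isOpen_box.mem_nhds hp)
      fun q hq => (gram_mul_inv A c hq).symm)
  have h2 := congrArg (fun M => (gram A c p)⁻¹ * M) (((PD_gram A c a p).mul hd).unique h1)
  simp only [Matrix.mul_add, Matrix.mul_zero] at h2
  rw [← Matrix.mul_assoc ((gram A c p)⁻¹) (gram A c p) Y, gram_inv_mul A c hp,
    Matrix.one_mul] at h2
  convert hd using 1
  rw [eq_comm, ← sub_eq_zero, sub_neg_eq_add, ← h2, Matrix.mul_assoc, add_comm]

/-- The covariant derivative of the projection is the second fundamental operator. -/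
theorem PD_pim (hp : p ∈ box) (a : Fin 4) :
    PD a (pim A c) (wop A c a p - gam A c a p * pim A c p) p := by
  convert (PD_gram_inv A c hp a).mul (PD_dmat A c a p).transpose using 1
  · rfl
  simp only [wop, gam, nor, pim, Matrix.mul_sub, Matrix.mul_one, Matrix.neg_mul,
    Matrix.mul_add, Matrix.add_mul, Matrix.mul_assoc]
  abel

/-- The Codazzi identity. -/
theorem wop_codazzi (hp : p ∈ box) (a b : Fin 4) {U V : Matrix (Fin 4) (Fin N) ℝ}
    (hU : PD a (wop A c b) U p) (hV : PD b (wop A c a) V p) :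
    (U + gam A c a p * wop A c b p - (V + gam A c b p * wop A c a p)) * nor A c p = 0 := by
  have key : ∀ a b : Fin 4, ∀ U, PD a (wop A c b) U p →
      (U + gam A c a p * wop A c b p) * nor A c p =
        (gram A c p)⁻¹ * (ddD A c a b p)ᵀ * nor A c p
        - ((gram A c p)⁻¹ * (dD A c a p)ᵀ * A.dmat c p * wop A c b p
          + (gram A c p)⁻¹ * (dD A c b p)ᵀ * A.dmat c p * wop A c a p) := by
    intro a b U hU
    have hn : PD a (nor A c) (0 - (dD A c a p * pim A c p +
        A.dmat c p * (wop A c a p - gam A c a p * pim A c p))) p :=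
      (PD.const (1 : MN N)).sub ((PD_dmat A c a p).mul (PD_pim A c hp a))
    have h := hU.unique (((PD_gram_inv A c hp a).mul (PD_dD A c a b p).transpose).mul hn)
    subst h
    have e1 := pim_nor A c hp
    have e2 := wop_nor A c hp
    have e3 := nor_nor A c hp
    simp only [Matrix.add_mul, Matrix.sub_mul, Matrix.mul_sub, Matrix.mul_add, Matrix.neg_mul,
      Matrix.mul_neg, Matrix.mul_assoc, e1, e2, e3, Matrix.mul_zero, sub_zero, zero_sub]
    simp only [wop, gam, pim, Matrix.mul_assoc]
    abel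
  rw [Matrix.sub_mul, key a b U hU, key b a V hV, ddD_symm A c a b]
  abel

end Vale.Agent.P204.Kernel
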