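import Mathlib
import Vale.Agent.P204.Kernel.Frame
import Vale.Agent.P204.General.Stmts

/-!
# P204: the smoothing double form

In a chart `c`, for a point with coordinates `p` and an ambient point `z`: `vv` is the coordinate
offset of `z` in the projection connection, `sdist` its squared metric length, `xx` and `yy` are
its covariant derivatives in `p` and in `z`. `k22`, `k13`, `k31` are the components of the Thom
double form of a profile `f`, with `h' = -f / 2`.
-/

open MeasureTheory Matrix
open scoped ContDiff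

namespace Vale.Agent.P204.Kernel

open Vale.Agent.P204.General Vale.Agent.P204.Torus

variable {N K : ℕ} (A : Atlas N K) (c : Fin K)

/-- The coordinate offset. -/
noncomputable def vv (p : Pt) (z : Amb N) : Pt := pim A c p *ᵥ (z - A.psi c p)

/-- The squared length of the offset. -/
noncomputable def sdist (p : Pt) (z : Amb N) : ℝ := vv A c p z ⬝ᵥ (gram A c p *ᵥ vv A c p z)

/-- The covariant derivative of the offset in the base point. -/
noncomputable def xx (a : Fin 4) (p : Pt) (z : Amb N) : Pt :=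
  -Pi.single a 1 + wop A c a p *ᵥ (z - A.psi c p)

/-- The derivative of the offset in the ambient point. -/
noncomputable def yy (p : Pt) (u : Amb N) : Pt := pim A c p *ᵥ u

/-- The volume density of the induced metric. -/
noncomputable def vs (p : Pt) : ℝ := Real.sqrt (gram A c p).det

/-- The component of bidegree `(2, 2)`. -/
noncomputable def k22 (f h : ℝ → ℝ) (p : Pt) (z : Amb N) (a b : Fin 4) (u w : Amb N) : ℝ :=
  f (sdist A c p z) * (vs A c p * det4 (xx A c a p z) (xx A c b p z) (yy A c p u) (yy A c p w)) +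
    h (sdist A c p z) *
      (vs A c p * curvE (wop A c a p) (wop A c b p) (yy A c p u) (yy A c p w))

/-- The component of bidegree `(1, 3)`. -/
noncomputable def k13 (f : ℝ → ℝ) (p : Pt) (z : Amb N) (a : Fin 4) (u v w : Amb N) : ℝ :=
  f (sdist A c p z) * (vs A c p * det4 (xx A c a p z) (yy A c p u) (yy A c p v) (yy A c p w))

/-- The component of bidegree `(3, 1)`. -/
noncomputable def k31 (f h : ℝ → ℝ) (p : Pt) (z : Amb N) (a b d : Fin 4) (u : Amb N) : ℝ :=
  f (sdist A c p z) *
      (vs A c p * det4 (xx A c a p z) (xx A c b p z) (xx A c d p z) (yy A c p u)) +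
    h (sdist A c p z) *
      (vs A c p * (curvE (wop A c a p) (wop A c b p) (xx A c d p z) (yy A c p u) +
        curvE (wop A c b p) (wop A c d p) (xx A c a p z) (yy A c p u) +
        curvE (wop A c d p) (wop A c a p) (xx A c b p z) (yy A c p u)))

/-- The ambient cut-off: one for `|u| ≤ r`, zero for `|u|² ≥ 2 r²` (Euclidean). -/
noncomputable def etaF (r : ℝ) (u : Amb N) : ℝ := Real.smoothTransition (2 - u ⬝ᵥ u / r ^ 2)

/-- The cut-off of the squared length: one below `d / 2`, zero above `d`. -/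
noncomputable def cutF (d s : ℝ) : ℝ := Real.smoothTransition (2 - 2 * s / d)

/-- The cut Gaussian profile of width `σ`. -/
noncomputable def gProf (d σ s : ℝ) : ℝ :=
  cutF d s * (((4 * Real.pi * σ ^ 2) ^ 2)⁻¹ * Real.exp (-s / (4 * σ ^ 2)))

/-- Half its tail. -/
noncomputable def hProf (d σ s : ℝ) : ℝ := 2⁻¹ * ∫ t in s..d, gProf d σ t

/-- Admissible cut-off radii. -/
structure GoodR (r d c₀ C₀ : ℝ) : Prop where
  r_pos : 0 < r
  d_pos : 0 < d
  c_pos : 0 < c₀
  near : ∀ c, ∀ p ∈ Metric.closedBall (0 : Pt) (7 / 8), ∀ z ∈ A.X,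
    (z - A.psi c p) ⬝ᵥ (z - A.psi c p) ≤ 2 * r ^ 2 →
      ∃ q, ‖q - p‖ ≤ 1 / 32 ∧ A.psi c q = z
  low : ∀ c, ∀ p ∈ Metric.closedBall (0 : Pt) (7 / 8), ∀ z ∈ A.X,
    (z - A.psi c p) ⬝ᵥ (z - A.psi c p) ≤ 2 * r ^ 2 →
      c₀ * ‖z - A.psi c p‖ ^ 2 ≤ sdist A c p z ∧ sdist A c p z ≤ C₀ * ‖z - A.psi c p‖ ^ 2 ∧
      ∀ a, ‖wop A c a p *ᵥ (z - A.psi c p)‖ ≤ C₀ * ‖z - A.psi c p‖ ^ 2
  far : ∀ c, ∀ p ∈ box, ∀ z ∈ A.X, r ^ 2 ≤ (z - A.psi c p) ⬝ᵥ (z - A.psi c p) →
    (z - A.psi c p) ⬝ᵥ (z - A.psi c p) ≤ 2 * r ^ 2 → d < sdist A c p z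

variable (r d σ : ℝ)

/-- The two-form in the first point, in a chart. -/
noncomputable def loc22 (p : Pt) (z u w : Amb N) : M4 :=
  Matrix.of fun a b =>
    etaF r (z - A.psi c p) * k22 A c (gProf d σ) (hProf d σ) p z a b u w

/-- The one-form in the first point, in a chart. -/
noncomputable def loc13 (p : Pt) (z u v w : Amb N) : Pt :=
  fun a => etaF r (z - A.psi c p) * k13 A c (gProf d σ) p z a u v w

/-- The one-form in the second point, for coordinate directions in the first. -/
noncomputable def loc31 (p : Pt) (a b e : Fin 4) (z : Amb N) : Amb N :=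
  fun k => etaF r (z - A.psi c p) * k31 A c (gProf d σ) (hProf d σ) p z a b e (Pi.single k 1)

/-- The kernel as a two-form in the first point. -/
noncomputable def kk (z u w x : Amb N) : MN N :=
  ∑ c, A.chi c x • A.push c (fun p => loc22 A c r d σ p z u w) x

/-- The one-form in the first point. -/
noncomputable def bk (z u v w x : Amb N) : Amb N :=
  ∑ c, A.chi c x • ((A.L c)ᵀ *ᵥ loc13 A c r d σ (A.phi c x) z u v w)

/-- The line kernel at the width `σ`. -/
noncomputable def kfS (J : Amb N → MN N) (x : Amb N) (p : Amb N × Amb N) : MN N :=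
  kk A r d σ p.1 p.2 (J p.1 *ᵥ p.2) x

/-- The smoothing at the width `σ`. -/
noncomputable def GS (a : Amb N → MN N) (z : Amb N) : MN N :=
  Matrix.of fun u w => A.wedgeInt a (fun x => kk A r d σ z (Pi.single u 1) (Pi.single w 1) x)

/-- The kernel as a two-form in the second point, for fixed coefficients in the first. -/
noncomputable def zForm (x : Amb N) (i k : Fin N) (z : Amb N) : MN N :=
  Matrix.of fun u w => kk A r d σ z (Pi.single u 1) (Pi.single w 1) x i k

/-- The scalar weight at the width `σ`. -/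
noncomputable def wS (x y : Amb N) : ℝ :=
  ∑ c, A.chi c x * (etaF r (y - x) * gProf d σ (sdist A c (A.phi c x) y) *
    vs A c (A.phi c x) / A.dens c (A.phi c x))

end Vale.Agent.P204.Kernel

namespace Vale.Agent.P204.Kernel

open Vale.Agent.P204.General Vale.Agent.P204.Torus

variable {N K : ℕ} (A : Atlas N K) (r d ε : ℝ)

/-- The subordination weight, cut at `1 / ε`. -/
noncomputable def omW (t : ℝ) : ℝ :=
  (Set.Ioc 0 (1 / ε)).indicator (fun t => t ^ 4 / 24 * Real.exp (-t)) t

/-- The line kernel of width `ε`. -/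
noncomputable def kfE (J : Amb N → MN N) (x : Amb N) (p : Amb N × Amb N) : MN N :=
  Matrix.of fun i k => ∫ t, omW ε t * kfS A r d (ε * Real.sqrt t) J x p i k

/-- The smoothing of width `ε`. -/
noncomputable def GE (a : Amb N → MN N) (z : Amb N) : MN N :=
  Matrix.of fun u w => ∫ t, omW ε t * GS A r d (ε * Real.sqrt t) a z u w

/-- The scalar weight of width `ε`. -/
noncomputable def wE (x y : Amb N) : ℝ :=
  ∫ t, omW ε t * wS A r d (ε * Real.sqrt t) x y

/-- The smoothed functional. -/
noncomputable def VE (R : (Amb N → MN N) → ℝ) (x : Amb N) : MN N :=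
  Matrix.of fun i k => ∫ t, omW ε t * R (zForm A r d (ε * Real.sqrt t) x i k)

end Vale.Agent.P204.Kernel
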