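import Mathlib
import Vale.Agent.P204.Kernel.Defs

/-!
# P204: bounds on the cut Gaussian profile and on its subordination
-/

open MeasureTheory Matrix Filter Set
open scoped ContDiff Topology

namespace Vale.Agent.P204.Kernel

open Vale.Agent.P204.General

theorem gProf_nonneg (d σ s : ℝ) : 0 ≤ gProf d σ s :=
  mul_nonneg (Real.smoothTransition.nonneg _) (by positivity)

theorem gProf_le (d σ s : ℝ) :
    gProf d σ s ≤ ((4 * Real.pi * σ ^ 2) ^ 2)⁻¹ * Real.exp (-s / (4 * σ ^ 2)) :=
  mul_le_of_le_one_left (by positivity) (Real.smoothTransition.le_one _)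

/-- The profile is at most a Gaussian of width `σ`. -/
theorem gProf_bound (d σ s : ℝ) :
    |gProf d σ s| ≤ Real.exp (-s / (4 * σ ^ 2)) / σ ^ 4 := by
  rw [abs_of_nonneg (gProf_nonneg _ _ _)]
  refine (gProf_le d σ s).trans ?_
  rcases eq_or_ne σ 0 with rfl | h
  · simp
  rw [div_eq_inv_mul (Real.exp _)]
  refine mul_le_mul_of_nonneg_right (inv_anti₀ (by positivity) ?_) (Real.exp_pos _).le
  have hp := Real.pi_gt_three
  have : σ ^ 4 ≤ (4 * Real.pi) ^ 2 * σ ^ 4 :=
    le_mul_of_one_le_left (by positivity) (one_le_pow₀ (by linarith))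
  calc σ ^ 4 ≤ _ := this
    _ = _ := by ring

theorem continuous_gProf (d σ : ℝ) : Continuous (gProf d σ) := by
  unfold gProf cutF
  exact (Real.smoothTransition.continuous.comp (by fun_prop)).mul (by fun_prop)

theorem gProf_eq_zero {d σ s : ℝ} (hd : 0 < d) (hs : d ≤ s) : gProf d σ s = 0 := by
  have h : cutF d s = 0 := by
    refine Real.smoothTransition.zero_of_nonpos ?_
    rw [sub_nonpos, le_div_iff₀ hd]; linarith
  rw [gProf, h, zero_mul]

/-- Half the tail is at most a Gaussian, two powers of `σ` better. -/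
theorem hProf_bound {d σ : ℝ} (hd : 0 < d) (hσ : 0 < σ) (s : ℝ) :
    |hProf d σ s| ≤ 2 * (Real.exp (-s / (4 * σ ^ 2)) / σ ^ 2) := by
  have hE : 0 ≤ Real.exp (-s / (4 * σ ^ 2)) / σ ^ 2 := by positivity
  rcases le_or_gt d s with h | h
  · have h0 : ∫ t in s..d, gProf d σ t = 0 := by
      rw [intervalIntegral.integral_symm, intervalIntegral.integral_congr (g := fun _ => (0 : ℝ))
        fun t ht => gProf_eq_zero hd (by rw [uIcc_of_le h] at ht; exact ht.1)]
      simp
    rw [hProf, h0, mul_zero, abs_zero]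
    positivity
  have hint : ∀ a b : ℝ, IntervalIntegrable (fun t => Real.exp (-t / (4 * σ ^ 2)) / σ ^ 4) volume a b :=
    fun a b => (by fun_prop : Continuous _).intervalIntegrable a b
  have hb : |∫ t in s..d, gProf d σ t| ≤ ∫ t in s..d, Real.exp (-t / (4 * σ ^ 2)) / σ ^ 4 := by
    refine (intervalIntegral.abs_integral_le_integral_abs h.le).trans ?_
    exact intervalIntegral.integral_mono_on h.le ((continuous_gProf d σ).abs.intervalIntegrable _ _)
      (hint _ _) fun t _ => gProf_bound d σ t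
  have hval : ∫ t in s..d, Real.exp (-t / (4 * σ ^ 2)) / σ ^ 4 =
      4 / σ ^ 2 * (Real.exp (-s / (4 * σ ^ 2)) - Real.exp (-d / (4 * σ ^ 2))) := by
    have hder : ∀ t ∈ uIcc s d, HasDerivAt (fun t => -(4 / σ ^ 2) * Real.exp (-t / (4 * σ ^ 2)))
        (Real.exp (-t / (4 * σ ^ 2)) / σ ^ 4) t := fun t _ => by
      have h1 := ((hasDerivAt_id t).neg.div_const (4 * σ ^ 2)).exp.const_mul (-(4 / σ ^ 2))
      refine h1.congr_deriv ?_
      simp only [Pi.neg_apply, id_eq]
      field_simp
    rw [intervalIntegral.integral_eq_sub_of_hasDerivAt hder (hint _ _)]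
    ring
  rw [hProf, abs_mul, abs_of_nonneg (by norm_num : (0 : ℝ) ≤ 2⁻¹)]
  calc 2⁻¹ * |∫ t in s..d, gProf d σ t|
      ≤ 2⁻¹ * (4 / σ ^ 2 * Real.exp (-s / (4 * σ ^ 2))) := by
        refine mul_le_mul_of_nonneg_left (hb.trans (hval.le.trans ?_)) (by norm_num)
        exact mul_le_mul_of_nonneg_left (sub_le_self _ (Real.exp_pos _).le) (by positivity)
    _ = _ := by ring

theorem omW_nonneg (ε t : ℝ) : 0 ≤ omW ε t :=
  indicator_nonneg (fun t ht => mul_nonneg (by have := ht.1; positivity) (Real.exp_pos _).le) t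

theorem measurable_omW (ε : ℝ) : Measurable (omW ε) :=
  (by fun_prop : Measurable fun t : ℝ => t ^ 4 / 24 * Real.exp (-t)).indicator measurableSet_Ioc

/-- Widths occurring in the superposition are small. -/
theorem sigma_sq_le {ε t : ℝ} (hε : 0 < ε) (ht : 0 < t) (ht1 : t ≤ 1 / ε) :
    (ε * Real.sqrt t) ^ 2 ≤ ε := by
  rw [mul_pow, Real.sq_sqrt ht.le]
  calc ε ^ 2 * t ≤ ε ^ 2 * (1 / ε) := mul_le_mul_of_nonneg_left ht1 (sq_nonneg ε)
    _ = ε := by field_simp

/-- Subordination turns Gaussian bounds into kernel bounds. -/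
theorem exists_omW_bound {a : ℝ} (ha : 0 < a) (k : ℕ) : ∃ C : ℝ, 0 ≤ C ∧
    ∀ ε r B : ℝ, 0 < ε → 0 ≤ r → 0 ≤ B → ∀ f : ℝ → ℝ,
      (∀ t, 0 < t → t ≤ 1 / ε →
        |f t| ≤ B * ((ε * Real.sqrt t) ^ k / (ε * Real.sqrt t) ^ 4 *
          Real.exp (-(a * r ^ 2) / (ε ^ 2 * t)))) →
      |∫ t, omW ε t * f t| ≤ B * C * ε ^ k * kern ε r ∧
        (AEStronglyMeasurable f volume → Integrable fun t => omW ε t * f t) := by
  obtain ⟨D, hD, hDt⟩ : ∃ D : ℝ, 0 ≤ D ∧ ∀ t : ℝ, 0 ≤ t →
      (1 + t) ^ (7 + k) * Real.exp (-t) ≤ D * Real.exp (-t / 2) := by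
    refine ⟨(2 * (7 + k : ℕ) + 1) ^ (7 + k), by positivity, fun t ht => ?_⟩
    set n := 7 + k
    have hn : (0 : ℝ) < n := by simp [n]; positivity
    have h1 : (1 + t) ≤ (2 * n + 1) * Real.exp (t / (2 * n)) := by
      have := Real.add_one_le_exp (t / (2 * n))
      have h2 : 0 ≤ t / (2 * n) := by positivity
      calc 1 + t ≤ (2 * n + 1) * (t / (2 * n) + 1) := by
            have : t = 2 * n * (t / (2 * n)) := by field_simp
            nlinarith
        _ ≤ _ := mul_le_mul_of_nonneg_left this (by positivity)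
    calc (1 + t) ^ n * Real.exp (-t)
        ≤ ((2 * n + 1) * Real.exp (t / (2 * n))) ^ n * Real.exp (-t) :=
          mul_le_mul_of_nonneg_right (pow_le_pow_left₀ (by positivity) h1 n) (Real.exp_pos _).le
      _ = (2 * (n : ℝ) + 1) ^ n * Real.exp (-t / 2) := by
          rw [mul_pow, ← Real.exp_nat_mul, mul_assoc, ← Real.exp_add]
          congr 2
          field_simp; ring
  obtain ⟨E, hE, hEv⟩ : ∃ E : ℝ, 0 ≤ E ∧ ∀ v : ℝ, 0 ≤ v → (1 + v) ^ 5 * Real.exp (-(a * v)) ≤ E := by
    refine ⟨(5 / a + 1) ^ 5, by positivity, fun v hv => ?_⟩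
    have h1 : 1 + v ≤ (5 / a + 1) * Real.exp (a * v / 5) := by
      have := Real.add_one_le_exp (a * v / 5)
      calc 1 + v ≤ (5 / a + 1) * (a * v / 5 + 1) := by
            have : 5 / a * (a * v / 5) = v := by field_simp
            have : 0 ≤ a * v / 5 := by positivity
            have : 0 ≤ 5 / a := by positivity
            nlinarith
        _ ≤ _ := mul_le_mul_of_nonneg_left this (by positivity)
    refine (mul_le_mul_of_nonneg_right (pow_le_pow_left₀ (by positivity) h1 5)
      (Real.exp_pos _).le).trans_eq ?_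
    rw [mul_pow, ← Real.exp_nat_mul, mul_assoc, ← Real.exp_add]
    simp [mul_div_cancel₀]
  set G : ℝ → ℝ := fun t => (Ioi 0).indicator (fun t => D * E * Real.exp (-t / 2)) t
  have hGi : Integrable G :=
    (integrable_indicator_iff measurableSet_Ioi).2 (by
      have := (exp_neg_integrableOn_Ioi 0 (by norm_num : (0 : ℝ) < 1 / 2)).const_mul (D * E)
      refine IntegrableOn.congr_fun this (fun t _ => ?_) measurableSet_Ioi
      show D * E * Real.exp (-(1 / 2) * t) = D * E * Real.exp (-t / 2)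
      congr 2; ring)
  have hG0 : ∀ t, 0 ≤ G t := fun t => indicator_nonneg (fun t _ => by positivity) t
  refine ⟨∫ t, G t, integral_nonneg hG0, fun ε r B hε hr hB f hf => ?_⟩
  set u := r ^ 2 / ε ^ 2 with hu
  have hpt : ∀ t, ‖omW ε t * f t‖ ≤ B * ε ^ k * kern ε r * G t := fun t => by
    by_cases ht : t ∈ Ioc 0 (1 / ε)
    · rw [omW, indicator_of_mem ht, Real.norm_eq_abs, abs_mul,
        abs_of_nonneg (by have := ht.1; positivity : 0 ≤ t ^ 4 / 24 * Real.exp (-t))]
      simp only [G, indicator_of_mem (show t ∈ Ioi (0 : ℝ) from ht.1)]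
      have ht0 := ht.1
      refine (mul_le_mul_of_nonneg_left (hf t ht.1 ht.2) (by positivity)).trans ?_
      have hs : Real.sqrt t ^ 2 = t := Real.sq_sqrt ht0.le
      have hexp : Real.exp (-(a * r ^ 2) / (ε ^ 2 * t)) ≤ E * (1 + t) ^ 5 / (1 + u) ^ 5 := by
        rw [le_div_iff₀ (by positivity)]
        have e : -(a * r ^ 2) / (ε ^ 2 * t) = -(a * (u / t)) := by rw [hu]; field_simp
        rw [e]
        have h1 : 1 + u ≤ (1 + u / t) * (1 + t) := by
          have hut : u / t * t = u := by field_simp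
          have : 0 ≤ u / t := by positivity
          nlinarith
        calc Real.exp (-(a * (u / t))) * (1 + u) ^ 5
            ≤ Real.exp (-(a * (u / t))) * ((1 + u / t) * (1 + t)) ^ 5 :=
              mul_le_mul_of_nonneg_left (pow_le_pow_left₀ (by positivity) h1 5) (Real.exp_pos _).le
          _ = ((1 + u / t) ^ 5 * Real.exp (-(a * (u / t)))) * (1 + t) ^ 5 := by ring
          _ ≤ _ := mul_le_mul_of_nonneg_right (hEv _ (by positivity)) (by positivity)
      have hpow : t ^ 4 / 24 * ((ε * Real.sqrt t) ^ k / (ε * Real.sqrt t) ^ 4) ≤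
          ε ^ k / ε ^ 4 * (1 + t) ^ (2 + k) := by
        have hs4 : Real.sqrt t ^ 4 = t ^ 2 := by
          rw [show 4 = 2 * 2 from rfl, pow_mul, hs]
        have hk : Real.sqrt t ^ k ≤ (1 + t) ^ k :=
          pow_le_pow_left₀ (Real.sqrt_nonneg _) (by nlinarith [Real.sqrt_nonneg t]) k
        calc t ^ 4 / 24 * ((ε * Real.sqrt t) ^ k / (ε * Real.sqrt t) ^ 4)
            = ε ^ k / ε ^ 4 * (t ^ 2 / 24 * Real.sqrt t ^ k) := by
              rw [mul_pow, mul_pow, hs4]; field_simp
          _ ≤ ε ^ k / ε ^ 4 * ((1 + t) ^ 2 * (1 + t) ^ k) := by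
              refine mul_le_mul_of_nonneg_left (mul_le_mul ?_ hk (by positivity) (by positivity))
                (by positivity)
              nlinarith
          _ = _ := by ring
      calc t ^ 4 / 24 * Real.exp (-t) * (B * ((ε * Real.sqrt t) ^ k / (ε * Real.sqrt t) ^ 4 *
              Real.exp (-(a * r ^ 2) / (ε ^ 2 * t))))
          = B * ((t ^ 4 / 24 * ((ε * Real.sqrt t) ^ k / (ε * Real.sqrt t) ^ 4)) *
              Real.exp (-(a * r ^ 2) / (ε ^ 2 * t))) * Real.exp (-t) := by ring
        _ ≤ B * ((ε ^ k / ε ^ 4 * (1 + t) ^ (2 + k)) * (E * (1 + t) ^ 5 / (1 + u) ^ 5)) *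
              Real.exp (-t) := by gcongr
        _ = B * ε ^ k * kern ε r * (E * ((1 + t) ^ (7 + k) * Real.exp (-t))) := by
            rw [kern, hu, show 7 + k = (2 + k) + 5 by ring, pow_add (1 + t) (2 + k) 5]
            field_simp
            try ring
        _ ≤ B * ε ^ k * kern ε r * (E * (D * Real.exp (-t / 2))) := by
            have : 0 ≤ kern ε r := div_nonneg (by positivity) (by positivity)
            exact mul_le_mul_of_nonneg_left (mul_le_mul_of_nonneg_left (hDt t ht0.le) hE)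
              (mul_nonneg (mul_nonneg hB (by positivity)) this)
        _ = _ := by ring
    · rw [omW, indicator_of_notMem ht, zero_mul, norm_zero]
      exact mul_nonneg (mul_nonneg (mul_nonneg hB (by positivity))
        (div_nonneg (by positivity) (by positivity))) (hG0 t)
  refine ⟨?_, fun hm => (hGi.const_mul _).mono' ((measurable_omW ε).aestronglyMeasurable.mul hm)
    (Eventually.of_forall hpt)⟩
  refine (Real.norm_eq_abs _).symm.trans_le
    ((norm_integral_le_of_norm_le (hGi.const_mul _) (Eventually.of_forall hpt)).trans_eq ?_)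
  rw [integral_const_mul]
  ring

end Vale.Agent.P204.Kernel
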