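import Vale.Agent.P204.Est.Tools
import Vale.Agent.P204.Defs

/-!
# P204: Gaussian families of kernels

`M σ q z` is a family of kernels, with Gaussian decay in `z` of every derivative, uniformly in `σ`.
`Op M σ h q = ∫ M(σ, q, z) h(q + σ z) dz` is the associated smoothing at width `σ`. Differentiation
`σ ∂` maps such families to themselves (`dFam`), so every operator here is bounded on `L²`.
-/

open MeasureTheory Filter Topology
open scoped ContDiff

namespace Vale.Agent.P204.Kernel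

variable {S : Set ℝ} {σ₀ c : ℝ} {M : ℝ → Pt → Pt → ℝ}

/-- A family with Gaussian decay of all derivatives, uniform over the widths in `S`. -/
structure GaussFam (S : Set ℝ) (M : ℝ → Pt → Pt → ℝ) (c : ℝ) : Prop where
  pos : 0 < c
  smooth : ∀ σ ∈ S, ContDiff ℝ ∞ (Function.uncurry (M σ))
  bound : ∀ n : ℕ, ∃ C : ℝ, 0 ≤ C ∧ ∀ σ ∈ S, ∀ p : Pt × Pt,
    ‖iteratedFDeriv ℝ n (Function.uncurry (M σ)) p‖ ≤ C * Real.exp (-c * ‖p.2‖ ^ 2)

/-- The smoothing operator of a family. -/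
noncomputable def Op (M : ℝ → Pt → Pt → ℝ) (σ : ℝ) (h : Pt → ℝ) (q : Pt) : ℝ :=
  ∫ z, M σ q z * h (q + σ • z)

/-- The kernel of `Op` as a function of two points. -/
noncomputable def kerOf (M : ℝ → Pt → Pt → ℝ) (σ : ℝ) (q y : Pt) : ℝ :=
  (σ ^ 4)⁻¹ * M σ q (σ⁻¹ • (y - q))

/-- The family of `σ ∂_e`. -/
noncomputable def dFam (e : Pt) (M : ℝ → Pt → Pt → ℝ) : ℝ → Pt → Pt → ℝ :=
  fun σ q z => fderiv ℝ (Function.uncurry (M σ)) (q, z) (σ • e, -e)

/-- Iterated `σ ∂` in coordinate directions. -/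
noncomputable def dFamL : List (Fin 4) → (ℝ → Pt → Pt → ℝ) → (ℝ → Pt → Pt → ℝ)
  | [], M => M
  | i :: l, M => dFam (Pi.single i 1) (dFamL l M)

/-- Iterated partial derivatives. -/
noncomputable def pdL : List (Fin 4) → (Pt → ℝ) → (Pt → ℝ)
  | [], f => f
  | i :: l, f => pd i (pdL l f)

/-- The Gaussian weight. -/
noncomputable def gw (c : ℝ) (z : Pt) : ℝ := Real.exp (-c * ‖z‖ ^ 2)

theorem continuous_gw (c : ℝ) : Continuous (gw c) := by unfold gw; fun_prop

theorem gw_nonneg (c : ℝ) (z : Pt) : 0 ≤ gw c z := (Real.exp_pos _).le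

theorem gw_le_one (hc : 0 ≤ c) (z : Pt) : gw c z ≤ 1 :=
  Real.exp_le_one_iff.2 (by nlinarith [sq_nonneg ‖z‖])

theorem gw_neg (c : ℝ) (z : Pt) : gw c (-z) = gw c z := by rw [gw, gw, norm_neg]

theorem integrable_gw (hc : 0 < c) : Integrable (gw c) := by
  have h : Integrable (fun z : Pt => ∏ i, Real.exp (-(c / 4) * z i ^ 2)) :=
    Integrable.fintype_prod (f := fun _ : Fin 4 => fun t : ℝ => Real.exp (-(c / 4) * t ^ 2))
      (fun _ => integrable_exp_neg_mul_sq (by positivity))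
  refine h.mono' (continuous_gw c).aestronglyMeasurable (ae_of_all _ fun z => ?_)
  rw [Real.norm_eq_abs, abs_of_nonneg (gw_nonneg c z), gw, ← Real.exp_sum]
  refine Real.exp_le_exp.2 ?_
  have hz : ∀ i, z i ^ 2 ≤ ‖z‖ ^ 2 := fun i => sq_le_sq.2 (by
    rw [abs_norm]; exact norm_le_pi_norm z i)
  have := mul_le_mul_of_nonneg_left (add_le_add (add_le_add (add_le_add (hz 0) (hz 1)) (hz 2)) (hz 3))
    (show 0 ≤ c / 4 by positivity)
  rw [Fin.sum_univ_four]
  linarith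

theorem integral_scale {σ : ℝ} (hσ : 0 < σ) (q : Pt) (f : Pt → ℝ) :
    ∫ y, (σ ^ 4)⁻¹ * f (σ⁻¹ • (y - q)) = ∫ z, f z := by
  rw [integral_const_mul, integral_sub_right_eq_self (fun y => f (σ⁻¹ • y)) q,
    Measure.integral_comp_smul (μ := (volume : Measure Pt)) f σ⁻¹]
  rw [Module.finrank_fin_fun, smul_eq_mul, inv_pow, inv_inv,
    abs_of_pos (pow_pos hσ 4), ← mul_assoc, inv_mul_cancel₀ (pow_pos hσ 4).ne', one_mul]

theorem Op_eq_kerOf {σ : ℝ} (hσ : 0 < σ) (h : Pt → ℝ) (q : Pt) :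
    Op M σ h q = ∫ y, kerOf M σ q y * h y := by
  rw [Op, ← integral_scale hσ q fun z => M σ q z * h (q + σ • z)]
  refine integral_congr_ae (ae_of_all _ fun y => ?_)
  simp only [kerOf, smul_inv_smul₀ hσ.ne', add_sub_cancel]
  ring

section fam

variable (G : GaussFam S M c)
include G

theorem GaussFam.abs_le : ∃ C : ℝ, 0 ≤ C ∧ ∀ σ ∈ S, ∀ q z, |M σ q z| ≤ C * gw c z := by
  obtain ⟨C, hC, h⟩ := G.bound 0
  refine ⟨C, hC, fun σ hσ q z => ?_⟩
  have := h σ hσ (q, z)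
  rwa [norm_iteratedFDeriv_zero, Real.norm_eq_abs] at this

theorem GaussFam.continuous {σ : ℝ} (hσ : σ ∈ S) : Continuous (Function.uncurry (M σ)) :=
  (G.smooth σ hσ).continuous

/-- `σ ∂` preserves Gaussian families. -/
theorem GaussFam.dFam (hS : ∀ σ ∈ S, 0 < σ ∧ σ ≤ σ₀) (e : Pt) :
    GaussFam S (dFam e M) c := by
  have hd : ∀ σ ∈ S, ContDiff ℝ ∞ (fderiv ℝ (Function.uncurry (M σ))) := fun σ hσ =>
    (G.smooth σ hσ).fderiv_right (by simp)
  have heq : ∀ σ, Function.uncurry (Kernel.dFam e M σ) =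
      ⇑(ContinuousLinearMap.apply ℝ ℝ ((σ • e, -e) : Pt × Pt)) ∘
        fderiv ℝ (Function.uncurry (M σ)) := fun σ => rfl
  refine ⟨G.pos, fun σ hσ => ?_, fun n => ?_⟩
  · rw [heq]; exact (ContinuousLinearMap.contDiff _).comp (hd σ hσ)
  obtain ⟨C, hC, h⟩ := G.bound (n + 1)
  refine ⟨(1 + |σ₀|) * ‖e‖ * C, by positivity, fun σ hσ p => ?_⟩
  rw [heq]
  refine (ContinuousLinearMap.norm_iteratedFDeriv_comp_left _ (hd σ hσ).contDiffAt
    (n := n) (by exact_mod_cast le_top)).trans ?_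
  rw [norm_iteratedFDeriv_fderiv, mul_assoc ((1 + |σ₀|) * ‖e‖)]
  refine mul_le_mul ?_ (h σ hσ p) (norm_nonneg _) (by positivity)
  refine ContinuousLinearMap.opNorm_le_bound _ (by positivity) fun L => ?_
  refine (L.le_opNorm _).trans ?_
  rw [mul_comm]
  refine mul_le_mul_of_nonneg_right ?_ (norm_nonneg _)
  rw [Prod.norm_def]
  refine max_le ?_ ?_
  · rw [norm_smul, Real.norm_eq_abs, abs_of_pos (hS σ hσ).1]
    refine mul_le_mul_of_nonneg_right ?_ (norm_nonneg _)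
    linarith [(hS σ hσ).2, le_abs_self σ₀]
  · rw [norm_neg]; exact le_mul_of_one_le_left (norm_nonneg _) (by linarith [abs_nonneg σ₀])

theorem GaussFam.dFamL (hS : ∀ σ ∈ S, 0 < σ ∧ σ ≤ σ₀) :
    ∀ l : List (Fin 4), GaussFam S (dFamL l M) c
  | [] => G
  | i :: l => (GaussFam.dFamL hS l).dFam hS _

theorem GaussFam.continuous_kerOf {σ : ℝ} (hσ : σ ∈ S) :
    Continuous (Function.uncurry (kerOf M σ)) := by
  have hc := G.continuous hσ
  show Continuous fun z : Pt × Pt => (σ ^ 4)⁻¹ * Function.uncurry (M σ) (z.1, σ⁻¹ • (z.2 - z.1))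
  fun_prop

theorem GaussFam.abs_kerOf_le :
    ∃ C : ℝ, 0 ≤ C ∧ ∀ σ ∈ S, 0 < σ → ∀ q y,
      |kerOf M σ q y| ≤ C * ((σ ^ 4)⁻¹ * gw c (σ⁻¹ • (y - q))) := by
  obtain ⟨C, hC, h⟩ := G.abs_le
  refine ⟨C, hC, fun σ hσ hσ0 q y => ?_⟩
  rw [kerOf, abs_mul, abs_of_pos (by positivity : 0 < (σ ^ 4)⁻¹)]
  calc (σ ^ 4)⁻¹ * |M σ q (σ⁻¹ • (y - q))| ≤ (σ ^ 4)⁻¹ * (C * gw c (σ⁻¹ • (y - q))) :=
        mul_le_mul_of_nonneg_left (h σ hσ _ _) (by positivity)
    _ = _ := by ring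

/-- Differentiation under the integral. -/
theorem GaussFam.hasFDerivAt_Op {σ : ℝ} (hσ : σ ∈ S) (hσ0 : 0 < σ) {h : Pt → ℝ}
    (hh : Integrable h) (q : Pt) :
    ∃ L : Pt →L[ℝ] ℝ, HasFDerivAt (Op M σ h) L q ∧
      ∀ e, L e = σ⁻¹ * Op (Kernel.dFam e M) σ h q := by
  set U := Function.uncurry (M σ)
  have hU : ContDiff ℝ ∞ U := G.smooth σ hσ
  have hUd : Continuous (fderiv ℝ U) := hU.continuous_fderiv (by simp)
  set T : Pt →L[ℝ] Pt × Pt :=
    (ContinuousLinearMap.id ℝ Pt).prod (-(σ⁻¹ • ContinuousLinearMap.id ℝ Pt))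
  set F : Pt → Pt → ℝ := fun q y => (σ ^ 4)⁻¹ * h y * U (q, σ⁻¹ • (y - q))
  set F' : Pt → Pt → Pt →L[ℝ] ℝ := fun q y =>
    ((σ ^ 4)⁻¹ * h y) • (fderiv ℝ U (q, σ⁻¹ • (y - q))).comp T
  have hFd : ∀ q y, HasFDerivAt (fun q => F q y) (F' q y) q := fun q y => by
    have h1 : HasFDerivAt (fun q : Pt => (q, σ⁻¹ • (y - q))) T q := by
      refine (hasFDerivAt_id q).prodMk ?_
      exact (((hasFDerivAt_id (𝕜 := ℝ) q).const_sub y).fun_const_smul σ⁻¹).congr_fderiv (by simp)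
    exact (((hU.differentiable (by simp)) _).hasFDerivAt.comp q h1).const_mul _
  obtain ⟨C0, hC0, hb0⟩ := G.bound 0
  obtain ⟨C1, hC1, hb1⟩ := G.bound 1
  have hU0 : ∀ p, |U p| ≤ C0 := fun p => by
    have := hb0 σ hσ p
    rw [norm_iteratedFDeriv_zero, Real.norm_eq_abs] at this
    exact this.trans (mul_le_of_le_one_right hC0 (gw_le_one G.pos.le p.2))
  have hU1 : ∀ p, ‖fderiv ℝ U p‖ ≤ C1 := fun p => by
    have := hb1 σ hσ p
    rw [norm_iteratedFDeriv_one] at this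
    exact this.trans (mul_le_of_le_one_right hC1 (gw_le_one G.pos.le p.2))
  have hcu : ∀ q : Pt, Continuous fun y : Pt => U (q, σ⁻¹ • (y - q)) := fun q => by
    have := hU.continuous; fun_prop
  have hFm : ∀ q, AEStronglyMeasurable (F q) := fun q =>
    (hh.aestronglyMeasurable.const_mul _).mul (hcu q).aestronglyMeasurable
  have hFi : ∀ q, Integrable (F q) := fun q => by
    refine (hh.abs.const_mul ((σ ^ 4)⁻¹ * C0)).mono' (hFm q) (ae_of_all _ fun y => ?_)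
    rw [Real.norm_eq_abs, abs_mul, abs_mul, abs_of_pos (by positivity : 0 < (σ ^ 4)⁻¹)]
    calc (σ ^ 4)⁻¹ * |h y| * |U (q, σ⁻¹ • (y - q))| ≤ (σ ^ 4)⁻¹ * |h y| * C0 :=
          mul_le_mul_of_nonneg_left (hU0 _) (by positivity)
      _ = _ := by ring
  have hF'm : AEStronglyMeasurable (F' q) := by
    refine (hh.aestronglyMeasurable.const_mul _).smul (Continuous.aestronglyMeasurable ?_)
    exact (hUd.comp (by fun_prop : Continuous fun y : Pt => (q, σ⁻¹ • (y - q)))).clm_comp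
      continuous_const
  have hb : ∀ q y, ‖F' q y‖ ≤ (σ ^ 4)⁻¹ * C1 * ‖T‖ * |h y| := fun q y => by
    show ‖((σ ^ 4)⁻¹ * h y) • (fderiv ℝ U (q, σ⁻¹ • (y - q))).comp T‖ ≤ _
    rw [norm_smul, Real.norm_eq_abs, abs_mul, abs_of_pos (by positivity : 0 < (σ ^ 4)⁻¹)]
    calc (σ ^ 4)⁻¹ * |h y| * ‖(fderiv ℝ U (q, σ⁻¹ • (y - q))).comp T‖
        ≤ (σ ^ 4)⁻¹ * |h y| * (C1 * ‖T‖) := mul_le_mul_of_nonneg_left
          ((ContinuousLinearMap.opNorm_comp_le _ _).trans
            (mul_le_mul_of_nonneg_right (hU1 _) (norm_nonneg _))) (by positivity)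
      _ = _ := by ring
  have key := hasFDerivAt_integral_of_dominated_of_fderiv_le (𝕜 := ℝ)
    (F := F) (F' := F') (x₀ := q) (bound := fun y => (σ ^ 4)⁻¹ * C1 * ‖T‖ * |h y|)
    (s := Set.univ) Filter.univ_mem (Eventually.of_forall hFm) (hFi q) hF'm
    (ae_of_all _ fun y x _ => hb x y) (hh.abs.const_mul _) (ae_of_all _ fun y x _ => hFd x y)
  have hOp : (fun q => ∫ y, F q y) = Op M σ h := funext fun q => by
    rw [Op_eq_kerOf hσ0]
    refine integral_congr_ae (ae_of_all _ fun y => ?_)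
    simp only [F, kerOf, U, Function.uncurry]; ring
  rw [hOp] at key
  refine ⟨_, key, fun e => ?_⟩
  have hint : Integrable (F' q) :=
    (hh.abs.const_mul ((σ ^ 4)⁻¹ * C1 * ‖T‖)).mono' hF'm (ae_of_all _ (hb q))
  rw [ContinuousLinearMap.integral_apply hint, Op_eq_kerOf hσ0, ← integral_const_mul]
  refine integral_congr_ae (ae_of_all _ fun y => ?_)
  have hT : T e = σ⁻¹ • ((σ • e, -e) : Pt × Pt) := by
    simp [T, inv_smul_smul₀ hσ0.ne']
  simp only [F', ContinuousLinearMap.smul_apply, ContinuousLinearMap.comp_apply, hT,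
    map_smul, smul_eq_mul, kerOf, Kernel.dFam, U]
  ring

theorem GaussFam.differentiable_Op {σ : ℝ} (hσ : σ ∈ S) (hσ0 : 0 < σ) {h : Pt → ℝ}
    (hh : Integrable h) : Differentiable ℝ (Op M σ h) := fun q =>
  let ⟨_, hL, _⟩ := G.hasFDerivAt_Op hσ hσ0 hh q
  hL.differentiableAt

theorem GaussFam.fderiv_Op {σ : ℝ} (hσ : σ ∈ S) (hσ0 : 0 < σ) {h : Pt → ℝ} (hh : Integrable h)
    (q e : Pt) : fderiv ℝ (Op M σ h) q e = σ⁻¹ * Op (Kernel.dFam e M) σ h q := by
  obtain ⟨L, hL, hLe⟩ := G.hasFDerivAt_Op hσ hσ0 hh q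
  rw [hL.fderiv, hLe]

end fam

/-- The smoothed function is smooth. -/
theorem GaussFam.contDiff_Op (G : GaussFam S M c) (hS : ∀ σ ∈ S, 0 < σ ∧ σ ≤ σ₀) {σ : ℝ}
    (hσ : σ ∈ S) {h : Pt → ℝ} (hh : Integrable h) : ContDiff ℝ ∞ (Op M σ h) := by
  refine contDiff_infty.2 fun n => ?_
  induction n generalizing M with
  | zero => exact contDiff_zero.2 (G.differentiable_Op hσ (hS σ hσ).1 hh).continuous
  | succ n ih =>
    rw [show ((n + 1 : ℕ) : ℕ∞ω) = (n : ℕ∞ω) + 1 by simp, contDiff_succ_iff_fderiv_apply]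
    refine ⟨G.differentiable_Op hσ (hS σ hσ).1 hh, fun h => absurd h (by simp), fun e => ?_⟩
    rw [show (fun q => fderiv ℝ (Op M σ h) q e) = fun q => σ⁻¹ * Op (Kernel.dFam e M) σ h q from
      funext fun q => G.fderiv_Op hσ (hS σ hσ).1 hh q e]
    exact contDiff_const.mul (ih (G.dFam hS e))

/-- Every derivative of the smoothed function is again a smoothing. -/
theorem GaussFam.pdL_Op (G : GaussFam S M c) (hS : ∀ σ ∈ S, 0 < σ ∧ σ ≤ σ₀) {σ : ℝ} (hσ : σ ∈ S)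
    {h : Pt → ℝ} (hh : Integrable h) : ∀ l : List (Fin 4),
      pdL l (Op M σ h) = fun q => (σ⁻¹) ^ l.length * Op (Kernel.dFamL l M) σ h q
  | [] => by simp [pdL, Kernel.dFamL]
  | i :: l => by
    funext q
    show pd i (pdL l (Op M σ h)) q = _
    rw [G.pdL_Op hS hσ hh l]
    have hd := (G.dFamL hS l).differentiable_Op hσ (hS σ hσ).1 hh q
    show fderiv ℝ (fun q => (σ⁻¹) ^ l.length * Op (Kernel.dFamL l M) σ h q) q (Pi.single i 1) = _
    rw [(hd.hasFDerivAt.const_mul ((σ⁻¹) ^ l.length)).fderiv, smul_apply, smul_eq_mul,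
      (G.dFamL hS l).fderiv_Op hσ (hS σ hσ).1 hh, List.length_cons, pow_succ, mul_assoc]
    rfl

/-- Uniform `L²` bound. -/
theorem GaussFam.sq_Op (G : GaussFam S M c) (hS : ∀ σ ∈ S, 0 < σ ∧ σ ≤ σ₀) :
    ∃ C : ℝ, 0 ≤ C ∧ ∀ σ ∈ S, ∀ h : Pt → ℝ, Integrable h → MemLp h 2 →
      Integrable (fun q => Op M σ h q ^ 2) ∧ ∫ q, Op M σ h q ^ 2 ≤ C * ∫ y, h y ^ 2 := by
  obtain ⟨C, hC, hK⟩ := G.abs_kerOf_le
  set I := ∫ z, gw c z
  have hI : 0 ≤ I := integral_nonneg (gw_nonneg c)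
  refine ⟨C ^ 2 * I * I, by positivity, fun σ hσ h hh h2 => ?_⟩
  have hσ0 := (hS σ hσ).1
  set k : Pt → ℝ := fun x => (σ ^ 4)⁻¹ * gw c (σ⁻¹ • x)
  have hk0 : ∀ x, 0 ≤ k x := fun x => mul_nonneg (by positivity) (gw_nonneg c _)
  have hkc : Continuous k := by have := continuous_gw c; fun_prop
  have hki : Integrable k :=
    ((integrable_gw G.pos).comp_smul (inv_ne_zero hσ0.ne')).const_mul _
  have hk1 : ∀ q, ∫ y, k (y - q) = I := fun q => integral_scale hσ0 q (gw c)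
  have hksym : ∀ q y, k (q - y) = k (y - q) := fun q y => by
    simp only [k]; rw [← neg_sub y q, smul_neg, gw_neg]
  have hconv : Integrable (fun p : Pt × Pt => h p.2 ^ 2 * k (p.1 - p.2)) (volume.prod volume) :=
    h2.integrable_sq.convolution_integrand (ContinuousLinearMap.mul ℝ ℝ) hki
  have hpt : ∀ q, Op M σ h q ^ 2 ≤ C ^ 2 * I * ∫ y, h y ^ 2 * k (q - y) := fun q => by
    have hkb : ∀ y, k (y - q) ≤ (σ ^ 4)⁻¹ := fun y =>
      mul_le_of_le_one_right (by positivity) (gw_le_one G.pos.le _)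
    have hc' : Continuous fun y => k (y - q) := by fun_prop
    have hi : Integrable fun y => k (y - q) := hki.comp_sub_right q
    have hs : MemLp (fun y => Real.sqrt (k (y - q))) 2 := by
      refine (memLp_two_iff_integrable_sq hc'.sqrt.aestronglyMeasurable).2 (hi.congr (ae_of_all _
        fun y => (Real.sq_sqrt (hk0 _)).symm))
    have hsu : MemLp (fun y => Real.sqrt (k (y - q)) * |h y|) 2 :=
      MemLp.of_le_mul (c := Real.sqrt (σ ^ 4)⁻¹) h2
        (hc'.sqrt.aestronglyMeasurable.mul hh.abs.aestronglyMeasurable) (ae_of_all _ fun y => by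
          rw [Real.norm_eq_abs, Real.norm_eq_abs, abs_mul, abs_abs, abs_of_nonneg (Real.sqrt_nonneg _)]
          exact mul_le_mul_of_nonneg_right (Real.sqrt_le_sqrt (hkb y)) (abs_nonneg _))
    have hA := Est.abs_integral_mul_le hs hsu
    have e1 : ∀ y, Real.sqrt (k (y - q)) * (Real.sqrt (k (y - q)) * |h y|) = k (y - q) * |h y| :=
      fun y => by rw [← mul_assoc, Real.mul_self_sqrt (hk0 _)]
    have e2 : ∀ y, (Real.sqrt (k (y - q)) * |h y|) ^ 2 = h y ^ 2 * k (q - y) := fun y => by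
      rw [mul_pow, Real.sq_sqrt (hk0 _), sq_abs, hksym, mul_comm]
    have e3 : ∀ y, Real.sqrt (k (y - q)) ^ 2 = k (y - q) := fun y => Real.sq_sqrt (hk0 _)
    simp only [e1, e2, e3, hk1] at hA
    have hkh : Integrable fun y => k (y - q) * |h y| :=
      (hh.abs.bdd_mul (c := (σ ^ 4)⁻¹) hc'.aestronglyMeasurable (ae_of_all _ fun y => by
        rw [Real.norm_eq_abs, abs_of_nonneg (hk0 _)]; exact hkb y))
    have h1 : |Op M σ h q| ≤ C * (Real.sqrt I * Real.sqrt (∫ y, h y ^ 2 * k (q - y))) := by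
      rw [Op_eq_kerOf hσ0]
      refine abs_integral_le_integral_abs.trans ((integral_mono_of_nonneg
        (ae_of_all _ fun y => abs_nonneg _) (hkh.const_mul C) (ae_of_all _ fun y => ?_)).trans ?_)
      · show |kerOf M σ q y * h y| ≤ C * (k (y - q) * |h y|)
        rw [abs_mul, ← mul_assoc]
        exact mul_le_mul_of_nonneg_right (hK σ hσ hσ0 q y) (abs_nonneg _)
      · rw [integral_const_mul]
        exact mul_le_mul_of_nonneg_left ((le_abs_self _).trans hA) hC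
    have h3 := pow_le_pow_left₀ (abs_nonneg _) h1 2
    rw [sq_abs, mul_pow, mul_pow, Real.sq_sqrt hI,
      Real.sq_sqrt (integral_nonneg fun y => mul_nonneg (sq_nonneg _) (hk0 _))] at h3
    linarith
  have hmeas : AEStronglyMeasurable (fun q => Op M σ h q ^ 2) :=
    ((G.differentiable_Op hσ hσ0 hh).continuous.pow 2).aestronglyMeasurable
  have hint : Integrable fun q => C ^ 2 * I * ∫ y, h y ^ 2 * k (q - y) :=
    hconv.integral_prod_left.const_mul _
  have hOi : Integrable fun q => Op M σ h q ^ 2 := hint.mono' hmeas (ae_of_all _ fun q => by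
    rw [Real.norm_eq_abs, abs_of_nonneg (sq_nonneg _)]; exact hpt q)
  refine ⟨hOi, (integral_mono hOi hint hpt).trans_eq ?_⟩
  rw [integral_const_mul, integral_integral_swap hconv]
  simp only [integral_const_mul, integral_sub_right_eq_self k]
  rw [integral_mul_const]
  have : ∫ x, k x = I := by simpa using hk1 0
  rw [this]; ring

/-- Uniform `L²` bound for every derivative, at its natural scale. -/
theorem GaussFam.sq_pdL_Op (G : GaussFam S M c) (hS : ∀ σ ∈ S, 0 < σ ∧ σ ≤ σ₀) (l : List (Fin 4)) :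
    ∃ C : ℝ, 0 ≤ C ∧ ∀ σ ∈ S, ∀ h : Pt → ℝ, Integrable h → MemLp h 2 →
      Integrable (fun q => pdL l (Op M σ h) q ^ 2) ∧
      σ ^ (2 * l.length) * ∫ q, pdL l (Op M σ h) q ^ 2 ≤ C * ∫ y, h y ^ 2 := by
  obtain ⟨C, hC, hb⟩ := (G.dFamL hS l).sq_Op hS
  refine ⟨C, hC, fun σ hσ h hh h2 => ?_⟩
  obtain ⟨hi, hle⟩ := hb σ hσ h hh h2
  have hσ0 := (hS σ hσ).1
  simp only [G.pdL_Op hS hσ hh l, mul_pow]
  refine ⟨hi.const_mul _, ?_⟩
  rw [integral_const_mul, ← mul_assoc, mul_comm 2, pow_mul, ← mul_pow,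
    ← mul_pow, mul_inv_cancel₀ hσ0.ne', one_pow, one_pow, one_mul]
  exact hle

/-- Uniform sup bound. -/
theorem GaussFam.abs_Op (G : GaussFam S M c) :
    ∃ C : ℝ, 0 ≤ C ∧ ∀ σ ∈ S, ∀ (h : Pt → ℝ) (B : ℝ), (∀ y, |h y| ≤ B) →
      ∀ q, |Op M σ h q| ≤ C * B := by
  obtain ⟨C, hC, hM⟩ := G.abs_le
  refine ⟨C * ∫ z, gw c z, mul_nonneg hC (integral_nonneg (gw_nonneg c)), fun σ hσ h B hB q => ?_⟩
  have hB0 : 0 ≤ B := (abs_nonneg _).trans (hB 0)
  refine abs_integral_le_integral_abs.trans ((integral_mono_of_nonneg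
    (ae_of_all _ fun z => abs_nonneg _) ((integrable_gw G.pos).const_mul (C * B))
    (ae_of_all _ fun z => ?_)).trans_eq ?_)
  · show |M σ q z * h (q + σ • z)| ≤ C * B * gw c z
    rw [abs_mul]
    calc |M σ q z| * |h (q + σ • z)| ≤ C * gw c z * B :=
          mul_le_mul (hM σ hσ q z) (hB _) (abs_nonneg _) (mul_nonneg hC (gw_nonneg c z))
      _ = _ := by ring
  · rw [integral_const_mul]; ring

/-- As the width tends to zero the smoothing tends to multiplication by the mass, uniformly. -/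
theorem GaussFam.Op_tendsto (G : GaussFam S M c) (hS : ∀ σ ∈ S, 0 < σ ∧ σ ≤ σ₀) {h : Pt → ℝ}
    (hu : UniformContinuous h) {B : ℝ} (hB : ∀ y, |h y| ≤ B) {η : ℝ} (hη : 0 < η) :
    ∃ δ : ℝ, 0 < δ ∧ ∀ σ ∈ S, σ < δ → ∀ q, |Op M σ h q - (∫ z, M σ q z) * h q| ≤ η := by
  obtain ⟨C, hC, hM⟩ := G.abs_le
  have hB0 : 0 ≤ B := (abs_nonneg _).trans (hB 0)
  set I := ∫ z, gw c z
  set I' := ∫ z, gw (c / 2) z
  have hI : 0 ≤ I := integral_nonneg (gw_nonneg _)
  have hI' : 0 ≤ I' := integral_nonneg (gw_nonneg _)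
  set η' := η / (2 * (C * I + 1))
  have hη' : 0 < η' := by positivity
  obtain ⟨ρ, hρ, hmod⟩ := Metric.uniformContinuous_iff.1 hu η' hη'
  set K := C * (2 * B) * (2 / c) * I' / ρ ^ 2
  have hc := G.pos
  have hK : 0 ≤ K := by positivity
  refine ⟨Real.sqrt (η / (2 * (K + 1))), by positivity, fun σ hσ hσδ q => ?_⟩
  have hσ0 := (hS σ hσ).1
  have hσ2 : σ ^ 2 * K ≤ η / 2 := by
    have h1 : σ ^ 2 ≤ η / (2 * (K + 1)) := by
      refine (pow_le_pow_left₀ hσ0.le hσδ.le 2).trans_eq (Real.sq_sqrt (by positivity))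
    calc σ ^ 2 * K ≤ η / (2 * (K + 1)) * (K + 1) :=
          mul_le_mul h1 (by linarith) hK (by positivity)
      _ = η / 2 := by field_simp
  have hMi : Integrable (fun z => M σ q z) :=
    ((integrable_gw hc).const_mul C).mono'
      ((G.continuous hσ).comp (Continuous.prodMk_right q)).aestronglyMeasurable
      (ae_of_all _ fun z => hM σ hσ q z)
  have hMhi : Integrable (fun z => M σ q z * h (q + σ • z)) :=
    hMi.mul_bdd (c := B) (hu.continuous.comp (by fun_prop)).aestronglyMeasurable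
      (ae_of_all _ fun z => hB _)
  rw [Op, ← integral_mul_const, ← integral_sub hMhi (hMi.mul_const _)]
  have hexp : ∀ z : Pt, ‖z‖ ^ 2 * gw c z ≤ 2 / c * gw (c / 2) z := fun z => by
    have h1 := Real.add_one_le_exp (c / 2 * ‖z‖ ^ 2)
    have h2 : gw c z = gw (c / 2) z * gw (c / 2) z := by
      simp only [gw]; rw [← Real.exp_add]; congr 1; ring
    have h3 : ‖z‖ ^ 2 * gw (c / 2) z ≤ 2 / c := by
      have e : Real.exp (c / 2 * ‖z‖ ^ 2) * gw (c / 2) z = 1 := by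
        simp only [gw]; rw [← Real.exp_add]; simp
      calc ‖z‖ ^ 2 * gw (c / 2) z = 2 / c * (c / 2 * ‖z‖ ^ 2 * gw (c / 2) z) := by field_simp
        _ ≤ 2 / c * (Real.exp (c / 2 * ‖z‖ ^ 2) * gw (c / 2) z) := by
            refine mul_le_mul_of_nonneg_left (mul_le_mul_of_nonneg_right ?_ (gw_nonneg _ _))
              (by positivity)
            linarith
        _ = _ := by rw [e, mul_one]
    rw [h2, ← mul_assoc]
    exact mul_le_mul_of_nonneg_right h3 (gw_nonneg _ _)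
  refine abs_integral_le_integral_abs.trans ((integral_mono_of_nonneg
    (g := fun z => C * η' * gw c z + C * (2 * B) * (2 / c) * σ ^ 2 / ρ ^ 2 * gw (c / 2) z)
    (ae_of_all _ fun z => abs_nonneg _)
    (((integrable_gw hc).const_mul _).add ((integrable_gw (by positivity)).const_mul _))
    (ae_of_all _ fun z => ?_)).trans ?_)
  · show |M σ q z * h (q + σ • z) - M σ q z * h q| ≤ _
    rw [← mul_sub, abs_mul]
    have hd : |h (q + σ • z) - h q| ≤ η' + 2 * B * (σ ^ 2 * ‖z‖ ^ 2 / ρ ^ 2) := by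
      by_cases hz : σ * ‖z‖ < ρ
      · have := hmod (a := q + σ • z) (b := q) (by
          rw [dist_eq_norm, add_sub_cancel_left, norm_smul, Real.norm_eq_abs, abs_of_pos hσ0]
          exact hz)
        rw [Real.dist_eq] at this
        exact this.le.trans (le_add_of_nonneg_right (by positivity))
      · have h1 : 1 ≤ σ ^ 2 * ‖z‖ ^ 2 / ρ ^ 2 := by
          rw [le_div_iff₀ (by positivity), one_mul, ← mul_pow]
          exact pow_le_pow_left₀ hρ.le (not_lt.1 hz) 2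
        calc |h (q + σ • z) - h q| ≤ |h (q + σ • z)| + |h q| := abs_sub _ _
          _ ≤ 2 * B * 1 := by linarith [hB (q + σ • z), hB q]
          _ ≤ 2 * B * (σ ^ 2 * ‖z‖ ^ 2 / ρ ^ 2) := mul_le_mul_of_nonneg_left h1 (by positivity)
          _ ≤ _ := le_add_of_nonneg_left hη'.le
    calc |M σ q z| * |h (q + σ • z) - h q|
        ≤ C * gw c z * (η' + 2 * B * (σ ^ 2 * ‖z‖ ^ 2 / ρ ^ 2)) :=
          mul_le_mul (hM σ hσ q z) hd (abs_nonneg _) (mul_nonneg hC (gw_nonneg c z))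
      _ = C * η' * gw c z + C * (2 * B) * σ ^ 2 / ρ ^ 2 * (‖z‖ ^ 2 * gw c z) := by ring
      _ ≤ C * η' * gw c z + C * (2 * B) * σ ^ 2 / ρ ^ 2 * (2 / c * gw (c / 2) z) := by
          refine add_le_add le_rfl (mul_le_mul_of_nonneg_left (hexp z) (by positivity))
      _ = _ := by ring
  · rw [integral_add ((integrable_gw hc).const_mul _) ((integrable_gw (by positivity)).const_mul _),
      integral_const_mul, integral_const_mul]
    have h1 : C * η' * I ≤ η / 2 := by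
      calc C * η' * I = η' * (C * I) := by ring
        _ ≤ η' * (C * I + 1) := mul_le_mul_of_nonneg_left (by linarith) hη'.le
        _ = η / 2 := by simp only [η']; field_simp
    have h2 : C * (2 * B) * (2 / c) * σ ^ 2 / ρ ^ 2 * I' = σ ^ 2 * K := by simp only [K]; ring
    linarith

end Vale.Agent.P204.Kernel
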