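import Mathlib
import Vale.Agent.P204.Kernel.Defs
import Vale.Agent.P204.Kernel.Family

/-!
# P204: the parts of the smoothing module

None of these is assumed by the final theorem; each is proved in its own file.
-/

open MeasureTheory Matrix Filter
open scoped ContDiff Topology

namespace Vale.Agent.P204.Kernel

open Vale.Agent.P204.General Vale.Agent.P204.Torus

/-- The cut-off radii exist. -/
def RadiusStmt : Prop :=
  ∀ {N K : ℕ} (A : Atlas N K) (J : Amb N → MN N), IsACS A J →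
    ∃ r d c₀ C₀, GoodR A r d c₀ C₀

/-- The pointwise bounds of the line kernel and of the scalar weight. -/
def PointStmt : Prop :=
  ∀ {N K : ℕ} (A : Atlas N K) (J : Amb N → MN N) (r d c₀ C₀ : ℝ),
    IsACS A J → GoodR A r d c₀ C₀ →
    ∃ c C ε₀ : ℝ, 0 < c ∧ 0 < ε₀ ∧ ∀ ε, 0 < ε → ε ≤ ε₀ →
    (∀ i k, Continuous fun z : A.X × A.unitTan => kfE A r d ε J z.1 z.2 i k) ∧
    (∀ x p, (kfE A r d ε J x p)ᵀ = -kfE A r d ε J x p) ∧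
    (∀ x ∈ A.X, ∀ p ∈ A.unitTan,
      A.sqX x (kfE A r d ε J x p) ≤ (C * kern ε ‖x - p.1‖) ^ 2) ∧
    (∀ x ∈ A.X, ∀ p ∈ A.unitTan,
      A.sqX x (antiX J x (kfE A r d ε J x p)) ≤ (C * ε * kern ε ‖x - p.1‖) ^ 2) ∧
    (∀ x ∈ A.X, ∀ y ∈ A.X, 0 ≤ wE A r d ε x y ∧ wE A r d ε x y ≤ C * kern ε ‖x - y‖ ∧
      (‖x - y‖ ≤ c * ε → c / ε ^ 4 ≤ wE A r d ε x y)) ∧
    (∀ x ∈ A.X, ∀ p ∈ A.unitTan, ∀ M : MN N, Mᵀ = -M →
      |A.wedgePt x (kfE A r d ε J x p) M - wE A r d ε x p.1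
          * ((A.proj x *ᵥ p.2) ⬝ᵥ (M *ᵥ (A.proj x *ᵥ (J p.1 *ᵥ p.2))))|
        ≤ C * ε ^ 2 * kern ε ‖x - p.1‖ * Real.sqrt (A.sqX x M)) ∧
    ∀ p ∈ A.unitTan, ∀ q ∈ A.unitTan,
      -(C * ε ^ 2 * kern ε ‖p.1 - q.1‖)
        ≤ A.wedgeInt (fun x => kfE A r d ε J x p) (fun x => kfE A r d ε J x q) ∧
      (‖p.1 - q.1‖ ≤ c * ε → c / ε ^ 4 * A.offX J q.1 q.2 p.2 - C / ε ^ 2
        ≤ A.wedgeInt (fun x => kfE A r d ε J x p) (fun x => kfE A r d ε J x q))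

/-- The smoothing keeps test forms and tends to the identity. -/
def ApproxStmt : Prop :=
  ∀ {N K : ℕ} (A : Atlas N K) (J : Amb N → MN N) (r d c₀ C₀ : ℝ),
    IsACS A J → GoodR A r d c₀ C₀ → ∃ ε₀ : ℝ, 0 < ε₀ ∧ ∀ a, IsTestX A a →
      (∀ l : List (Fin 4), ∀ c j k,
        (∃ B, ∀ σ, 0 < σ → σ ≤ Real.sqrt ε₀ → ∀ p ∈ Metric.closedBall (0 : Pt) (1 / 2),
          |pdL l (fun q => A.pull c (GS A r d σ a) q j k) p| ≤ B) ∧
        ∀ ε, 0 < ε → ε ≤ ε₀ → ∀ p ∈ box, pdL l (fun q => A.pull c (GE A r d ε a) q j k) p =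
          ∫ t, omW ε t * pdL l (fun q => A.pull c (GS A r d (ε * Real.sqrt t) a) q j k) p) ∧
      (∀ ε, 0 < ε → ε ≤ ε₀ → IsTestX A (GE A r d ε a)) ∧
      Tendsto (fun ε => A.sob 3 fun x => antiX J x (GE A r d ε a x - a x)) (𝓝[>] 0) (𝓝 0)

/-- The bound on the invariant part of the smoothed functional, without knowing a density. -/
def TauberStmt : Prop :=
  ∀ {N K : ℕ} (A : Atlas N K) (J : Amb N → MN N) (r d c₀ C₀ : ℝ) m R C₁,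
    IsACS A J → GoodR A r d c₀ C₀ → IsExtX A J m R C₁ →
    ∃ C ε₀ : ℝ, 0 < ε₀ ∧ ∀ ε, 0 < ε → ε ≤ ε₀ →
      A.n2 (fun x => inv11X J x (VE A r d ε R x)) ≤ C * ε * A.n2 (VE A r d ε R)

/-- The pointwise bound of the smoothed functional from a density. -/
def DensityStmt : Prop :=
  ∀ {N K : ℕ} (A : Atlas N K) (J : Amb N → MN N) (r d c₀ C₀ : ℝ) m R C₁,
    IsACS A J → GoodR A r d c₀ C₀ → IsExtX A J m R C₁ →
    ∃ C ε₀ : ℝ, 0 < ε₀ ∧ ∀ ε, 0 < ε → ε ≤ ε₀ → ∀ ρ, L2X A ρ →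
      (∀ a, IsTestX A a → R a = A.wedgeInt ρ a) → ∀ᵐ x ∂A.vol,
        Real.sqrt (A.sqX x (VE A r d ε R x))
          ≤ C * A.conv ε (fun y => Real.sqrt (A.sqX y (ρ y))) x ∧
        Real.sqrt (A.sqX x (inv11X J x (VE A r d ε R x)))
          ≤ C * ε * A.conv ε (fun y => Real.sqrt (A.sqX y (ρ y))) x

end Vale.Agent.P204.Kernel
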