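import Vale.Agent.P204.Kernel.Family

/-!
# P204: the subordinated profile and the heat identity

`prof` is the fundamental solution of `(1 - Δ)⁵` on four-space as a function of the squared
distance, written as a superposition of heat kernels; `profTail` is its tail primitive.
-/

open MeasureTheory Filter Topology Set Matrix
open scoped ContDiff MatrixOrder

namespace Vale.Agent.P204.Kernel

/-- `∫ t^k e^{-t - u/(4t)} dt`. -/
noncomputable def Pk (k : ℕ) (u : ℝ) : ℝ := ∫ t in Ioi 0, t ^ k * Real.exp (-t - u / (4 * t))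

theorem integrableOn_pow_exp (k : ℕ) :
    IntegrableOn (fun t : ℝ => t ^ k * Real.exp (-t)) (Ioi 0) := by
  have h := Real.GammaIntegral_convergent (s := (k : ℝ) + 1) (by positivity)
  simp only [add_sub_cancel_right, Real.rpow_natCast] at h
  simpa [mul_comm] using h

theorem integrableOn_Pk (k : ℕ) {u : ℝ} (hu : 0 ≤ u) :
    IntegrableOn (fun t : ℝ => t ^ k * Real.exp (-t - u / (4 * t))) (Ioi 0) := by
  refine (integrableOn_pow_exp k).mono' (ContinuousOn.aestronglyMeasurable
    (fun t ht => ?_) measurableSet_Ioi) ?_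
  · have : (4 : ℝ) * t ≠ 0 := mul_ne_zero four_ne_zero (ne_of_gt ht)
    exact ContinuousAt.continuousWithinAt (by fun_prop (disch := assumption))
  · refine (ae_restrict_iff' measurableSet_Ioi).2 (ae_of_all _ fun t (ht : 0 < t) => ?_)
    rw [Real.norm_eq_abs, abs_of_nonneg (by positivity)]
    refine mul_le_mul_of_nonneg_left (Real.exp_le_exp.2 ?_) (by positivity)
    have : 0 ≤ u / (4 * t) := by positivity
    linarith

theorem Pk_nonneg (k : ℕ) (u : ℝ) : 0 ≤ Pk k u :=
  setIntegral_nonneg measurableSet_Ioi fun t (ht : 0 < t) => by positivity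

theorem Pk_pos (k : ℕ) {u : ℝ} (hu : 0 ≤ u) : 0 < Pk k u := by
  refine (setIntegral_pos_iff_support_of_nonneg_ae ?_ (integrableOn_Pk k hu)).2 ?_
  · exact (ae_restrict_iff' measurableSet_Ioi).2 (ae_of_all _ fun t (ht : 0 < t) => by
      show 0 ≤ t ^ k * Real.exp (-t - u / (4 * t)); positivity)
  · have : Function.support (fun t : ℝ => t ^ k * Real.exp (-t - u / (4 * t))) ∩ Ioi 0 = Ioi 0 := by
      refine inter_eq_right.2 fun t (ht : 0 < t) => ?_
      exact Function.mem_support.2 (by positivity)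
    rw [this]; simp

theorem Pk_anti (k : ℕ) : AntitoneOn (Pk k) (Ici 0) := fun u (hu : 0 ≤ u) v _ huv =>
  setIntegral_mono_on (integrableOn_Pk k (hu.trans huv)) (integrableOn_Pk k hu) measurableSet_Ioi
    fun t (ht : 0 < t) => mul_le_mul_of_nonneg_left (Real.exp_le_exp.2 (by
      have := div_le_div_of_nonneg_right huv (show 0 ≤ 4 * t by positivity)
      linarith)) (by positivity)

theorem continuousOn_Pk (k : ℕ) : ContinuousOn (Pk k) (Ici 0) := by
  refine continuousOn_of_dominated (bound := fun t => t ^ k * Real.exp (-t))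
    (fun u hu => (integrableOn_Pk k hu).aestronglyMeasurable) (fun u (hu : 0 ≤ u) => ?_)
    (integrableOn_pow_exp k) ?_
  · refine (ae_restrict_iff' measurableSet_Ioi).2 (ae_of_all _ fun t (ht : 0 < t) => ?_)
    rw [Real.norm_eq_abs, abs_of_nonneg (by positivity)]
    refine mul_le_mul_of_nonneg_left (Real.exp_le_exp.2 ?_) (by positivity)
    have : 0 ≤ u / (4 * t) := by positivity
    linarith
  · exact ae_of_all _ fun t => by fun_prop

theorem hasDerivAt_Pk (k : ℕ) {u : ℝ} (hu : 0 < u) :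
    HasDerivAt (Pk (k + 1)) (-(Pk k u / 4)) u := by
  set F : ℝ → ℝ → ℝ := fun u t => t ^ (k + 1) * Real.exp (-t - u / (4 * t))
  set F' : ℝ → ℝ → ℝ := fun u t => -(t ^ k * Real.exp (-t - u / (4 * t)) / 4)
  have key := (hasDerivAt_integral_of_dominated_loc_of_deriv_le (μ := volume.restrict (Ioi (0 : ℝ)))
    (F := F) (F' := F') (x₀ := u) (bound := fun t => t ^ k * Real.exp (-t)) (s := Ioi 0)
    (Ioi_mem_nhds hu)
    ((eventually_ge_nhds hu).mono fun v hv => (integrableOn_Pk (k + 1) hv).aestronglyMeasurable)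
    (integrableOn_Pk (k + 1) hu.le) (((integrableOn_Pk k hu.le).div_const 4).neg.aestronglyMeasurable)
    ?_ (integrableOn_pow_exp k) ?_).2
  · have e : ∫ t in Ioi 0, F' u t = -(Pk k u / 4) := by
      simp only [F', Pk]; rw [integral_neg, integral_div]
    rw [e] at key; exact key
  · refine (ae_restrict_iff' measurableSet_Ioi).2 (ae_of_all _ fun t (ht : 0 < t) v (hv : 0 < v) => ?_)
    simp only [F', Real.norm_eq_abs, abs_neg]
    rw [abs_of_nonneg (by positivity)]
    refine (div_le_self (by positivity) (by norm_num)).trans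
      (mul_le_mul_of_nonneg_left (Real.exp_le_exp.2 ?_) (by positivity))
    have : 0 ≤ v / (4 * t) := by positivity
    linarith
  · refine (ae_restrict_iff' measurableSet_Ioi).2 (ae_of_all _ fun t (ht : 0 < t) v _ => ?_)
    have h := (((hasDerivAt_id v).div_const (4 * t)).const_sub (-t)).exp.const_mul (t ^ (k + 1))
    refine h.congr_deriv ?_
    simp only [F', id]; rw [pow_succ]; field_simp

theorem hasDerivWithinAt_Pk (k : ℕ) {u : ℝ} (hu : 0 ≤ u) :
    HasDerivWithinAt (Pk (k + 1)) (-(Pk k u / 4)) (Ici 0) u := by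
  rcases hu.lt_or_eq with hu | rfl
  · exact (hasDerivAt_Pk k hu).hasDerivWithinAt
  refine hasDerivWithinAt_Ici_of_tendsto_deriv (s := Ioi 0)
    (fun v hv => (hasDerivAt_Pk k hv).differentiableAt.differentiableWithinAt)
    ((continuousOn_Pk (k + 1) 0 Set.self_mem_Ici).mono Ioi_subset_Ici_self) self_mem_nhdsWithin ?_
  refine Tendsto.congr' ?_ (((continuousOn_Pk k 0 Set.self_mem_Ici).mono
    Ioi_subset_Ici_self).tendsto.div_const 4).neg
  filter_upwards [self_mem_nhdsWithin] with v hv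
  exact (hasDerivAt_Pk k hv).deriv.symm

theorem Pk_decay (k N : ℕ) : ∃ C : ℝ, 0 ≤ C ∧ ∀ u, 0 ≤ u → Pk k u ≤ C / (1 + u) ^ N := by
  refine ⟨2 ^ N * (Pk k 0 + N.factorial * 4 ^ N * Pk (k + N) 0),
    by have := Pk_nonneg k 0; have := Pk_nonneg (k + N) 0; positivity, fun u hu => ?_⟩
  rw [le_div_iff₀ (by positivity)]
  simp only [Pk, zero_div, sub_zero]
  rw [← integral_mul_const, ← integral_const_mul ((N.factorial : ℝ) * 4 ^ N),
    ← integral_add (integrableOn_pow_exp k) ((integrableOn_pow_exp (k + N)).const_mul _),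
    ← integral_const_mul]
  refine setIntegral_mono_on ((integrableOn_Pk k hu).mul_const _)
    (((integrableOn_pow_exp k).add ((integrableOn_pow_exp (k + N)).const_mul _)).const_mul _)
    measurableSet_Ioi fun t (ht : 0 < t) => ?_
  set x := u / (4 * t) with hx
  have hx0 : 0 ≤ x := by positivity
  have h1 : (1 + u) ^ N ≤ 2 ^ N * (1 + u ^ N) := by
    rcases le_total u 1 with h | h
    · refine (pow_le_pow_left₀ (by positivity) (by linarith : 1 + u ≤ 2) N).trans ?_
      exact le_mul_of_one_le_right (by positivity) (le_add_of_nonneg_right (by positivity))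
    · refine (pow_le_pow_left₀ (by positivity) (by linarith : 1 + u ≤ 2 * u) N).trans ?_
      rw [mul_pow]; exact mul_le_mul_of_nonneg_left (le_add_of_nonneg_left zero_le_one) (by positivity)
  have he : Real.exp (-t - x) = Real.exp (-t) * Real.exp (-x) := by rw [← Real.exp_add]; ring_nf
  have h2 : u ^ N * Real.exp (-x) ≤ N.factorial * 4 ^ N * t ^ N := by
    have h3 := Real.pow_div_factorial_le_exp x hx0 N
    rw [div_le_iff₀ (by positivity)] at h3
    have : u = x * (4 * t) := by rw [hx]; field_simp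
    calc u ^ N * Real.exp (-x) = (4 * t) ^ N * (x ^ N * Real.exp (-x)) := by
          rw [this, mul_pow]; ring
      _ ≤ (4 * t) ^ N * (Real.exp x * N.factorial * Real.exp (-x)) :=
          mul_le_mul_of_nonneg_left (mul_le_mul_of_nonneg_right h3 (Real.exp_pos _).le) (by positivity)
      _ = _ := by
          rw [mul_right_comm (Real.exp x), ← Real.exp_add, add_neg_cancel, Real.exp_zero, mul_pow]
          ring
  have h4 : Real.exp (-x) ≤ 1 := Real.exp_le_one_iff.2 (by linarith)
  calc t ^ k * Real.exp (-t - x) * (1 + u) ^ N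
      ≤ t ^ k * Real.exp (-t - x) * (2 ^ N * (1 + u ^ N)) :=
        mul_le_mul_of_nonneg_left h1 (by positivity)
    _ = 2 ^ N * (t ^ k * Real.exp (-t) * (Real.exp (-x) + u ^ N * Real.exp (-x))) := by rw [he]; ring
    _ ≤ 2 ^ N * (t ^ k * Real.exp (-t) * (1 + N.factorial * 4 ^ N * t ^ N)) :=
        mul_le_mul_of_nonneg_left (mul_le_mul_of_nonneg_left (add_le_add h4 h2) (by positivity))
          (by positivity)
    _ = _ := by simp only [Pi.add_apply, pow_add]; ring

/-- The profile. -/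
noncomputable def prof (u : ℝ) : ℝ := (384 * Real.pi ^ 2)⁻¹ * Pk 2 u

/-- Its first derivative. -/
noncomputable def prof' (u : ℝ) : ℝ := -((384 * Real.pi ^ 2)⁻¹ * (Pk 1 u / 4))

/-- Its second derivative. -/
noncomputable def prof'' (u : ℝ) : ℝ := (384 * Real.pi ^ 2)⁻¹ * (Pk 0 u / 16)

/-- Its tail primitive. -/
noncomputable def profTail (u : ℝ) : ℝ := (96 * Real.pi ^ 2)⁻¹ * Pk 3 u

theorem prof_eq (u : ℝ) :
    prof u = ∫ t in Ioi 0, t ^ 4 / 24 * Real.exp (-t) * (((4 * Real.pi * t) ^ 2)⁻¹ *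
      Real.exp (-(u / (4 * t)))) := by
  rw [prof, Pk, ← integral_const_mul]
  refine setIntegral_congr_fun measurableSet_Ioi fun t (ht : 0 < t) => ?_
  rw [show -t - u / (4 * t) = -t + -(u / (4 * t)) by ring, Real.exp_add]
  field_simp; ring

theorem prof_nonneg (u : ℝ) : 0 ≤ prof u := mul_nonneg (by positivity) (Pk_nonneg _ _)
theorem profTail_nonneg (u : ℝ) : 0 ≤ profTail u := mul_nonneg (by positivity) (Pk_nonneg _ _)
theorem continuousOn_prof : ContinuousOn prof (Ici 0) := (continuousOn_Pk 2).const_mul _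
theorem continuousOn_prof' : ContinuousOn prof' (Ici 0) :=
  (((continuousOn_Pk 1).div_const 4).const_mul _).neg
theorem continuousOn_prof'' : ContinuousOn prof'' (Ici 0) :=
  ((continuousOn_Pk 0).div_const 16).const_mul _
theorem continuousOn_profTail : ContinuousOn profTail (Ici 0) := (continuousOn_Pk 3).const_mul _

theorem prof_anti : AntitoneOn prof (Ici 0) := fun _ hu _ hv huv =>
  mul_le_mul_of_nonneg_left (Pk_anti 2 hu hv huv) (by positivity)

theorem profTail_anti : AntitoneOn profTail (Ici 0) := fun _ hu _ hv huv =>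
  mul_le_mul_of_nonneg_left (Pk_anti 3 hu hv huv) (by positivity)

theorem prof_lower : ∃ c : ℝ, 0 < c ∧ ∀ u, 0 ≤ u → u ≤ 1 → c ≤ prof u :=
  ⟨prof 1, mul_pos (by positivity) (Pk_pos 2 zero_le_one),
    fun u hu hu1 => prof_anti hu (Set.mem_Ici.2 zero_le_one) hu1⟩

theorem profile_decay (N : ℕ) : ∃ C : ℝ, 0 ≤ C ∧ ∀ u, 0 ≤ u →
    prof u ≤ C / (1 + u) ^ N ∧ |prof' u| ≤ C / (1 + u) ^ N ∧ |prof'' u| ≤ C / (1 + u) ^ N ∧
      profTail u ≤ C / (1 + u) ^ N := by
  obtain ⟨C0, hC0, h0⟩ := Pk_decay 0 N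
  obtain ⟨C1, hC1, h1⟩ := Pk_decay 1 N
  obtain ⟨C2, hC2, h2⟩ := Pk_decay 2 N
  obtain ⟨C3, hC3, h3⟩ := Pk_decay 3 N
  refine ⟨C0 + C1 + C2 + C3, by positivity, fun u hu => ?_⟩
  have hp : (0 : ℝ) < (1 + u) ^ N := by positivity
  have hle : ∀ {a b P : ℝ}, 0 ≤ a → a ≤ 1 → P ≤ b / (1 + u) ^ N → 0 ≤ P →
      b ≤ C0 + C1 + C2 + C3 → a * P ≤ (C0 + C1 + C2 + C3) / (1 + u) ^ N :=
    fun _ ha1 hP hP0 hb => (mul_le_of_le_one_left hP0 ha1).trans
      (hP.trans (div_le_div_of_nonneg_right hb hp.le))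
  have hpi : (1 : ℝ) ≤ 96 * Real.pi ^ 2 := by nlinarith [Real.two_le_pi]
  have ha : (384 * Real.pi ^ 2)⁻¹ ≤ 1 := inv_le_one_of_one_le₀ (by nlinarith [Real.two_le_pi])
  refine ⟨hle (by positivity) ha (h2 u hu) (Pk_nonneg _ _) (by linarith), ?_, ?_,
    hle (by positivity) (inv_le_one_of_one_le₀ hpi) (h3 u hu) (Pk_nonneg _ _) (by linarith)⟩
  · rw [prof', abs_neg, abs_of_nonneg (by have := Pk_nonneg 1 u; positivity)]
    exact hle (by positivity) ha ((div_le_self (Pk_nonneg _ _) (by norm_num)).trans (h1 u hu))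
      (by have := Pk_nonneg 1 u; positivity) (by linarith)
  · rw [prof'', abs_of_nonneg (by have := Pk_nonneg 0 u; positivity)]
    exact hle (by positivity) ha ((div_le_self (Pk_nonneg _ _) (by norm_num)).trans (h0 u hu))
      (by have := Pk_nonneg 0 u; positivity) (by linarith)

theorem hasDerivWithinAt_prof {u : ℝ} (hu : 0 ≤ u) :
    HasDerivWithinAt prof (prof' u) (Ici 0) u :=
  ((hasDerivWithinAt_Pk 1 hu).const_mul _).congr_deriv (by simp only [prof']; ring)

theorem hasDerivWithinAt_prof' {u : ℝ} (hu : 0 ≤ u) :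
    HasDerivWithinAt prof' (prof'' u) (Ici 0) u :=
  ((((hasDerivWithinAt_Pk 0 hu).div_const 4).const_mul _).neg).congr_deriv
    (by simp only [prof'']; ring)

theorem hasDerivWithinAt_profTail {u : ℝ} (hu : 0 ≤ u) :
    HasDerivWithinAt profTail (-prof u) (Ici 0) u :=
  ((hasDerivWithinAt_Pk 2 hu).const_mul _).congr_deriv (by simp only [prof]; field_simp; ring)

/-- The tail primitive is the tail integral. -/
theorem profTail_eq {u : ℝ} (hu : 0 ≤ u) : profTail u = ∫ v in Ioi u, prof v := by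
  have hd : ∀ x ∈ Ioi u, HasDerivAt (fun v => -profTail v) (prof x) x := fun x (hx : u < x) =>
    (((hasDerivWithinAt_profTail (hu.trans hx.le)).hasDerivAt
      (Ici_mem_nhds (hu.trans_lt hx))).neg).congr_deriv (neg_neg _)
  have hlim : Tendsto (fun v => -profTail v) atTop (𝓝 0) := by
    obtain ⟨C, hC, h⟩ := profile_decay 1
    refine squeeze_zero_norm' ?_ ((tendsto_const_nhds (x := C)).div_atTop
      (tendsto_atTop_add_const_left _ 1 tendsto_id))
    filter_upwards [eventually_ge_atTop (0 : ℝ)] with v hv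
    rw [norm_neg, Real.norm_eq_abs, abs_of_nonneg (profTail_nonneg v)]
    simpa using (h v hv).2.2.2
  rw [integral_Ioi_of_hasDerivAt_of_nonneg ?_ hd (fun x _ => prof_nonneg x) hlim, zero_sub, neg_neg]
  exact ((continuousOn_profTail u hu).mono (Ici_subset_Ici.2 hu)).neg

/-! ### Heat kernels -/

/-- The Gaussian of a positive form. -/
noncomputable def gE (g : Matrix (Fin 4) (Fin 4) ℝ) (z : Pt) : ℝ :=
  Real.exp (-(z ⬝ᵥ g *ᵥ z) / 4)

/-- The heat average at time `t`. -/
noncomputable def heat (g : Matrix (Fin 4) (Fin 4) ℝ) (f : Pt → ℝ) (t : ℝ) : ℝ :=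
  ∫ z, gE g z * f (Real.sqrt t • z)

/-- The heat kernel. -/
noncomputable def heatKer (g : Matrix (Fin 4) (Fin 4) ℝ) (t : ℝ) (w : Pt) : ℝ :=
  Real.sqrt g.det / (4 * Real.pi * t) ^ 2 * Real.exp (-(w ⬝ᵥ g *ᵥ w) / (4 * t))

/-- `1 - Δ_g` with frozen coefficients. -/
noncomputable def oneSubLap (g : Matrix (Fin 4) (Fin 4) ℝ) (f : Pt → ℝ) : Pt → ℝ :=
  fun w => f w - ∑ j, ∑ i, g⁻¹ j i * pd i (pd j f) w

/-- A smooth compactly supported function. -/
def Nice (f : Pt → ℝ) : Prop := ContDiff ℝ ∞ f ∧ HasCompactSupport f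

theorem Nice.bound {f : Pt → ℝ} (hf : Nice f) : ∃ C : ℝ, 0 ≤ C ∧ ∀ w, |f w| ≤ C := by
  obtain ⟨C, hC⟩ := hf.2.exists_bound_of_continuous hf.1.continuous
  exact ⟨max C 0, le_max_right _ _, fun w => (hC w).trans (le_max_left _ _)⟩

theorem Nice.pd {f : Pt → ℝ} (hf : Nice f) (i : Fin 4) : Nice (pd i f) :=
  ⟨(hf.1.fderiv_right (by simp)).clm_apply contDiff_const, hf.2.fderiv_apply ℝ _⟩

theorem Nice.oneSubLap {f : Pt → ℝ} (hf : Nice f) (g : Matrix (Fin 4) (Fin 4) ℝ) :
    Nice (Kernel.oneSubLap g f) := by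
  refine ⟨hf.1.sub (ContDiff.sum fun j _ => ContDiff.sum fun i _ =>
    contDiff_const.mul ((hf.pd j).pd i).1), ?_⟩
  refine HasCompactSupport.of_support_subset_isCompact hf.2.isCompact fun w hw => ?_
  by_contra hc
  refine hw ?_
  have h0 : f =ᶠ[𝓝 w] 0 := notMem_tsupport_iff_eventuallyEq.1 hc
  have h1 : ∀ j, Vale.Agent.P204.pd j f =ᶠ[𝓝 w] 0 := fun j => h0.fderiv.mono fun x hx => by
    show fderiv ℝ f x _ = 0; rw [hx]; simp
  have h2 : ∀ j i, Vale.Agent.P204.pd i (Vale.Agent.P204.pd j f) w = 0 := fun j i => by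
    show fderiv ℝ (Vale.Agent.P204.pd j f) w _ = 0; rw [(h1 j).fderiv_eq]; simp
  simp [Kernel.oneSubLap, h0.eq_of_nhds, h2]

theorem Nice.iter {f : Pt → ℝ} (hf : Nice f) (g : Matrix (Fin 4) (Fin 4) ℝ) :
    ∀ n : ℕ, Nice ((Kernel.oneSubLap g)^[n] f)
  | 0 => hf
  | n + 1 => by rw [Function.iterate_succ_apply']; exact (hf.iter g n).oneSubLap g

section heat

variable {g : Matrix (Fin 4) (Fin 4) ℝ} (hs : gᵀ = g) (hp : ∀ z, z ≠ 0 → 0 < z ⬝ᵥ g *ᵥ z)

include hp in
theorem exists_gE_le : ∃ c : ℝ, 0 < c ∧ ∀ z, gE g z ≤ gw c z := by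
  have hq : Continuous fun z : Pt => z ⬝ᵥ g *ᵥ z := by
    simp only [dotProduct, mulVec]; fun_prop
  obtain ⟨z₀, hz₀, hmin⟩ := (isCompact_sphere (0 : Pt) 1).exists_isMinOn
    (NormedSpace.sphere_nonempty.2 zero_le_one) hq.continuousOn
  have h0 : z₀ ≠ 0 := fun h => by simp [h] at hz₀
  refine ⟨z₀ ⬝ᵥ g *ᵥ z₀ / 4, div_pos (hp z₀ h0) four_pos, fun z => Real.exp_le_exp.2 ?_⟩
  by_cases hz : z = 0
  · simp [hz]
  have hn := norm_ne_zero_iff.2 hz
  have h1 : z₀ ⬝ᵥ g *ᵥ z₀ ≤ (‖z‖⁻¹ • z) ⬝ᵥ g *ᵥ (‖z‖⁻¹ • z) :=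
    isMinOn_iff.1 hmin _ (by simp [norm_smul, hn])
  rw [mulVec_smul, dotProduct_smul, smul_dotProduct, smul_eq_mul, smul_eq_mul, ← mul_assoc,
    ← mul_inv, inv_mul_eq_div, le_div_iff₀ (by positivity)] at h1
  linarith

theorem continuous_gE : Continuous (gE g) := by
  unfold gE; simp only [dotProduct, mulVec]; fun_prop

include hp in
theorem integrable_gE : Integrable (gE g) := by
  obtain ⟨c, hc, h⟩ := exists_gE_le hp
  exact (integrable_gw hc).mono' continuous_gE.aestronglyMeasurable (ae_of_all _ fun z => by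
    rw [Real.norm_eq_abs, abs_of_nonneg (show 0 ≤ gE g z from (Real.exp_pos _).le)]; exact h z)

include hp in
theorem integrable_norm_gE : Integrable fun z => ‖z‖ * gE g z := by
  obtain ⟨c, hc, h⟩ := exists_gE_le hp
  refine ((integrable_gw (half_pos hc)).const_mul (1 + 1 / c)).mono'
    (continuous_norm.mul continuous_gE).aestronglyMeasurable (ae_of_all _ fun z => ?_)
  show ‖‖z‖ * gE g z‖ ≤ (1 + 1 / c) * gw (c / 2) z
  rw [Real.norm_eq_abs, abs_of_nonneg (mul_nonneg (norm_nonneg z) (show 0 ≤ gE g z from (Real.exp_pos _).le))]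
  refine (mul_le_mul_of_nonneg_left (h z) (norm_nonneg z)).trans ?_
  have h2 : gw c z = gw (c / 2) z * gw (c / 2) z := by
    simp only [gw]; rw [← Real.exp_add]; congr 1; ring
  rw [h2, ← mul_assoc]
  refine mul_le_mul_of_nonneg_right ?_ (gw_nonneg _ _)
  have e : Real.exp (c / 2 * ‖z‖ ^ 2) * gw (c / 2) z = 1 := by
    simp only [gw]; rw [← Real.exp_add]; simp
  have h1 := Real.add_one_le_exp (c / 2 * ‖z‖ ^ 2)
  have hb : ‖z‖ ≤ (1 + 1 / c) * Real.exp (c / 2 * ‖z‖ ^ 2) := by
    refine le_trans ?_ (mul_le_mul_of_nonneg_left h1 (by positivity))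
    have : (1 + 1 / c) * (c / 2 * ‖z‖ ^ 2 + 1) =
        c / 2 * ‖z‖ ^ 2 + 1 + ‖z‖ ^ 2 / 2 + 1 / c := by field_simp; ring
    nlinarith [sq_nonneg (‖z‖ - 1), mul_nonneg hc.le (sq_nonneg ‖z‖), show 0 ≤ 1 / c by positivity]
  calc ‖z‖ * gw (c / 2) z ≤ (1 + 1 / c) * Real.exp (c / 2 * ‖z‖ ^ 2) * gw (c / 2) z :=
        mul_le_mul_of_nonneg_right hb (gw_nonneg _ _)
    _ = 1 + 1 / c := by rw [mul_assoc, e, mul_one]

include hp in
theorem continuousAt_heat {f : Pt → ℝ} (hf : Nice f) (t : ℝ) : ContinuousAt (heat g f) t := by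
  obtain ⟨C, -, hC⟩ := hf.bound
  have := hf.1.continuous
  refine continuousAt_of_dominated (bound := fun z => C * gE g z)
    (Eventually.of_forall fun s => (continuous_gE.mul (by fun_prop)).aestronglyMeasurable)
    (Eventually.of_forall fun s => ae_of_all _ fun z => ?_) ((integrable_gE hp).const_mul C)
    (ae_of_all _ fun z => by fun_prop)
  rw [norm_mul, Real.norm_eq_abs, Real.norm_eq_abs, abs_of_nonneg (show 0 ≤ gE g z from (Real.exp_pos _).le), mul_comm C]
  exact mul_le_mul_of_nonneg_left (hC _) (Real.exp_pos _).le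

include hp in
theorem abs_heat_le {f : Pt → ℝ} (hf : Nice f) :
    ∃ C : ℝ, 0 ≤ C ∧ ∀ t, |heat g f t| ≤ C := by
  obtain ⟨C, hC0, hC⟩ := hf.bound
  refine ⟨C * ∫ z, gE g z, mul_nonneg hC0 (integral_nonneg fun z => (Real.exp_pos _).le), fun t => ?_⟩
  rw [← integral_const_mul]
  refine abs_integral_le_integral_abs.trans (integral_mono_of_nonneg
    (ae_of_all _ fun z => abs_nonneg _) ((integrable_gE hp).const_mul C) (ae_of_all _ fun z => ?_))
  show |gE g z * f (Real.sqrt t • z)| ≤ C * gE g z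
  rw [abs_mul, abs_of_nonneg (show 0 ≤ gE g z from (Real.exp_pos _).le), mul_comm C]
  exact mul_le_mul_of_nonneg_left (hC _) (Real.exp_pos _).le

include hs in
theorem fderiv_gE (z : Pt) (i : Fin 4) :
    fderiv ℝ (gE g) z (Pi.single i 1) = -((g *ᵥ z) i / 2) * gE g z := by
  have hd : HasFDerivAt (fun z : Pt => -(z ⬝ᵥ g *ᵥ z) / 4) (fderiv ℝ (fun z : Pt => -(z ⬝ᵥ g *ᵥ z) / 4) z) z := by
    refine DifferentiableAt.hasFDerivAt ?_
    simp only [dotProduct, mulVec]; fun_prop
  have h1 := (hd.exp).hasLineDerivAt (Pi.single i 1)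
  have h2 : HasDerivAt (fun t : ℝ => gE g (z + t • Pi.single i 1))
      (-((g *ᵥ z) i / 2) * gE g z) 0 := by
    have hq : HasDerivAt (fun t : ℝ => -((z + t • Pi.single i 1) ⬝ᵥ g *ᵥ (z + t • Pi.single i 1)) / 4)
        (-((g *ᵥ z) i / 2)) 0 := by
      have e : ∀ t : ℝ, -((z + t • Pi.single i 1) ⬝ᵥ g *ᵥ (z + t • Pi.single i 1)) / 4 =
          -(z ⬝ᵥ g *ᵥ z) / 4 + t * (-((g *ᵥ z) i / 2)) + t ^ 2 * (-(g i i) / 4) := fun t => by
        have e1 : (Pi.single i 1 : Pt) ⬝ᵥ g *ᵥ z = (g *ᵥ z) i := by simp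
        have e2 : z ⬝ᵥ g *ᵥ (Pi.single i 1 : Pt) = (g *ᵥ z) i := by
          rw [dotProduct_mulVec, ← mulVec_transpose, hs]; simp
        have e3 : (Pi.single i 1 : Pt) ⬝ᵥ g *ᵥ (Pi.single i 1 : Pt) = g i i := by simp
        simp only [mulVec_add, mulVec_smul, dotProduct_add, add_dotProduct, dotProduct_smul,
          smul_dotProduct, smul_eq_mul, e1, e2, e3]
        ring
      simp only [e]
      simpa using (((hasDerivAt_id' (0 : ℝ)).mul_const (-((g *ᵥ z) i / 2))).const_add
        (-(z ⬝ᵥ g *ᵥ z) / 4)).fun_add (((hasDerivAt_id' (0 : ℝ)).fun_pow 2).mul_const (-(g i i) / 4))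
    refine hq.exp.congr_deriv ?_
    simp [gE]; ring
  have h3 : HasFDerivAt (gE g) (fderiv ℝ (gE g) z) z := by
    refine DifferentiableAt.hasFDerivAt ?_
    unfold gE; simp only [dotProduct, mulVec]; fun_prop
  exact (h3.hasLineDerivAt (Pi.single i 1)).unique h2

include hs hp in
theorem heat_ibp {f : Pt → ℝ} (hf : Nice f) {t : ℝ} (ht : 0 < t) :
    ∫ z, gE g z * fderiv ℝ f (Real.sqrt t • z) z =
      2 * Real.sqrt t * ∑ j, ∑ i, g⁻¹ j i * ∫ z, gE g z * pd i (pd j f) (Real.sqrt t • z) := by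
  set r := Real.sqrt t
  have hr : 0 < r := Real.sqrt_pos.2 ht
  have hcs : ∀ {h : Pt → ℝ}, Nice h → HasCompactSupport fun z => h (r • z) := fun hh =>
    hh.2.comp_smul hr.ne'
  have hint : ∀ {h : Pt → ℝ}, Nice h → ∀ {k : Pt → ℝ}, Continuous k →
      Integrable fun z => k z * h (r • z) := fun hh k hk =>
    Continuous.integrable_of_hasCompactSupport (hk.mul (by have := hh.1.continuous; fun_prop))
      (hcs hh).mul_left
  have hgd : Differentiable ℝ (gE g) := by unfold gE; simp only [dotProduct, mulVec]; fun_prop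
  have hgz : ∀ i, Continuous fun z : Pt => (g *ᵥ z) i := fun i => by
    simp only [mulVec, dotProduct]; fun_prop
  have hibp : ∀ i j, r * ∫ z, gE g z * pd i (pd j f) (r • z) =
      ∫ z, (g *ᵥ z) i / 2 * gE g z * pd j f (r • z) := by
    intro i j
    have hp2 := hf.pd j
    have hD : ∀ z, fderiv ℝ (fun z => pd j f (r • z)) z (Pi.single i 1) = r * pd i (pd j f) (r • z) := by
      intro z
      have h1 : HasFDerivAt (fun z : Pt => r • z) (r • ContinuousLinearMap.id ℝ Pt) z :=
        (hasFDerivAt_id (𝕜 := ℝ) z).fun_const_smul r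
      have h2 := ((hp2.1.differentiable (by simp)) (r • z)).hasFDerivAt.comp z h1
      rw [show (fun z => pd j f (r • z)) = pd j f ∘ fun z => r • z from rfl, h2.fderiv]
      simp [pd]
    have hdh : Differentiable ℝ fun z => pd j f (r • z) :=
      (hp2.1.differentiable (by simp)).comp (differentiable_id.const_smul r)
    have key := integral_mul_fderiv_eq_neg_fderiv_mul_of_integrable (μ := (volume : Measure Pt))
      (f := gE g) (g := fun z => pd j f (r • z)) (v := Pi.single i 1)
      (by simp only [fderiv_gE hs]; exact hint hp2 (((hgz i).div_const 2).neg.mul continuous_gE))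
      (by simp only [hD]; simpa [mul_left_comm] using ((hint (hp2.pd i) continuous_gE).const_mul r))
      (hint hp2 continuous_gE) (fun z _ => hgd z) (fun z _ => hdh z)
    simp only [hD, fderiv_gE hs] at key
    rw [← integral_const_mul]
    refine (integral_congr_ae (ae_of_all _ fun z => ?_)).trans (key.trans ?_)
    · show r * (gE g z * pd i (pd j f) (r • z)) = gE g z * (r * pd i (pd j f) (r • z)); ring
    · rw [← integral_neg]; exact integral_congr_ae (ae_of_all _ fun z => by ring)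
  have hdet : IsUnit g.det := by
    refine isUnit_iff_ne_zero.2 fun h0 => ?_
    obtain ⟨z, hz, hgz⟩ := Matrix.exists_mulVec_eq_zero_iff.2 h0
    have := hp z hz
    rw [hgz] at this; simp at this
  have hz : ∀ z : Pt, ∀ j, z j = ∑ i, g⁻¹ j i * (g *ᵥ z) i := fun z j => by
    have := congr_fun (show g⁻¹ *ᵥ (g *ᵥ z) = z by
      rw [mulVec_mulVec, nonsing_inv_mul g hdet, one_mulVec]) j
    exact this.symm
  have hexp : ∀ z, fderiv ℝ f (r • z) z = ∑ j, z j * pd j f (r • z) := fun z => by
    conv_lhs => arg 2; rw [show z = ∑ j, z j • (Pi.single j 1 : Pt) from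
      (Finset.univ_sum_single z).symm.trans (Finset.sum_congr rfl fun j _ => by
        rw [← Pi.single_smul]; simp)]
    simp [pd]
  calc ∫ z, gE g z * fderiv ℝ f (r • z) z
      = ∫ z, ∑ j, ∑ i, g⁻¹ j i * 2 * ((g *ᵥ z) i / 2 * gE g z * pd j f (r • z)) := by
        refine integral_congr_ae (ae_of_all _ fun z => ?_)
        simp only [hexp, Finset.mul_sum]
        refine Finset.sum_congr rfl fun j _ => ?_
        rw [hz z j, Finset.sum_mul, Finset.mul_sum]
        exact Finset.sum_congr rfl fun i _ => by ring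
    _ = ∑ j, ∑ i, g⁻¹ j i * 2 * (r * ∫ z, gE g z * pd i (pd j f) (r • z)) := by
        have hI : ∀ j i, Integrable fun z =>
            g⁻¹ j i * 2 * ((g *ᵥ z) i / 2 * gE g z * pd j f (r • z)) := fun j i =>
          (hint (hf.pd j) (((hgz i).div_const 2).mul continuous_gE)).const_mul _
        rw [integral_finsetSum _ fun j _ => integrable_finsetSum _ fun i _ => hI j i]
        refine Finset.sum_congr rfl fun j _ => ?_
        rw [integral_finsetSum _ fun i _ => hI j i]
        exact Finset.sum_congr rfl fun i _ => by rw [integral_const_mul, hibp]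
    _ = _ := by
        simp only [Finset.mul_sum]
        exact Finset.sum_congr rfl fun j _ => Finset.sum_congr rfl fun i _ => by ring

include hs hp in
theorem hasDerivAt_heat {f : Pt → ℝ} (hf : Nice f) {t : ℝ} (ht : 0 < t) :
    HasDerivAt (heat g f) (heat g f t - heat g (oneSubLap g f) t) t := by
  set F : ℝ → Pt → ℝ := fun s z => gE g z * f (Real.sqrt s • z)
  set F' : ℝ → Pt → ℝ := fun s z => gE g z * fderiv ℝ f (Real.sqrt s • z) z / (2 * Real.sqrt s)
  obtain ⟨C, hC⟩ := (hf.2.fderiv ℝ).exists_bound_of_continuous (hf.1.continuous_fderiv (by simp))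
  have := hf.1.continuous
  have := hf.1.continuous_fderiv (n := ∞) (by simp)
  have key := (hasDerivAt_integral_of_dominated_loc_of_deriv_le (F := F) (F' := F') (x₀ := t)
    (bound := fun z => max C 0 / Real.sqrt (t / 2) * (‖z‖ * gE g z)) (s := Ioi (t / 2))
    (Ioi_mem_nhds (half_lt_self ht))
    (Eventually.of_forall fun s => (continuous_gE.mul (by fun_prop)).aestronglyMeasurable)
    (by
      obtain ⟨B, -, hB⟩ := hf.bound
      exact (integrable_gE hp).mul_bdd (c := B) (by fun_prop) (ae_of_all _ fun z => hB _))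
    (Continuous.aestronglyMeasurable ((continuous_gE.mul (by fun_prop)).div_const _)) ?_
    ((integrable_norm_gE hp).const_mul _) ?_).2
  · refine key.congr_deriv ?_
    have hi : ∀ j i, Integrable fun z => g⁻¹ j i * (gE g z * pd i (pd j f) (Real.sqrt t • z)) :=
      fun j i => by
        have := ((hf.pd j).pd i)
        obtain ⟨B, -, hB⟩ := this.bound
        exact ((integrable_gE hp).mul_bdd (c := B)
          (this.1.continuous.comp (by fun_prop)).aestronglyMeasurable
          (ae_of_all _ fun z => hB _)).const_mul _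
    have hfi : Integrable fun z => gE g z * f (Real.sqrt t • z) := by
      obtain ⟨B, -, hB⟩ := hf.bound
      exact (integrable_gE hp).mul_bdd (c := B) (by fun_prop) (ae_of_all _ fun z => hB _)
    have hlap : heat g f t - heat g (oneSubLap g f) t =
        ∑ j, ∑ i, g⁻¹ j i * ∫ z, gE g z * pd i (pd j f) (Real.sqrt t • z) := by
      simp only [heat, oneSubLap, mul_sub, Finset.mul_sum, mul_left_comm (gE g _)]
      rw [integral_sub hfi (integrable_finsetSum _ fun j _ => integrable_finsetSum _ fun i _ => hi j i),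
        sub_sub_cancel, integral_finsetSum _ fun j _ => integrable_finsetSum _ fun i _ => hi j i]
      refine Finset.sum_congr rfl fun j _ => ?_
      rw [integral_finsetSum _ fun i _ => hi j i]
      exact Finset.sum_congr rfl fun i _ => integral_const_mul _ _
    simp only [F', integral_div, heat_ibp hs hp hf ht, hlap]
    have := Real.sqrt_pos.2 ht
    field_simp
  · refine ae_of_all _ fun z s (hs' : t / 2 < s) => ?_
    have hrs : Real.sqrt (t / 2) ≤ Real.sqrt s := Real.sqrt_le_sqrt hs'.le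
    have hr0 : 0 < Real.sqrt (t / 2) := Real.sqrt_pos.2 (half_pos ht)
    simp only [F', Real.norm_eq_abs, abs_div, abs_mul]
    rw [abs_of_nonneg (show 0 ≤ gE g z from (Real.exp_pos _).le),
      abs_of_pos (show (0 : ℝ) < 2 by norm_num), abs_of_pos (hr0.trans_le hrs)]
    calc gE g z * |fderiv ℝ f (Real.sqrt s • z) z| / (2 * Real.sqrt s)
        ≤ gE g z * (max C 0 * ‖z‖) / Real.sqrt (t / 2) := by
          refine div_le_div₀ (mul_nonneg (Real.exp_pos _).le (by positivity))
            (mul_le_mul_of_nonneg_left ?_ (Real.exp_pos _).le) hr0 (by linarith)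
          exact ((fderiv ℝ f _).le_opNorm z).trans
            (mul_le_mul_of_nonneg_right ((hC _).trans (le_max_left _ _)) (norm_nonneg _))
      _ = _ := by ring
  · refine ae_of_all _ fun z s (hs' : t / 2 < s) => ?_
    have hs0 : 0 < s := (half_pos ht).trans hs'
    have h1 : HasDerivAt (fun s : ℝ => Real.sqrt s • z) ((1 / (2 * Real.sqrt s)) • z) s :=
      (Real.hasDerivAt_sqrt hs0.ne').smul_const z
    refine ((((hf.1.differentiable (by simp)) _).hasFDerivAt.comp_hasDerivAt s h1).const_mul _).congr_deriv ?_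
    simp only [F', map_smul, smul_eq_mul]; ring

include hs hp in
/-- The heat superposition inverts `(1 - Δ_g)⁵`, up to the mass of the Gaussian. -/
theorem heat_identity {f : Pt → ℝ} (hf : Nice f) :
    ∫ t in Ioi 0, t ^ 4 / 24 * Real.exp (-t) * heat g ((oneSubLap g)^[5] f) t =
      (∫ z, gE g z) * f 0 := by
  set I : ℕ → (Pt → ℝ) → ℝ := fun k h =>
    ∫ t in Ioi 0, t ^ k / k.factorial * Real.exp (-t) * heat g h t
  have hint : ∀ (k : ℕ) {h : Pt → ℝ}, Nice h →
      IntegrableOn (fun t => t ^ k / k.factorial * Real.exp (-t) * heat g h t) (Ioi 0) := fun k h hh => by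
    obtain ⟨C, -, hC⟩ := abs_heat_le hp hh
    have hc : Continuous (heat g h) := continuous_iff_continuousAt.2 (continuousAt_heat hp hh)
    refine Integrable.mul_bdd (c := C) ?_ hc.aestronglyMeasurable (ae_of_all _ fun t => hC t)
    have := (integrableOn_pow_exp k).div_const (k.factorial : ℝ)
    exact IntegrableOn.congr_fun this (fun t _ => by ring) measurableSet_Ioi
  have hlim : ∀ (k : ℕ) {h : Pt → ℝ}, Nice h →
      Tendsto (fun t => -(t ^ k / k.factorial * Real.exp (-t) * heat g h t)) atTop (𝓝 0) := fun k h hh => by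
    obtain ⟨C, -, hC⟩ := abs_heat_le hp hh
    refine squeeze_zero_norm' ?_ (by
      simpa using ((Real.tendsto_pow_mul_exp_neg_atTop_nhds_zero k).mul_const
        (C / (k.factorial : ℝ))))
    filter_upwards [eventually_ge_atTop (0 : ℝ)] with t ht
    rw [norm_neg, Real.norm_eq_abs, abs_mul, abs_of_nonneg (by positivity)]
    calc t ^ k / (k.factorial : ℝ) * Real.exp (-t) * |heat g h t|
        ≤ t ^ k / (k.factorial : ℝ) * Real.exp (-t) * C :=
          mul_le_mul_of_nonneg_left (hC t) (by positivity)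
      _ = _ := by ring
  have hderiv : ∀ {h : Pt → ℝ}, Nice h → ∀ t, 0 < t → ∀ (p : ℝ → ℝ) (p' : ℝ), HasDerivAt p p' t →
      HasDerivAt (fun t => -(p t * Real.exp (-t) * heat g h t))
        (p t * Real.exp (-t) * heat g (oneSubLap g h) t - p' * Real.exp (-t) * heat g h t) t :=
    fun hh t ht p p' hpd => by
      refine ((hpd.fun_mul ((hasDerivAt_neg t).exp)).fun_mul
        (hasDerivAt_heat hs hp hh ht)).neg.congr_deriv ?_
      ring
  have step : ∀ (k : ℕ) {h : Pt → ℝ}, Nice h → I (k + 1) (oneSubLap g h) = I k h := fun k h hh => by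
    have hd : ∀ t ∈ Ioi (0 : ℝ), HasDerivAt
        (fun t => -(t ^ (k + 1) / (k + 1).factorial * Real.exp (-t) * heat g h t))
        (t ^ (k + 1) / (k + 1).factorial * Real.exp (-t) * heat g (oneSubLap g h) t -
          t ^ k / k.factorial * Real.exp (-t) * heat g h t) t := fun t ht => by
      have hpw : HasDerivAt (fun t : ℝ => t ^ (k + 1) / (k + 1).factorial) (t ^ k / k.factorial) t := by
        refine ((hasDerivAt_pow (k + 1) t).div_const _).congr_deriv ?_
        rw [Nat.factorial_succ, Nat.add_sub_cancel]; push_cast; field_simp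
      exact hderiv hh t ht _ _ hpw
    have := integral_Ioi_of_hasDerivAt_of_tendsto ?_ hd
      ((hint (k + 1) (hh.oneSubLap g)).sub (hint k hh)) (hlim (k + 1) hh)
    · rw [integral_sub (hint (k + 1) (hh.oneSubLap g)) (hint k hh)] at this
      simp at this
      simp only [I]; linarith
    · have := continuousAt_heat hp hh 0
      exact ContinuousAt.continuousWithinAt (by fun_prop)
  have base : ∀ {h : Pt → ℝ}, Nice h → I 0 (oneSubLap g h) = (∫ z, gE g z) * h 0 := fun {h} hh => by
    have hd : ∀ t ∈ Ioi (0 : ℝ), HasDerivAt (fun t => -((1 : ℝ) * Real.exp (-t) * heat g h t))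
        (1 * Real.exp (-t) * heat g (oneSubLap g h) t - 0 * Real.exp (-t) * heat g h t) t :=
      fun t ht => hderiv hh t ht _ _ (hasDerivAt_const t 1)
    have h0 := hint 0 (hh.oneSubLap g)
    have hl := hlim 0 hh
    simp only [pow_zero, Nat.factorial_zero, Nat.cast_one, div_one, one_mul] at h0 hl
    simp only [one_mul, zero_mul, sub_zero] at hd
    have := integral_Ioi_of_hasDerivAt_of_tendsto ?_ hd h0 hl
    · simp [heat] at this
      simp only [I, heat]
      simp
      rw [this, integral_mul_const]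
    · have := continuousAt_heat hp hh 0
      exact ContinuousAt.continuousWithinAt (by fun_prop)
  have e : I 4 ((oneSubLap g)^[5] f) = (∫ z, gE g z) * f 0 := by
    simp only [Function.iterate_succ_apply', Function.iterate_zero_apply]
    rw [step 3 (((hf.oneSubLap g).oneSubLap g).oneSubLap g |>.oneSubLap g),
      step 2 (((hf.oneSubLap g).oneSubLap g).oneSubLap g), step 1 ((hf.oneSubLap g).oneSubLap g),
      step 0 (hf.oneSubLap g), base hf]
  simpa [I, Nat.factorial] using e

include hs hp in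
/-- The mass of the Gaussian. -/
theorem integral_gE : ∫ z, gE g z = 16 * Real.pi ^ 2 / Real.sqrt g.det := by
  have hpd : g.PosDef := Matrix.PosDef.of_dotProduct_mulVec_pos (by
    show gᴴ = g; rw [conjTranspose_eq_transpose_of_trivial, hs]) fun z hz => by
      simpa using hp z hz
  obtain ⟨B, hB⟩ := CStarAlgebra.nonneg_iff_eq_star_mul_self.mp hpd.posSemidef.nonneg
  have hB' : g = Bᵀ * B := by
    rw [hB, Matrix.star_eq_conjTranspose, conjTranspose_eq_transpose_of_trivial]
  have hdet : g.det = B.det ^ 2 := by rw [hB', det_mul, det_transpose, sq]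
  have hBd : B.det ≠ 0 := fun h => by
    have := hpd.det_pos; rw [hdet, h] at this; simp at this
  set E0 : Pt → ℝ := fun w => ∏ i, Real.exp (-(1 / 4) * w i ^ 2)
  have he : ∀ z, gE g z = E0 (B *ᵥ z) := fun z => by
    rw [gE, hB', ← mulVec_mulVec, dotProduct_mulVec, vecMul_transpose]
    simp only [E0, ← Real.exp_sum, dotProduct]
    rw [Fin.sum_univ_four, Fin.sum_univ_four]; ring_nf
  have hmap := Real.map_matrix_volume_pi_eq_smul_volume_pi hBd
  have hcont : Continuous E0 := by simp only [E0]; fun_prop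
  have hlin : Continuous (Matrix.toLin' B) := (Matrix.toLin' B).continuous_of_finiteDimensional
  have h1 := integral_map (μ := (volume : Measure Pt)) hlin.aemeasurable
    (f := E0) hcont.aestronglyMeasurable
  rw [hmap, integral_smul_measure, ENNReal.toReal_ofReal (abs_nonneg _)] at h1
  simp only [Matrix.toLin'_apply, smul_eq_mul] at h1
  simp only [he]
  rw [← h1, hdet, Real.sqrt_sq_eq_abs, abs_inv]
  have h16 : ∫ w, E0 w = 16 * Real.pi ^ 2 := by
    simp only [E0]
    rw [integral_fintype_prod_volume_eq_pow (fun x : ℝ => Real.exp (-(1 / 4) * x ^ 2)),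
      integral_gaussian, Fintype.card_fin, show (4 : ℕ) = 2 * 2 by rfl, pow_mul,
      Real.sq_sqrt (by positivity)]
    ring
  rw [h16]
  field_simp

/-- The heat average is the integral against the heat kernel. -/
theorem integral_heatKer {t : ℝ} (ht : 0 < t) (f : Pt → ℝ) :
    ∫ w, heatKer g t w * f w = Real.sqrt g.det / (16 * Real.pi ^ 2) * heat g f t := by
  have hr : 0 < Real.sqrt t := Real.sqrt_pos.2 ht
  have hr2 : Real.sqrt t ^ 2 = t := Real.sq_sqrt ht.le
  have h := integral_scale hr 0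
    (fun z => gE g z * f (Real.sqrt t • z))
  rw [heat, ← h, ← integral_const_mul]
  refine integral_congr_ae (ae_of_all _ fun w => ?_)
  simp only [sub_zero, smul_inv_smul₀ hr.ne', heatKer, gE, mulVec_smul, dotProduct_smul,
    smul_dotProduct, smul_eq_mul]
  have hr4 : Real.sqrt t ^ 4 = t ^ 2 := by rw [show (4 : ℕ) = 2 * 2 by rfl, pow_mul, hr2]
  rw [hr4, show -((Real.sqrt t)⁻¹ * ((Real.sqrt t)⁻¹ * (w ⬝ᵥ g *ᵥ w))) / 4 =
    -(w ⬝ᵥ g *ᵥ w) / (4 * t) by field_simp; rw [hr2]; ring]
  field_simp; ring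

include hs hp in
/-- The superposition of heat kernels is a fundamental solution of `(1 - Δ_g)⁵`. -/
theorem heatKer_identity {f : Pt → ℝ} (hf : Nice f) :
    ∫ t in Ioi 0, t ^ 4 / 24 * Real.exp (-t) * ∫ w, heatKer g t w * (oneSubLap g)^[5] f w = f 0 := by
  have hpos : 0 < g.det := by
    have hpd : g.PosDef := Matrix.PosDef.of_dotProduct_mulVec_pos (by
      show gᴴ = g; rw [conjTranspose_eq_transpose_of_trivial, hs]) fun z hz => by
        simpa using hp z hz
    exact hpd.det_pos
  have := Real.sqrt_pos.2 hpos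
  calc ∫ t in Ioi 0, t ^ 4 / 24 * Real.exp (-t) * ∫ w, heatKer g t w * (oneSubLap g)^[5] f w
      = ∫ t in Ioi 0, Real.sqrt g.det / (16 * Real.pi ^ 2) *
          (t ^ 4 / 24 * Real.exp (-t) * heat g ((oneSubLap g)^[5] f) t) :=
        setIntegral_congr_fun measurableSet_Ioi fun t ht => by
          simp only [integral_heatKer ht]; ring
    _ = _ := by
        rw [integral_const_mul, heat_identity hs hp hf, integral_gE hs hp]
        field_simp

end heat

end Vale.Agent.P204.Kernel
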