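import Mathlib
import Vale.Agent.P204.Kernel.Defs
import Vale.Agent.P204.General.Basic.Orient

/-!
# P204: derivatives of the ingredients of the double form

Every derivative along an axis `a` at the base point is written as a covariant part minus `gam a`.
-/

open Matrix Filter
open scoped ContDiff Topology

namespace Vale.Agent.P204.Kernel

open Vale.Agent.P204.General Vale.Agent.P204.Torus

section lines

variable {A B C D : ℝ → Pt} {A' B' C' D' : Pt} {t₀ : ℝ}

theorem hasDerivAt_det4 (hA : HasDerivAt A A' t₀) (hB : HasDerivAt B B' t₀)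
    (hC : HasDerivAt C C' t₀) (hD : HasDerivAt D D' t₀) :
    HasDerivAt (fun t => det4 (A t) (B t) (C t) (D t))
      (det4 A' (B t₀) (C t₀) (D t₀) + det4 (A t₀) B' (C t₀) (D t₀)
        + det4 (A t₀) (B t₀) C' (D t₀) + det4 (A t₀) (B t₀) (C t₀) D') t₀ := by
  have ha := hasDerivAt_pi.1 hA
  have hb := hasDerivAt_pi.1 hB
  have hc := hasDerivAt_pi.1 hC
  have hd := hasDerivAt_pi.1 hD
  have p := fun i j => ((ha i).fun_mul (hb j)).fun_sub ((ha j).fun_mul (hb i))
  have q := fun i j => ((hc i).fun_mul (hd j)).fun_sub ((hc j).fun_mul (hd i))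
  have h := ((((((q 2 3).fun_mul (p 0 1)).fun_sub ((q 1 3).fun_mul (p 0 2))).fun_add
    ((q 1 2).fun_mul (p 0 3))).fun_add ((q 0 3).fun_mul (p 1 2))).fun_sub
    ((q 0 2).fun_mul (p 1 3))).fun_add ((q 0 1).fun_mul (p 2 3))
  simp only [det4_expand]
  exact h.congr_deriv (by ring)

theorem hasDerivAt_mulVec {n l : ℕ} {M : ℝ → Matrix (Fin n) (Fin l) ℝ}
    {M' : Matrix (Fin n) (Fin l) ℝ} {f : ℝ → Fin l → ℝ} {f' : Fin l → ℝ}
    (hM : ∀ i j, HasDerivAt (fun t => M t i j) (M' i j) t₀) (hf : HasDerivAt f f' t₀) :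
    HasDerivAt (fun t => M t *ᵥ f t) (M' *ᵥ f t₀ + M t₀ *ᵥ f') t₀ := by
  refine hasDerivAt_pi.2 fun i => ?_
  have h := HasDerivAt.fun_sum fun j (_ : j ∈ Finset.univ) =>
    (hM i j).fun_mul (hasDerivAt_pi.1 hf j)
  simp only [mulVec, dotProduct, Pi.add_apply, ← Finset.sum_add_distrib]
  exact h

theorem hasDerivAt_dot {n : ℕ} {f g : ℝ → Fin n → ℝ} {f' g' : Fin n → ℝ}
    (hf : HasDerivAt f f' t₀) (hg : HasDerivAt g g' t₀) :
    HasDerivAt (fun t => f t ⬝ᵥ g t) (f' ⬝ᵥ g t₀ + f t₀ ⬝ᵥ g') t₀ := by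
  have h := HasDerivAt.fun_sum fun j (_ : j ∈ Finset.univ) =>
    (hasDerivAt_pi.1 hf j).fun_mul (hasDerivAt_pi.1 hg j)
  simp only [dotProduct, ← Finset.sum_add_distrib]
  exact h

/-- A determinant of four moving vectors times a density, covariantly. -/
theorem hasDerivAt_vol {S : ℝ → ℝ} {M : M4} (hS : HasDerivAt S (M.trace * S t₀) t₀)
    (hA : HasDerivAt A (A' - M *ᵥ A t₀) t₀) (hB : HasDerivAt B (B' - M *ᵥ B t₀) t₀)
    (hC : HasDerivAt C (C' - M *ᵥ C t₀) t₀) (hD : HasDerivAt D (D' - M *ᵥ D t₀) t₀) :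
    HasDerivAt (fun t => S t * det4 (A t) (B t) (C t) (D t))
      (S t₀ * (det4 A' (B t₀) (C t₀) (D t₀) + det4 (A t₀) B' (C t₀) (D t₀)
        + det4 (A t₀) (B t₀) C' (D t₀) + det4 (A t₀) (B t₀) (C t₀) D')) t₀ := by
  refine (hS.fun_mul (hasDerivAt_det4 hA hB hC hD)).congr_deriv ?_
  have hd := det4_derivation (A t₀) (B t₀) (C t₀) (D t₀) M
  simp only [det4_expand, Pi.sub_apply] at hd ⊢
  linear_combination (-S t₀) * hd

/-- The same for the curvature pairing. -/
theorem hasDerivAt_volE {n : ℕ} {S : ℝ → ℝ} {M : M4}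
    {U V : ℝ → Matrix (Fin 4) (Fin n) ℝ} {U' V' : Matrix (Fin 4) (Fin n) ℝ}
    (hS : HasDerivAt S (M.trace * S t₀) t₀)
    (hU : ∀ i k, HasDerivAt (fun t => U t i k) ((U' - M * U t₀) i k) t₀)
    (hV : ∀ i k, HasDerivAt (fun t => V t i k) ((V' - M * V t₀) i k) t₀)
    (hC : HasDerivAt C (C' - M *ᵥ C t₀) t₀) (hD : HasDerivAt D (D' - M *ᵥ D t₀) t₀) :
    HasDerivAt (fun t => S t * curvE (U t) (V t) (C t) (D t))
      (S t₀ * (curvE U' (V t₀) (C t₀) (D t₀) + curvE (U t₀) V' (C t₀) (D t₀)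
        + curvE (U t₀) (V t₀) C' (D t₀) + curvE (U t₀) (V t₀) (C t₀) D')) t₀ := by
  have h := HasDerivAt.fun_sum fun k (_ : k ∈ (Finset.univ : Finset (Fin n))) =>
    hasDerivAt_vol (A := fun t i => U t i k) (B := fun t i => V t i k)
      (A' := fun i => U' i k) (B' := fun i => V' i k) hS
      (hasDerivAt_pi.2 fun i => hU i k) (hasDerivAt_pi.2 fun i => hV i k) hC hD
  simp only [curvE, ← Finset.sum_add_distrib, Finset.mul_sum]
  exact h

end lines

variable {N K : ℕ} (A : Atlas N K) (c : Fin K) {p : Pt}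

/-- The line through `p` along the axis `a`. -/
noncomputable def ray (p : Pt) (a : Fin 4) (t : ℝ) : Pt := p + t • Pi.single a 1

theorem ray_zero (p : Pt) (a : Fin 4) : ray p a 0 = p := by simp [ray]

/-- The derivative of the second fundamental operator. -/
noncomputable def dW (a b : Fin 4) (p : Pt) : Matrix (Fin 4) (Fin N) ℝ :=
  Matrix.of fun i k => pd a (fun q => wop A c b q i k) p

theorem pim_smooth (i : Fin 4) (k : Fin N) : ContDiffOn ℝ ∞ (fun q => pim A c q i k) box := by
  simp only [pim, Matrix.mul_apply, Matrix.transpose_apply]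
  exact ContDiffOn.sum fun l _ =>
    (gram_inv_smooth A c i l).mul (A.dmat_smooth c k l).contDiffOn

theorem wop_smooth (a : Fin 4) (i : Fin 4) (k : Fin N) :
    ContDiffOn ℝ ∞ (fun q => wop A c a q i k) box := by
  simp only [wop, nor, Matrix.mul_apply, Matrix.transpose_apply, Matrix.sub_apply]
  refine ContDiffOn.sum fun l _ => (ContDiffOn.sum fun j _ =>
    (gram_inv_smooth A c i j).mul (dD_smooth A c a l j).contDiffOn).mul ?_
  exact contDiffOn_const.sub
    (ContDiffOn.sum fun j _ => (A.dmat_smooth c l j).contDiffOn.mul (pim_smooth A c j k))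

theorem PD_wop (hp : p ∈ box) (a b : Fin 4) : PD a (wop A c b) (dW A c a b p) p :=
  PD.of_diff (fun i k => ((wop_smooth A c b i k).differentiableOn (by norm_num)).differentiableAt
    (isOpen_box.mem_nhds hp)) a

theorem gam_symm (a b : Fin 4) :
    gam A c a p *ᵥ Pi.single b (1 : ℝ) = gam A c b p *ᵥ Pi.single a (1 : ℝ) := by
  funext i
  simp only [gam, mulVec_single_one, col_apply, Matrix.mul_apply, dD_symm A c a b]

theorem hasDerivAt_psi (a : Fin 4) :
    HasDerivAt (fun t => A.psi c (ray p a t)) (A.dmat c p *ᵥ Pi.single a 1) 0 := by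
  rw [A.dmat_mulVec]
  exact (A.psi_diff c p).hasFDerivAt.hasLineDerivAt (Pi.single a 1)

theorem hasDerivAt_offset (z : Amb N) (a : Fin 4) :
    HasDerivAt (fun t => z - A.psi c (ray p a t)) (-(A.dmat c p *ᵥ Pi.single a 1)) 0 := by
  simpa using (hasDerivAt_psi A c a).const_sub z

theorem dd_vv (hp : p ∈ box) (z : Amb N) (a : Fin 4) :
    HasDerivAt (fun t => vv A c (ray p a t) z) (xx A c a p z - gam A c a p *ᵥ vv A c p z) 0 := by
  refine (hasDerivAt_mulVec (M := fun t => pim A c (ray p a t)) (PD_pim A c hp a)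
    (hasDerivAt_offset A c z a)).congr_deriv ?_
  simp only [ray_zero, xx, vv, mulVec_neg, mulVec_mulVec, pim_mul_dmat A c hp, one_mulVec,
    sub_mulVec]
  abel

/-- The covariant derivative of `xx b` along the axis `a`. -/
noncomputable def nxx (a b : Fin 4) (p : Pt) (z : Amb N) : Pt :=
  (dW A c a b p + gam A c a p * wop A c b p) *ᵥ (z - A.psi c p) -
    gam A c a p *ᵥ Pi.single b 1

theorem dd_xx (hp : p ∈ box) (z : Amb N) (a b : Fin 4) :
    HasDerivAt (fun t => xx A c b (ray p a t) z)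
      (nxx A c a b p z - gam A c a p *ᵥ xx A c b p z) 0 := by
  refine ((hasDerivAt_mulVec (M := fun t => wop A c b (ray p a t)) (PD_wop A c hp a b)
    (hasDerivAt_offset A c z a)).const_add (-Pi.single b (1 : ℝ))).congr_deriv ?_
  simp only [ray_zero, nxx, xx, mulVec_neg, mulVec_mulVec, wop_dmat A c hp, zero_mulVec,
    mulVec_add, add_mulVec]
  abel

theorem dd_yy (hp : p ∈ box) (u : Amb N) (a : Fin 4) :
    HasDerivAt (fun t => yy A c (ray p a t) u) (wop A c a p *ᵥ u - gam A c a p *ᵥ yy A c p u) 0 := by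
  refine (hasDerivAt_mulVec (M := fun t => pim A c (ray p a t)) (PD_pim A c hp a)
    (hasDerivAt_const 0 u)).congr_deriv ?_
  simp only [yy, sub_mulVec, mulVec_mulVec, mulVec_zero, add_zero]

theorem dmatT_dD (hp : p ∈ box) (a : Fin 4) :
    (A.dmat c p)ᵀ * dD A c a p = gram A c p * gam A c a p := by
  rw [gam, pim, ← Matrix.mul_assoc, ← Matrix.mul_assoc, gram_mul_inv A c hp, Matrix.one_mul]

theorem PD_gram' (hp : p ∈ box) (a : Fin 4) :
    PD a (gram A c) ((gam A c a p)ᵀ * gram A c p + gram A c p * gam A c a p) p := by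
  have h := PD_gram A c a p
  have e : (dD A c a p)ᵀ * A.dmat c p = (gam A c a p)ᵀ * gram A c p := by
    have := congrArg Matrix.transpose (dmatT_dD A c hp a)
    simpa [transpose_mul, gram_symm] using this
  rwa [e, dmatT_dD A c hp a] at h

/-- The covector of the offset. -/
noncomputable def lv (p : Pt) (z : Amb N) : Pt := gram A c p *ᵥ vv A c p z

theorem dd_sdist (hp : p ∈ box) (z : Amb N) (a : Fin 4) :
    HasDerivAt (fun t => sdist A c (ray p a t) z) (2 * (lv A c p z ⬝ᵥ xx A c a p z)) 0 := by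
  refine (hasDerivAt_dot (dd_vv A c hp z a) (hasDerivAt_mulVec
    (M := fun t => gram A c (ray p a t)) (PD_gram' A c hp a) (dd_vv A c hp z a))).congr_deriv ?_
  simp only [ray_zero, lv, mulVec_sub, add_mulVec, ← mulVec_mulVec, sub_dotProduct, dotProduct_add,
    dotProduct_sub]
  generalize vv A c p z = v
  generalize xx A c a p z = x
  set G := gram A c p
  set Γ := gam A c a p
  have hs : ∀ u w : Pt, u ⬝ᵥ (G *ᵥ w) = (G *ᵥ u) ⬝ᵥ w := fun u w => by
    rw [dotProduct_mulVec, ← vecMul_transpose, show Gᵀ = G from gram_symm A c]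
  have h1 : v ⬝ᵥ (Γᵀ *ᵥ (G *ᵥ v)) = (Γ *ᵥ v) ⬝ᵥ (G *ᵥ v) := by
    rw [dotProduct_mulVec, vecMul_transpose]
  rw [h1, hs v x, dotProduct_comm x]
  ring

theorem gram_det_pos (hp : p ∈ box) : 0 < (gram A c p).det := by
  refine lt_of_le_of_ne ?_ (gram_det_ne A c hp).symm
  have h := (Matrix.posSemidef_conjTranspose_mul_self (A.dmat c p)).det_nonneg
  rw [Matrix.conjTranspose_eq_transpose_of_trivial] at h; exact h

theorem dd_vs (hp : p ∈ box) (a : Fin 4) :
    HasDerivAt (fun t => vs A c (ray p a t)) ((gam A c a p).trace * vs A c p) 0 := by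
  set G := gram A c p
  set Γ := gam A c a p
  set M := Γᵀ + G * Γ * G⁻¹
  have hG : HasDerivAt (fun t => (gram A c (ray p a t)).det) (M.trace * G.det) 0 := by
    have hcol : ∀ j, HasDerivAt (fun t => gram A c (ray p a t) *ᵥ Pi.single j 1)
        (M *ᵥ (G *ᵥ Pi.single j 1)) 0 := fun j => by
      refine (hasDerivAt_mulVec (M := fun t => gram A c (ray p a t)) (PD_gram' A c hp a)
        (hasDerivAt_const 0 _)).congr_deriv ?_
      simp only [M, mulVec_zero, add_zero, mulVec_mulVec, Matrix.add_mul, Matrix.mul_assoc, G, Γ,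
        gram_inv_mul A c hp, Matrix.mul_one]
    simp only [det_eq_det4]
    refine (hasDerivAt_det4 (hcol 0) (hcol 1) (hcol 2) (hcol 3)).congr_deriv ?_
    simp only [ray_zero]
    exact det4_derivation _ _ _ _ M
  refine (hG.sqrt (by rw [ray_zero]; exact (gram_det_pos A c hp).ne')).congr_deriv ?_
  have htr : M.trace = 2 * Γ.trace := by
    simp only [M, Matrix.trace_add, Matrix.trace_transpose]
    rw [Matrix.trace_mul_comm (G * Γ), ← Matrix.mul_assoc, gram_inv_mul A c hp, Matrix.one_mul]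
    ring
  have hpos := gram_det_pos A c hp
  have hsq := Real.mul_self_sqrt hpos.le
  have hne : Real.sqrt G.det ≠ 0 := (Real.sqrt_pos.2 hpos).ne'
  rw [htr, ray_zero, vs]
  field_simp
  rw [sq, hsq]

theorem cod_dmat (hp : p ∈ box) (a b : Fin 4) :
    dW A c a b p * A.dmat c p = -(wop A c b p * dD A c a p) := by
  have h := ((PD_wop A c hp a b).mul (PD_dmat A c a p)).unique
    ((PD.const (0 : M4)).congr (eventually_of_mem (isOpen_box.mem_nhds hp)
      fun q hq => (wop_dmat A c hq b).symm))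
  exact eq_neg_of_add_eq_zero_left h

/-- The commutator of two covariant derivatives of the offset. -/
theorem nxx_comm (hp : p ∈ box) (z : Amb N) (a b : Fin 4) :
    nxx A c a b p z - nxx A c b a p z =
      (wop A c a p * (wop A c b p)ᵀ - wop A c b p * (wop A c a p)ᵀ) *ᵥ lv A c p z := by
  set C := dW A c a b p + gam A c a p * wop A c b p -
    (dW A c b a p + gam A c b p * wop A c a p) with hC
  have h0 := wop_codazzi A c hp a b (PD_wop A c hp a b) (PD_wop A c hp b a)
  rw [← hC] at h0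
  have h1 : C = C * A.dmat c p * pim A c p := by
    rw [nor, Matrix.mul_sub, Matrix.mul_one, sub_eq_zero] at h0
    rwa [Matrix.mul_assoc]
  have hw : ∀ a b, wop A c b p * dD A c a p = wop A c b p * (wop A c a p)ᵀ * gram A c p :=
    fun a b => by
      conv_lhs => rw [← wop_nor A c hp b, Matrix.mul_assoc, nor_dD A c hp a, ← Matrix.mul_assoc]
  have h2 : C * A.dmat c p =
      (wop A c a p * (wop A c b p)ᵀ - wop A c b p * (wop A c a p)ᵀ) * gram A c p := by
    simp only [C, Matrix.sub_mul, Matrix.add_mul, Matrix.mul_assoc (gam A c _ p), wop_dmat A c hp,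
      Matrix.mul_zero, add_zero, cod_dmat A c hp, hw]
    abel
  calc nxx A c a b p z - nxx A c b a p z = C *ᵥ (z - A.psi c p) := by
        simp only [nxx, C, gam_symm A c b a, sub_mulVec]; abel
    _ = _ := by
        conv_lhs => rw [h1, h2]
        simp only [lv, vv, ← mulVec_mulVec]

/-- The curvature pairing kills the antisymmetrised covariant derivative. -/
theorem curvE_cod (hp : p ∈ box) (a b e : Fin 4) (Y Z : Pt) :
    curvE (dW A c a b p + gam A c a p * wop A c b p) (wop A c e p) Y Z =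
      curvE (dW A c b a p + gam A c b p * wop A c a p) (wop A c e p) Y Z := by
  rw [← sub_eq_zero, ← curvE_sub_left, ← curvE_zero_left (wop A c e p) Y Z]
  refine curvE_congr ?_ _ _
  have h0 := wop_codazzi A c hp a b (PD_wop A c hp a b) (PD_wop A c hp b a)
  have hn : (wop A c e p)ᵀ = nor A c p * (wop A c e p)ᵀ := by
    conv_lhs => rw [← wop_nor A c hp e, transpose_mul, nor_symm]
  rw [Matrix.zero_mul, hn, ← Matrix.mul_assoc, h0, Matrix.zero_mul]

theorem dd_wop (hp : p ∈ box) (a b : Fin 4) (i : Fin 4) (k : Fin N) :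
    HasDerivAt (fun t => wop A c b (ray p a t) i k)
      (((dW A c a b p + gam A c a p * wop A c b p) - gam A c a p * wop A c b p) i k) 0 := by
  rw [add_sub_cancel_right]
  exact PD_wop A c hp a b i k

end Vale.Agent.P204.Kernel
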