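import Mathlib
import Vale.Agent.P204.Kernel.Calc
import Vale.Agent.P204.General.Basic.Stokes

/-!
# P204: the double form does not depend on the chart

Everything is at a point `p` of the chart `d` lying in the chart `c`; `L c * dmat d p` is the
    differential of
the chart change and `trans c d p` the coordinates in `c`.
-/

open Matrix Filter
open scoped ContDiff Topology

namespace Vale.Agent.P204.Kernel

open Vale.Agent.P204.General Vale.Agent.P204.Torus

theorem det4_mulVec (M : M4) (a b c d : Pt) :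
    det4 (M *ᵥ a) (M *ᵥ b) (M *ᵥ c) (M *ᵥ d) = M.det * det4 a b c d := by
  set T : M4 := (Matrix.of ![a, b, c, d])ᵀ
  have h0 : T *ᵥ Pi.single 0 1 = a := by ext i; simp [T]
  have h1 : T *ᵥ Pi.single 1 1 = b := by ext i; simp [T]
  have h2 : T *ᵥ Pi.single 2 1 = c := by ext i; simp [T]
  have h3 : T *ᵥ Pi.single 3 1 = d := by ext i; simp [T]
  have h := det_eq_det4 (M * T)
  simp only [← mulVec_mulVec, h0, h1, h2, h3] at h
  rw [← h, det_mul, det_eq_det4 T, h0, h1, h2, h3]

theorem det4_sum₁₂ (s t : Fin 4 → ℝ) (x y : Fin 4 → Pt) (c d : Pt) :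
    det4 (∑ i, s i • x i) (∑ j, t j • y j) c d =
      ∑ i, ∑ j, s i * t j * det4 (x i) (y j) c d := by
  simp only [det4_expand, Fin.sum_univ_four, Pi.add_apply, Pi.smul_apply, smul_eq_mul]
  ring

theorem det4_sum₁ (s : Fin 4 → ℝ) (x : Fin 4 → Pt) (b c d : Pt) :
    det4 (∑ i, s i • x i) b c d = ∑ i, s i * det4 (x i) b c d := by
  simp only [det4_expand, Fin.sum_univ_four, Pi.add_apply, Pi.smul_apply, smul_eq_mul]
  ring

variable {N K : ℕ} (A : Atlas N K) (c d : Fin K) {p : Pt}
  (hp : p ∈ box) (hc : A.psi d p ∈ A.psi c '' box)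

include hp hc

omit hp in
theorem q_mem : (A.trans c d p) ∈ box := A.phi_mem c hc

omit hp in
theorem psi_q : A.psi c (A.trans c d p) = A.psi d p := A.psi_phi c hc

theorem gram_trans : gram A d p = (A.L c * A.dmat d p)ᵀ * gram A c (A.trans c d p) * (A.L c *
    A.dmat d p) := by
  simp only [gram]
  conv_lhs => rw [A.dmat_trans c d hp hc]
  simp only [transpose_mul, Matrix.mul_assoc]

theorem T_det : IsUnit (A.L c * A.dmat d p).det := (A.det_trans_ne c d hp hc).isUnit

theorem pim_trans : pim A d p = (A.L c * A.dmat d p)⁻¹ * pim A c (A.trans c d p) := by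
  have hT := T_det A c d hp hc
  have hg := gram_trans A c d hp hc
  have hD := A.dmat_trans c d hp hc
  simp only [pim, hg]
  generalize A.L c * A.dmat d p = S at hT hD ⊢
  have hTt : IsUnit Sᵀ.det := by rwa [det_transpose]
  rw [hD, Matrix.mul_inv_rev, Matrix.mul_inv_rev, transpose_mul, Matrix.mul_assoc, Matrix.mul_assoc,
    ← Matrix.mul_assoc (Sᵀ)⁻¹ Sᵀ, Matrix.nonsing_inv_mul _ hTt, Matrix.one_mul]

theorem nor_trans : nor A d p = nor A c (A.trans c d p) := by
  have hT := T_det A c d hp hc
  have hD := A.dmat_trans c d hp hc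
  simp only [nor, pim_trans A c d hp hc]
  generalize A.L c * A.dmat d p = S at hT hD ⊢
  rw [hD, Matrix.mul_assoc, ← Matrix.mul_assoc S, Matrix.mul_nonsing_inv _ hT, Matrix.one_mul]

theorem dD_trans (a : Fin 4) :
    dD A d a p = (∑ b, (A.L c * A.dmat d p) b a • dD A c b (A.trans c d p)) * (A.L c * A.dmat d p)
        + A.dmat c (A.trans c d p) * (A.L c * dD A d a p) := by
  have h1 : PD a (fun x => A.dmat c (A.trans c d x)) (∑ b, (A.L c * A.dmat d p) b a • dD A c b
      (A.trans c d p)) p := fun k i => by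
    have hf := ((A.dmat_smooth c k i).differentiable (by norm_num)).differentiableAt
      (x := A.trans c d p) |>.hasFDerivAt
    refine ((hf.comp p (trans_hasFDeriv A c d p)).hasLineDerivAt (Pi.single a 1)).congr_deriv ?_
    rw [ContinuousLinearMap.comp_apply, LinearMap.coe_toContinuousLinearMap',
      Matrix.mulVecLin_apply, mulVec_single_one]
    simp only [Matrix.sum_apply, Matrix.smul_apply, smul_eq_mul, dD, Matrix.of_apply, pd]
    have hv : (A.L c * A.dmat d p).col a = ∑ b, (A.L c * A.dmat d p) b a • (Pi.single b 1 : Pt) :=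
        by
      ext i; simp [Fin.sum_univ_four, Matrix.col_apply]; fin_cases i <;> simp
    rw [hv, map_sum]
    simp only [map_smul, smul_eq_mul]
  have h2 : PD a (fun x => A.L c * A.dmat d x) (A.L c * dD A d a p) p := by
    simpa using (PD.const (A.L c)).mul (PD_dmat A d a p)
  exact (PD_dmat A d a p).unique ((h1.mul h2).congr ((A.psi_trans_eventually c d hp hc).mono
    fun x hx => (A.dmat_trans c d hx.1 hx.2).symm))

theorem wop_trans (a : Fin 4) : wop A d a p = (A.L c * A.dmat d p)⁻¹ * ∑ b, (A.L c * A.dmat d p) b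
    a • wop A c b (A.trans c d p) := by
  have hT := T_det A c d hp hc
  have hD := dmatT_nor A c (q_mem A c d hc)
  have hg := gram_trans A c d hp hc
  have hdD := dD_trans A c d hp hc a
  simp only [wop, hg, nor_trans A c d hp hc]
  generalize A.L c * A.dmat d p = S at hT hdD ⊢
  generalize A.L c * dD A d a p = E at hdD
  have hTt : IsUnit Sᵀ.det := by rwa [det_transpose]
  rw [hdD, Matrix.mul_inv_rev, Matrix.mul_inv_rev]
  simp only [transpose_add, transpose_mul, Matrix.mul_add, Matrix.add_mul, Matrix.mul_assoc, hD,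
    Matrix.mul_zero, add_zero]
  rw [← Matrix.mul_assoc (Sᵀ)⁻¹ Sᵀ, Matrix.nonsing_inv_mul _ hTt, Matrix.one_mul]
  simp only [transpose_sum, transpose_smul, Matrix.sum_mul, Matrix.mul_sum, Matrix.smul_mul,
    Matrix.mul_smul]

theorem yy_trans (u : Amb N) : yy A d p u = (A.L c * A.dmat d p)⁻¹ *ᵥ yy A c (A.trans c d p) u := by
  rw [yy, yy, pim_trans A c d hp hc, mulVec_mulVec]

theorem xx_trans (z : Amb N) (a : Fin 4) :
    xx A d a p z = (A.L c * A.dmat d p)⁻¹ *ᵥ ∑ b, (A.L c * A.dmat d p) b a • xx A c b (A.trans c d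
        p) z := by
  have he : -Pi.single a (1 : ℝ) = (A.L c * A.dmat d p)⁻¹ *ᵥ (∑ b, (A.L c * A.dmat d p) b a •
      -Pi.single b (1 : ℝ)) := by
    have : ∑ b, (A.L c * A.dmat d p) b a • -Pi.single b (1 : ℝ) = -((A.L c * A.dmat d p) *ᵥ
        Pi.single a (1 : ℝ)) := by
      ext i; simp [Fin.sum_univ_four]; fin_cases i <;> simp
    rw [this, mulVec_neg, mulVec_mulVec, Matrix.nonsing_inv_mul _ (T_det A c d hp hc), one_mulVec]
  simp only [xx, wop_trans A c d hp hc a, psi_q A c d hc]
  rw [he, ← mulVec_mulVec, ← mulVec_add, Matrix.sum_mulVec, ← Finset.sum_add_distrib]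
  simp only [Matrix.smul_mulVec, smul_add]

theorem sdist_trans (z : Amb N) : sdist A d p z = sdist A c (A.trans c d p) z := by
  simp only [sdist, vv, pim_trans A c d hp hc, gram_trans A c d hp hc, psi_q A c d hc]
  have hT := T_det A c d hp hc
  generalize A.L c * A.dmat d p = S at hT ⊢
  simp only [← mulVec_mulVec]
  rw [mulVec_mulVec (M := S), Matrix.mul_nonsing_inv _ hT, one_mulVec, dotProduct_mulVec _ Sᵀ,
    vecMul_transpose, mulVec_mulVec (M := S), Matrix.mul_nonsing_inv _ hT, one_mulVec]

variable {J : Amb N → MN N} (hJ : IsACS A J)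
include hJ

theorem vs_trans : vs A d p = (A.L c * A.dmat d p).det * vs A c (A.trans c d p) := by
  have h0 := (det_trans_pos A hJ c d hp hc).le
  rw [vs, vs, gram_trans A c d hp hc, det_mul, det_mul, det_transpose,
    show (A.L c * A.dmat d p).det * (gram A c (A.trans c d p)).det * (A.L c * A.dmat d p).det =
        (A.L c * A.dmat d p).det ^ 2 * (gram A c (A.trans c d p)).det from by ring,
    Real.sqrt_mul (sq_nonneg _), Real.sqrt_sq h0]

theorem vol_trans (x y u w : Pt) :
    vs A d p * det4 ((A.L c * A.dmat d p)⁻¹ *ᵥ x) ((A.L c * A.dmat d p)⁻¹ *ᵥ y) ((A.L c * A.dmat d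
        p)⁻¹ *ᵥ u) ((A.L c * A.dmat d p)⁻¹ *ᵥ w) =
      vs A c (A.trans c d p) * det4 x y u w := by
  rw [det4_mulVec, vs_trans A c d hp hc hJ, det_nonsing_inv, Ring.inverse_eq_inv']
  field_simp [A.det_trans_ne c d hp hc]

theorem k22_trans (f h : ℝ → ℝ) (z u w : Amb N) (a b : Fin 4) :
    k22 A d f h p z a b u w = ∑ i, ∑ j, (A.L c * A.dmat d p) i a * (A.L c * A.dmat d p) j b * k22
        A c f h (A.trans c d p) z i j u w := by
  have e1 : vs A d p * det4 (xx A d a p z) (xx A d b p z) (yy A d p u) (yy A d p w) =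
      ∑ i, ∑ j, (A.L c * A.dmat d p) i a * (A.L c * A.dmat d p) j b *
        (vs A c (A.trans c d p) * det4 (xx A c i (A.trans c d p) z) (xx A c j (A.trans c d p) z)
            (yy A c (A.trans c d p) u) (yy A c (A.trans c d p) w)) := by
    simp only [xx_trans A c d hp hc, yy_trans A c d hp hc, vol_trans A c d hp hc hJ]
    rw [det4_sum₁₂, Finset.mul_sum]
    simp only [Finset.mul_sum]
    exact Finset.sum_congr rfl fun i _ => Finset.sum_congr rfl fun j _ => by ring
  have e2 : vs A d p * curvE (wop A d a p) (wop A d b p) (yy A d p u) (yy A d p w) =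
      ∑ i, ∑ j, (A.L c * A.dmat d p) i a * (A.L c * A.dmat d p) j b *
        (vs A c (A.trans c d p) * curvE (wop A c i (A.trans c d p)) (wop A c j (A.trans c d p))
            (yy A c (A.trans c d p) u) (yy A c (A.trans c d p) w)) := by
    simp only [curvE, Finset.mul_sum]
    conv_rhs => rw [Finset.sum_congr rfl fun i _ => Finset.sum_comm, Finset.sum_comm]
    refine Finset.sum_congr rfl fun k _ => ?_
    have hcol : ∀ a, (fun i => wop A d a p i k) =
        (A.L c * A.dmat d p)⁻¹ *ᵥ ∑ b, (A.L c * A.dmat d p) b a • fun i => wop A c b (A.trans c d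
            p) i k := fun a => by
      funext i
      rw [wop_trans A c d hp hc a]
      simp only [Matrix.mul_apply, mulVec, dotProduct, Finset.sum_apply, Pi.smul_apply,
        Matrix.sum_apply, Matrix.smul_apply]
    simp only [hcol, yy_trans A c d hp hc, vol_trans A c d hp hc hJ, det4_sum₁₂, Finset.mul_sum]
    exact Finset.sum_congr rfl fun i _ => Finset.sum_congr rfl fun j _ => by ring
  simp only [k22, sdist_trans A c d hp hc, e1, e2, Finset.mul_sum, ← Finset.sum_add_distrib]
  exact Finset.sum_congr rfl fun i _ => Finset.sum_congr rfl fun j _ => by ring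

theorem k13_trans (f : ℝ → ℝ) (z u v w : Amb N) (a : Fin 4) :
    k13 A d f p z a u v w = ∑ i, (A.L c * A.dmat d p) i a * k13 A c f (A.trans c d p) z i u v w :=
        by
  simp only [k13, sdist_trans A c d hp hc, xx_trans A c d hp hc, yy_trans A c d hp hc,
    vol_trans A c d hp hc hJ, det4_sum₁, Finset.mul_sum]
  exact Finset.sum_congr rfl fun i _ => by ring

theorem loc22_trans (r e σ : ℝ) (z u w : Amb N) :
    loc22 A d r e σ p z u w = (A.L c * A.dmat d p)ᵀ * loc22 A c r e σ (A.trans c d p) z u w * (A.L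
        c * A.dmat d p) := by
  ext a b
  have hk := fun a b => k22_trans A c d hp hc hJ (gProf e σ) (hProf e σ) z u w a b
  simp only [loc22, Matrix.of_apply, psi_q A c d hc, hk]
  generalize A.L c * A.dmat d p = S
  simp only [Matrix.mul_apply, Matrix.transpose_apply, Matrix.of_apply, Finset.sum_mul,
    Finset.mul_sum]
  rw [Finset.sum_comm]
  exact Finset.sum_congr rfl fun i _ => Finset.sum_congr rfl fun j _ => by ring

theorem loc13_trans (r e σ : ℝ) (z u v w : Amb N) :
    loc13 A d r e σ p z u v w = (A.L c * A.dmat d p)ᵀ *ᵥ loc13 A c r e σ (A.trans c d p) z u v w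
        := by
  ext a
  have hk := fun a => k13_trans A c d hp hc hJ (gProf e σ) z u v w a
  simp only [loc13, hk]
  generalize A.L c * A.dmat d p = S
  simp only [mulVec, dotProduct, Matrix.transpose_apply, loc13, psi_q A c d hc, Finset.mul_sum]
  exact Finset.sum_congr rfl fun i _ => by ring

omit hp hc

/-- The kernel read in a chart. -/
theorem kk_chart (r e σ : ℝ) (z u w : Amb N) (d : Fin K) {p : Pt} (hp : p ∈ box) :
    A.pullAt d (kk A r e σ z u w (A.psi d p)) p = loc22 A d r e σ p z u w := by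
  have hx := A.psi_mem d p hp
  conv_rhs => rw [← one_smul ℝ (loc22 A d r e σ p z u w), ← A.chi_sum _ hx, Finset.sum_smul]
  simp only [Atlas.pullAt, kk, Matrix.mul_sum, Matrix.sum_mul, Matrix.mul_smul, Matrix.smul_mul,
    Atlas.push]
  refine Finset.sum_congr rfl fun c _ => ?_
  rcases eq_or_ne (A.chi c (A.psi d p)) 0 with h | h
  · simp [h]
  · congr 1
    rw [loc22_trans A c d hp (A.chi_image hx h) hJ, Atlas.trans]
    simp only [transpose_mul, Matrix.mul_assoc]

/-- The one-form read in a chart. -/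
theorem bk_chart (r e σ : ℝ) (z u v w : Amb N) (d : Fin K) {p : Pt} (hp : p ∈ box) :
    A.pullOne d (bk A r e σ z u v w) p = loc13 A d r e σ p z u v w := by
  have hx := A.psi_mem d p hp
  conv_rhs => rw [← one_smul ℝ (loc13 A d r e σ p z u v w), ← A.chi_sum _ hx, Finset.sum_smul]
  simp only [Atlas.pullOne, bk, mulVec_sum, mulVec_smul]
  refine Finset.sum_congr rfl fun c _ => ?_
  rcases eq_or_ne (A.chi c (A.psi d p)) 0 with h | h
  · simp [h]
  · rw [loc13_trans A c d hp (A.chi_image hx h) hJ, Atlas.trans, mulVec_mulVec, transpose_mul]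

end Vale.Agent.P204.Kernel
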