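import Mathlib
import Vale.Agent.P204.Kernel.Calc

/-!
# P204: the double form is closed

`closed13`: the differential of `k22` in `z` cancels the differential of `k13` in `p`.
`closed31`: the differential of `k22` in `p` is the differential of `k31` in `z`.
-/

open Matrix
open scoped ContDiff Topology

namespace Vale.Agent.P204.Kernel

open Vale.Agent.P204.General Vale.Agent.P204.Torus

variable {N K : ℕ} (A : Atlas N K) (c : Fin K) {p : Pt}

theorem det4_cyc₂₃₄ (a b d e : Pt) : det4 a b d e = det4 a d e b := by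
  simp only [det4_expand]; ring

theorem curvE_swap₃₄ (U V : Matrix (Fin 4) (Fin N) ℝ) (Y Z : Pt) :
    curvE U V Z Y = -curvE U V Y Z := by
  simp only [curvE, ← Finset.sum_neg_distrib]
  exact Finset.sum_congr rfl fun k _ => det4_swap₃₄ _ _ _ _

section zdir

variable (p) (z u : Amb N)

theorem dz_offset : HasDerivAt (fun t : ℝ => z + t • u - A.psi c p) u 0 := by
  simpa using (((hasDerivAt_id (0 : ℝ)).smul_const u).const_add z).sub_const (A.psi c p)

theorem dz_vv : HasDerivAt (fun t : ℝ => vv A c p (z + t • u)) (yy A c p u) 0 := by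
  refine (hasDerivAt_mulVec (M := fun _ => pim A c p) (M' := 0) (fun i j => hasDerivAt_const 0 _)
    (dz_offset A c p z u)).congr_deriv ?_
  simp [yy]

theorem dz_xx (a : Fin 4) :
    HasDerivAt (fun t : ℝ => xx A c a p (z + t • u)) (wop A c a p *ᵥ u) 0 := by
  refine ((hasDerivAt_mulVec (M := fun _ => wop A c a p) (M' := 0)
    (fun i j => hasDerivAt_const 0 _) (dz_offset A c p z u)).const_add _).congr_deriv ?_
  simp

theorem dz_sdist :
    HasDerivAt (fun t : ℝ => sdist A c p (z + t • u)) (2 * (lv A c p z ⬝ᵥ yy A c p u)) 0 := by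
  refine (hasDerivAt_dot (dz_vv A c p z u) (hasDerivAt_mulVec (M := fun _ => gram A c p) (M' := 0)
    (fun i j => hasDerivAt_const 0 _) (dz_vv A c p z u))).congr_deriv ?_
  simp only [zero_smul, add_zero, zero_mulVec, zero_add, lv]
  rw [dotProduct_mulVec (vv A c p z), ← mulVec_transpose, gram_symm,
    dotProduct_comm (yy A c p u)]
  ring

end zdir

variable {f h : ℝ → ℝ} {f' : ℝ → ℝ}

theorem dp_k13 (hp : p ∈ box) (hf : ∀ s, HasDerivAt f (f' s) s) (z u v w : Amb N)
    (a b : Fin 4) :
    HasDerivAt (fun t => k13 A c f (ray p a t) z b u v w)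
      (vs A c p * (f' (sdist A c p z) * (2 * (lv A c p z ⬝ᵥ xx A c a p z)) *
          det4 (xx A c b p z) (yy A c p u) (yy A c p v) (yy A c p w) +
        f (sdist A c p z) *
          (det4 (nxx A c a b p z) (yy A c p u) (yy A c p v) (yy A c p w) +
           det4 (xx A c b p z) (wop A c a p *ᵥ u) (yy A c p v) (yy A c p w) +
           det4 (xx A c b p z) (yy A c p u) (wop A c a p *ᵥ v) (yy A c p w) +
           det4 (xx A c b p z) (yy A c p u) (yy A c p v) (wop A c a p *ᵥ w)))) 0 := by
  have hd := hasDerivAt_vol (M := gam A c a p) (t₀ := 0) (S := fun t => vs A c (ray p a t))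
    (A := fun t => xx A c b (ray p a t) z) (A' := nxx A c a b p z)
    (B := fun t => yy A c (ray p a t) u) (B' := wop A c a p *ᵥ u)
    (C := fun t => yy A c (ray p a t) v) (C' := wop A c a p *ᵥ v)
    (D := fun t => yy A c (ray p a t) w) (D' := wop A c a p *ᵥ w)
    (by simpa only [ray_zero] using dd_vs A c hp a)
    (by simpa only [ray_zero] using dd_xx A c hp z a b)
    (by simpa only [ray_zero] using dd_yy A c hp u a)
    (by simpa only [ray_zero] using dd_yy A c hp v a)
    (by simpa only [ray_zero] using dd_yy A c hp w a)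
  refine (((hf _).comp 0 (dd_sdist A c hp z a)).fun_mul hd).congr_deriv ?_
  simp only [Function.comp_apply, ray_zero]
  ring

theorem dp_k22 (hp : p ∈ box) (hf : ∀ s, HasDerivAt f (f' s) s)
    (hh : ∀ s, HasDerivAt h (-(f s / 2)) s) (z : Amb N) (a b e : Fin 4) (u w : Amb N) :
    HasDerivAt (fun t => k22 A c f h (ray p a t) z b e u w)
      (vs A c p * (f' (sdist A c p z) * (2 * (lv A c p z ⬝ᵥ xx A c a p z)) *
          det4 (xx A c b p z) (xx A c e p z) (yy A c p u) (yy A c p w) +
        f (sdist A c p z) *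
          (det4 (nxx A c a b p z) (xx A c e p z) (yy A c p u) (yy A c p w) +
           det4 (xx A c b p z) (nxx A c a e p z) (yy A c p u) (yy A c p w) +
           det4 (xx A c b p z) (xx A c e p z) (wop A c a p *ᵥ u) (yy A c p w) +
           det4 (xx A c b p z) (xx A c e p z) (yy A c p u) (wop A c a p *ᵥ w)) -
        f (sdist A c p z) * (lv A c p z ⬝ᵥ xx A c a p z) *
          curvE (wop A c b p) (wop A c e p) (yy A c p u) (yy A c p w) +
        h (sdist A c p z) *
          (curvE (dW A c a b p + gam A c a p * wop A c b p) (wop A c e p)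
              (yy A c p u) (yy A c p w) +
           curvE (wop A c b p) (dW A c a e p + gam A c a p * wop A c e p)
              (yy A c p u) (yy A c p w) +
           curvE (wop A c b p) (wop A c e p) (wop A c a p *ᵥ u) (yy A c p w) +
           curvE (wop A c b p) (wop A c e p) (yy A c p u) (wop A c a p *ᵥ w)))) 0 := by
  have hd := hasDerivAt_vol (M := gam A c a p) (t₀ := 0) (S := fun t => vs A c (ray p a t))
    (A := fun t => xx A c b (ray p a t) z) (A' := nxx A c a b p z)
    (B := fun t => xx A c e (ray p a t) z) (B' := nxx A c a e p z)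
    (C := fun t => yy A c (ray p a t) u) (C' := wop A c a p *ᵥ u)
    (D := fun t => yy A c (ray p a t) w) (D' := wop A c a p *ᵥ w)
    (by simpa only [ray_zero] using dd_vs A c hp a)
    (by simpa only [ray_zero] using dd_xx A c hp z a b)
    (by simpa only [ray_zero] using dd_xx A c hp z a e)
    (by simpa only [ray_zero] using dd_yy A c hp u a)
    (by simpa only [ray_zero] using dd_yy A c hp w a)
  have he := hasDerivAt_volE (M := gam A c a p) (t₀ := 0) (S := fun t => vs A c (ray p a t))
    (U := fun t => wop A c b (ray p a t)) (V := fun t => wop A c e (ray p a t))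
    (U' := dW A c a b p + gam A c a p * wop A c b p)
    (V' := dW A c a e p + gam A c a p * wop A c e p)
    (C := fun t => yy A c (ray p a t) u) (C' := wop A c a p *ᵥ u)
    (D := fun t => yy A c (ray p a t) w) (D' := wop A c a p *ᵥ w)
    (by simpa only [ray_zero] using dd_vs A c hp a)
    (by simpa only [ray_zero] using dd_wop A c hp a b)
    (by simpa only [ray_zero] using dd_wop A c hp a e)
    (by simpa only [ray_zero] using dd_yy A c hp u a)
    (by simpa only [ray_zero] using dd_yy A c hp w a)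
  refine ((((hf _).comp 0 (dd_sdist A c hp z a)).fun_mul hd).fun_add
    (((hh _).comp 0 (dd_sdist A c hp z a)).fun_mul he)).congr_deriv ?_
  simp only [Function.comp_apply, ray_zero]
  ring

theorem dz_k22 (hf : ∀ s, HasDerivAt f (f' s) s) (hh : ∀ s, HasDerivAt h (-(f s / 2)) s)
    (z u v w : Amb N) (a b : Fin 4) :
    HasDerivAt (fun t : ℝ => k22 A c f h p (z + t • u) a b v w)
      (vs A c p * (f' (sdist A c p z) * (2 * (lv A c p z ⬝ᵥ yy A c p u)) *
          det4 (xx A c a p z) (xx A c b p z) (yy A c p v) (yy A c p w) +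
        f (sdist A c p z) *
          (det4 (wop A c a p *ᵥ u) (xx A c b p z) (yy A c p v) (yy A c p w) +
           det4 (xx A c a p z) (wop A c b p *ᵥ u) (yy A c p v) (yy A c p w)) -
        f (sdist A c p z) * (lv A c p z ⬝ᵥ yy A c p u) *
          curvE (wop A c a p) (wop A c b p) (yy A c p v) (yy A c p w))) 0 := by
  have hd := (hasDerivAt_det4 (dz_xx A c p z u a) (dz_xx A c p z u b)
    (hasDerivAt_const 0 (yy A c p v)) (hasDerivAt_const 0 (yy A c p w))).const_mul (vs A c p)
  refine ((((hf _).comp 0 (dz_sdist A c p z u)).fun_mul hd).fun_add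
    (((hh _).comp 0 (dz_sdist A c p z u)).mul_const _)).congr_deriv ?_
  simp only [Function.comp_apply, zero_smul, add_zero, det4_expand, Pi.zero_apply]
  ring

theorem dz_k31 (hf : ∀ s, HasDerivAt f (f' s) s) (hh : ∀ s, HasDerivAt h (-(f s / 2)) s)
    (z u w : Amb N) (a b e : Fin 4) :
    HasDerivAt (fun t : ℝ => k31 A c f h p (z + t • u) a b e w)
      (vs A c p * (f' (sdist A c p z) * (2 * (lv A c p z ⬝ᵥ yy A c p u)) *
          det4 (xx A c a p z) (xx A c b p z) (xx A c e p z) (yy A c p w) +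
        f (sdist A c p z) *
          (det4 (wop A c a p *ᵥ u) (xx A c b p z) (xx A c e p z) (yy A c p w) +
           det4 (xx A c a p z) (wop A c b p *ᵥ u) (xx A c e p z) (yy A c p w) +
           det4 (xx A c a p z) (xx A c b p z) (wop A c e p *ᵥ u) (yy A c p w)) -
        f (sdist A c p z) * (lv A c p z ⬝ᵥ yy A c p u) *
          (curvE (wop A c a p) (wop A c b p) (xx A c e p z) (yy A c p w) +
           curvE (wop A c b p) (wop A c e p) (xx A c a p z) (yy A c p w) +
           curvE (wop A c e p) (wop A c a p) (xx A c b p z) (yy A c p w)) +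
        h (sdist A c p z) *
          (curvE (wop A c a p) (wop A c b p) (wop A c e p *ᵥ u) (yy A c p w) +
           curvE (wop A c b p) (wop A c e p) (wop A c a p *ᵥ u) (yy A c p w) +
           curvE (wop A c e p) (wop A c a p) (wop A c b p *ᵥ u) (yy A c p w)))) 0 := by
  have hd := (hasDerivAt_det4 (dz_xx A c p z u a) (dz_xx A c p z u b) (dz_xx A c p z u e)
    (hasDerivAt_const 0 (yy A c p w))).const_mul (vs A c p)
  have hE : ∀ i j k : Fin 4, HasDerivAt
      (fun t : ℝ => curvE (wop A c i p) (wop A c j p) (xx A c k p (z + t • u)) (yy A c p w))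
      (curvE (wop A c i p) (wop A c j p) (wop A c k p *ᵥ u) (yy A c p w)) 0 := fun i j k => by
    simp only [curvE]
    refine (HasDerivAt.fun_sum fun l (_ : l ∈ (Finset.univ : Finset (Fin N))) =>
      hasDerivAt_det4 (hasDerivAt_const 0 (fun i' => wop A c i p i' l))
        (hasDerivAt_const 0 (fun i' => wop A c j p i' l)) (dz_xx A c p z u k)
        (hasDerivAt_const 0 (yy A c p w))).congr_deriv ?_
    simp [det4_expand]
  have he := ((((hE a b e).fun_add (hE b e a)).fun_add (hE e a b))).const_mul (vs A c p)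
  refine ((((hf _).comp 0 (dz_sdist A c p z u)).fun_mul hd).fun_add
    (((hh _).comp 0 (dz_sdist A c p z u)).fun_mul he)).congr_deriv ?_
  simp only [Function.comp_apply, zero_smul, add_zero, det4_expand, Pi.zero_apply]
  ring

/-- The differential in the second point is exact in the first. -/
theorem closed13 (hp : p ∈ box) (hf : ∀ s, HasDerivAt f (f' s) s)
    (hh : ∀ s, HasDerivAt h (-(f s / 2)) s) (z u v w : Amb N) (a b : Fin 4) :
    deriv (fun t : ℝ => k22 A c f h p (z + t • u) a b v w) 0 +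
      deriv (fun t : ℝ => k22 A c f h p (z + t • v) a b w u) 0 +
      deriv (fun t : ℝ => k22 A c f h p (z + t • w) a b u v) 0 +
      (deriv (fun t => k13 A c f (ray p a t) z b u v w) 0 -
        deriv (fun t => k13 A c f (ray p b t) z a u v w) 0) = 0 := by
  rw [(dz_k22 A c hf hh z u v w a b).deriv, (dz_k22 A c hf hh z v w u a b).deriv,
    (dz_k22 A c hf hh z w u v a b).deriv, (dp_k13 A c hp hf z u v w a b).deriv,
    (dp_k13 A c hp hf z u v w b a).deriv]
  set l := lv A c p z
  have hN : nxx A c a b p z = nxx A c b a p z +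
      (wop A c a p * (wop A c b p)ᵀ - wop A c b p * (wop A c a p)ᵀ) *ᵥ l :=
    sub_eq_iff_eq_add'.1 (nxx_comm A c hp z a b)
  have hC := curvE_contract (wop A c a p) (wop A c b p) l (yy A c p u) (yy A c p v) (yy A c p w)
  have h5 := five l (xx A c a p z) (xx A c b p z) (yy A c p u) (yy A c p v) (yy A c p w)
  rw [hN]
  generalize (wop A c a p * (wop A c b p)ᵀ - wop A c b p * (wop A c a p)ᵀ) *ᵥ l = O at hC ⊢
  simp only [det4_expand, Pi.add_apply] at h5 hC ⊢
  linear_combination (2 * vs A c p * f' (sdist A c p z)) * h5 -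
    (vs A c p * f (sdist A c p z)) * hC

/-- The differential in the first point is exact in the second. -/
theorem closed31 (hp : p ∈ box) (hf : ∀ s, HasDerivAt f (f' s) s)
    (hh : ∀ s, HasDerivAt h (-(f s / 2)) s) (z u w : Amb N) (a b e : Fin 4) :
    deriv (fun t => k22 A c f h (ray p a t) z b e u w) 0 +
      deriv (fun t => k22 A c f h (ray p b t) z e a u w) 0 +
      deriv (fun t => k22 A c f h (ray p e t) z a b u w) 0 -
      (deriv (fun t : ℝ => k31 A c f h p (z + t • u) a b e w) 0 -
        deriv (fun t : ℝ => k31 A c f h p (z + t • w) a b e u) 0) = 0 := by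
  rw [(dp_k22 A c hp hf hh z a b e u w).deriv, (dp_k22 A c hp hf hh z b e a u w).deriv,
    (dp_k22 A c hp hf hh z e a b u w).deriv, (dz_k31 A c hf hh z u w a b e).deriv,
    (dz_k31 A c hf hh z w u a b e).deriv]
  set l := lv A c p z
  set Wa := wop A c a p
  set Wb := wop A c b p
  set We := wop A c e p
  set Xa := xx A c a p z
  set Xb := xx A c b p z
  set Xe := xx A c e p z
  set U := yy A c p u
  set W := yy A c p w
  have hN : ∀ i j, nxx A c i j p z = nxx A c j i p z +
      (wop A c i p * (wop A c j p)ᵀ - wop A c j p * (wop A c i p)ᵀ) *ᵥ l :=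
    fun i j => sub_eq_iff_eq_add'.1 (nxx_comm A c hp z i j)
  have k1 := curvE_cod A c hp a b e U W
  have k2 := curvE_cod A c hp b e a U W
  have k3 := curvE_cod A c hp e a b U W
  have s4 := curvE_swap (dW A c a e p + gam A c a p * We) Wb U W
  have s5 := curvE_swap (dW A c b a p + gam A c b p * Wa) We U W
  have s6 := curvE_swap (dW A c e b p + gam A c e p * Wb) Wa U W
  have t1 := curvE_swap₃₄ Wa Wb (We *ᵥ w) U
  have t2 := curvE_swap₃₄ Wb We (Wa *ᵥ w) U
  have t3 := curvE_swap₃₄ We Wa (Wb *ᵥ w) U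
  have C1 := curvE_contract Wa Wb l Xe U W
  have C2 := curvE_contract Wb We l Xa U W
  have C3 := curvE_contract We Wa l Xb U W
  have u1 := curvE_swap₃₄ Wa Wb Xe W
  have u2 := curvE_swap₃₄ Wb We Xa W
  have u3 := curvE_swap₃₄ We Wa Xb W
  rw [hN a b, hN b e, hN e a]
  have h5 := five l Xa Xb Xe U W
  generalize (Wa * Wbᵀ - Wb * Waᵀ) *ᵥ l = O1 at C1 ⊢
  generalize (Wb * Weᵀ - We * Wbᵀ) *ᵥ l = O2 at C2 ⊢
  generalize (We * Waᵀ - Wa * Weᵀ) *ᵥ l = O3 at C3 ⊢
  have hdet : det4 (nxx A c b a p z + O1) Xe U W + det4 Xb (nxx A c a e p z) U W +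
      det4 Xb Xe (Wa *ᵥ u) W + det4 Xb Xe U (Wa *ᵥ w) +
      (det4 (nxx A c e b p z + O2) Xa U W + det4 Xe (nxx A c b a p z) U W +
      det4 Xe Xa (Wb *ᵥ u) W + det4 Xe Xa U (Wb *ᵥ w)) +
      (det4 (nxx A c a e p z + O3) Xb U W + det4 Xa (nxx A c e b p z) U W +
      det4 Xa Xb (We *ᵥ u) W + det4 Xa Xb U (We *ᵥ w)) =
      det4 O1 Xe U W + det4 O2 Xa U W + det4 O3 Xb U W +
      (det4 (Wa *ᵥ u) Xb Xe W + det4 Xa (Wb *ᵥ u) Xe W + det4 Xa Xb (We *ᵥ u) W) -
      (det4 (Wa *ᵥ w) Xb Xe U + det4 Xa (Wb *ᵥ w) Xe U + det4 Xa Xb (We *ᵥ w) U) := by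
    simp only [det4_expand, Pi.add_apply]; ring
  have h5' : (l ⬝ᵥ Xa) * det4 Xb Xe U W + (l ⬝ᵥ Xb) * det4 Xe Xa U W
      + (l ⬝ᵥ Xe) * det4 Xa Xb U W =
      (l ⬝ᵥ U) * det4 Xa Xb Xe W - (l ⬝ᵥ W) * det4 Xa Xb Xe U := by
    simp only [det4_expand] at h5 ⊢
    linear_combination h5
  linear_combination (2 * vs A c p * f' (sdist A c p z)) * h5'
    + (vs A c p * f (sdist A c p z)) * hdet
    - (vs A c p * f (sdist A c p z)) * (C1 + C2 + C3)
    + (vs A c p * f (sdist A c p z) * (l ⬝ᵥ U)) * (u1 + u2 + u3)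
    + (vs A c p * h (sdist A c p z)) * (k1 + k2 + k3 + s4 + s5 + s6 + t1 + t2 + t3)

end Vale.Agent.P204.Kernel
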