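import Mathlib
import Vale.Agent.P204.Kernel.Cov
import Vale.Agent.P204.Kernel.Form
import Vale.Agent.P204.Kernel.Subord
import Vale.Agent.P204.General.Tangent

/-!
# P204: smoothness and symmetries of the double form
-/

open MeasureTheory Matrix Filter Set
open scoped ContDiff Topology

namespace Vale.Agent.P204.Kernel

open Vale.Agent.P204.General Vale.Agent.P204.Torus

variable {N K : ℕ} (A : Atlas N K) (c : Fin K) (r e σ : ℝ)

theorem contDiff_gProf : ContDiff ℝ ∞ (gProf e σ) := by
  unfold gProf cutF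
  exact (Real.smoothTransition.contDiff.comp (by fun_prop)).mul
    (contDiff_const.mul (Real.contDiff_exp.comp (by fun_prop)))

theorem hasDerivAt_hProf (s : ℝ) : HasDerivAt (hProf e σ) (-(gProf e σ s / 2)) s := by
  have hg := (contDiff_gProf e σ).continuous
  refine ((intervalIntegral.integral_hasDerivAt_left (hg.intervalIntegrable s e)
    hg.stronglyMeasurable.stronglyMeasurableAtFilter hg.continuousAt).const_mul (2 : ℝ)⁻¹).congr_deriv ?_
  ring

theorem contDiff_hProf : ContDiff ℝ ∞ (hProf e σ) := by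
  refine contDiff_infty_iff_deriv.2 ⟨fun s => (hasDerivAt_hProf e σ s).differentiableAt, ?_⟩
  have h : deriv (hProf e σ) = fun s => -(gProf e σ s / 2) :=
    funext fun s => (hasDerivAt_hProf e σ s).deriv
  rw [h]
  exact ((contDiff_gProf e σ).div_const 2).neg

theorem hasDerivAt_gProf (s : ℝ) : HasDerivAt (gProf e σ) (deriv (gProf e σ) s) s :=
  ((contDiff_gProf e σ).differentiable (by simp)).differentiableAt.hasDerivAt

theorem contDiff_etaF : ContDiff ℝ ∞ (etaF r : Amb N → ℝ) := by
  unfold etaF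
  refine Real.smoothTransition.contDiff.comp (contDiff_const.sub (ContDiff.div_const ?_ _))
  simp only [dotProduct]
  fun_prop

theorem etaF_eq_zero {r : ℝ} (hr : 0 < r) {u : Amb N} (h : 2 * r ^ 2 ≤ u ⬝ᵥ u) :
    etaF r u = 0 := by
  refine Real.smoothTransition.zero_of_nonpos ?_
  rw [sub_nonpos, le_div_iff₀ (pow_pos hr 2)]
  linarith

theorem etaF_one_of_le {r : ℝ} (hr : 0 < r) {u : Amb N} (h : u ⬝ᵥ u ≤ r ^ 2) : etaF r u = 1 := by
  refine Real.smoothTransition.one_of_one_le ?_
  have : u ⬝ᵥ u / r ^ 2 ≤ 1 := by rw [div_le_one (pow_pos hr 2)]; exact h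
  linarith

theorem etaF_mem (r : ℝ) (u : Amb N) : 0 ≤ etaF r u ∧ etaF r u ≤ 1 :=
  ⟨Real.smoothTransition.nonneg _, Real.smoothTransition.le_one _⟩

section joint

variable {H : Type*} [NormedAddCommGroup H] [NormedSpace ℝ H] {s : Set H} {P : H → Pt}
  {Z U W Y : H → Amb N}

/-- The coefficients of the double form along a base map. -/
structure BaseSmooth (A : Atlas N K) (c : Fin K) (s : Set H) (P : H → Pt) : Prop where
  psi : ∀ k, ContDiffOn ℝ ∞ (fun x => A.psi c (P x) k) s
  pim : ∀ i k, ContDiffOn ℝ ∞ (fun x => pim A c (P x) i k) s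
  wop : ∀ a i k, ContDiffOn ℝ ∞ (fun x => wop A c a (P x) i k) s
  gram : ∀ i k, ContDiffOn ℝ ∞ (fun x => gram A c (P x) i k) s
  vs : ContDiffOn ℝ ∞ (fun x => vs A c (P x)) s

omit [NormedAddCommGroup H] [NormedSpace ℝ H] in
theorem baseSmooth_const {H : Type*} [NormedAddCommGroup H] [NormedSpace ℝ H] (s : Set H)
    (p : Pt) : BaseSmooth A c s (fun _ => p) :=
  ⟨fun _ => contDiffOn_const, fun _ _ => contDiffOn_const, fun _ _ _ => contDiffOn_const,
    fun _ _ => contDiffOn_const, contDiffOn_const⟩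

theorem gram_smoothK (i k : Fin 4) : ContDiff ℝ ∞ fun p => gram A c p i k := by
  simp only [gram, Matrix.mul_apply, Matrix.transpose_apply]
  exact ContDiff.sum fun a _ => (A.dmat_smooth c a i).mul (A.dmat_smooth c a k)

theorem vs_smoothOn : ContDiffOn ℝ ∞ (vs A c) box := by
  have hd : ContDiff ℝ ∞ fun p => (gram A c p).det := by
    simp only [Matrix.det_apply']
    exact ContDiff.sum fun σ _ => contDiff_const.mul
      (contDiff_prod fun j _ => gram_smoothK A c _ _)
  exact hd.contDiffOn.sqrt fun p hp => (gram_det_pos A c hp).ne'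

theorem baseSmooth_of_mapsTo (hP : ContDiffOn ℝ ∞ P s) (hs : MapsTo P s box) :
    BaseSmooth A c s P :=
  ⟨fun k => ((contDiff_pi.1 (A.psi_smooth c) k).contDiffOn (s := univ)).comp hP (mapsTo_univ _ _),
    fun i k => (pim_smooth A c i k).comp hP hs,
    fun a i k => (wop_smooth A c a i k).comp hP hs,
    fun i k => ((gram_smoothK A c i k).contDiffOn (s := univ)).comp hP (mapsTo_univ _ _),
    (vs_smoothOn A c).comp hP hs⟩

variable (hB : BaseSmooth A c s P) (hZ : ContDiffOn ℝ ∞ Z s)
include hB hZ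

theorem sdist_smoothOn : ContDiffOn ℝ ∞ (fun x => sdist A c (P x) (Z x)) s := by
  have hz := contDiffOn_pi.1 hZ
  have := hB.psi; have := hB.pim; have := hB.gram
  simp only [sdist, vv, dotProduct, mulVec, Pi.sub_apply]
  fun_prop

theorem xx_smoothOn (a i : Fin 4) : ContDiffOn ℝ ∞ (fun x => xx A c a (P x) (Z x) i) s := by
  have hz := contDiffOn_pi.1 hZ
  have := hB.psi; have := hB.wop
  simp only [xx, Pi.add_apply, mulVec, dotProduct, Pi.sub_apply]
  fun_prop

theorem etaF_smoothOn : ContDiffOn ℝ ∞ (fun x => etaF r (Z x - A.psi c (P x))) s :=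
  ((contDiff_etaF r).contDiffOn (s := univ)).comp (hZ.sub (contDiffOn_pi.2 hB.psi))
    (mapsTo_univ _ _)

omit hZ in
theorem yy_smoothOn (hU : ContDiffOn ℝ ∞ U s) (i : Fin 4) :
    ContDiffOn ℝ ∞ (fun x => yy A c (P x) (U x) i) s := by
  have hz := contDiffOn_pi.1 hU
  have := hB.pim
  simp only [yy, mulVec, dotProduct]
  fun_prop

/-- `loc22` is smooth in all its arguments. -/
theorem loc22_smoothOn (hU : ContDiffOn ℝ ∞ U s) (hW : ContDiffOn ℝ ∞ W s) (a b : Fin 4) :
    ContDiffOn ℝ ∞ (fun x => loc22 A c r e σ (P x) (Z x) (U x) (W x) a b) s := by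
  have h1 := xx_smoothOn A c hB hZ
  have h2 := yy_smoothOn A c hB hU
  have h3 := yy_smoothOn A c hB hW
  have h4 := hB.wop
  simp only [loc22, k22, Matrix.of_apply]
  refine (etaF_smoothOn A c r hB hZ).mul ((((contDiff_gProf e σ).contDiffOn (s := univ)).comp
    (sdist_smoothOn A c hB hZ) (mapsTo_univ _ _) |>.mul (hB.vs.mul ?_)).add
    (((contDiff_hProf e σ).contDiffOn (s := univ)).comp (sdist_smoothOn A c hB hZ)
      (mapsTo_univ _ _) |>.mul (hB.vs.mul ?_)))
  · simp only [det4_expand]; fun_prop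
  · simp only [curvE, det4_expand]; fun_prop

/-- `loc13` is smooth in all its arguments. -/
theorem loc13_smoothOn (hU : ContDiffOn ℝ ∞ U s) (hW : ContDiffOn ℝ ∞ W s)
    (hY : ContDiffOn ℝ ∞ Y s) (a : Fin 4) :
    ContDiffOn ℝ ∞ (fun x => loc13 A c r e σ (P x) (Z x) (U x) (W x) (Y x) a) s := by
  have h1 := xx_smoothOn A c hB hZ
  have h2 := yy_smoothOn A c hB hU
  have h3 := yy_smoothOn A c hB hW
  have h4 := yy_smoothOn A c hB hY
  simp only [loc13, k13]
  refine (etaF_smoothOn A c r hB hZ).mul (((contDiff_gProf e σ).contDiffOn (s := univ)).comp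
    (sdist_smoothOn A c hB hZ) (mapsTo_univ _ _) |>.mul (hB.vs.mul ?_))
  simp only [det4_expand]; fun_prop

/-- `loc31` is smooth in all its arguments. -/
theorem loc31_smoothOn (a b d : Fin 4) (k : Fin N) :
    ContDiffOn ℝ ∞ (fun x => loc31 A c r e σ (P x) a b d (Z x) k) s := by
  have h1 := xx_smoothOn A c hB hZ
  have h2 : ∀ i, ContDiffOn ℝ ∞ (fun x => yy A c (P x) (Pi.single k (1 : ℝ)) i) s :=
    yy_smoothOn A c hB contDiffOn_const
  have h4 := hB.wop
  simp only [loc31, k31]
  refine (etaF_smoothOn A c r hB hZ).mul ((((contDiff_gProf e σ).contDiffOn (s := univ)).comp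
    (sdist_smoothOn A c hB hZ) (mapsTo_univ _ _) |>.mul (hB.vs.mul ?_)).add
    (((contDiff_hProf e σ).contDiffOn (s := univ)).comp (sdist_smoothOn A c hB hZ)
      (mapsTo_univ _ _) |>.mul (hB.vs.mul ?_)))
  · simp only [det4_expand]; fun_prop
  · simp only [curvE, det4_expand]; fun_prop

end joint

theorem loc22_skew (p : Pt) (z u w : Amb N) :
    (loc22 A c r e σ p z u w)ᵀ = -loc22 A c r e σ p z u w := by
  ext a b
  simp only [loc22, k22, Matrix.transpose_apply, Matrix.neg_apply, Matrix.of_apply]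
  rw [det4_swap₁₂ (xx A c a p z) (xx A c b p z), curvE_swap (wop A c a p) (wop A c b p)]
  ring

theorem loc22_swap (p : Pt) (z u w : Amb N) :
    loc22 A c r e σ p z w u = -loc22 A c r e σ p z u w := by
  ext a b
  simp only [loc22, k22, Matrix.neg_apply, Matrix.of_apply, det4_swap₃₄ _ _ (yy A c p u),
    curvE_swap₃₄ (N := N) _ _ (yy A c p u)]
  ring

theorem loc22_linear (p : Pt) (z : Amb N) (u u' w : Amb N) (t : ℝ) :
    loc22 A c r e σ p z (t • u + u') w =
      t • loc22 A c r e σ p z u w + loc22 A c r e σ p z u' w := by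
  ext a b
  have hy : yy A c p (t • u + u') = t • yy A c p u + yy A c p u' := by
    simp only [yy, mulVec_add, mulVec_smul]
  have h3 : ∀ a b d e e' : Pt,
      det4 a b (t • e + e') d = t * det4 a b e d + det4 a b e' d := fun a b d e e' => by
    simp only [det4_expand, Pi.add_apply, Pi.smul_apply, smul_eq_mul]; ring
  have h4 : ∀ U V : Matrix (Fin 4) (Fin N) ℝ, ∀ e e' d : Pt,
      curvE U V (t • e + e') d = t * curvE U V e d + curvE U V e' d := fun U V e e' d => by
    simp only [curvE, h3, Finset.sum_add_distrib, Finset.mul_sum]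
  simp only [loc22, k22, Matrix.add_apply, Matrix.smul_apply, Matrix.of_apply, smul_eq_mul, hy, h3,
    h4]
  ring

theorem kk_skew (z u w x : Amb N) : (kk A r e σ z u w x)ᵀ = -kk A r e σ z u w x := by
  simp only [kk, Atlas.push, transpose_sum, transpose_smul, ← Finset.sum_neg_distrib, ← smul_neg]
  exact Finset.sum_congr rfl fun c _ => congrArg _ (skew_conj' (loc22_skew A c r e σ _ _ _ _) _)

theorem kk_swap (z u w x : Amb N) : kk A r e σ z w u x = -kk A r e σ z u w x := by
  simp only [kk, Atlas.push, loc22_swap A _ r e σ _ z u w, Matrix.mul_neg, Matrix.neg_mul, smul_neg,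
    Finset.sum_neg_distrib]

theorem kk_linear (z u u' w x : Amb N) (t : ℝ) :
    kk A r e σ z (t • u + u') w x = t • kk A r e σ z u w x + kk A r e σ z u' w x := by
  simp only [kk, Atlas.push, loc22_linear, Matrix.mul_add, Matrix.add_mul, Matrix.mul_smul,
    Matrix.smul_mul, smul_add, Finset.sum_add_distrib, Finset.smul_sum]
  congr 1
  exact Finset.sum_congr rfl fun _ _ => smul_comm _ _ _

/-- For a fixed point of the manifold the kernel is smooth in the other arguments. -/
theorem kk_smooth (x : Amb N) (i k : Fin N) :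
    ContDiff ℝ ∞ fun q : Amb N × Amb N × Amb N => kk A r e σ q.1 q.2.1 q.2.2 x i k := by
  have h : ∀ c a b, ContDiff ℝ ∞ fun q : Amb N × Amb N × Amb N =>
      loc22 A c r e σ (A.phi c x) q.1 q.2.1 q.2.2 a b := fun c a b =>
    contDiffOn_univ.1 (loc22_smoothOn A c r e σ (baseSmooth_const A c univ (A.phi c x))
      contDiffOn_fst (contDiff_fst.comp contDiff_snd).contDiffOn
      (contDiff_snd.comp contDiff_snd).contDiffOn a b)
  simp only [kk, Atlas.push, Matrix.sum_apply, Matrix.smul_apply, Matrix.mul_apply, smul_eq_mul]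
  fun_prop

/-- The kernel is continuous in all arguments on the manifold. -/
theorem kk_continuousOn (i k : Fin N) :
    ContinuousOn (fun q : Amb N × Amb N × Amb N × Amb N => kk A r e σ q.2.1 q.2.2.1 q.2.2.2 q.1 i k)
      (A.X ×ˢ univ) := by
  simp only [kk, Matrix.sum_apply, Matrix.smul_apply, smul_eq_mul]
  refine continuousOn_finsetSum _ fun c _ => ?_
  intro q hq
  by_cases hc : q.1 ∈ A.psi c '' Metric.closedBall 0 (1 / 2)
  · have hp := A.phi_mem c (A.mem_box_image hc)
    set O : Set (Amb N × Amb N × Amb N × Amb N) := (fun q => A.phi c q.1) ⁻¹' box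
    have hO : IsOpen O := isOpen_box.preimage ((A.phi_cont c).comp continuous_fst)
    have hphi : ContDiff ℝ ∞ fun q : Amb N × Amb N × Amb N × Amb N => A.phi c q.1 :=
      (Matrix.mulVecLin (A.L c)).toContinuousLinearMap.contDiff.comp
        (contDiff_fst.sub contDiff_const)
    have h : ∀ a b, ContinuousOn (fun q : Amb N × Amb N × Amb N × Amb N =>
        loc22 A c r e σ (A.phi c q.1) q.2.1 q.2.2.1 q.2.2.2 a b) O := fun a b =>
      (loc22_smoothOn A c r e σ (baseSmooth_of_mapsTo A c hphi.contDiffOn fun x hx => hx)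
        (contDiff_fst.comp contDiff_snd).contDiffOn
        (contDiff_fst.comp (contDiff_snd.comp contDiff_snd)).contDiffOn
        (contDiff_snd.comp (contDiff_snd.comp contDiff_snd)).contDiffOn a b).continuousOn
    refine (((A.chi_cont c).comp continuous_fst).continuousAt.mul ?_).continuousWithinAt
    refine ContinuousOn.continuousAt ?_ (hO.mem_nhds (show q ∈ O from hp))
    simp only [Atlas.push, Matrix.mul_apply]
    fun_prop
  · have h : ∀ᶠ y in 𝓝[A.X ×ˢ univ] q,
        A.chi c y.1 * A.push c (fun p => loc22 A c r e σ p y.2.1 y.2.2.1 y.2.2.2) y.1 i k = 0 := by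
      filter_upwards [nhdsWithin_le_nhds
        (((A.isClosed_half c).isOpen_compl.preimage continuous_fst).mem_nhds hc),
        self_mem_nhdsWithin] with y hy hyX
      by_contra hne
      exact hy (A.chi_supp c y.1 hyX.1 (left_ne_zero_of_mul hne))
    exact (continuousWithinAt_const (b := (0 : ℝ))).congr_of_eventuallyEq h (by
      by_contra hne
      exact hc (A.chi_supp c q.1 hq.1 (left_ne_zero_of_mul hne)))

/-- A skew field with smooth entries is a test form. -/
theorem isTestX_of_smooth {a : Amb N → MN N} (hs : ∀ x, (a x)ᵀ = -a x)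
    (h : ∀ i k, ContDiff ℝ ∞ fun x => a x i k) : IsTestX A a := by
  refine ⟨hs, fun c i k => ContDiff.contDiffOn ?_⟩
  have h1 := fun a' i => A.dmat_smooth c a' i
  have h2 : ∀ a' b', ContDiff ℝ ∞ fun p => a (A.psi c p) a' b' := fun a' b' =>
    (h a' b').comp (A.psi_smooth c)
  simp only [Atlas.pull, Atlas.pullAt, Matrix.mul_apply, Matrix.transpose_apply]
  exact ContDiff.sum fun j _ => (ContDiff.sum fun l _ => (h1 l i).mul (h2 l j)).mul (h1 j k)

/-- The kernel as a form in the second point is a test form. -/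
theorem zForm_test (x : Amb N) (i k : Fin N) : IsTestX A (zForm A r e σ x i k) := by
  refine isTestX_of_smooth A (fun z => ?_) fun u w => ?_
  · ext u w
    simp only [zForm, Matrix.transpose_apply, Matrix.neg_apply, Matrix.of_apply]
    rw [kk_swap, Matrix.neg_apply]
  · have hm : ContDiff ℝ ∞ fun z : Amb N =>
        (z, (Pi.single u (1 : ℝ) : Amb N), (Pi.single w (1 : ℝ) : Amb N)) :=
      contDiff_id.prodMk (contDiff_const.prodMk contDiff_const)
    have h0 := (kk_smooth A r e σ x i k).comp hm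
    simp only [Function.comp_def] at h0
    simp only [zForm, Matrix.of_apply]
    exact h0

end Vale.Agent.P204.Kernel
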