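import Mathlib
import Vale.Agent.P204.Kernel.Smooth
import Vale.Agent.P204.Kernel.Subord

/-!
# P204: the kernel as a function of the width and the points together

Kernels in `SK S` are continuous for positive widths and grow at most like the inverse fourth
power of the width. Subordination commutes with integration for them.
-/

open MeasureTheory Matrix Filter Set
open scoped ContDiff Topology

namespace Vale.Agent.P204.Kernel

open Vale.Agent.P204.General Vale.Agent.P204.Torus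

theorem continuousOn_gProf₂ (d : ℝ) :
    ContinuousOn (fun q : ℝ × ℝ => gProf d q.1 q.2) (Ioi 0 ×ˢ univ) := by
  unfold gProf cutF
  refine (Real.smoothTransition.continuous.comp (by fun_prop)).continuousOn.mul
    (ContinuousOn.mul (ContinuousOn.inv₀ (by fun_prop) fun q hq => ?_) ?_)
  · have : (0 : ℝ) < q.1 := hq.1
    positivity
  · refine Real.continuous_exp.comp_continuousOn (ContinuousOn.div (by fun_prop) (by fun_prop) ?_)
    intro q hq
    have : (0 : ℝ) < q.1 := hq.1
    positivity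

theorem continuousOn_hProf₂ (d : ℝ) :
    ContinuousOn (fun q : ℝ × ℝ => hProf d q.1 q.2) (Ioi 0 ×ˢ univ) := by
  have h : Continuous (Function.uncurry fun (σ : Ioi (0 : ℝ)) t => gProf d σ t) :=
    (continuousOn_gProf₂ d).comp_continuous (by fun_prop : Continuous
      fun z : Ioi (0 : ℝ) × ℝ => ((z.1 : ℝ), z.2)) fun z => ⟨z.1.2, trivial⟩
  have h2 := (intervalIntegral.continuous_parametric_primitive_of_continuous
    (μ := volume) (a₀ := d) h).neg.const_mul (2 : ℝ)⁻¹
  rw [continuousOn_iff_continuous_domRestrict]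
  refine (h2.comp (f := fun z : (Ioi (0 : ℝ) ×ˢ univ : Set (ℝ × ℝ)) =>
    ((⟨z.1.1, z.2.1⟩ : Ioi (0 : ℝ)), z.1.2)) (by fun_prop)).congr fun z => ?_
  simp only [Set.domRestrict_apply, Function.comp_apply, Pi.neg_apply, hProf,
    intervalIntegral.integral_symm d z.1.2]

/-- A width-dependent kernel, continuous and with the growth of a Gaussian. -/
structure SK {Z : Type} [TopologicalSpace Z] (S : Set Z) (H : ℝ → Z → ℝ) : Prop where
  cont : ContinuousOn (fun q : ℝ × Z => H q.1 q.2) (Ioi 0 ×ˢ S)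
  bound : ∃ B, ∀ σ, 0 < σ → ∀ z ∈ S, |H σ z| ≤ B * (1 + 1 / σ ^ 4)

section gen

variable {Z : Type} [TopologicalSpace Z] {S : Set Z} {H H' : ℝ → Z → ℝ}

theorem SK.congr (h : SK S H) (he : ∀ σ, 0 < σ → ∀ z ∈ S, H' σ z = H σ z) : SK S H' := by
  obtain ⟨B, hB⟩ := h.bound
  exact ⟨h.cont.congr fun q hq => he q.1 hq.1 q.2 hq.2,
    B, fun σ hσ z hz => by rw [he σ hσ z hz]; exact hB σ hσ z hz⟩

theorem SK.zero : SK S fun _ _ => 0 := ⟨continuousOn_const, 0, fun σ _ z _ => by simp⟩

theorem SK.sum {ι : Type*} (s : Finset ι) {F : ι → ℝ → Z → ℝ} (h : ∀ i ∈ s, SK S (F i)) :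
    SK S fun σ z => ∑ i ∈ s, F i σ z := by
  choose! B hB using fun i hi => (h i hi).bound
  refine ⟨continuousOn_finsetSum _ fun i hi => (h i hi).cont, ∑ i ∈ s, B i, fun σ hσ z hz => ?_⟩
  rw [Finset.sum_mul]
  exact (Finset.abs_sum_le_sum_abs _ _).trans (Finset.sum_le_sum fun i hi => hB i hi σ hσ z hz)

theorem SK.mul_fun (h : SK S H) (hS : IsCompact S) {g : Z → ℝ} (hg : ContinuousOn g S) :
    SK S fun σ z => g z * H σ z := by
  obtain ⟨B, hB⟩ := h.bound
  obtain ⟨C, hC⟩ := hS.exists_bound_of_continuousOn hg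
  refine ⟨(hg.comp continuousOn_snd fun q hq => hq.2).mul h.cont, C * B, fun σ hσ z hz => ?_⟩
  rw [abs_mul, mul_assoc]
  exact mul_le_mul (hC z hz) (hB σ hσ z hz) (abs_nonneg _) ((norm_nonneg _).trans (hC z hz))

theorem SK.comp {Z' : Type} [TopologicalSpace Z'] {S' : Set Z'} (h : SK S H) {f : Z' → Z}
    (hf : ContinuousOn f S') (hm : MapsTo f S' S) : SK S' fun σ z => H σ (f z) := by
  obtain ⟨B, hB⟩ := h.bound
  exact ⟨h.cont.comp (continuousOn_fst.prodMk (hf.comp continuousOn_snd fun q hq => hq.2))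
    fun q hq => ⟨hq.1, hm hq.2⟩, B, fun σ hσ z hz => hB σ hσ _ (hm hz)⟩

theorem SK.union {S₂ : Set Z} (h₁ : IsClosed S) (h₂ : IsClosed S₂) (h : SK S H) (h' : SK S₂ H) :
    SK (S ∪ S₂) H := by
  obtain ⟨B, hB⟩ := h.bound
  obtain ⟨B', hB'⟩ := h'.bound
  refine ⟨fun q hq => ?_, max B B', fun σ hσ z hz => ?_⟩
  · rw [prod_union]
    have key : ∀ {T : Set Z}, IsClosed T → SK T H →
        ContinuousWithinAt (fun q : ℝ × Z => H q.1 q.2) (Ioi 0 ×ˢ T) q := fun {T} hT hk => by
      by_cases hm : q.2 ∈ T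
      · exact hk.cont q ⟨hq.1, hm⟩
      · refine continuousWithinAt_of_notMem_closure fun hc => hm ?_
        rw [closure_prod_eq, hT.closure_eq] at hc
        exact hc.2
    exact (key h₁ h).union (key h₂ h')
  · have : 0 ≤ 1 + 1 / σ ^ 4 := by positivity
    rcases hz with hz | hz
    · exact (hB σ hσ z hz).trans (mul_le_mul_of_nonneg_right (le_max_left _ _) this)
    · exact (hB' σ hσ z hz).trans (mul_le_mul_of_nonneg_right (le_max_right _ _) this)

/-- A profile in a nonnegative continuous argument gives such a kernel. -/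
theorem SK.profile {d : ℝ} (hd : 0 < d) (hS : IsCompact S) {s P Q : Z → ℝ}
    (hs : ContinuousOn s S) (hs0 : ∀ z ∈ S, 0 ≤ s z) (hP : ContinuousOn P S)
    (hQ : ContinuousOn Q S) :
    SK S fun σ z => gProf d σ (s z) * P z + hProf d σ (s z) * Q z := by
  have hq : ContinuousOn (fun q : ℝ × Z => (q.1, s q.2)) (Ioi 0 ×ˢ S) :=
    continuousOn_fst.prodMk (hs.comp continuousOn_snd fun q hq => hq.2)
  refine ⟨(((continuousOn_gProf₂ d).comp hq fun q hq => ⟨hq.1, trivial⟩).mul
    (hP.comp continuousOn_snd fun q hq => hq.2)).add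
    (((continuousOn_hProf₂ d).comp hq fun q hq => ⟨hq.1, trivial⟩).mul
      (hQ.comp continuousOn_snd fun q hq => hq.2)), ?_⟩
  obtain ⟨C, hC⟩ := hS.exists_bound_of_continuousOn hP
  obtain ⟨C', hC'⟩ := hS.exists_bound_of_continuousOn hQ
  refine ⟨C + 2 * C', fun σ hσ z hz => ?_⟩
  have hC0 : 0 ≤ C := (norm_nonneg _).trans (hC z hz)
  have hC0' : 0 ≤ C' := (norm_nonneg _).trans (hC' z hz)
  have he : Real.exp (-s z / (4 * σ ^ 2)) ≤ 1 := Real.exp_le_one_iff.2 (by
    rw [neg_div]; exact neg_nonpos.2 (div_nonneg (hs0 z hz) (by positivity)))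
  have h4 : Real.exp (-s z / (4 * σ ^ 2)) / σ ^ 4 ≤ 1 + 1 / σ ^ 4 :=
    (div_le_div_of_nonneg_right he (by positivity)).trans (by linarith)
  have h2 : Real.exp (-s z / (4 * σ ^ 2)) / σ ^ 2 ≤ 1 + 1 / σ ^ 4 := by
    refine (div_le_div_of_nonneg_right he (by positivity)).trans ?_
    have : 1 / σ ^ 4 = (1 / σ ^ 2) ^ 2 := by field_simp
    rw [this]
    nlinarith [sq_nonneg (1 / σ ^ 2 - 1)]
  have h1 := (gProf_bound d σ (s z)).trans h4
  have h3 := (hProf_bound hd hσ (s z)).trans (mul_le_mul_of_nonneg_left h2 zero_le_two)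
  refine (abs_add_le _ _).trans ?_
  rw [abs_mul, abs_mul]
  calc |gProf d σ (s z)| * |P z| + |hProf d σ (s z)| * |Q z|
      ≤ (1 + 1 / σ ^ 4) * C + 2 * (1 + 1 / σ ^ 4) * C' :=
        add_le_add (mul_le_mul h1 (hC z hz) (abs_nonneg _) (by positivity))
          (mul_le_mul h3 (hC' z hz) (abs_nonneg _) (by positivity))
    _ = _ := by ring

end gen

/-! ### Subordination -/

section swap

theorem sigma_pos {ε t : ℝ} (hε : 0 < ε) (ht : t ∈ Ioc 0 (1 / ε)) : 0 < ε * Real.sqrt t :=
  mul_pos hε (Real.sqrt_pos.2 ht.1)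

theorem omW_mul_zero {ε t : ℝ} (f : ℝ) (ht : t ∉ Ioc 0 (1 / ε)) : omW ε t * f = 0 := by
  rw [omW, indicator_of_notMem ht, zero_mul]

variable {Z : Type} [TopologicalSpace Z] [MeasurableSpace Z] [OpensMeasurableSpace Z]
  [SecondCountableTopology Z] {S : Set Z} {H : ℝ → Z → ℝ}

/-- Subordination commutes with integration. -/
theorem SK.swap (h : SK S H) {ε : ℝ} (hε : 0 < ε) (ν : Measure Z) [IsFiniteMeasure ν]
    (hS : MeasurableSet S) (hν : ∀ᵐ z ∂ν, z ∈ S) :
    Integrable (fun z => ∫ t, omW ε t * H (ε * Real.sqrt t) z) ν ∧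
      Integrable (fun t => omW ε t * ∫ z, H (ε * Real.sqrt t) z ∂ν) ∧
      ∫ z, ∫ t, omW ε t * H (ε * Real.sqrt t) z ∂volume ∂ν =
        ∫ t, omW ε t * ∫ z, H (ε * Real.sqrt t) z ∂ν := by
  set τ : Measure ℝ := volume.restrict (Ioc 0 (1 / ε)) with hτ
  have : IsFiniteMeasure τ := ⟨by simp [hτ, Measure.restrict_apply]⟩
  set F : ℝ × Z → ℝ := fun q => omW ε q.1 * H (ε * Real.sqrt q.1) q.2 with hF
  have hc : ContinuousOn F (Ioc 0 (1 / ε) ×ˢ S) := by
    refine ContinuousOn.congr (f := fun q : ℝ × Z =>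
      q.1 ^ 4 / 24 * Real.exp (-q.1) * H (ε * Real.sqrt q.1) q.2) ?_ fun q hq => by
      simp only [hF, omW, indicator_of_mem hq.1]
    refine (by fun_prop : Continuous fun q : ℝ × Z => q.1 ^ 4 / 24 * Real.exp (-q.1)).continuousOn.mul
      (h.cont.comp (f := fun q : ℝ × Z => (ε * Real.sqrt q.1, q.2)) (by fun_prop)
        fun q hq => ⟨sigma_pos hε hq.1, hq.2⟩)
  obtain ⟨B, hB⟩ := h.bound
  set M := |B| * ((1 / ε) ^ 4 + (1 / ε) ^ 2 / ε ^ 4)
  have hb : ∀ t ∈ Ioc 0 (1 / ε), ∀ z ∈ S, |F (t, z)| ≤ M := fun t ht z hz => by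
    have ht0 := ht.1
    have hz' := (hB _ (sigma_pos hε ht) z hz).trans (mul_le_mul_of_nonneg_right (le_abs_self B)
      (by positivity))
    simp only [hF, abs_mul]
    rw [abs_of_nonneg (omW_nonneg _ _)]
    refine (mul_le_mul_of_nonneg_left hz' (omW_nonneg _ _)).trans ?_
    rw [omW, indicator_of_mem ht, mul_left_comm]
    refine mul_le_mul_of_nonneg_left ?_ (abs_nonneg B)
    have he : Real.exp (-t) ≤ 1 := Real.exp_le_one_iff.2 (by linarith)
    have e1 : (ε * Real.sqrt t) ^ 4 = ε ^ 4 * t ^ 2 := by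
      rw [mul_pow, show 4 = 2 * 2 from rfl, pow_mul (Real.sqrt t), Real.sq_sqrt ht0.le]
    rw [e1]
    calc t ^ 4 / 24 * Real.exp (-t) * (1 + 1 / (ε ^ 4 * t ^ 2))
        ≤ t ^ 4 / 1 * 1 * (1 + 1 / (ε ^ 4 * t ^ 2)) := by gcongr; norm_num
      _ = t ^ 4 + t ^ 2 / ε ^ 4 := by field_simp
      _ ≤ _ := by gcongr <;> exact ht.2
  have hmem : ∀ᵐ q ∂τ.prod ν, q ∈ Ioc 0 (1 / ε) ×ˢ S := by
    refine Measure.ae_prod_mem_iff_ae_ae_mem (measurableSet_Ioc.prod hS) |>.2 ?_
    filter_upwards [ae_restrict_mem measurableSet_Ioc] with t ht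
    exact hν.mono fun z hz => ⟨ht, hz⟩
  have hint : Integrable F (τ.prod ν) := by
    refine Integrable.of_bound ?_ M (hmem.mono fun q hq => hb q.1 hq.1 q.2 hq.2)
    have := hc.aestronglyMeasurable (μ := τ.prod ν) (measurableSet_Ioc.prod hS)
    rwa [Measure.restrict_eq_self_of_ae_mem hmem] at this
  have ht : ∀ f : ℝ → ℝ, ∫ t, omW ε t * f t = ∫ t, omW ε t * f t ∂τ := fun f =>
    (setIntegral_eq_integral_of_forall_compl_eq_zero fun t ht => omW_mul_zero _ ht).symm
  refine ⟨hint.integral_prod_right.congr (Eventually.of_forall fun z =>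
      (ht fun t => H (ε * Real.sqrt t) z).symm), ?_, ?_⟩
  · refine IntegrableOn.integrable_of_forall_notMem_eq_zero
      (hint.integral_prod_left.congr (Eventually.of_forall fun t => ?_)) fun t ht => omW_mul_zero _ ht
    exact integral_const_mul (omW ε t) fun z => H (ε * Real.sqrt t) z
  · rw [ht]
    simp only [ht fun t => H (ε * Real.sqrt t) _]
    rw [← integral_integral_swap hint]
    exact integral_congr_ae (Eventually.of_forall fun t => integral_const_mul _ _)

omit [MeasurableSpace Z] [OpensMeasurableSpace Z] [SecondCountableTopology Z] in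
/-- The subordination integral converges at every point. -/
theorem SK.int_t (h : SK S H) {ε : ℝ} (hε : 0 < ε) {z : Z} (hz : z ∈ S) :
    Integrable fun t => omW ε t * H (ε * Real.sqrt t) z := by
  simpa using ((h.comp (S' := (univ : Set Unit)) (f := fun _ => z) continuousOn_const
    fun _ _ => hz).swap hε (Measure.dirac ()) MeasurableSet.univ (by simp)).2.1

end swap

/-! ### The kernel -/

variable {N K : ℕ} (A : Atlas N K)

theorem sdist_nonneg_all (c : Fin K) (p : Pt) (z : Amb N) : 0 ≤ sdist A c p z := by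
  rw [sdist, gram, ← mulVec_mulVec, dotProduct_mulVec, vecMul_transpose]
  exact Finset.sum_nonneg fun i _ => mul_self_nonneg _

theorem kk_SK {Z : Type} [TopologicalSpace Z] [T2Space Z] {S : Set Z} {r d : ℝ} (hd : 0 < d)
    (hS : IsCompact S) {fx fz fu fw : Z → Amb N} (hx : ContinuousOn fx S) (hm : MapsTo fx S A.X)
    (hz : ContinuousOn fz S) (hu : ContinuousOn fu S) (hw : ContinuousOn fw S) (i k : Fin N) :
    SK S fun σ z => kk A r d σ (fz z) (fu z) (fw z) (fx z) i k := by
  simp only [kk, Matrix.sum_apply, Matrix.smul_apply, smul_eq_mul, Atlas.push, Matrix.mul_apply,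
    Finset.sum_mul, Finset.mul_sum]
  refine SK.sum _ fun c _ => SK.sum _ fun b _ => SK.sum _ fun a _ => ?_
  simp only [Matrix.transpose_apply]
  set S₁ := S ∩ fx ⁻¹' (A.psi c '' Metric.closedBall 0 (1 / 2))
  set S₂ := S ∩ (fun z => A.chi c (fx z)) ⁻¹' {0}
  have hc₁ : IsClosed S₁ := hx.preimage_isClosed_of_isClosed hS.isClosed (A.isClosed_half c)
  have hc₂ : IsClosed S₂ :=
    ((A.chi_cont c).comp_continuousOn hx).preimage_isClosed_of_isClosed hS.isClosed
      isClosed_singleton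
  have hu' : S = S₁ ∪ S₂ := Subset.antisymm (fun z hzS => by
      by_cases h0 : A.chi c (fx z) = 0
      · exact Or.inr ⟨hzS, h0⟩
      · exact Or.inl ⟨hzS, A.chi_supp c _ (hm hzS) h0⟩)
    (union_subset inter_subset_left inter_subset_left)
  rw [hu']
  refine SK.union hc₁ hc₂ ?_ (SK.zero.congr fun σ _ z hzS => by
    rw [show A.chi c (fx z) = 0 from hzS.2, zero_mul])
  have hK₁ : IsCompact S₁ := hS.of_isClosed_subset hc₁ inter_subset_left
  set T : Set (Amb N × Amb N × Amb N × Amb N) :=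
    (fun q => A.phi c q.1) ⁻¹' box
  have hphi : ContDiff ℝ ∞ fun q : Amb N × Amb N × Amb N × Amb N => A.phi c q.1 :=
    (Matrix.mulVecLin (A.L c)).toContinuousLinearMap.contDiff.comp
      (contDiff_fst.sub contDiff_const)
  have hB := baseSmooth_of_mapsTo A c (s := T) hphi.contDiffOn fun x hx => hx
  have hZ : ContDiffOn ℝ ∞ (fun q : Amb N × Amb N × Amb N × Amb N => q.2.1) T := by fun_prop
  have h1 := fun a i => (xx_smoothOn A c hB hZ a i).continuousOn
  have h2 := fun i => (yy_smoothOn A c hB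
    (contDiff_fst.comp (contDiff_snd.comp contDiff_snd)).contDiffOn i).continuousOn
  have h3 := fun i => (yy_smoothOn A c hB
    (contDiff_snd.comp (contDiff_snd.comp contDiff_snd)).contDiffOn i).continuousOn
  have h4 := fun a i k => (hB.wop a i k).continuousOn
  have hP : ∀ x y, ContinuousOn (fun q : Amb N × Amb N × Amb N × Amb N => vs A c (A.phi c q.1) *
      det4 (xx A c x (A.phi c q.1) q.2.1) (xx A c y (A.phi c q.1) q.2.1)
        (yy A c (A.phi c q.1) q.2.2.1) (yy A c (A.phi c q.1) q.2.2.2)) T := fun x y => by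
    refine hB.vs.continuousOn.mul ?_
    simp only [det4_expand]; fun_prop
  have hQ : ∀ x y, ContinuousOn (fun q : Amb N × Amb N × Amb N × Amb N => vs A c (A.phi c q.1) *
      curvE (wop A c x (A.phi c q.1)) (wop A c y (A.phi c q.1))
        (yy A c (A.phi c q.1) q.2.2.1) (yy A c (A.phi c q.1) q.2.2.2)) T := fun x y => by
    refine hB.vs.continuousOn.mul ?_
    simp only [curvE, det4_expand]; fun_prop
  set f : Z → Amb N × Amb N × Amb N × Amb N := fun z => (fx z, fz z, fu z, fw z)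
  have hf : ContinuousOn f S₁ :=
    (hx.prodMk (hz.prodMk (hu.prodMk hw))).mono inter_subset_left
  have hfm : MapsTo f S₁ T := fun z hzS => A.phi_mem c (A.mem_box_image hzS.2)
  have key := ((SK.profile hd hK₁ (((sdist_smoothOn A c hB hZ).continuousOn).comp hf hfm)
    (fun z _ => sdist_nonneg_all A c _ _) ((hP a b).comp hf hfm) ((hQ a b).comp hf hfm)).mul_fun hK₁
    (g := fun z => A.chi c (fx z) * A.L c a i * etaF r (fz z - A.psi c (A.phi c (fx z))) *
      A.L c b k) ?_)
  · refine key.congr fun σ _ z _ => ?_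
    simp only [loc22, k22, Matrix.of_apply, Function.comp_apply, f]
    ring
  · exact ((((A.chi_cont c).comp_continuousOn (hx.mono inter_subset_left)).mul
      continuousOn_const).mul (((etaF_smoothOn A c r hB hZ).continuousOn).comp hf hfm)).mul
      continuousOn_const

end Vale.Agent.P204.Kernel
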