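import Mathlib
import Vale.Agent.P204.Kernel.Smooth
import Vale.Agent.P204.Est.Param
import Vale.Agent.P204.General.Forms

/-!
# P204: smoothing of continuous forms

`GS` sends continuous forms to forms with smooth ambient coefficients.
-/

open MeasureTheory Matrix Filter Set
open scoped ContDiff Topology

namespace Vale.Agent.P204.Kernel

open Vale.Agent.P204.General Vale.Agent.P204.Torus

variable {N K : ℕ} (A : Atlas N K) {J : Amb N → MN N} (r e σ : ℝ)

/-- A form with continuous coefficients in every chart. -/
structure IsContX (A : Atlas N K) (b : Amb N → MN N) : Prop where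
  skew : ∀ x, (b x)ᵀ = -b x
  cont : ∀ c i k, ContinuousOn (fun p => A.pull c b p i k) box

theorem _root_.Vale.Agent.P204.General.IsTestX.contX {b : Amb N → MN N} (hb : IsTestX A b) :
    IsContX A b :=
  ⟨hb.skew, fun c i k => (hb.smooth c i k).continuousOn⟩

/-- An integral over the manifold is the sum of the weighted chart integrals. -/
theorem integral_vol {h : Amb N → ℝ} (hc : ContinuousOn h A.X) :
    ∫ x, h x ∂A.vol = ∑ c, ∫ p in box, A.chi c (A.psi c p) * h (A.psi c p) := by
  have hint := integrable_of_continuousOn A hc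
  have hmap : ∀ c, Integrable h ((chartVol A c).map (A.psi c)) := fun c =>
    hint.mono_measure (by
      rw [vol_eq]
      exact Finset.single_le_sum (f := fun c => (chartVol A c).map (A.psi c))
        (fun _ _ => Measure.zero_le _) (Finset.mem_univ c))
  rw [vol_eq, integral_finsetSum_measure fun c _ => hmap c]
  refine Finset.sum_congr rfl fun c _ => ?_
  have hm : Measurable fun p => ENNReal.ofReal (A.chi c (A.psi c p)) :=
    (ENNReal.continuous_ofReal.comp
      ((A.chi_smooth c).continuous.comp (A.psi_cont c))).measurable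
  rw [integral_map (A.psi_cont c).measurable.aemeasurable (hmap c).aestronglyMeasurable, chartVol,
    integral_withDensity_eq_integral_toReal_smul hm
      (Eventually.of_forall fun _ => ENNReal.ofReal_lt_top)]
  simp only [ENNReal.toReal_ofReal (A.chi_nonneg c _), smul_eq_mul]

variable {A} in
/-- Two continuous forms have an integrable wedge product. -/
theorem continuousOn_wedge_cont (hJ : IsACS A J) {b b' : Amb N → MN N} (hb : IsContX A b)
    (hb' : IsContX A b') : ContinuousOn (fun x => A.wedgePt x (b x) (b' x)) A.X :=
  continuousOn_wedgePt A hb.skew hb'.skew hJ hb.cont hb'.cont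

theorem wedge_expand (P Q : M4) :
    wedge P Q = ∑ a, ∑ b, wedge P (Matrix.single a b 1) * Q a b := by
  simp [wedge, Fin.sum_univ_four]
  ring

/-- The wedge integral against a continuous form, chart by chart. -/
theorem wedgeInt_charts (hJ : IsACS A J) {b b' : Amb N → MN N} (hb : IsContX A b)
    (hb' : IsContX A b') :
    A.wedgeInt b b' = ∑ c, ∫ p in box, A.chi c (A.psi c p) *
      (wedge (A.pull c b p) (A.pull c b' p) / A.dens c p) := by
  rw [Atlas.wedgeInt, integral_vol A (continuousOn_wedge_cont hJ hb hb')]
  refine Finset.sum_congr rfl fun c _ => setIntegral_congr_fun isOpen_box.measurableSet fun p hp => ?_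
  rw [wedgePt_chart A (hb.skew _) (hb'.skew _) c hp]
  rfl

/-- The kernel is a continuous form in the first point. -/
theorem kk_contX (z u w : Amb N) (hJ : IsACS A J) :
    IsContX A (kk A r e σ z u w) := by
  refine ⟨fun x => kk_skew A r e σ z u w x, fun c i k => ?_⟩
  refine ContinuousOn.congr (f := fun p => loc22 A c r e σ p z u w i k) ?_ fun p hp => by
    show A.pullAt c (kk A r e σ z u w (A.psi c p)) p i k = _
    rw [kk_chart A hJ r e σ z u w c hp]
  exact (loc22_smoothOn A c r e σ (baseSmooth_of_mapsTo A c contDiffOn_id fun x hx => hx)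
    (Z := fun _ => z) (U := fun _ => u) (W := fun _ => w) contDiffOn_const contDiffOn_const
    contDiffOn_const i k).continuousOn

/-- The weight of a coefficient of the first form in one chart. -/
noncomputable def cWeight (b : Amb N → MN N) (c : Fin K) (i k : Fin 4) (p : Pt) : ℝ :=
  A.chi c (A.psi c p) * (wedge (A.pull c b p) (Matrix.single i k 1) / A.dens c p)

theorem cWeight_supp (b : Amb N → MN N) (c : Fin K) (i k : Fin 4) {p : Pt} (hp : p ∈ box)
    (h : cWeight A b c i k p ≠ 0) : p ∈ Metric.closedBall (0 : Pt) (1 / 2) := by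
  obtain ⟨q, hq, he⟩ := A.chi_supp c _ (A.psi_mem c p hp) (left_ne_zero_of_mul h)
  rw [← A.phi_psi c hp, ← he, A.phi_psi c (closedBall_subset_box hq)]
  exact hq

theorem cWeight_integrable (hJ : IsACS A J) {b : Amb N → MN N} (hb : IsContX A b) (c : Fin K)
    (i k : Fin 4) : IntegrableOn (cWeight A b c i k) box := by
  have h1 : ContinuousOn (cWeight A b c i k) box := by
    refine ((A.chi_cont c).comp (A.psi_cont c)).continuousOn.mul
      (ContinuousOn.div ?_ (continuousOn_dens A c) fun p hp => (dens_pos A hJ c hp).ne')
    have h : ∀ i j, ContinuousOn (fun p => A.pull c b p i j) box := hb.cont c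
    simp only [wedge]
    fun_prop
  refine IntegrableOn.of_forall_sdiff_eq_zero
    ((h1.mono closedBall_subset_box).integrableOn_compact (isCompact_closedBall (0 : Pt) (1 / 2)))
    isOpen_box.measurableSet fun p hp => ?_
  by_contra hne
  exact hp.2 (cWeight_supp A b c i k hp.1 hne)

/-- A bump on a chart. -/
noncomputable def chartBump : ContDiffBump (0 : Pt) := ⟨1 / 2, 3 / 4, by norm_num, by norm_num⟩

theorem tsupport_chartBump : tsupport (chartBump : Pt → ℝ) ⊆ box := by
  rw [chartBump.tsupport_eq]; exact Metric.closedBall_subset_ball (by norm_num [chartBump])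

/-- The kernel coefficient, cut off to a globally smooth function. -/
noncomputable def cCoef (u w : Amb N) (c : Fin K) (i k : Fin 4) (q : Amb N × Pt) : ℝ :=
  chartBump q.2 * loc22 A c r e σ q.2 q.1 u w i k

theorem cCoef_smooth (u w : Amb N) (c : Fin K) (i k : Fin 4) :
    ContDiff ℝ ∞ (cCoef A r e σ u w c i k) := contDiff_iff_contDiffAt.2 fun q => by
  by_cases hp : q.2 ∈ box
  · refine (chartBump.contDiff.contDiffAt.comp q contDiffAt_snd).mul
      ((loc22_smoothOn A c r e σ (s := univ ×ˢ box) (P := fun q : Amb N × Pt => q.2) (Z := fun q => q.1)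
        (U := fun _ => u) (W := fun _ => w)
        (baseSmooth_of_mapsTo A c contDiffOn_snd fun x hx => hx.2) contDiffOn_fst contDiffOn_const
        contDiffOn_const i k).contDiffAt ?_)
    exact prod_mem_nhds univ_mem (isOpen_box.mem_nhds hp)
  · refine contDiffAt_const (c := (0 : ℝ)).congr_of_eventuallyEq ?_
    filter_upwards [continuous_snd.continuousAt.eventually
      (notMem_tsupport_iff_eventuallyEq.1 fun h => hp (tsupport_chartBump h))] with y hy
    simp only [cCoef, hy, Pi.zero_apply, zero_mul]

variable {A} in
/-- The pairing with the kernel, through globally smooth integrands. -/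
theorem wedgeInt_kk (hJ : IsACS A J) {b : Amb N → MN N} (hb : IsContX A b) (z u w : Amb N) :
    A.wedgeInt b (kk A r e σ z u w) = ∑ c, ∑ i, ∑ k, ∫ p in box,
      cWeight A b c i k p • cCoef A r e σ u w c i k (z, p) := by
  rw [wedgeInt_charts A hJ hb (kk_contX A r e σ z u w hJ)]
  refine Finset.sum_congr rfl fun c _ => ?_
  have hi : ∀ i k, IntegrableOn (fun p => cWeight A b c i k p • cCoef A r e σ u w c i k (z, p)) box :=
    fun i k => by
    refine Est.integrable_carried (μ := volume.restrict box) (pr := id)
      (g := fun p => cCoef A r e σ u w c i k (z, p))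
      ((cCoef_smooth A r e σ u w c i k).continuous.comp (Continuous.prodMk_right z))
      (cWeight_integrable A hJ hb c i k) measurable_id (isCompact_closedBall (0 : Pt) (1 / 2)) ?_
    exact (ae_restrict_mem isOpen_box.measurableSet).mono fun p hp h => cWeight_supp A b c i k hp h
  rw [Finset.sum_congr rfl fun i _ => (integral_finsetSum _ fun k _ => hi i k).symm,
    ← integral_finsetSum _ fun i _ => integrable_finsetSum _ fun k _ => hi i k]
  refine setIntegral_congr_fun isOpen_box.measurableSet fun p hp => ?_
  show A.chi c (A.psi c p) * (wedge (A.pull c b p) (A.pullAt c (kk A r e σ z u w (A.psi c p)) p) /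
    A.dens c p) = _
  rw [kk_chart A hJ r e σ z u w c hp, wedge_expand, Finset.sum_div, Finset.mul_sum]
  refine Finset.sum_congr rfl fun i _ => ?_
  rw [Finset.sum_div, Finset.mul_sum]
  refine Finset.sum_congr rfl fun k _ => ?_
  simp only [cWeight, cCoef, smul_eq_mul]
  rcases eq_or_ne (A.chi c (A.psi c p)) 0 with h | h
  · simp [h]
  · obtain ⟨q, hq, he⟩ := A.chi_supp c _ (A.psi_mem c p hp) h
    have hpq : p = q := by
      rw [← A.phi_psi c hp, ← he, A.phi_psi c (closedBall_subset_box hq)]
    rw [hpq, chartBump.one_of_mem_closedBall (show q ∈ Metric.closedBall 0 chartBump.rIn from hq)]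
    ring

theorem pairing_smooth (hJ : IsACS A J) {b : Amb N → MN N} (hb : IsContX A b) (u w : Amb N) :
    ContDiff ℝ ∞ fun z => A.wedgeInt b (kk A r e σ z u w) := by
  simp only [wedgeInt_kk r e σ hJ hb]
  refine ContDiff.sum fun c _ => ContDiff.sum fun i _ => ContDiff.sum fun k _ => ?_
  exact Est.contDiff_param (μ := volume.restrict box) (pr := id) (cCoef_smooth A r e σ u w c i k)
    (cWeight_integrable A hJ hb c i k) measurable_id (isCompact_closedBall (0 : Pt) (1 / 2))
    ((ae_restrict_mem isOpen_box.measurableSet).mono fun p hp h => cWeight_supp A b c i k hp h)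

variable {A} in
theorem fderiv_pairing (hJ : IsACS A J) {b : Amb N → MN N} (hb : IsContX A b) (z v u w : Amb N) :
    fderiv ℝ (fun z => A.wedgeInt b (kk A r e σ z u w)) z v = ∑ c, ∑ i, ∑ k, ∫ p in box,
      cWeight A b c i k p • fderiv ℝ (fun z => cCoef A r e σ u w c i k (z, p)) z v := by
  simp only [wedgeInt_kk r e σ hJ hb]
  have hd : ∀ c i k, DifferentiableAt ℝ
      (fun z => ∫ p in box, cWeight A b c i k p • cCoef A r e σ u w c i k (z, p)) z := fun c i k =>
    ((Est.contDiff_param (μ := volume.restrict box) (pr := id) (cCoef_smooth A r e σ u w c i k)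
      (cWeight_integrable A hJ hb c i k) measurable_id (isCompact_closedBall (0 : Pt) (1 / 2))
      ((ae_restrict_mem isOpen_box.measurableSet).mono fun p hp h =>
        cWeight_supp A b c i k hp h)).differentiable (by simp)).differentiableAt
  rw [fderiv_fun_sum fun c _ => DifferentiableAt.fun_sum fun i _ =>
    DifferentiableAt.fun_sum fun k _ => hd c i k]
  simp only [ContinuousLinearMap.sum_apply]
  refine Finset.sum_congr rfl fun c _ => ?_
  rw [fderiv_fun_sum fun i _ => DifferentiableAt.fun_sum fun k _ => hd c i k]
  simp only [ContinuousLinearMap.sum_apply]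
  refine Finset.sum_congr rfl fun i _ => ?_
  rw [fderiv_fun_sum fun k _ => hd c i k]
  simp only [ContinuousLinearMap.sum_apply]
  exact Finset.sum_congr rfl fun k _ => Est.fderiv_param_apply (μ := volume.restrict box) (pr := id)
    (cCoef_smooth A r e σ u w c i k) (cWeight_integrable A hJ hb c i k) measurable_id
    (isCompact_closedBall (0 : Pt) (1 / 2))
    ((ae_restrict_mem isOpen_box.measurableSet).mono fun p hp h => cWeight_supp A b c i k hp h) z v

theorem GS_skew (b : Amb N → MN N) (z : Amb N) :
    (GS A r e σ b z)ᵀ = -GS A r e σ b z := by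
  ext u w
  simp only [GS, Matrix.transpose_apply, Matrix.neg_apply, Matrix.of_apply, Atlas.wedgeInt,
    ← integral_neg]
  refine integral_congr_ae (Eventually.of_forall fun x => ?_)
  show A.wedgePt x _ _ = -A.wedgePt x _ _
  rw [kk_swap, A.wedgePt_comm, A.wedgePt_comm x (b x), ← neg_one_smul ℝ (kk A r e σ z _ _ x),
    A.wedgePt_smul_left]
  ring

variable {A} in
/-- The smoothing of a continuous form is a test form. -/
theorem GS_test (hJ : IsACS A J) {b : Amb N → MN N} (hb : IsContX A b) :
    IsTestX A (GS A r e σ b) :=
  isTestX_of_smooth A (GS_skew A r e σ b) fun _ _ => pairing_smooth A r e σ hJ hb _ _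

end Vale.Agent.P204.Kernel
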