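import Mathlib
import Vale.Agent.P204.Kernel.Parts
import Vale.Agent.P204.Kernel.Global

/-!
# P204: the remaining parts of the smoothing module

None of these is assumed by the final theorem; each is proved in its own file.
-/

open MeasureTheory Matrix Filter
open scoped ContDiff Topology

namespace Vale.Agent.P204.Kernel

open Vale.Agent.P204.General Vale.Agent.P204.Torus

/-- The smoothing of the lines of a measure, a form in the first point. -/
noncomputable def mS {N K : ℕ} (A : Atlas N K) (r d σ : ℝ) (J : Amb N → MN N)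
    (m : Measure (Amb N × Amb N)) (x : Amb N) : MN N :=
  Matrix.of fun i k => ∫ p, kfS A r d σ J x p i k ∂m

/-- Smoothing of weakly closed forms and of weakly closed line measures gives closed forms. -/
def ExactStmt : Prop :=
  ∀ {N K : ℕ} (A : Atlas N K) (J : Amb N → MN N) (r d c₀ C₀ : ℝ),
    IsACS A J → GoodR A r d c₀ C₀ → ∀ σ : ℝ, 0 < σ →
    (∀ b, IsContX A b →
      (∀ a β, IsOneX A β → IsTestX A a → IsDOne A a β → A.wedgeInt a b = 0) →
        IsClosedX A (GS A r d σ b)) ∧
    ∀ m' : Measure (Amb N × Amb N), IsFiniteMeasure m' → (∀ᵐ p ∂m', p ∈ A.unitTan) →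
      (∀ a β, IsOneX A β → IsTestX A a → IsDOne A a β → tcurX J m' a = 0) →
        IsClosedX A (mS A r d σ J m')

/-- The smoothed functional represents the functional after smoothing. -/
def RepStmt : Prop :=
  ∀ {N K : ℕ} (A : Atlas N K) (J : Amb N → MN N) (r d c₀ C₀ : ℝ) m R C₁,
    IsACS A J → GoodR A r d c₀ C₀ → IsExtX A J m R C₁ →
    ∃ ε₀ : ℝ, 0 < ε₀ ∧ ∀ ε, 0 < ε → ε ≤ ε₀ →
      (∀ x, (VE A r d ε R x)ᵀ = -VE A r d ε R x) ∧
      (∀ i k, ContinuousOn (fun x => VE A r d ε R x i k) A.X) ∧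
      (∀ b, IsContX A b →
        Integrable (fun t => omW ε t * R (GS A r d (ε * Real.sqrt t) b)) ∧
        A.wedgeInt (VE A r d ε R) b = ∫ t, omW ε t * R (GS A r d (ε * Real.sqrt t) b)) ∧
      ∀ b, IsTestX A b → R (GE A r d ε b) = A.wedgeInt (VE A r d ε R) b

end Vale.Agent.P204.Kernel
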