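import Mathlib
import Vale.Agent.P204.Kernel.Global

/-!
# P204: closedness read in the ambient space
-/

open MeasureTheory Matrix Filter Set
open scoped ContDiff Topology

namespace Vale.Agent.P204.Kernel

open Vale.Agent.P204.General Vale.Agent.P204.Torus

variable {N K : ℕ} (A : Atlas N K)

/-- The derivative along an ambient direction of a field of matrices. -/
noncomputable def amb (a : Amb N → MN N) (x u : Amb N) : MN N :=
  Matrix.of fun l m => fderiv ℝ (fun y => a y l m) x u

theorem conj_entry {n : ℕ} (U V : Matrix (Fin n) (Fin 4) ℝ) (M : Matrix (Fin n) (Fin n) ℝ)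
    (j k : Fin 4) : (Uᵀ * M * V) j k = (fun l => U l j) ⬝ᵥ (M *ᵥ fun m => V m k) := by
  simp only [Matrix.mul_apply, Matrix.transpose_apply, dotProduct, mulVec, Finset.sum_mul,
    Finset.mul_sum]
  rw [Finset.sum_comm]
  exact Finset.sum_congr rfl fun l _ => Finset.sum_congr rfl fun m _ => by ring

variable {A}

theorem pd_pull {a : Amb N → MN N} (hsm : ∀ l m, ContDiff ℝ ∞ fun x => a x l m) (c : Fin K)
    (p : Pt) (i j k : Fin 4) :
    pd i (fun q => A.pull c a q j k) p =
      ((fun l => dD A c i p l j) ⬝ᵥ (a (A.psi c p) *ᵥ fun m => A.dmat c p m k) +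
        (fun l => A.dmat c p l j) ⬝ᵥ
          (amb a (A.psi c p) (A.dmat c p *ᵥ Pi.single i 1) *ᵥ fun m => A.dmat c p m k) +
        (fun l => A.dmat c p l j) ⬝ᵥ (a (A.psi c p) *ᵥ fun m => dD A c i p m k)) := by
  have ha : PD i (fun q => a (A.psi c q))
      (amb a (A.psi c p) (A.dmat c p *ᵥ Pi.single i 1)) p := fun l m => by
    rw [amb, Matrix.of_apply, A.dmat_mulVec]
    exact ((((hsm l m).differentiable (by simp)).differentiableAt).hasFDerivAt.comp p
      (A.psi_diff c p).hasFDerivAt).hasLineDerivAt (Pi.single i 1)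
  have h := ((PD_dmat A c i p).transpose.mul ha).mul (PD_dmat A c i p)
  have hd : DifferentiableAt ℝ (fun q => A.pull c a q j k) p := by
    have h1 := fun l i => ((A.dmat_smooth c l i).differentiable (by simp)).differentiableAt (x := p)
    have h2 : ∀ l m, DifferentiableAt ℝ (fun q => a (A.psi c q) l m) p := fun l m =>
      (((hsm l m).comp (A.psi_smooth c)).differentiable (by simp)).differentiableAt
    simp only [Atlas.pull, Atlas.pullAt, Matrix.mul_apply, Matrix.transpose_apply]
    exact DifferentiableAt.fun_sum fun m _ =>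
      (DifferentiableAt.fun_sum fun l _ => (h1 l j).mul (h2 l m)).mul (h1 m k)
  simp only [Atlas.pull, Atlas.pullAt] at hd ⊢
  rw [pd_of_PD h hd]
  simp only [Matrix.add_mul, Matrix.add_apply, conj_entry]

/-- Ambient closedness at a point gives closedness in the chart. -/
theorem pull_closed_at {a : Amb N → MN N} (hs : ∀ x, (a x)ᵀ = -a x)
    (hsm : ∀ l m, ContDiff ℝ ∞ fun x => a x l m) (c : Fin K) (p : Pt)
    (h : ∀ l m n : Fin N, amb a (A.psi c p) (Pi.single l 1) m n +
      amb a (A.psi c p) (Pi.single m 1) n l + amb a (A.psi c p) (Pi.single n 1) l m = 0)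
    (i j k : Fin 4) :
    pd i (fun q => A.pull c a q j k) p + pd j (fun q => A.pull c a q k i) p
      + pd k (fun q => A.pull c a q i j) p = 0 := by
  rw [pd_pull hsm, pd_pull hsm, pd_pull hsm]
  set M := a (A.psi c p)
  set x := A.psi c p
  set D := A.dmat c p
  have hsw : ∀ u v : Amb N, u ⬝ᵥ (M *ᵥ v) = -(v ⬝ᵥ (M *ᵥ u)) := fun u v => by
    rw [dotProduct_mulVec, ← mulVec_transpose, hs x, neg_mulVec, neg_dotProduct, dotProduct_comm]
  have hlin : ∀ v : Amb N, amb a x v = ∑ l, v l • amb a x (Pi.single l 1) := fun v => by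
    ext m n
    simp only [amb, Matrix.sum_apply, Matrix.smul_apply, Matrix.of_apply, smul_eq_mul]
    conv_lhs => rw [pi_eq_sum_univ' v, map_sum]
    simp
  have hS : (fun l => D l j) ⬝ᵥ (amb a x (D *ᵥ Pi.single i 1) *ᵥ fun m => D m k) +
      (fun l => D l k) ⬝ᵥ (amb a x (D *ᵥ Pi.single j 1) *ᵥ fun m => D m i) +
      (fun l => D l i) ⬝ᵥ (amb a x (D *ᵥ Pi.single k 1) *ᵥ fun m => D m j) = 0 := by
    have e : ∀ i j k, (fun l => D l j) ⬝ᵥ (amb a x (D *ᵥ Pi.single i 1) *ᵥ fun m => D m k) =
        ∑ l, ∑ m, ∑ n, D l i * D m j * D n k * amb a x (Pi.single l 1) m n := fun i j k => by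
      rw [hlin, Matrix.sum_mulVec, mulVec_single_one]
      simp only [dotProduct, mulVec, Finset.sum_apply, Matrix.smul_apply, smul_eq_mul,
        Finset.mul_sum, Matrix.col_apply]
      rw [Finset.sum_comm]
      exact Finset.sum_congr rfl fun l _ => Finset.sum_congr rfl fun m _ =>
        Finset.sum_congr rfl fun n _ => by ring
    rw [e, e, e]
    have r2 : ∑ l, ∑ m, ∑ n, D l j * D m k * D n i * amb a x (Pi.single l 1) m n =
        ∑ l, ∑ m, ∑ n, D l i * D m j * D n k * amb a x (Pi.single m 1) n l := by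
      rw [Finset.sum_congr rfl fun l _ => Finset.sum_comm, Finset.sum_comm]
      exact Finset.sum_congr rfl fun n _ => Finset.sum_congr rfl fun l _ =>
        Finset.sum_congr rfl fun m _ => by ring
    have r3 : ∑ l, ∑ m, ∑ n, D l k * D m i * D n j * amb a x (Pi.single l 1) m n =
        ∑ l, ∑ m, ∑ n, D l i * D m j * D n k * amb a x (Pi.single n 1) l m := by
      rw [Finset.sum_comm, Finset.sum_congr rfl fun m _ => Finset.sum_comm]
      exact Finset.sum_congr rfl fun m _ => Finset.sum_congr rfl fun n _ =>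
        Finset.sum_congr rfl fun l _ => by ring
    rw [r2, r3]
    simp only [← Finset.sum_add_distrib]
    refine Finset.sum_eq_zero fun l _ => Finset.sum_eq_zero fun m _ => Finset.sum_eq_zero fun n _ => ?_
    rw [← mul_add, ← mul_add, h, mul_zero]
  have hsym : ∀ i j, (fun l => dD A c i p l j) = fun l => dD A c j p l i := fun i j =>
    funext fun l => dD_symm A c i j p l
  rw [hsym j i, hsym k i, hsym k j]
  linear_combination hS + hsw (fun l => dD A c i p l j) (fun m => D m k) +
    hsw (fun l => dD A c i p l k) (fun m => D m j) + hsw (fun l => dD A c j p l k) (fun m => D m i)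

/-- The pullback commutes with derivatives in a parameter. -/
theorem pullAt_fderiv {F : Amb N → MN N} {z : Amb N}
    (hF : ∀ l m, DifferentiableAt ℝ (fun y => F y l m) z) (u : Amb N) (c : Fin K) (p : Pt)
    (i k : Fin 4) :
    A.pullAt c (amb F z u) p i k = fderiv ℝ (fun y => A.pullAt c (F y) p i k) z u := by
  have h : ∀ j l, DifferentiableAt ℝ (fun y => A.dmat c p l i * F y l j * A.dmat c p j k) z :=
    fun j l => (((hF l j).const_mul _).mul_const _)
  simp only [Atlas.pullAt, Matrix.mul_apply, Matrix.transpose_apply, amb, Matrix.of_apply,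
    Finset.sum_mul]
  rw [fderiv_fun_sum fun j _ => DifferentiableAt.fun_sum fun l _ => h j l]
  simp only [_root_.sum_apply]
  refine Finset.sum_congr rfl fun j _ => ?_
  rw [fderiv_fun_sum fun l _ => h j l, _root_.sum_apply]
  refine Finset.sum_congr rfl fun l _ => ?_
  rw [fderiv_mul_const ((hF l j).const_mul _), fderiv_const_mul (hF l j)]
  simp only [_root_.smul_apply, smul_eq_mul]
  ring

end Vale.Agent.P204.Kernel
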