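import Mathlib
import Vale.Agent.P204.Kernel.Joint
import Vale.Agent.P204.Kernel.Parts2
import Vale.Agent.P204.Kernel.Pull
import Vale.Agent.P204.General.Repr

/-!
# P204: pairings with the subordinated kernels
-/

open MeasureTheory Matrix Filter Set
open scoped ContDiff Topology

namespace Vale.Agent.P204.Kernel

open Vale.Agent.P204.General Vale.Agent.P204.Torus

section compact

variable {Z W : Type} [TopologicalSpace Z] [TopologicalSpace W] [MeasurableSpace W]
  [OpensMeasurableSpace W] [SecondCountableTopology W] [T2Space W]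

omit [SecondCountableTopology W] in
/-- Integrals with parameters on compact sets. -/
theorem cont_integral [FirstCountableTopology Z] (ν : Measure W) [IsFiniteMeasure ν] {S : Set Z}
    {T : Set W} (hS : IsCompact S) (hT : IsCompact T) (hν : ∀ᵐ w ∂ν, w ∈ T) {h : Z → W → ℝ}
    (hc : ContinuousOn (fun q : Z × W => h q.1 q.2) (S ×ˢ T)) :
    ContinuousOn (fun z => ∫ w, h z w ∂ν) S ∧ ∀ z ∈ S, Integrable (h z) ν := by
  obtain ⟨C, hC⟩ := (hS.prod hT).exists_bound_of_continuousOn hc
  have hm : ∀ z ∈ S, AEStronglyMeasurable (h z) ν := fun z hz => by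
    rw [← Measure.restrict_eq_self_of_ae_mem hν]
    exact ((hc.comp (by fun_prop : Continuous fun w => (z, w)).continuousOn
      fun w hw => ⟨hz, hw⟩) : ContinuousOn (h z) T).aestronglyMeasurable hT.isClosed.measurableSet
  refine ⟨continuousOn_of_dominated (bound := fun _ => C) hm
    (fun z hz => hν.mono fun w hw => hC (z, w) ⟨hz, hw⟩) (integrable_const C)
    (hν.mono fun w hw => hc.comp (by fun_prop : Continuous fun z => (z, w)).continuousOn
      fun z hz => ⟨hz, hw⟩), fun z hz => ?_⟩
  exact Integrable.of_bound (hm z hz) C (hν.mono fun w hw => hC (z, w) ⟨hz, hw⟩)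

/-- A continuous function on a compact product is integrable. -/
theorem integrable_compact_prod [MeasurableSpace Z] [OpensMeasurableSpace Z]
    [SecondCountableTopology Z] [T2Space Z] (μ : Measure Z) [IsFiniteMeasure μ] (ν : Measure W)
    [IsFiniteMeasure ν] {S : Set Z} {T : Set W} (hS : IsCompact S) (hT : IsCompact T)
    (hμ : ∀ᵐ z ∂μ, z ∈ S) (hν : ∀ᵐ w ∂ν, w ∈ T) {h : Z × W → ℝ}
    (hc : ContinuousOn h (S ×ˢ T)) : Integrable h (μ.prod ν) := by
  have hm : MeasurableSet (S ×ˢ T) := hS.isClosed.measurableSet.prod hT.isClosed.measurableSet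
  have hmem : ∀ᵐ q ∂μ.prod ν, q ∈ S ×ˢ T := Measure.ae_prod_mem_iff_ae_ae_mem hm |>.2
    (hμ.mono fun z hz => hν.mono fun w hw => ⟨hz, hw⟩)
  obtain ⟨C, hC⟩ := (hS.prod hT).exists_bound_of_continuousOn hc
  refine Integrable.of_bound ?_ C (hmem.mono hC)
  rw [← Measure.restrict_eq_self_of_ae_mem hmem]
  exact hc.aestronglyMeasurable hm

end compact

variable {N K : ℕ} {A : Atlas N K} {J : Amb N → MN N} {r d σ : ℝ} {b : Amb N → MN N}

theorem ae_prod_mem {Z W : Type} [MeasurableSpace Z] [MeasurableSpace W] {μ : Measure Z}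
    {ν : Measure W} [SFinite ν] {S : Set Z} {T : Set W} (hS : MeasurableSet S)
    (hT : MeasurableSet T) (hμ : ∀ᵐ z ∂μ, z ∈ S) (hν : ∀ᵐ w ∂ν, w ∈ T) :
    ∀ᵐ q ∂μ.prod ν, q ∈ S ×ˢ T :=
  Measure.ae_prod_mem_iff_ae_ae_mem (hS.prod hT) |>.2
    (hμ.mono fun _ hz => hν.mono fun _ hw => ⟨hz, hw⟩)

/-- The coefficient of a form in the wedge product. -/
noncomputable def wCo (A : Atlas N K) (b : Amb N → MN N) (i k : Fin N) (x : Amb N) : ℝ :=
  A.wedgePt x (Matrix.single i k 1) (b x)

theorem wedgePt_eq_sum (x : Amb N) (M : MN N) :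
    A.wedgePt x M (b x) = ∑ i, ∑ k, M i k * wCo A b i k x := by
  conv_lhs => rw [Matrix.matrix_eq_sum_single M]
  simp only [A.wedgePt_sum_left]
  refine Finset.sum_congr rfl fun i _ => Finset.sum_congr rfl fun k _ => ?_
  rw [wCo, ← A.wedgePt_smul_left, Matrix.smul_single, smul_eq_mul, mul_one]

theorem wCo_cont (hJ : IsACS A J) (hb : IsContX A b) (i k : Fin N) :
    ContinuousOn (wCo A b i k) A.X := by
  have h : ContinuousOn (fun x => ∑ c, A.chi c x *
      (fun p => wedge (A.pullAt c (Matrix.single i k 1) p) (A.pull c b p) / A.dens c p) (A.phi c x))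
        A.X := by
    refine continuousOn_finsetSum _ fun c _ => A.continuousOn_term c
      (F := fun p => wedge (A.pullAt c (Matrix.single i k 1) p) (A.pull c b p) / A.dens c p) ?_
    refine ContinuousOn.div ?_ (continuousOn_dens A c) fun p hp => (dens_pos A hJ c hp).ne'
    have h1 : ∀ u v, Continuous fun p => A.pullAt c (Matrix.single i k (1 : ℝ)) p u v := fun u v => by
      simp only [A.pullAt_apply]
      exact continuous_finsetSum _ fun y _ => (continuous_finsetSum _ fun l _ =>
        (A.dmat_cont c l u).mul continuous_const).mul (A.dmat_cont c y v)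
    have h2 := hb.cont c
    simp only [wedge]
    fun_prop
  refine h.congr fun x hx => ?_
  simp only [wCo, Atlas.wedgePt]
  refine Finset.sum_congr rfl fun c _ => ?_
  rcases eq_or_ne (A.chi c x) 0 with hc | hc
  · simp [hc]
  · simp only [Atlas.pull, A.psi_phi c (A.supp_box hx hc)]

/-- Ambient continuity gives a continuous form. -/
theorem contX_of_continuousOn {F : Amb N → MN N} (hs : ∀ x, (F x)ᵀ = -F x)
    (h : ∀ i k, ContinuousOn (fun x => F x i k) A.X) : IsContX A F := by
  refine ⟨hs, fun c i k => ?_⟩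
  simp only [Atlas.pull, A.pullAt_apply]
  exact continuousOn_finsetSum _ fun y _ => (continuousOn_finsetSum _ fun l _ =>
    (A.dmat_cont c l i).continuousOn.mul ((h l y).comp (A.psi_cont c).continuousOn
      fun p hp => A.psi_mem c p hp)).mul (A.dmat_cont c y k).continuousOn

/-- The pairing of a continuous form with a kernel continuous on a compact set. -/
theorem cont_wedge {Z : Type} [TopologicalSpace Z] {S : Set Z} (hJ : IsACS A J) (hb : IsContX A b)
    {g : Z → Amb N} (hg : ContinuousOn g S) (hm : MapsTo g S A.X) {M : Z → MN N}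
    (hM : ∀ i k, ContinuousOn (fun z => M z i k) S) :
    ContinuousOn (fun z => A.wedgePt (g z) (M z) (b (g z))) S := by
  simp only [wedgePt_eq_sum]
  exact continuousOn_finsetSum _ fun i _ => continuousOn_finsetSum _ fun k _ =>
    (hM i k).mul ((wCo_cont hJ hb i k).comp hg hm)

theorem wedgeInt_add_left (hJ : IsACS A J) {b₁ b₂ : Amb N → MN N} (h₁ : IsContX A b₁)
    (h₂ : IsContX A b₂) (hb : IsContX A b) :
    A.wedgeInt (fun x => b₁ x + b₂ x) b = A.wedgeInt b₁ b + A.wedgeInt b₂ b := by
  simp only [Atlas.wedgeInt, A.wedgePt_add_left]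
  exact integral_add (integrable_of_continuousOn A (continuousOn_wedge_cont hJ h₁ hb))
    (integrable_of_continuousOn A (continuousOn_wedge_cont hJ h₂ hb))

theorem wedgeInt_comm' (a a' : Amb N → MN N) : A.wedgeInt a a' = A.wedgeInt a' a :=
  integral_congr_ae (Eventually.of_forall fun x => A.wedgePt_comm x _ _)

theorem ae_mem_vol : ∀ᵐ x ∂A.vol, x ∈ A.X := ae_mem_X A

/-- Subordination commutes with the pairing. -/
theorem wedge_swap {Z : Type} [TopologicalSpace Z] [MeasurableSpace Z] [OpensMeasurableSpace Z]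
    [SecondCountableTopology Z] [T2Space Z] {S : Set Z} (hS : IsCompact S) (hJ : IsACS A J)
    (hb : IsContX A b) {g : Z → Amb N} (hg : ContinuousOn g S) (hm : MapsTo g S A.X)
    {F : ℝ → Z → MN N} (hF : ∀ i k, SK S fun σ z => F σ z i k) {φ : Z → ℝ} (hφ : ContinuousOn φ S)
    {ε : ℝ} (hε : 0 < ε) (ν : Measure Z) [IsFiniteMeasure ν] (hν : ∀ᵐ z ∂ν, z ∈ S) :
    Integrable (fun t => omW ε t *
        ∫ z, φ z * A.wedgePt (g z) (F (ε * Real.sqrt t) z) (b (g z)) ∂ν) ∧
      Integrable (fun z => φ z * A.wedgePt (g z)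
          (Matrix.of fun i k => ∫ t, omW ε t * F (ε * Real.sqrt t) z i k) (b (g z))) ν ∧
      ∫ z, φ z * A.wedgePt (g z)
          (Matrix.of fun i k => ∫ t, omW ε t * F (ε * Real.sqrt t) z i k) (b (g z)) ∂ν =
        ∫ t, omW ε t * ∫ z, φ z * A.wedgePt (g z) (F (ε * Real.sqrt t) z) (b (g z)) ∂ν := by
  have hH : SK S fun σ z => φ z * A.wedgePt (g z) (F σ z) (b (g z)) := by
    refine (SK.sum Finset.univ fun i _ => SK.sum Finset.univ fun k _ => (hF i k).mul_fun hS
      (hφ.mul ((wCo_cont hJ hb i k).comp hg hm))).congr fun σ _ z _ => ?_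
    simp only [wedgePt_eq_sum, Finset.mul_sum, Pi.mul_apply, Function.comp_apply]
    exact Finset.sum_congr rfl fun i _ => Finset.sum_congr rfl fun k _ => by ring
  obtain ⟨h1, h2, h3⟩ := hH.swap hε ν hS.isClosed.measurableSet hν
  suffices key : ∀ z ∈ S, φ z * A.wedgePt (g z)
        (Matrix.of fun i k => ∫ t, omW ε t * F (ε * Real.sqrt t) z i k) (b (g z)) =
      ∫ t, omW ε t * (φ z * A.wedgePt (g z) (F (ε * Real.sqrt t) z) (b (g z))) from
    ⟨h2, h1.congr (hν.mono fun z hz => (key z hz).symm),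
      (integral_congr_ae (hν.mono key)).trans h3⟩
  intro z hz
  simp only [wedgePt_eq_sum, Matrix.of_apply, Finset.mul_sum]
  have hi : ∀ i k, Integrable fun t =>
      omW ε t * (φ z * (F (ε * Real.sqrt t) z i k * wCo A b i k (g z))) := fun i k =>
    (((hF i k).int_t hε hz).mul_const (φ z * wCo A b i k (g z))).congr
      (Eventually.of_forall fun t => by ring)
  rw [integral_finsetSum _ fun i _ => integrable_finsetSum _ fun k _ => hi i k]
  refine Finset.sum_congr rfl fun i _ => ?_
  rw [integral_finsetSum _ fun k _ => hi i k]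
  refine Finset.sum_congr rfl fun k _ => ?_
  rw [← integral_mul_const, ← integral_const_mul]
  exact integral_congr_ae (Eventually.of_forall fun t => by ring)

/-! ### A kernel on lines against a measure -/

/-- Pairing the average of a continuous line kernel. -/
theorem pair_avg (hJ : IsACS A J) (hb : IsContX A b) (m : Measure (Amb N × Amb N))
    [IsFiniteMeasure m] (hsupp : ∀ᵐ p ∂m, p ∈ A.unitTan)
    {k : Amb N → Amb N × Amb N → MN N}
    (hk : ∀ i j, ContinuousOn (fun q : (Amb N × Amb N) × Amb N => k q.2 q.1 i j)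
      (A.unitTan ×ˢ A.X)) :
    Integrable (fun p => A.wedgeInt (fun x => k x p) b) m ∧
    ∫ p, A.wedgeInt (fun x => k x p) b ∂m =
        ∫ q, A.wedgePt q.2 (k q.2 q.1) (b q.2) ∂m.prod A.vol ∧
      A.wedgeInt (fun x => Matrix.of fun i j => ∫ p, k x p i j ∂m) b =
        ∫ p, A.wedgeInt (fun x => k x p) b ∂m := by
  have hc := cont_wedge (Z := (Amb N × Amb N) × Amb N) (S := A.unitTan ×ˢ A.X) hJ hb
    continuousOn_snd (fun q hq => hq.2) (M := fun q => k q.2 q.1) hk
  have hi := integrable_compact_prod m A.vol A.isCompact_unitTan A.compact hsupp ae_mem_vol hc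
  refine ⟨hi.integral_prod_left, (integral_prod _ hi).symm, ?_⟩
  simp only [Atlas.wedgeInt]
  rw [integral_integral_swap (f := fun p x => A.wedgePt x (k x p) (b x)) hi]
  refine integral_congr_ae (ae_mem_vol.mono fun x hx => ?_)
  have hI : ∀ i j, Integrable (fun p => k x p i j) m := fun i j =>
    (cont_integral (Z := Amb N) (h := fun y p => k y p i j) m A.compact A.isCompact_unitTan hsupp
      ((hk i j).comp (by fun_prop : Continuous fun q : Amb N × (Amb N × Amb N) => (q.2, q.1)).continuousOn
        fun q hq => ⟨hq.2, hq.1⟩)).2 x hx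
  simp only [wedgePt_eq_sum, Matrix.of_apply]
  rw [integral_finsetSum _ fun i _ => integrable_finsetSum _ fun j _ => (hI i j).mul_const _]
  refine Finset.sum_congr rfl fun i _ => ?_
  rw [integral_finsetSum _ fun j _ => (hI i j).mul_const _]
  exact Finset.sum_congr rfl fun j _ => (integral_mul_const _ _).symm

theorem kfS_SK (hJ : IsACS A J) (hd : 0 < d) (i k : Fin N) :
    SK (A.unitTan ×ˢ A.X) fun σ (q : (Amb N × Amb N) × Amb N) => kfS A r d σ J q.2 q.1 i k := by
  have h1 : ContinuousOn (fun q : (Amb N × Amb N) × Amb N => J q.1.1 *ᵥ q.1.2)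
      (A.unitTan ×ˢ A.X) := by
    refine continuousOn_pi.2 fun a => ?_
    simp only [mulVec, dotProduct]
    exact continuousOn_finsetSum _ fun l _ => ((Atlas.J_continuousOn (A := A) hJ a l).comp
      (continuous_fst.comp continuous_fst).continuousOn fun q hq => hq.1.1).mul
      (by fun_prop)
  exact kk_SK A hd (A.isCompact_unitTan.prod A.compact) continuousOn_snd (fun q hq => hq.2)
    (continuous_fst.comp continuous_fst).continuousOn
    (continuous_snd.comp continuous_fst).continuousOn h1 i k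

/-- Pairing the averaged subordinated kernel. -/
theorem pair_kfE (hJ : IsACS A J) (hd : 0 < d) (hb : IsContX A b) (m : Measure (Amb N × Amb N))
    [IsFiniteMeasure m] (hsupp : ∀ᵐ p ∂m, p ∈ A.unitTan) {ε : ℝ} (hε : 0 < ε)
    (hk : ∀ i j, ContinuousOn (fun q : (Amb N × Amb N) × Amb N => kfE A r d ε J q.2 q.1 i j)
      (A.unitTan ×ˢ A.X)) :
    Integrable (fun t => omW ε t *
        ∫ p, A.wedgeInt (fun x => kfS A r d (ε * Real.sqrt t) J x p) b ∂m) ∧
      ∫ p, A.wedgeInt (fun x => kfE A r d ε J x p) b ∂m =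
        ∫ t, omW ε t * ∫ p, A.wedgeInt (fun x => kfS A r d (ε * Real.sqrt t) J x p) b ∂m := by
  obtain ⟨h1, -, h2⟩ := wedge_swap (Z := (Amb N × Amb N) × Amb N)
    (A.isCompact_unitTan.prod A.compact) hJ hb continuousOn_snd (fun q hq => hq.2)
    (F := fun σ q => kfS A r d σ J q.2 q.1) (kfS_SK (r := r) hJ hd) (φ := fun _ => 1)
    continuousOn_const hε (m.prod A.vol)
    (ae_prod_mem A.isCompact_unitTan.isClosed.measurableSet (measurableSet_X A) hsupp ae_mem_vol)
  simp only [one_mul] at h1 h2
  have e : ∀ t, omW ε t *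
      ∫ q, A.wedgePt q.2 (kfS A r d (ε * Real.sqrt t) J q.2 q.1) (b q.2) ∂m.prod A.vol =
      omW ε t * ∫ p, A.wedgeInt (fun x => kfS A r d (ε * Real.sqrt t) J x p) b ∂m := fun t => by
    by_cases ht : t ∈ Ioc 0 (1 / ε)
    · rw [(pair_avg hJ hb m hsupp (k := fun x p => kfS A r d (ε * Real.sqrt t) J x p) fun i j =>
        (kfS_SK (r := r) hJ hd i j).cont.comp
          (Continuous.prodMk_right (ε * Real.sqrt t)).continuousOn
          fun q hq => ⟨sigma_pos hε ht, hq⟩).2.1]
    · rw [omW_mul_zero _ ht, omW_mul_zero _ ht]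
  refine ⟨h1.congr (Eventually.of_forall e), ?_⟩
  rw [(pair_avg hJ hb m hsupp (k := kfE A r d ε J) hk).2.1, ← integral_congr_ae (Eventually.of_forall e)]
  exact h2

/-! ### The smoothing of a form, against vectors -/

theorem kk_sum (z u w x : Amb N) :
    kk A r d σ z u w x = ∑ a, ∑ e, (u a * w e) •
      kk A r d σ z (Pi.single a 1) (Pi.single e 1) x := by
  have h0 : ∀ w, kk A r d σ z 0 w x = 0 := fun w => by
    simpa using kk_linear A r d σ z 0 0 w x 1
  let L : Amb N → (Amb N →ₗ[ℝ] MN N) := fun w =>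
    { toFun := fun u => kk A r d σ z u w x
      map_add' := fun u v => by simpa using kk_linear A r d σ z u v w x 1
      map_smul' := fun t u => by simpa [h0] using kk_linear A r d σ z u 0 w x t }
  have h1 : ∀ u w, kk A r d σ z u w x = ∑ a, u a • kk A r d σ z (Pi.single a 1) w x := fun u w => by
    conv_lhs => rw [pi_eq_sum_univ' u]
    show L w _ = _
    rw [map_sum]
    exact Finset.sum_congr rfl fun a _ => by rw [map_smul]; rfl
  rw [h1]
  refine Finset.sum_congr rfl fun a _ => ?_
  rw [kk_swap, h1 w, ← Finset.sum_neg_distrib, Finset.smul_sum]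
  refine Finset.sum_congr rfl fun e _ => ?_
  rw [kk_swap A r d σ z (Pi.single a 1), smul_neg, smul_neg, smul_neg, neg_neg, smul_smul]

/-- The smoothing on two vectors is the pairing with the kernel. -/
theorem GS_pair (hJ : IsACS A J) (hb : IsContX A b) (z u w : Amb N) :
    u ⬝ᵥ (GS A r d σ b z *ᵥ w) = A.wedgeInt (kk A r d σ z u w) b := by
  have hi : ∀ a e, Integrable (fun x => u a * w e *
      A.wedgePt x (kk A r d σ z (Pi.single a 1) (Pi.single e 1) x) (b x)) A.vol := fun a e =>
    (integrable_of_continuousOn A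
      (continuousOn_wedge_cont hJ (kk_contX A r d σ z _ _ hJ) hb)).const_mul _
  simp only [Atlas.wedgeInt, kk_sum z u w, A.wedgePt_sum_left, A.wedgePt_smul_left]
  rw [integral_finsetSum _ fun a _ => integrable_finsetSum _ fun e _ => hi a e]
  simp only [dotProduct, mulVec, Finset.mul_sum, GS, Matrix.of_apply, Atlas.wedgeInt]
  refine Finset.sum_congr rfl fun a _ => ?_
  rw [integral_finsetSum _ fun e _ => hi a e]
  refine Finset.sum_congr rfl fun e _ => ?_
  rw [integral_const_mul]
  simp only [A.wedgePt_comm _ (b _)]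
  ring

theorem tcur_GS (hJ : IsACS A J) (hb : IsContX A b) (m : Measure (Amb N × Amb N)) :
    tcurX J m (GS A r d σ b) = ∫ p, A.wedgeInt (fun x => kfS A r d σ J x p) b ∂m :=
  integral_congr_ae (Eventually.of_forall fun p => GS_pair hJ hb p.1 p.2 (J p.1 *ᵥ p.2))

/-- The subordinated smoothing on two vectors. -/
theorem GE_pair (hJ : IsACS A J) (hd : 0 < d) (hb : IsContX A b) {ε : ℝ} (hε : 0 < ε)
    {z : Amb N} (u w : Amb N) :
    Integrable (fun t => omW ε t * (u ⬝ᵥ (GS A r d (ε * Real.sqrt t) b z *ᵥ w))) ∧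
      u ⬝ᵥ (GE A r d ε b z *ᵥ w) =
        A.wedgeInt (fun x => Matrix.of fun i k =>
          ∫ t, omW ε t * kk A r d (ε * Real.sqrt t) z u w x i k) b := by
  have key : ∀ u w : Amb N,
      Integrable (fun t => omW ε t * A.wedgeInt (kk A r d (ε * Real.sqrt t) z u w) b) ∧
      A.wedgeInt (fun x => Matrix.of fun i k =>
          ∫ t, omW ε t * kk A r d (ε * Real.sqrt t) z u w x i k) b =
        ∫ t, omW ε t * A.wedgeInt (kk A r d (ε * Real.sqrt t) z u w) b := fun u w => by
    have h := wedge_swap (Z := Amb N) A.compact hJ hb continuousOn_id (mapsTo_id _)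
      (F := fun σ x => kk A r d σ z u w x)
      (fun i k => kk_SK A hd A.compact continuousOn_id (mapsTo_id _) continuousOn_const
        continuousOn_const continuousOn_const i k) (φ := fun _ => 1) continuousOn_const hε A.vol
      ae_mem_vol
    simp only [one_mul, id_eq] at h
    exact ⟨h.1, h.2.2⟩
  simp only [GS_pair hJ hb]
  refine ⟨(key u w).1, ?_⟩
  rw [(key u w).2]
  simp only [← GS_pair hJ hb]
  simp only [dotProduct, mulVec, GE, Matrix.of_apply, Finset.mul_sum]
  have hi : ∀ a e, Integrable fun t =>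
      omW ε t * (u a * (GS A r d (ε * Real.sqrt t) b z a e * w e)) := fun a e => by
    refine ((key (Pi.single a 1) (Pi.single e 1)).1.mul_const (u a * w e)).congr
      (Eventually.of_forall fun t => ?_)
    simp only [GS, Matrix.of_apply]
    rw [wedgeInt_comm' (kk A r d _ z _ _) b]
    ring
  rw [integral_finsetSum _ fun a _ => integrable_finsetSum _ fun e _ => hi a e]
  refine Finset.sum_congr rfl fun a _ => ?_
  rw [integral_finsetSum _ fun e _ => hi a e]
  refine Finset.sum_congr rfl fun e _ => ?_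
  rw [← integral_mul_const, ← integral_const_mul]
  exact integral_congr_ae (Eventually.of_forall fun t => by ring)

end Vale.Agent.P204.Kernel
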