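import Mathlib
import Vale.Agent.P204.Kernel.Pairing
import Vale.Agent.P204.General.Basic.Flux

/-!
# P204: the subordinated smoothing of closed smoothings is closed
-/

open MeasureTheory Matrix Filter Set
open scoped ContDiff Topology

namespace Vale.Agent.P204.Kernel

open Vale.Agent.P204.General Vale.Agent.P204.Torus

theorem contDiff_mul_supp {φ F : Pt → ℝ} {U : Set Pt} (hU : IsOpen U) (hφ : ContDiff ℝ ∞ φ)
    (hs : tsupport φ ⊆ U) (hF : ContDiffOn ℝ ∞ F U) : ContDiff ℝ ∞ fun q => φ q * F q :=
  contDiff_iff_contDiffAt.2 fun q => by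
    by_cases hq : q ∈ U
    · exact hφ.contDiffAt.mul (hF.contDiffAt (hU.mem_nhds hq))
    · refine contDiffAt_const (c := (0 : ℝ)).congr_of_eventuallyEq ?_
      filter_upwards [notMem_tsupport_iff_eventuallyEq.1 fun h => hq (hs h)] with y hy
      simp [hy]

theorem continuous_mul_supp {φ F : Pt → ℝ} {U : Set Pt} (hU : IsOpen U) (hφ : Continuous φ)
    (hs : tsupport φ ⊆ U) (hF : ContinuousOn F U) : Continuous fun q => φ q * F q :=
  continuous_of_tsupport fun _ hq => hφ.continuousAt.mul
    (hF.continuousAt (hU.mem_nhds (hs (tsupport_mul_subset_left hq))))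

/-- Integration by parts against a test function on the cube. -/
theorem by_parts {φ F : Pt → ℝ} (hφ : ContDiff ℝ ∞ φ) (hc : HasCompactSupport φ)
    (hs : tsupport φ ⊆ box) (hF : ContDiffOn ℝ ∞ F box) (i : Fin 4) :
    Integrable (fun q => pd i φ q * F q) ∧ Integrable (fun q => φ q * pd i F q) ∧
      ∫ q, pd i φ q * F q = -∫ q, φ q * pd i F q := by
  have hd : Continuous fun q => pd i φ q :=
    (hφ.continuous_fderiv (by simp)).clm_apply continuous_const
  have hds : tsupport (fun q => pd i φ q) ⊆ tsupport φ := tsupport_fderiv_apply_subset ℝ _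
  have hdF : ContinuousOn (fun q => pd i F q) box := (pd_smooth isOpen_box hF i).continuousOn
  have hdc : HasCompactSupport fun q => pd i φ q := hc.of_isClosed_subset (isClosed_tsupport _) hds
  have h1 : Integrable fun q => pd i φ q * F q :=
    (continuous_mul_supp isOpen_box hd (hds.trans hs) hF.continuousOn).integrable_of_hasCompactSupport
      hdc.mul_right
  have h2 : Integrable fun q => φ q * pd i F q :=
    (continuous_mul_supp isOpen_box hφ.continuous hs hdF).integrable_of_hasCompactSupport
      hc.mul_right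
  refine ⟨h1, h2, ?_⟩
  have h := integral_pd_eq_zero (contDiff_mul_supp isOpen_box hφ hs hF) hc.mul_right i
  have e : ∀ q, pd i (fun q => φ q * F q) q = φ q * pd i F q + pd i φ q * F q := fun q => by
    by_cases hq : q ∈ box
    · exact pd_mul_at i (hφ.differentiable (by simp)).differentiableAt
        ((hF.differentiableOn (by simp)).differentiableAt (isOpen_box.mem_nhds hq))
    · have hn : φ =ᶠ[𝓝 q] fun _ => 0 := notMem_tsupport_iff_eventuallyEq.1 fun h => hq (hs h)
      have hn' : (fun q => φ q * F q) =ᶠ[𝓝 q] fun _ => 0 := by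
        filter_upwards [hn] with y hy
        simp [hy]
      rw [pd_eq_zero_nhds i hn', pd_eq_zero_nhds i hn, hn.eq_of_nhds]
      simp
  rw [integral_congr_ae (Eventually.of_forall e), integral_add h2 h1] at h
  linarith

variable {N K : ℕ} {A : Atlas N K} {J : Amb N → MN N} {r d : ℝ}

/-- Weakly subordinated closedness. -/
theorem GE_closed (hJ : IsACS A J) (hd : 0 < d) {a : Amb N → MN N} (ha : IsContX A a) {ε : ℝ}
    (hε : 0 < ε) (ht : IsTestX A (GE A r d ε a))
    (hcl : ∀ σ, 0 < σ → IsClosedX A (GS A r d σ a)) : IsClosedX A (GE A r d ε a) := by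
  refine ⟨ht, fun c p hp i j k => ?_⟩
  set g := fun p => pd i (fun q => A.pull c (GE A r d ε a) q j k) p +
    pd j (fun q => A.pull c (GE A r d ε a) q k i) p + pd k (fun q => A.pull c (GE A r d ε a) q i j) p
  have hg : ContinuousOn g box := ((pd_smooth isOpen_box (ht.smooth c j k) i).continuousOn.add
    (pd_smooth isOpen_box (ht.smooth c k i) j).continuousOn).add
    (pd_smooth isOpen_box (ht.smooth c i j) k).continuousOn
  suffices h : ∀ φ : Pt → ℝ, ContDiff ℝ ∞ φ → HasCompactSupport φ → tsupport φ ⊆ box →
      ∫ q, φ q • g q = 0 by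
    have h0 := isOpen_box.ae_eq_zero_of_integral_contDiff_smul_eq_zero
      (hg.locallyIntegrableOn isOpen_box.measurableSet) h
    exact Measure.eqOn_open_of_ae_eq ((ae_restrict_iff' isOpen_box.measurableSet).2 h0) isOpen_box
      hg continuousOn_const hp
  intro φ hφ hc hs
  set T := tsupport φ
  have hT : IsCompact T := hc
  have : IsFiniteMeasure (volume.restrict T : Measure Pt) :=
    ⟨by rw [Measure.restrict_apply_univ]; exact hT.measure_lt_top⟩
  -- the pullback of a smoothing, as a pairing
  have main : ∀ i j k : Fin 4,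
      Integrable (fun t => omW ε t *
        ∫ q, pd i φ q * A.pull c (GS A r d (ε * Real.sqrt t) a) q j k) ∧
      ∫ q, pd i φ q * A.pull c (GE A r d ε a) q j k =
        ∫ t, omW ε t * ∫ q, pd i φ q * A.pull c (GS A r d (ε * Real.sqrt t) a) q j k := by
    intro i j k
    have hpdφ : Continuous fun q => pd i φ q :=
      (hφ.continuous_fderiv (by simp)).clm_apply continuous_const
    have hcol : ∀ j, Continuous fun q : Pt => (fun a => A.dmat c q a j) := fun j =>
      continuous_pi fun a => A.dmat_cont c a j
    have hSK : ∀ u v : Fin N, SK (T ×ˢ A.X) fun σ (z : Pt × Amb N) => kk A r d σ (A.psi c z.1)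
        (fun a => A.dmat c z.1 a j) (fun a => A.dmat c z.1 a k) z.2 u v := fun u v =>
      kk_SK A hd (hT.prod A.compact) continuousOn_snd (fun z hz => hz.2)
        ((A.psi_cont c).comp continuous_fst).continuousOn ((hcol j).comp continuous_fst).continuousOn
        ((hcol k).comp continuous_fst).continuousOn u v
    obtain ⟨h1, h1', h2⟩ := wedge_swap (Z := Pt × Amb N) (hT.prod A.compact) hJ ha continuousOn_snd
      (fun z hz => hz.2) (F := fun σ z => kk A r d σ (A.psi c z.1)
        (fun a => A.dmat c z.1 a j) (fun a => A.dmat c z.1 a k) z.2) hSK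
      (φ := fun z => pd i φ z.1) (hpdφ.comp continuous_fst).continuousOn hε
      ((volume.restrict T : Measure Pt).prod A.vol)
      (ae_prod_mem hT.isClosed.measurableSet (measurableSet_X A)
        (ae_restrict_mem hT.isClosed.measurableSet) ae_mem_vol)
    have hoff : ∀ f : Pt → ℝ, ∫ q, pd i φ q * f q = ∫ q in T, pd i φ q * f q := fun f =>
      (setIntegral_eq_integral_of_forall_compl_eq_zero fun q hq => by
        rw [pd_eq_zero_nhds i (notMem_tsupport_iff_eventuallyEq.1 hq), zero_mul]).symm
    have hi : ∀ {M : Pt × Amb N → MN N}, (∀ u v, ContinuousOn (fun z => M z u v) (T ×ˢ A.X)) →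
        ∫ z, pd i φ z.1 * A.wedgePt z.2 (M z) (a z.2) ∂((volume.restrict T : Measure Pt).prod A.vol) =
          ∫ q in T, pd i φ q * A.wedgeInt (fun x => M (q, x)) a := fun {M} hM => by
      have hic : ContinuousOn (fun z : Pt × Amb N => pd i φ z.1 * A.wedgePt z.2 (M z) (a z.2))
          (T ×ˢ A.X) := (hpdφ.comp continuous_fst).continuousOn.mul
        (cont_wedge (Z := Pt × Amb N) hJ ha continuousOn_snd (fun z hz => hz.2) hM)
      rw [integral_prod _ (integrable_compact_prod _ _ hT A.compact
        (ae_restrict_mem hT.isClosed.measurableSet) ae_mem_vol hic)]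
      exact integral_congr_ae (Eventually.of_forall fun q =>
        integral_const_mul (pd i φ q) fun x => A.wedgePt x (M (q, x)) (a x))
    have eS : ∀ t, omW ε t * ∫ z, pd i φ z.1 * A.wedgePt z.2 (kk A r d (ε * Real.sqrt t) (A.psi c z.1)
        (fun a => A.dmat c z.1 a j) (fun a => A.dmat c z.1 a k) z.2) (a z.2)
          ∂((volume.restrict T : Measure Pt).prod A.vol) =
        omW ε t * ∫ q, pd i φ q * A.pull c (GS A r d (ε * Real.sqrt t) a) q j k := fun t => by
      by_cases ht : t ∈ Ioc 0 (1 / ε)
      · rw [hi (M := fun z => kk A r d (ε * Real.sqrt t) (A.psi c z.1) (fun a => A.dmat c z.1 a j)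
            (fun a => A.dmat c z.1 a k) z.2) fun u v => (hSK u v).cont.comp (Continuous.prodMk_right _).continuousOn
          fun z hz => ⟨sigma_pos hε ht, hz⟩, hoff]
        refine congrArg _ (integral_congr_ae (Eventually.of_forall fun q => congrArg _ ?_))
        simp only [Atlas.pull, Atlas.pullAt, conj_entry, GS_pair hJ ha]
      · rw [omW_mul_zero _ ht, omW_mul_zero _ ht]
    refine ⟨h1.congr (Eventually.of_forall eS), ?_⟩
    rw [← integral_congr_ae (Eventually.of_forall eS), ← h2, hoff]
    rw [integral_prod _ ?_]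
    · refine integral_congr_ae (Eventually.of_forall fun q => ?_)
      refine Eq.trans ?_ (integral_const_mul (pd i φ q) fun x => A.wedgePt x (Matrix.of fun u v =>
        ∫ t, omW ε t * kk A r d (ε * Real.sqrt t) (A.psi c q) (fun a => A.dmat c q a j)
          (fun a => A.dmat c q a k) x u v) (a x)).symm
      refine congrArg _ ?_
      simp only [Atlas.pull, Atlas.pullAt, conj_entry]
      exact (GE_pair hJ hd ha hε _ _).2
    · exact h1'
  have bp := fun i j k => by_parts hφ hc hs (ht.smooth c j k) i
  have e0 : ∫ q, φ q • g q = -((∫ q, pd i φ q * A.pull c (GE A r d ε a) q j k) +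
      (∫ q, pd j φ q * A.pull c (GE A r d ε a) q k i) +
      ∫ q, pd k φ q * A.pull c (GE A r d ε a) q i j) := by
    rw [(bp i j k).2.2, (bp j k i).2.2, (bp k i j).2.2]
    simp only [g, smul_eq_mul, mul_add]
    rw [integral_add ((bp i j k).2.1.fun_add (bp j k i).2.1) (bp k i j).2.1,
      integral_add (bp i j k).2.1 (bp j k i).2.1]
    ring
  rw [e0, (main i j k).2, (main j k i).2, (main k i j).2, ← integral_add (main i j k).1 (main j k i).1,
    ← integral_add ((main i j k).1.fun_add (main j k i).1) (main k i j).1, neg_eq_zero]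
  refine integral_eq_zero_of_ae (Eventually.of_forall fun t => ?_)
  show (_ + _ + _ : ℝ) = 0
  by_cases ht' : t ∈ Ioc 0 (1 / ε)
  · have hG := hcl _ (sigma_pos hε ht')
    have bpG := fun i j k => by_parts hφ hc hs (hG.smooth c j k) i
    rw [← mul_add, ← mul_add, (bpG i j k).2.2, (bpG j k i).2.2, (bpG k i j).2.2, ← neg_add,
      ← neg_add, ← integral_add (bpG i j k).2.1 (bpG j k i).2.1,
      ← integral_add ((bpG i j k).2.1.fun_add (bpG j k i).2.1) (bpG k i j).2.1]
    rw [integral_eq_zero_of_ae (Eventually.of_forall fun q => ?_)]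
    · simp
    show _ = (0 : ℝ)
    by_cases hq : q ∈ box
    · rw [← mul_add, ← mul_add, hG.closed c q hq i j k, mul_zero]
    · rw [image_eq_zero_of_notMem_tsupport fun h => hq (hs h)]
      simp
  · simp [omW_mul_zero _ ht']

end Vale.Agent.P204.Kernel
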