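import Mathlib
import Vale.Agent.P204.Kernel.GEClosed
import Vale.Agent.P204.Kernel.Parts2
import Vale.Agent.P204.General.Closed.Forms
import Vale.Agent.P204.General.Assembly.Meas
import Vale.Agent.P204.General.Ext.Sob

/-!
# P204: the smoothing module from its parts
-/

open MeasureTheory Matrix Filter Set
open scoped ContDiff Topology

namespace Vale.Agent.P204.Kernel

open Vale.Agent.P204.General Vale.Agent.P204.Torus

variable {N K : ℕ} {A : Atlas N K} {J : Amb N → MN N} {r d : ℝ}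

/-- The averaged line kernel. -/
noncomputable def avgK (k : Amb N → Amb N × Amb N → MN N)
    (m : Measure (Amb N × Amb N)) (x : Amb N) : MN N :=
  Matrix.of fun i j => ∫ p, k x p i j ∂m

theorem avgK_contX {k : Amb N → Amb N × Amb N → MN N} (hs : ∀ x p, (k x p)ᵀ = -k x p)
    (m : Measure (Amb N × Amb N)) [IsFiniteMeasure m] (hsupp : ∀ᵐ p ∂m, p ∈ A.unitTan)
    (hk : ∀ i j, ContinuousOn (fun q : (Amb N × Amb N) × Amb N => k q.2 q.1 i j)
      (A.unitTan ×ˢ A.X)) : IsContX A (avgK k m) := by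
  refine contX_of_continuousOn (fun x => ?_) fun i j => ?_
  · ext i j
    simp only [avgK, Matrix.transpose_apply, Matrix.neg_apply, Matrix.of_apply, ← integral_neg]
    exact integral_congr_ae (Eventually.of_forall fun p => congrFun (congrFun (hs x p) i) j)
  · exact (cont_integral (Z := Amb N) (h := fun y p => k y p i j) m A.compact A.isCompact_unitTan
      hsupp ((hk i j).comp (by fun_prop : Continuous fun q : Amb N × (Amb N × Amb N) =>
        (q.2, q.1)).continuousOn fun q hq => ⟨hq.2, hq.1⟩)).1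

theorem kern_nonneg₀ (ε t : ℝ) : 0 ≤ kern ε t := by unfold kern; positivity

/-- A continuous form is square integrable. -/
theorem L2X_of_continuousOn {V : Amb N → MN N} (h : ∀ i k, ContinuousOn (fun x => V x i k) A.X) :
    L2X A V := by
  refine ⟨fun i k => aesm_of_continuousOn (ae_mem_X A) (h i k), integrable_of_continuousOn A ?_⟩
  simp only [Atlas.sqX, sq2, A.pullAt_apply]
  exact continuousOn_finsetSum _ fun c _ => (A.chi_cont c).continuousOn.mul
    (continuousOn_finsetSum _ fun i _ => continuousOn_finsetSum _ fun k _ =>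
      (continuousOn_finsetSum _ fun y _ => (continuousOn_finsetSum _ fun l _ =>
        ((A.dmat_cont c l i).comp (A.phi_cont c)).continuousOn.mul (h l y)).mul
          ((A.dmat_cont c y k).comp (A.phi_cont c)).continuousOn).pow 2)

variable {R : (Amb N → MN N) → ℝ} {C₀ ε : ℝ} {m : Measure (Amb N × Amb N)} {V : Amb N → MN N}

/-- The smoothed current pairs to zero with forms whose smoothings are closed. -/
theorem theta_kills (hJ : IsACS A J) (hd : 0 < d) (hR : IsExtX A J m R C₀) [IsFiniteMeasure m]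
    (hsupp : ∀ᵐ p ∂m, p ∈ A.unitTan) (hε : 0 < ε)
    (hk : ∀ i j, ContinuousOn (fun q : (Amb N × Amb N) × Amb N => kfE A r d ε J q.2 q.1 i j)
      (A.unitTan ×ˢ A.X))
    (hKm : IsContX A (avgK (kfE A r d ε J) m)) (hV : IsContX A V) {b : Amb N → MN N}
    (hb : IsContX A b)
    (hVb : Integrable (fun t => omW ε t * R (GS A r d (ε * Real.sqrt t) b)) ∧
      A.wedgeInt V b = ∫ t, omW ε t * R (GS A r d (ε * Real.sqrt t) b))
    (hcl : ∀ σ, 0 < σ → IsClosedX A (GS A r d σ b)) :
    A.wedgeInt (fun x => avgK (kfE A r d ε J) m x + V x) b = 0 := by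
  rw [wedgeInt_add_left hJ hKm hV hb]
  obtain ⟨iK, eK⟩ := pair_kfE hJ hd hb m hsupp hε hk
  obtain ⟨iV, eV⟩ := hVb
  have e1 : A.wedgeInt (avgK (kfE A r d ε J) m) b =
      ∫ p, A.wedgeInt (fun x => kfE A r d ε J x p) b ∂m :=
    (pair_avg hJ hb m hsupp (k := kfE A r d ε J) hk).2.2
  rw [e1, eK, eV, ← integral_add iK iV]
  refine integral_eq_zero_of_ae (Eventually.of_forall fun t => ?_)
  show (_ + _ : ℝ) = 0
  by_cases ht : t ∈ Ioc 0 (1 / ε)
  · have := hR.kills _ (hcl _ (sigma_pos hε ht))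
    rw [tcur_GS hJ hb m] at this
    rw [← mul_add, this, mul_zero]
  · rw [omW_mul_zero _ ht, omW_mul_zero _ ht, add_zero]

/-- The subordinated average pairs to zero as soon as the averages do. -/
theorem avg_kills (hJ : IsACS A J) (hd : 0 < d) (m : Measure (Amb N × Amb N)) [IsFiniteMeasure m]
    (hsupp : ∀ᵐ p ∂m, p ∈ A.unitTan) (hε : 0 < ε)
    (hk : ∀ i j, ContinuousOn (fun q : (Amb N × Amb N) × Amb N => kfE A r d ε J q.2 q.1 i j)
      (A.unitTan ×ˢ A.X)) {b : Amb N → MN N} (hb : IsContX A b)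
    (h0 : ∀ σ, 0 < σ → A.wedgeInt b (mS A r d σ J m) = 0) :
    A.wedgeInt b (avgK (kfE A r d ε J) m) = 0 := by
  have e1 : A.wedgeInt (avgK (kfE A r d ε J) m) b =
      ∫ p, A.wedgeInt (fun x => kfE A r d ε J x p) b ∂m :=
    (pair_avg hJ hb m hsupp (k := kfE A r d ε J) hk).2.2
  rw [wedgeInt_comm', e1, (pair_kfE hJ hd hb m hsupp hε hk).2]
  refine integral_eq_zero_of_ae (Eventually.of_forall fun t => ?_)
  show omW ε t * _ = (0 : ℝ)
  by_cases ht : t ∈ Ioc 0 (1 / ε)
  · have hσ := sigma_pos hε ht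
    have e2 : A.wedgeInt (mS A r d (ε * Real.sqrt t) J m) b =
        ∫ p, A.wedgeInt (fun x => kfS A r d (ε * Real.sqrt t) J x p) b ∂m :=
      (pair_avg hJ hb m hsupp (k := fun x p => kfS A r d (ε * Real.sqrt t) J x p) fun i j =>
        (kfS_SK (r := r) hJ hd i j).cont.comp (Continuous.prodMk_right _).continuousOn
          fun q hq => ⟨hσ, hq⟩).2.2
    rw [← e2, wedgeInt_comm', h0 _ hσ, mul_zero]
  · exact omW_mul_zero _ ht

/-- The pairing of the smoothed current with a smoothed measure. -/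
theorem theta_avg (hJ : IsACS A J) {k : Amb N → Amb N × Amb N → MN N}
    (hk : ∀ i j, ContinuousOn (fun q : (Amb N × Amb N) × Amb N => k q.2 q.1 i j)
      (A.unitTan ×ˢ A.X))
    (hkp : ∀ p ∈ A.unitTan, IsContX A fun x => k x p)
    (m m' : Measure (Amb N × Amb N)) [IsFiniteMeasure m] [IsFiniteMeasure m']
    (hs : ∀ᵐ p ∂m, p ∈ A.unitTan) (hs' : ∀ᵐ p ∂m', p ∈ A.unitTan)
    (hKm : IsContX A (avgK k m)) (hK' : IsContX A (avgK k m')) (hV : IsContX A V) :
    A.wedgeInt (fun x => avgK k m x + V x) (avgK k m') =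
      (∫ p, ∫ q, A.wedgeInt (fun x => k x p) (fun x => k x q) ∂m ∂m') +
        ∫ p, A.wedgeInt V (fun x => k x p) ∂m' := by
  have e : ∀ b, IsContX A b →
      A.wedgeInt (avgK k m') b = ∫ p, A.wedgeInt (fun x => k x p) b ∂m' :=
    fun b hb => (pair_avg hJ hb m' hs' (k := k) hk).2.2
  rw [wedgeInt_add_left hJ hKm hV hK', wedgeInt_comm' (avgK k m), wedgeInt_comm' V, e _ hKm, e V hV]
  refine congrArg₂ (· + ·) (integral_congr_ae (hs'.mono fun p hp => ?_))
    (integral_congr_ae (Eventually.of_forall fun p => wedgeInt_comm' _ _))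
  show A.wedgeInt (fun x => k x p) (avgK k m) = _
  have e2 : A.wedgeInt (avgK k m) (fun x => k x p) =
      ∫ q, A.wedgeInt (fun x => k x q) (fun x => k x p) ∂m :=
    (pair_avg hJ (hkp p hp) m hs (k := k) hk).2.2
  rw [wedgeInt_comm', e2]
  exact integral_congr_ae (Eventually.of_forall fun q => wedgeInt_comm' _ _)

/-- The properties of the smoothing, with a larger constant. -/
theorem smoothing_mono {C C' c : ℝ} {G : (Amb N → MN N) → (Amb N → MN N)}
    {kf : Amb N → Amb N × Amb N → MN N} {w : Amb N → Amb N → ℝ} (hC : |C| ≤ C')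
    (S : IsSmoothing A J c C ε G kf w) : IsSmoothing A J c C' ε G kf w := by
  have hk0 : ∀ t, 0 ≤ kern ε t := kern_nonneg₀ ε
  have hC1 := (le_abs_self C).trans hC
  have hC0 := (abs_nonneg C).trans hC
  refine ⟨S.test, S.closed, S.cont, S.skew, S.transpose, ?_, ?_, ?_, ?_, ?_⟩
  · intro x hx p hp
    refine (S.size x hx p hp).trans (sq_le_sq.2 ?_)
    rw [abs_mul, abs_mul, abs_of_nonneg hC0]
    exact mul_le_mul_of_nonneg_right hC (abs_nonneg _)
  · intro x hx p hp
    refine (S.anti x hx p hp).trans (sq_le_sq.2 ?_)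
    rw [abs_mul, abs_mul, abs_mul, abs_mul, abs_of_nonneg hC0]
    exact mul_le_mul_of_nonneg_right (mul_le_mul_of_nonneg_right hC (abs_nonneg _)) (abs_nonneg _)
  · intro x hx y hy
    obtain ⟨w0, w1, w2⟩ := S.weight x hx y hy
    exact ⟨w0, w1.trans (mul_le_mul_of_nonneg_right hC1 (hk0 _)), w2⟩
  · intro x hx p hp M hM
    exact (S.main x hx p hp M hM).trans (mul_le_mul_of_nonneg_right (mul_le_mul_of_nonneg_right
      (mul_le_mul_of_nonneg_right hC1 (sq_nonneg ε)) (hk0 _)) (Real.sqrt_nonneg _))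
  · intro p hp q hq
    obtain ⟨l1, l2⟩ := S.pair_low p hp q hq
    exact ⟨le_trans (neg_le_neg (mul_le_mul_of_nonneg_right
      (mul_le_mul_of_nonneg_right hC1 (sq_nonneg ε)) (hk0 _))) l1,
      fun h => le_trans (sub_le_sub_left (div_le_div_of_nonneg_right hC1 (sq_nonneg ε)) _) (l2 h)⟩

/-- The smoothing module from its parts. -/
theorem smooth_of_parts (hRad : RadiusStmt) (hPoint : PointStmt) (hApprox : ApproxStmt)
    (hTau : TauberStmt) (hDens : DensityStmt) (hExact : ExactStmt) (hRep : RepStmt) :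
    General.SmoothStmt := by
  intro N K A J m R C₀ hJ hm hR
  obtain ⟨r, d, c₀, Cg, hG⟩ := hRad A J hJ
  obtain ⟨c, CP, eP, hc, heP, hP⟩ := hPoint A J r d c₀ Cg hJ hG
  obtain ⟨eA, heA, hA⟩ := hApprox A J r d c₀ Cg hJ hG
  obtain ⟨CT, eT, heT, hT⟩ := hTau A J r d c₀ Cg m R C₀ hJ hG hR
  obtain ⟨CD, eD, heD, hD⟩ := hDens A J r d c₀ Cg m R C₀ hJ hG hR
  obtain ⟨eR, heR, hRp⟩ := hRep A J r d c₀ Cg m R C₀ hJ hG hR
  have hd := hG.d_pos
  have hfin := hm.finite
  set C := |CP| + |CT| + |CD|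
  have hCP : |CP| ≤ C := by
    have := abs_nonneg CT; have := abs_nonneg CD; simp only [C]; linarith
  have hCT : CT ≤ C := by
    have := le_abs_self CT; have := abs_nonneg CP; have := abs_nonneg CD; simp only [C]; linarith
  have hCD : CD ≤ C := by
    have := le_abs_self CD; have := abs_nonneg CP; have := abs_nonneg CT; simp only [C]; linarith
  refine ⟨c, C, min (min eP eA) (min eT (min eD eR)), hc,
    lt_min (lt_min heP heA) (lt_min heT (lt_min heD heR)), ?_⟩
  refine ⟨GE A r d, fun ε => kfE A r d ε J, wE A r d, ?_⟩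
  refine ⟨fun a ha => ?_, fun ε hε hle => ?_⟩
  · -- convergence on test forms
    obtain ⟨-, htest, hlim⟩ := hA a ha
    have h0 : Tendsto (fun ε => C₀ * Real.sqrt (A.sob 3 fun x => antiX J x (GE A r d ε a x - a x)))
        (𝓝[>] 0) (𝓝 0) := by
      simpa using hlim.sqrt.const_mul C₀
    refine tendsto_iff_norm_sub_tendsto_zero.2 (squeeze_zero' (Eventually.of_forall fun ε =>
      norm_nonneg _) ?_ h0)
    filter_upwards [Ioc_mem_nhdsGT heA] with ε hε
    have ht := htest ε hε.1 hε.2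
    have hs := isTestX_sub ht ha
    have e : R (GE A r d ε a) = R (GE A r d ε a - a) + R a := by
      rw [← hR.add _ _ hs ha, sub_add_cancel]
    rw [e, add_sub_cancel_right, Real.norm_eq_abs]
    exact hR.bound _ hs
  obtain ⟨⟨h1, h2⟩, h3, h4, h5⟩ : ((ε ≤ eP ∧ ε ≤ eA) ∧ ε ≤ eT ∧ ε ≤ eD ∧ ε ≤ eR) := by
    simpa only [le_min_iff] using hle
  obtain ⟨Pcont, Pskew, Psize, Panti, Pw, Pmain, Plow⟩ := hP ε hε h1
  obtain ⟨Vskew, Vcont, Vpair, Vrep⟩ := hRp ε hε h5
  have hV : IsContX A (VE A r d ε R) := contX_of_continuousOn Vskew Vcont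
  have hk : ∀ i j, ContinuousOn (fun q : (Amb N × Amb N) × Amb N => kfE A r d ε J q.2 q.1 i j)
      (A.unitTan ×ˢ A.X) := fun i j => by
    rw [continuousOn_iff_continuous_domRestrict]
    exact (Pcont i j).comp (f := fun z : (A.unitTan ×ˢ A.X : Set ((Amb N × Amb N) × Amb N)) =>
      ((⟨z.1.2, z.2.2⟩, ⟨z.1.1, z.2.1⟩) : A.X × A.unitTan)) (by fun_prop)
  have hkp : ∀ p ∈ A.unitTan, IsContX A fun x => kfE A r d ε J x p := fun p hp =>
    contX_of_continuousOn (fun x => Pskew x p) fun i j => by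
      have h := ContinuousOn.comp (hk i j) (f := fun x => (p, x)) (s := A.X)
        (Continuous.prodMk_right p).continuousOn fun x hx => ⟨hp, hx⟩
      exact h
  have hStokes : ∀ a, IsClosedX A a → ∀ a' β, IsOneX A β → IsTestX A a' → IsDOne A a' β →
      A.wedgeInt a' a = 0 := fun a ha a' β hβ ha' hd' => wedgeInt_exact A hJ hβ ha' hd' ha
  have hcl : ∀ b, IsContX A b →
      (∀ a β, IsOneX A β → IsTestX A a → IsDOne A a β → A.wedgeInt a b = 0) →
      ∀ σ, 0 < σ → IsClosedX A (GS A r d σ b) :=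
    fun b hb ho σ hσ => (hExact A J r d c₀ Cg hJ hG σ hσ).1 b hb ho
  have hKm : IsContX A (avgK (kfE A r d ε J) m) := avgK_contX Pskew m hm.supp hk
  have hθ : IsContX A fun x => avgK (kfE A r d ε J) m x + VE A r d ε R x := by
    refine ⟨fun x => by rw [transpose_add, hKm.skew x, hV.skew x, neg_add], fun c i k => ?_⟩
    refine ((hKm.cont c i k).add (hV.cont c i k)).congr fun p _ => ?_
    simp only [Atlas.pull, Atlas.pullAt, Matrix.mul_add, Matrix.add_mul, Matrix.add_apply,
      Pi.add_apply]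
  have kills : ∀ b, IsContX A b →
      (∀ a β, IsOneX A β → IsTestX A a → IsDOne A a β → A.wedgeInt a b = 0) →
      A.wedgeInt (fun x => avgK (kfE A r d ε J) m x + VE A r d ε R x) b = 0 := fun b hb ho =>
    theta_kills hJ hd hR hm.supp hε hk hKm hV hb (Vpair b hb) (hcl b hb ho)
  have hSm : IsSmoothing A J c CP ε (GE A r d ε) (kfE A r d ε J) (wE A r d ε) :=
    { test := fun a ha => (hA a ha).2.1 ε hε h2
      closed := fun a ha => GE_closed hJ hd ha.toIsTestX.contX hε ((hA a ha.toIsTestX).2.1 ε hε h2)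
        (hcl a ha.toIsTestX.contX (hStokes a ha))
      cont := Pcont
      skew := Pskew
      transpose := fun a ha p _ => (GE_pair (r := r) hJ hd ha.contX hε p.2 (J p.1 *ᵥ p.2)).2
      size := Psize
      anti := Panti
      weight := Pw
      main := Pmain
      pair_low := Plow }
  refine ⟨smoothing_mono hCP hSm, VE A r d ε R, L2X_of_continuousOn Vcont, Vskew,
    fun a ha => Vrep a ha, ?_, ?_, ?_, fun ρ hρ hρR => ?_⟩
  · exact (hT ε hε h3).trans (mul_le_mul_of_nonneg_right (mul_le_mul_of_nonneg_right hCT hε.le)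
      (Real.sqrt_nonneg _))
  · have h0 := kills _ hθ fun a β hβ ha hd' => by
      rw [wedgeInt_comm']
      exact kills a ha.contX fun a' β' hβ' ha' hd'' =>
        hStokes a (isClosedX_of_dOne A ha.skew hβ hd') a' β' hβ' ha' hd''
    have e : A.wedgeInt (avgK (kfE A r d ε J) m) (VE A r d ε R) =
        ∫ p, A.wedgeInt (VE A r d ε R) (fun x => kfE A r d ε J x p) ∂m :=
      (pair_avg hJ hV m hm.supp (k := kfE A r d ε J) hk).2.2.trans
        (integral_congr_ae (Eventually.of_forall fun p => wedgeInt_comm' _ _))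
    rw [wedgeInt_add_left hJ hKm hV hθ, wedgeInt_comm' (avgK (kfE A r d ε J) m),
      wedgeInt_comm' (VE A r d ε R), theta_avg hJ hk hkp m m hm.supp hm.supp hKm hKm hV,
      wedgeInt_add_left hJ hKm hV hV, e] at h0
    linarith
  · intro m' hf' hs' hcl'
    rw [← theta_avg hJ hk hkp m m' hm.supp hs' hKm (avgK_contX Pskew m' hs' hk) hV]
    refine avg_kills hJ hd m' hs' hε hk hθ fun σ hσ => ?_
    have hM := (hExact A J r d c₀ Cg hJ hG σ hσ).2 m' hf' hs' hcl'
    exact kills _ hM.toIsTestX.contX fun a β => hStokes _ hM a β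
  · filter_upwards [hD ε hε h4 ρ hρ hρR] with x hx
    have hc0 : 0 ≤ A.conv ε (fun y => Real.sqrt (A.sqX y (ρ y))) x :=
      integral_nonneg fun y => mul_nonneg (kern_nonneg₀ ε _) (Real.sqrt_nonneg _)
    exact ⟨hx.1.trans (mul_le_mul_of_nonneg_right hCD hc0),
      hx.2.trans (mul_le_mul_of_nonneg_right (mul_le_mul_of_nonneg_right hCD hε.le) hc0)⟩

end Vale.Agent.P204.Kernel
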