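import Vale.Agent.P204.Kernel.Family

/-!
# P204: constructors of Gaussian families

`Moderate` functions have derivatives of polynomial growth in `z`; `exp (-F)` of a moderate `F`
bounded below by a multiple of `‖z‖²` is a Gaussian family, and moderate multiples stay in the
class.
-/

open Filter Topology
open scoped ContDiff

namespace Vale.Agent.P204.Kernel

variable {S : Set ℝ} {σ₀ c : ℝ} {F F' M M' : ℝ → Pt → Pt → ℝ}

/-- All derivatives grow at most polynomially in `z`, uniformly over the widths in `S`. -/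
structure Moderate (S : Set ℝ) (F : ℝ → Pt → Pt → ℝ) : Prop where
  smooth : ∀ σ ∈ S, ContDiff ℝ ∞ (Function.uncurry (F σ))
  bound : ∀ n : ℕ, ∃ (C : ℝ) (k : ℕ), 0 ≤ C ∧ ∀ σ ∈ S, ∀ p : Pt × Pt,
    ‖iteratedFDeriv ℝ n (Function.uncurry (F σ)) p‖ ≤ C * (1 + ‖p.2‖) ^ k

theorem pow_le_exp {a : ℝ} (ha : 0 < a) (k : ℕ) {r : ℝ} (hr : 0 ≤ r) :
    (1 + r) ^ k ≤ Real.exp ((k : ℝ) ^ 2 / (4 * a)) * Real.exp (a * r ^ 2) := by
  refine (pow_le_pow_left₀ (by positivity) ?_ k).trans
    (b := Real.exp r ^ k) ?_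
  · linarith [Real.add_one_le_exp r]
  rw [← Real.exp_nat_mul, ← Real.exp_add]
  refine Real.exp_le_exp.2 ?_
  have : 0 ≤ (2 * a * r - k) ^ 2 / (4 * a) := by positivity
  have e : (2 * a * r - k) ^ 2 / (4 * a) = a * r ^ 2 - k * r + (k : ℝ) ^ 2 / (4 * a) := by
    field_simp; ring
  linarith

/-- Functions with all derivatives bounded. -/
def BddDerivs {E : Type*} [NormedAddCommGroup E] [NormedSpace ℝ E] (A : E → ℝ) : Prop :=
  ∀ n : ℕ, ∃ C : ℝ, 0 ≤ C ∧ ∀ x, ‖iteratedFDeriv ℝ n A x‖ ≤ C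

theorem bddDerivs_of_compactSupport {E : Type*} [NormedAddCommGroup E] [NormedSpace ℝ E]
    {A : E → ℝ} (hA : ContDiff ℝ ∞ A) (hs : HasCompactSupport A) : BddDerivs A := fun n => by
  obtain ⟨C, hC⟩ := (hs.iteratedFDeriv n).exists_bound_of_continuous
    (hA.continuous_iteratedFDeriv (by exact_mod_cast le_top))
  exact ⟨max C 0, le_max_right _ _, fun x => (hC x).trans (le_max_left _ _)⟩

/-- A function of `(q, σ z)` with bounded derivatives is moderate. -/
theorem Moderate.scaled (hS : ∀ σ ∈ S, 0 < σ ∧ σ ≤ σ₀) {A : Pt × Pt → ℝ}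
    (hA : ContDiff ℝ ∞ A) (hb : BddDerivs A) :
    Moderate S (fun σ q z => A (q, σ • z)) := by
  set L : ℝ → Pt × Pt →L[ℝ] Pt × Pt := fun σ =>
    (ContinuousLinearMap.fst ℝ Pt Pt).prod (σ • ContinuousLinearMap.snd ℝ Pt Pt)
  have heq : ∀ σ, Function.uncurry (fun q z => A (q, σ • z)) = A ∘ L σ := fun σ => rfl
  refine ⟨fun σ _ => by rw [heq]; exact hA.comp (L σ).contDiff, fun n => ?_⟩
  obtain ⟨C, hC, h⟩ := hb n
  refine ⟨C * (1 + |σ₀|) ^ n, 0, by positivity, fun σ hσ p => ?_⟩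
  rw [heq, (L σ).iteratedFDeriv_comp_right hA p (by exact_mod_cast le_top), pow_zero, mul_one]
  refine (ContinuousMultilinearMap.norm_compContinuousLinearMap_le _ _).trans ?_
  rw [Finset.prod_const, Finset.card_univ, Fintype.card_fin]
  refine mul_le_mul (h _) (pow_le_pow_left₀ (norm_nonneg _) ?_ n) (by positivity) hC
  refine ContinuousLinearMap.opNorm_le_bound _ (by positivity) fun v => ?_
  show ‖((v.1, σ • v.2) : Pt × Pt)‖ ≤ (1 + |σ₀|) * ‖v‖
  rw [Prod.norm_def]
  refine max_le ?_ ?_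
  · exact (norm_fst_le v).trans (le_mul_of_one_le_left (norm_nonneg _) (by linarith [abs_nonneg σ₀]))
  · rw [norm_smul, Real.norm_eq_abs, abs_of_pos (hS σ hσ).1]
    exact mul_le_mul (by linarith [(hS σ hσ).2, le_abs_self σ₀]) (norm_snd_le v) (norm_nonneg _)
      (by positivity)

/-- A function of `q` alone with bounded derivatives is moderate. -/
theorem Moderate.base {A : Pt → ℝ} (hA : ContDiff ℝ ∞ A) (hb : BddDerivs A) :
    Moderate S (fun _ q _ => A q) := by
  set L : Pt × Pt →L[ℝ] Pt := ContinuousLinearMap.fst ℝ Pt Pt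
  have heq : Function.uncurry (fun (q : Pt) (_ : Pt) => A q) = A ∘ L := rfl
  refine ⟨fun σ _ => by rw [heq]; exact hA.comp L.contDiff, fun n => ?_⟩
  obtain ⟨C, hC, h⟩ := hb n
  refine ⟨C * ‖L‖ ^ n, 0, by positivity, fun σ _ p => ?_⟩
  rw [heq, L.iteratedFDeriv_comp_right hA p (by exact_mod_cast le_top), pow_zero, mul_one]
  refine (ContinuousMultilinearMap.norm_compContinuousLinearMap_le _ _).trans ?_
  rw [Finset.prod_const, Finset.card_univ, Fintype.card_fin]
  exact mul_le_mul_of_nonneg_right (h _) (by positivity)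

theorem Moderate.const (a : ℝ) : Moderate S (fun _ _ _ => a) := by
  refine Moderate.base contDiff_const fun n => ⟨|a|, abs_nonneg a, fun x => ?_⟩
  rcases eq_or_ne n 0 with rfl | hn
  · rw [norm_iteratedFDeriv_zero, Real.norm_eq_abs]
  · rw [iteratedFDeriv_const_of_ne hn]; simp

/-- The coordinates of `z` are moderate. -/
theorem Moderate.coord (i : Fin 4) : Moderate S (fun _ _ z => z i) := by
  set L : Pt × Pt →L[ℝ] ℝ :=
    (ContinuousLinearMap.proj (φ := fun _ : Fin 4 => ℝ) i).comp (ContinuousLinearMap.snd ℝ Pt Pt)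
  have heq : Function.uncurry (fun (_ : Pt) (z : Pt) => z i) = ⇑L := rfl
  refine ⟨fun σ _ => by rw [heq]; exact L.contDiff, fun n => ⟨1 + ‖L‖, 1, by positivity,
    fun σ _ p => ?_⟩⟩
  rw [heq, pow_one]
  have h1 : 1 ≤ 1 + ‖p.2‖ := le_add_of_nonneg_right (norm_nonneg _)
  rcases n with _ | n
  · rw [norm_iteratedFDeriv_zero]
    exact (norm_le_pi_norm p.2 i).trans (le_trans (by linarith)
      (le_mul_of_one_le_left (by positivity) (le_add_of_nonneg_right (norm_nonneg L))))
  rw [← norm_iteratedFDeriv_fderiv,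
    show fderiv ℝ (⇑L) = fun _ => L from funext fun x => L.fderiv]
  rcases eq_or_ne n 0 with rfl | hn
  · rw [norm_iteratedFDeriv_zero]
    exact le_trans (by linarith [norm_nonneg L]) (le_mul_of_one_le_right (by positivity) h1)
  · rw [iteratedFDeriv_const_of_ne hn]; simp only [Pi.zero_apply, norm_zero]; positivity

theorem Moderate.add (hF : Moderate S F) (hF' : Moderate S F') :
    Moderate S (fun σ q z => F σ q z + F' σ q z) := by
  have heq : ∀ σ, Function.uncurry (fun q z => F σ q z + F' σ q z) =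
      Function.uncurry (F σ) + Function.uncurry (F' σ) := fun σ => rfl
  refine ⟨fun σ hσ => by rw [heq]; exact (hF.smooth σ hσ).add (hF'.smooth σ hσ), fun n => ?_⟩
  obtain ⟨C, k, hC, h⟩ := hF.bound n
  obtain ⟨C', k', hC', h'⟩ := hF'.bound n
  refine ⟨C + C', k + k', by positivity, fun σ hσ p => ?_⟩
  rw [heq, iteratedFDeriv_add_apply ((hF.smooth σ hσ).contDiffAt.of_le (by exact_mod_cast le_top))
    ((hF'.smooth σ hσ).contDiffAt.of_le (by exact_mod_cast le_top)), add_mul]
  have h1 : 1 ≤ 1 + ‖p.2‖ := le_add_of_nonneg_right (norm_nonneg _)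
  exact (norm_add_le _ _).trans (add_le_add
    ((h σ hσ p).trans (mul_le_mul_of_nonneg_left (pow_le_pow_right₀ h1 (Nat.le_add_right _ _)) hC))
    ((h' σ hσ p).trans (mul_le_mul_of_nonneg_left (pow_le_pow_right₀ h1 (Nat.le_add_left _ _)) hC')))

theorem GaussFam.add {c' : ℝ} (hM : GaussFam S M c) (hM' : GaussFam S M' c') :
    GaussFam S (fun σ q z => M σ q z + M' σ q z) (min c c') := by
  have heq : ∀ σ, Function.uncurry (fun q z => M σ q z + M' σ q z) =
      Function.uncurry (M σ) + Function.uncurry (M' σ) := fun σ => rfl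
  refine ⟨lt_min hM.pos hM'.pos,
    fun σ hσ => by rw [heq]; exact (hM.smooth σ hσ).add (hM'.smooth σ hσ), fun n => ?_⟩
  obtain ⟨C, hC, h⟩ := hM.bound n
  obtain ⟨C', hC', h'⟩ := hM'.bound n
  refine ⟨C + C', by positivity, fun σ hσ p => ?_⟩
  rw [heq, iteratedFDeriv_add_apply ((hM.smooth σ hσ).contDiffAt.of_le (by exact_mod_cast le_top))
    ((hM'.smooth σ hσ).contDiffAt.of_le (by exact_mod_cast le_top)), add_mul]
  refine (norm_add_le _ _).trans (add_le_add ((h σ hσ p).trans ?_) ((h' σ hσ p).trans ?_)) <;>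
    refine mul_le_mul_of_nonneg_left (Real.exp_le_exp.2 ?_) (by assumption) <;>
    nlinarith [min_le_left c c', min_le_right c c', sq_nonneg ‖p.2‖]

/-- Leibniz: a product of two families bounded by `φ` and `ψ`. -/
theorem norm_iteratedFDeriv_mul_bound {f g : Pt × Pt → ℝ} (hf : ContDiff ℝ ∞ f)
    (hg : ContDiff ℝ ∞ g) (n : ℕ) (p : Pt × Pt) {a b : ℕ → ℝ} (ha : ∀ i, 0 ≤ a i)
    (h : ∀ i, ‖iteratedFDeriv ℝ i f p‖ ≤ a i) (h' : ∀ i, ‖iteratedFDeriv ℝ i g p‖ ≤ b i) :
    ‖iteratedFDeriv ℝ n (fun y => f y * g y) p‖ ≤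
      ∑ i ∈ Finset.range (n + 1), (n.choose i : ℝ) * a i * b (n - i) :=
  (norm_iteratedFDeriv_mul_le hf hg p (by exact_mod_cast le_top)).trans
    (Finset.sum_le_sum fun i _ => mul_le_mul (mul_le_mul_of_nonneg_left (h i) (by positivity))
      (h' _) (norm_nonneg _) (mul_nonneg (by positivity) (ha i)))

theorem Moderate.mul (hF : Moderate S F) (hF' : Moderate S F') :
    Moderate S (fun σ q z => F σ q z * F' σ q z) := by
  refine ⟨fun σ hσ => (hF.smooth σ hσ).mul (hF'.smooth σ hσ), fun n => ?_⟩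
  choose C k hC h using hF.bound
  choose C' k' hC' h' using hF'.bound
  refine ⟨∑ i ∈ Finset.range (n + 1), (n.choose i : ℝ) * C i * C' (n - i),
    (∑ i ∈ Finset.range (n + 1), k i) + ∑ i ∈ Finset.range (n + 1), k' i,
    Finset.sum_nonneg fun i _ => by have := hC i; have := hC' (n - i); positivity,
    fun σ hσ p => ?_⟩
  have h1 : 1 ≤ 1 + ‖p.2‖ := le_add_of_nonneg_right (norm_nonneg _)
  refine (norm_iteratedFDeriv_mul_bound (hF.smooth σ hσ) (hF'.smooth σ hσ) n p
    (fun i => mul_nonneg (hC i) (pow_nonneg (zero_le_one.trans h1) _))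
    (fun i => h i σ hσ p) (fun i => h' i σ hσ p)).trans ?_
  rw [Finset.sum_mul]
  refine Finset.sum_le_sum fun i hi => ?_
  have hk : k i + k' (n - i) ≤
      (∑ i ∈ Finset.range (n + 1), k i) + ∑ i ∈ Finset.range (n + 1), k' i :=
    add_le_add (Finset.single_le_sum (fun _ _ => Nat.zero_le _) hi)
      (Finset.single_le_sum (fun _ _ => Nat.zero_le _) (Finset.mem_range.2 (by omega)))
  calc (n.choose i : ℝ) * (C i * (1 + ‖p.2‖) ^ k i) * (C' (n - i) * (1 + ‖p.2‖) ^ k' (n - i))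
      = (n.choose i : ℝ) * C i * C' (n - i) * (1 + ‖p.2‖) ^ (k i + k' (n - i)) := by
        rw [pow_add]; ring
    _ ≤ _ := mul_le_mul_of_nonneg_left (pow_le_pow_right₀ h1 hk)
        (by have := hC i; have := hC' (n - i); positivity)

/-- A moderate multiple of a Gaussian family. -/
theorem GaussFam.moderate_mul (hF : Moderate S F) (hM : GaussFam S M c) :
    GaussFam S (fun σ q z => F σ q z * M σ q z) (c / 2) := by
  have hc := hM.pos
  refine ⟨by positivity, fun σ hσ => (hF.smooth σ hσ).mul (hM.smooth σ hσ), fun n => ?_⟩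
  choose C k hC h using hF.bound
  choose C' hC' h' using hM.bound
  refine ⟨∑ i ∈ Finset.range (n + 1), (n.choose i : ℝ) * C i * C' (n - i) *
      Real.exp ((k i : ℝ) ^ 2 / (4 * (c / 2))),
    Finset.sum_nonneg fun i _ => by have := hC i; have := hC' (n - i); positivity,
    fun σ hσ p => ?_⟩
  refine (norm_iteratedFDeriv_mul_bound (hF.smooth σ hσ) (hM.smooth σ hσ) n p
    (fun i => mul_nonneg (hC i) (by positivity))
    (fun i => h i σ hσ p) (fun i => h' i σ hσ p)).trans ?_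
  rw [Finset.sum_mul]
  refine Finset.sum_le_sum fun i _ => ?_
  have hp := pow_le_exp (show 0 < c / 2 by positivity) (k i) (norm_nonneg p.2)
  calc (n.choose i : ℝ) * (C i * (1 + ‖p.2‖) ^ k i) * (C' (n - i) * Real.exp (-c * ‖p.2‖ ^ 2))
      = (n.choose i : ℝ) * C i * C' (n - i) * Real.exp (-c * ‖p.2‖ ^ 2) * (1 + ‖p.2‖) ^ k i := by
        ring
    _ ≤ (n.choose i : ℝ) * C i * C' (n - i) * Real.exp (-c * ‖p.2‖ ^ 2) *
        (Real.exp ((k i : ℝ) ^ 2 / (4 * (c / 2))) * Real.exp (c / 2 * ‖p.2‖ ^ 2)) :=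
        mul_le_mul_of_nonneg_left hp (by have := hC i; have := hC' (n - i); positivity)
    _ = (n.choose i : ℝ) * C i * C' (n - i) * Real.exp ((k i : ℝ) ^ 2 / (4 * (c / 2))) *
        (Real.exp (-c * ‖p.2‖ ^ 2) * Real.exp (c / 2 * ‖p.2‖ ^ 2)) := by ring
    _ = _ := by rw [← Real.exp_add]; congr 2; ring

/-- `exp (-F)` for moderate `F` with a quadratic lower bound. -/
theorem GaussFam.exp_neg (hF : Moderate S F) (hc : 0 < c) {C₀ : ℝ}
    (hlow : ∀ σ ∈ S, ∀ q z, c * ‖z‖ ^ 2 - C₀ ≤ F σ q z) :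
    GaussFam S (fun σ q z => Real.exp (-F σ q z)) (c / 2) := by
  have heq : ∀ σ, Function.uncurry (fun q z => Real.exp (-F σ q z)) =
      Real.exp ∘ (fun p : Pt × Pt => (-1 : ℝ) * Function.uncurry (F σ) p) := fun σ => by
    funext p; simp [Function.uncurry]
  have hneg : Moderate S (fun σ q z => (-1 : ℝ) * F σ q z) := (Moderate.const (-1)).mul hF
  refine ⟨by positivity,
    fun σ hσ => by rw [heq]; exact Real.contDiff_exp.comp (hneg.smooth σ hσ), fun n => ?_⟩
  choose C k hC h using hneg.bound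
  set K := 1 + ∑ i ∈ Finset.range (n + 1), C i with hKdef
  set m := ∑ i ∈ Finset.range (n + 1), k i with hmdef
  have hK : 0 ≤ ∑ i ∈ Finset.range (n + 1), C i := Finset.sum_nonneg fun i _ => hC i
  refine ⟨n.factorial * Real.exp C₀ * K ^ n * Real.exp (((m * n : ℕ) : ℝ) ^ 2 / (4 * (c / 2))),
    by positivity, fun σ hσ p => ?_⟩
  rw [heq]
  have h1 : 1 ≤ 1 + ‖p.2‖ := le_add_of_nonneg_right (norm_nonneg _)
  have hD1 : 1 ≤ K * (1 + ‖p.2‖) ^ m :=
    one_le_mul_of_one_le_of_one_le (by simp only [K]; linarith) (one_le_pow₀ h1)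
  refine (norm_iteratedFDeriv_comp_le (Real.contDiff_exp (n := ∞)) (hneg.smooth σ hσ)
    (by exact_mod_cast le_top) p (C := Real.exp C₀ * Real.exp (-c * ‖p.2‖ ^ 2))
    (D := K * (1 + ‖p.2‖) ^ m) (fun i _ => ?_) fun i hi1 hin => ?_).trans ?_
  · rw [norm_iteratedFDeriv_eq_norm_iteratedDeriv, iteratedDeriv_eq_iterate, Real.iter_deriv_exp,
      Real.norm_eq_abs, Real.abs_exp, ← Real.exp_add]
    refine Real.exp_le_exp.2 ?_
    have := hlow σ hσ p.1 p.2
    simp only [Function.uncurry]; linarith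
  · refine (h i σ hσ p).trans (le_trans ?_ (le_self_pow₀ hD1 (by omega)))
    have hi : i ∈ Finset.range (n + 1) := Finset.mem_range.2 (by omega)
    refine mul_le_mul ?_ (pow_le_pow_right₀ h1 (Finset.single_le_sum (fun _ _ => Nat.zero_le _) hi))
      (by positivity) (by simp only [K]; linarith)
    simp only [K]
    linarith [Finset.single_le_sum (fun i _ => hC i) hi]
  · rw [mul_pow, ← pow_mul]
    have hp := pow_le_exp (show 0 < c / 2 by positivity) (m * n) (norm_nonneg p.2)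
    have hKn : 0 ≤ K ^ n := by simp only [K]; positivity
    calc (n.factorial : ℝ) * (Real.exp C₀ * Real.exp (-c * ‖p.2‖ ^ 2)) *
          (K ^ n * (1 + ‖p.2‖) ^ (m * n))
        ≤ (n.factorial : ℝ) * (Real.exp C₀ * Real.exp (-c * ‖p.2‖ ^ 2)) *
          (K ^ n * (Real.exp (((m * n : ℕ) : ℝ) ^ 2 / (4 * (c / 2))) *
            Real.exp (c / 2 * ‖p.2‖ ^ 2))) :=
          mul_le_mul_of_nonneg_left (mul_le_mul_of_nonneg_left hp hKn) (by positivity)
      _ = (n.factorial : ℝ) * Real.exp C₀ * K ^ n *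
          Real.exp (((m * n : ℕ) : ℝ) ^ 2 / (4 * (c / 2))) *
          (Real.exp (-c * ‖p.2‖ ^ 2) * Real.exp (c / 2 * ‖p.2‖ ^ 2)) := by ring
      _ = _ := by rw [← Real.exp_add]; congr 2; ring

/-- A finite sum of Gaussian families with a common rate. -/
theorem GaussFam.sum {ι : Type*} (s : Finset ι) (hc : 0 < c) {Ms : ι → ℝ → Pt → Pt → ℝ}
    (h : ∀ i ∈ s, GaussFam S (Ms i) c) :
    GaussFam S (fun σ q z => ∑ i ∈ s, Ms i σ q z) c := by
  classical
  induction s using Finset.induction_on with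
  | empty =>
    refine ⟨hc, fun σ _ => by simp only [Finset.sum_empty]; exact contDiff_const (c := (0 : ℝ)), fun n =>
      ⟨0, le_rfl, fun σ _ p => ?_⟩⟩
    have : Function.uncurry (fun (q z : Pt) => ∑ i ∈ (∅ : Finset ι), Ms i σ q z) = fun _ => 0 := by
      funext x; simp [Function.uncurry]
    rw [this]
    rcases eq_or_ne n 0 with rfl | hn
    · simp
    · rw [iteratedFDeriv_const_of_ne hn]; simp
  | insert i t hi ih =>
    have := (h i (Finset.mem_insert_self i t)).add (ih fun k hk => h k (Finset.mem_insert_of_mem hk))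
    rw [min_self] at this
    simpa [Finset.sum_insert hi] using this

end Vale.Agent.P204.Kernel
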