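import Mathlib
import Vale.Agent.P204.Kernel.Pull

/-!
# P204: exterior derivatives of ambient one-forms
-/

open MeasureTheory Matrix Filter Set
open scoped ContDiff Topology

namespace Vale.Agent.P204.Kernel

open Vale.Agent.P204.General Vale.Agent.P204.Torus

variable {N K : ℕ} {A : Atlas N K}

/-- The exterior derivative of an ambient one-form. -/
noncomputable def ambD (β : Amb N → Amb N) (x : Amb N) : MN N :=
  Matrix.of fun l m => fderiv ℝ (fun y => β y m) x (Pi.single l 1) -
    fderiv ℝ (fun y => β y l) x (Pi.single m 1)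

theorem ambD_pair {β : Amb N → Amb N} {x : Amb N}
    (hβ : ∀ l, DifferentiableAt ℝ (fun y => β y l) x) (u w : Amb N) :
    u ⬝ᵥ (ambD β x *ᵥ w) =
      fderiv ℝ (fun y => β y ⬝ᵥ w) x u - fderiv ℝ (fun y => β y ⬝ᵥ u) x w := by
  have h : ∀ u w : Amb N, fderiv ℝ (fun y => β y ⬝ᵥ w) x u =
      ∑ l, ∑ m, u l * (w m * fderiv ℝ (fun y => β y m) x (Pi.single l 1)) := fun u w => by
    simp only [dotProduct]
    rw [fderiv_fun_sum fun m _ => (hβ m).mul_const _, _root_.sum_apply, Finset.sum_comm]
    refine Finset.sum_congr rfl fun m _ => ?_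
    rw [fderiv_mul_const (hβ m), _root_.smul_apply, smul_eq_mul]
    conv_lhs => rw [pi_eq_sum_univ' u, map_sum, Finset.mul_sum]
    refine Finset.sum_congr rfl fun l _ => ?_
    rw [map_smul, smul_eq_mul]; ring
  rw [h, h]
  simp only [dotProduct, mulVec, ambD, Matrix.of_apply, Finset.mul_sum, mul_sub, sub_mul,
    Finset.sum_sub_distrib]
  congr 1
  · exact Finset.sum_congr rfl fun l _ => Finset.sum_congr rfl fun m _ => by ring
  · rw [Finset.sum_comm]
    exact Finset.sum_congr rfl fun l _ => Finset.sum_congr rfl fun m _ => by ring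

variable {β : Amb N → Amb N} (hβ : ∀ l, ContDiff ℝ ∞ fun y => β y l)
include hβ

theorem ambD_test : IsTestX A (ambD β) := by
  refine isTestX_of_smooth A (fun x => ?_) fun l m => ?_
  · ext l m; simp [ambD]
  · have h : ∀ l (v : Amb N), ContDiff ℝ ∞ fun x => fderiv ℝ (fun y => β y l) x v := fun l v =>
      ((hβ l).fderiv_right (m := ∞) (by simp)).clm_apply contDiff_const
    exact (h m _).sub (h l _)

theorem ambD_isOne : IsOneX A β := fun c k => by
  have h1 := fun l => (A.dmat_smooth c l k).contDiffOn (s := box)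
  have h2 : ∀ l, ContDiffOn ℝ ∞ (fun p => β (A.psi c p) l) box := fun l =>
    ((hβ l).comp (A.psi_smooth c)).contDiffOn
  simp only [Atlas.pullOne, mulVec, dotProduct, Matrix.transpose_apply]
  exact ContDiffOn.sum fun l _ => (h1 l).mul (h2 l)

theorem ambD_isDOne : IsDOne A (ambD β) β := fun c p _ => by
  ext i k
  have hd : ∀ l, DifferentiableAt ℝ (fun y => β y l) (A.psi c p) := fun l =>
    ((hβ l).differentiable (by simp)).differentiableAt
  have hp : ∀ i k, pd i (fun q => A.pullOne c β q k) p =
      (fun l => dD A c i p l k) ⬝ᵥ β (A.psi c p) +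
        fderiv ℝ (fun y => β y ⬝ᵥ fun l => A.dmat c p l k) (A.psi c p) (A.dmat c p *ᵥ Pi.single i 1) := by
    intro i k
    have hc : ∀ l, HasDerivAt (fun t : ℝ => β (A.psi c (p + t • Pi.single i 1)) l)
        (fderiv ℝ (fun y => β y l) (A.psi c p) (A.dmat c p *ᵥ Pi.single i 1)) 0 := fun l => by
      rw [A.dmat_mulVec]
      exact ((hd l).hasFDerivAt.comp p (A.psi_diff c p).hasFDerivAt).hasLineDerivAt (Pi.single i 1)
    have hf := HasDerivAt.fun_sum fun l (_ : l ∈ (Finset.univ : Finset (Fin N))) =>
      (PD_dmat A c i p l k).fun_mul (hc l)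
    simp only [zero_smul, add_zero] at hf
    have hdiff : DifferentiableAt ℝ (fun q => A.pullOne c β q k) p :=
      (((ambD_isOne hβ (A := A)) c k).differentiableOn (by simp)).differentiableAt
        (isOpen_box.mem_nhds ‹p ∈ box›)
    have heq : pd i (fun q => A.pullOne c β q k) p = _ := (hasDerivAt_pd hdiff i).unique
      (f := fun t : ℝ => A.pullOne c β (p + t • Pi.single i 1) k) hf
    rw [heq]
    simp only [dotProduct, Finset.sum_add_distrib]
    congr 1
    rw [fderiv_fun_sum fun m _ => (hd m).mul_const _, _root_.sum_apply]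
    refine Finset.sum_congr rfl fun m _ => ?_
    rw [fderiv_mul_const (hd m), _root_.smul_apply, smul_eq_mul]
  simp only [Atlas.pull, Atlas.pullAt, dOne, Matrix.of_apply, hp, conj_entry, ambD_pair hd,
    mulVec_single_one, Matrix.col_def]
  rw [show (fun l => dD A c i p l k) = fun l => dD A c k p l i from
    funext fun l => dD_symm A c i k p l]
  simp only [Matrix.transpose]
  ring_nf
  rfl

end Vale.Agent.P204.Kernel
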