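import Vale.Agent.P204.Kernel.LocalRep
import Vale.Agent.P204.Kernel.Profile

/-!
# P204: estimates for the Tauberian bound

Energy bounds at scale `ε`, their transfer through changes of variables, difference quotients in
the width, superposition in the time.
-/

open MeasureTheory Filter Topology Set
open scoped ContDiff

namespace Vale.Agent.P204.Kernel

/-! ### Parameter integrals with bounds in the parameter only -/

section param

set_option linter.unusedSectionVars false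

variable {E T : Type} [NormedAddCommGroup E] [NormedSpace ℝ E] [NormedAddCommGroup T]
  [NormedSpace ℝ T] [MeasurableSpace T] [BorelSpace T] [SecondCountableTopology T]
  {μ : Measure T} {U : Set E} {W : Set T}

theorem dX_eq_fderiv {F : Type} [NormedAddCommGroup F] [NormedSpace ℝ F] (hU : IsOpen U)
    (hW : IsOpen W) {G : E × T → F} (hG : ContDiffOn ℝ ∞ G (U ×ˢ W)) {x : E} (hx : x ∈ U) {t : T}
    (ht : t ∈ W) : fderiv ℝ (fun x => G (x, t)) x = dX G (x, t) :=
  (((hG.contDiffAt ((hU.prod hW).mem_nhds ⟨hx, ht⟩)).differentiableAt (by simp)).hasFDerivAt.comp x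
    (hasFDerivAt_prodMk_left x t)).fderiv

theorem param_step' {F : Type} [NormedAddCommGroup F] [NormedSpace ℝ F] (hU : IsOpen U)
    (hW : IsOpen W) {G : E × T → F} (hG : ContDiffOn ℝ ∞ G (U ×ˢ W)) {x : E} (hx : x ∈ U) {t : T}
    (ht : t ∈ W) (n : ℕ) :
    ‖iteratedFDeriv ℝ n (fun x => dX G (x, t)) x‖ = ‖iteratedFDeriv ℝ (n + 1) (fun x => G (x, t)) x‖ := by
  rw [← norm_iteratedFDeriv_fderiv]
  have h : fderiv ℝ (fun x => G (x, t)) =ᶠ[𝓝 x] fun x => dX G (x, t) :=
    eventually_of_mem (hU.mem_nhds hx) fun y hy => dX_eq_fderiv hU hW hG hy ht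
  rw [(h.iteratedFDeriv (𝕜 := ℝ) n).eq_of_nhds]

theorem param_hasFDeriv' {F : Type} [NormedAddCommGroup F] [NormedSpace ℝ F] [CompleteSpace F]
    (hU : IsOpen U) (hW : IsOpen W) (hμ : ∀ᵐ t ∂μ, t ∈ W) {G : E × T → F}
    (hG : ContDiffOn ℝ ∞ G (U ×ˢ W)) {b : ℕ → T → ℝ} (hb : ∀ n, Integrable (b n) μ)
    (hGb : ∀ n, ∀ᵐ t ∂μ, ∀ x ∈ U, ‖iteratedFDeriv ℝ n (fun x => G (x, t)) x‖ ≤ b n t) {x : E}
    (hx : x ∈ U) : HasFDerivAt (fun x => ∫ t, G (x, t) ∂μ) (∫ t, dX G (x, t) ∂μ) x := by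
  obtain ⟨hd, -⟩ := param_step hU hW hG
  refine hasFDerivAt_integral_of_dominated_of_fderiv_le (𝕜 := ℝ) (F := fun x t => G (x, t))
    (F' := fun x t => dX G (x, t)) (bound := b 1) (hU.mem_nhds hx)
    (eventually_of_mem (hU.mem_nhds hx) fun y hy => aesm_section hW hμ hG.continuousOn hy)
    ((hb 0).mono' (aesm_section hW hμ hG.continuousOn hx) ((hGb 0).mono fun t h => by
      simpa using h x hx))
    (aesm_section hW hμ hd.continuousOn hx) ?_ (hb 1) ?_
  · filter_upwards [hGb 1, hμ] with t h ht y hy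
    have h0 := param_step' hU hW hG hy ht 0
    rw [norm_iteratedFDeriv_zero] at h0
    exact h0.trans_le (h y hy)
  · filter_upwards [hμ] with t ht y hy
    exact ((hG.contDiffAt ((hU.prod hW).mem_nhds ⟨hy, ht⟩)).differentiableAt (by simp)).hasFDerivAt.comp
      y (hasFDerivAt_prodMk_left y t)

/-- A parameter integral is smooth, with bounds from the derivatives in the parameter. -/
theorem param_integral' {F : Type} [NormedAddCommGroup F] [NormedSpace ℝ F] [CompleteSpace F]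
    (hU : IsOpen U) (hW : IsOpen W) (hμ : ∀ᵐ t ∂μ, t ∈ W) {G : E × T → F}
    (hG : ContDiffOn ℝ ∞ G (U ×ˢ W)) {b : ℕ → T → ℝ} (hb : ∀ n, Integrable (b n) μ)
    (hGb : ∀ n, ∀ᵐ t ∂μ, ∀ x ∈ U, ‖iteratedFDeriv ℝ n (fun x => G (x, t)) x‖ ≤ b n t) :
    ContDiffOn ℝ ∞ (fun x => ∫ t, G (x, t) ∂μ) U ∧
      ∀ n, ∀ x ∈ U, ‖iteratedFDeriv ℝ n (fun x => ∫ t, G (x, t) ∂μ) x‖ ≤ ∫ t, b n t ∂μ := by
  suffices h : ∀ n : ℕ, ∀ (F : Type) [NormedAddCommGroup F] [NormedSpace ℝ F] [CompleteSpace F]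
      (G : E × T → F) (b : ℕ → T → ℝ), ContDiffOn ℝ ∞ G (U ×ˢ W) → (∀ n, Integrable (b n) μ) →
      (∀ n, ∀ᵐ t ∂μ, ∀ x ∈ U, ‖iteratedFDeriv ℝ n (fun x => G (x, t)) x‖ ≤ b n t) →
      ContDiffOn ℝ (n : ℕ∞ω) (fun x => ∫ t, G (x, t) ∂μ) U ∧
        ∀ x ∈ U, ‖iteratedFDeriv ℝ n (fun x => ∫ t, G (x, t) ∂μ) x‖ ≤ ∫ t, b n t ∂μ from
    ⟨contDiffOn_infty.2 fun n => (h n F G b hG hb hGb).1, fun n => (h n F G b hG hb hGb).2⟩
  intro n
  induction n with
  | zero =>
    intro F _ _ _ G b hG hb hGb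
    refine ⟨contDiffOn_zero.2 fun x hx => (ContinuousAt.continuousWithinAt ?_), fun x hx => ?_⟩
    · exact (param_hasFDeriv' hU hW hμ hG hb hGb hx).continuousAt
    · rw [norm_iteratedFDeriv_zero]
      exact norm_integral_le_of_norm_le (hb 0) ((hGb 0).mono fun t h => by simpa using h x hx)
  | succ n ih =>
    intro F _ _ _ G b hG hb hGb
    obtain ⟨hd, -⟩ := param_step hU hW hG
    obtain ⟨hc, hbd⟩ := ih (E →L[ℝ] F) (dX G) (fun n => b (n + 1)) hd (fun n => hb _) fun n => by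
      filter_upwards [hGb (n + 1), hμ] with t h ht x hx
      exact (param_step' hU hW hG hx ht n).trans_le (h x hx)
    have he : ∀ x ∈ U, fderiv ℝ (fun x => ∫ t, G (x, t) ∂μ) x = ∫ t, dX G (x, t) ∂μ :=
      fun x hx => (param_hasFDeriv' hU hW hμ hG hb hGb hx).fderiv
    refine ⟨?_, fun x hx => ?_⟩
    · rw [show ((n + 1 : ℕ) : ℕ∞ω) = (n : ℕ∞ω) + 1 by simp, contDiffOn_succ_iff_fderiv_of_isOpen hU]
      exact ⟨fun x hx => (param_hasFDeriv' hU hW hμ hG hb hGb hx).differentiableAt.differentiableWithinAt,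
        fun h => absurd h (by simp), hc.congr he⟩
    · have hev : fderiv ℝ (fun x => ∫ t, G (x, t) ∂μ) =ᶠ[𝓝 x] fun x => ∫ t, dX G (x, t) ∂μ :=
        eventually_of_mem (hU.mem_nhds hx) he
      rw [← norm_iteratedFDeriv_fderiv, (hev.iteratedFDeriv (𝕜 := ℝ) n).eq_of_nhds]
      exact hbd x hx

end param

/-! ### Energies -/

/-- The lists of length at most `n`. -/
def LL : ℕ → Finset (List (Fin 4))
  | 0 => {[]}
  | n + 1 => insert [] ((Finset.univ ×ˢ LL n).image fun z => z.1 :: z.2)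

theorem mem_LL : ∀ (n : ℕ) (l : List (Fin 4)), l ∈ LL n ↔ l.length ≤ n
  | 0, l => by simp [LL, List.length_eq_zero_iff]
  | n + 1, [] => by simp [LL]
  | n + 1, a :: l => by simp [LL, mem_LL n l]

/-- Squares of all derivatives up to order ten are bounded by `X`, at scale `ε`. -/
def EB (ε X : ℝ) (g : Pt → ℝ) : Prop :=
  ∀ l : List (Fin 4), l.length ≤ 10 → ε ^ (2 * l.length) * ∫ p, pdL l g p ^ 2 ≤ X

theorem Nice.pdL {f : Pt → ℝ} (hf : Nice f) : ∀ l : List (Fin 4), Nice (Kernel.pdL l f)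
  | [] => hf
  | i :: l => (Nice.pdL hf l).pd i

theorem Nice.integrable_sq {f : Pt → ℝ} (hf : Nice f) : Integrable fun p => f p ^ 2 :=
  (hf.1.continuous.pow 2).integrable_of_hasCompactSupport (by
    simpa [sq] using hf.2.mul_right (f := f))

theorem Nice.sum {ι : Type*} (s : Finset ι) {f : ι → Pt → ℝ} (hf : ∀ i ∈ s, Nice (f i)) :
    Nice fun p => ∑ i ∈ s, f i p := by
  classical
  induction s using Finset.induction_on with
  | empty =>
    simp only [Finset.sum_empty]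
    exact ⟨contDiff_const, HasCompactSupport.zero⟩
  | insert i t hi ih =>
    simp only [Finset.sum_insert hi]
    have h1 := hf i (Finset.mem_insert_self i t)
    have h2 := ih fun k hk => hf k (Finset.mem_insert_of_mem hk)
    exact ⟨h1.1.add h2.1, h1.2.add h2.2⟩

theorem integral_sq_sum_le {ι : Type*} (s : Finset ι) {g : ι → Pt → ℝ}
    (hg : ∀ i ∈ s, Integrable fun p => g i p ^ 2) :
    ∫ p, (∑ i ∈ s, g i p) ^ 2 ≤ s.card * ∑ i ∈ s, ∫ p, g i p ^ 2 := by
  rw [← integral_finsetSum _ hg, ← integral_const_mul]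
  exact integral_mono_of_nonneg (ae_of_all _ fun p => sq_nonneg _)
    ((integrable_finsetSum _ hg).const_mul _) (ae_of_all _ fun p => sq_sum_le s _)

theorem EB.sum {ι : Type*} (s : Finset ι) {f : ι → Pt → ℝ} {ε : ℝ} {X : ι → ℝ}
    (hn : ∀ i ∈ s, Nice (f i)) (h : ∀ i ∈ s, EB ε (X i) (f i)) :
    EB ε (s.card * ∑ i ∈ s, X i) fun p => ∑ i ∈ s, f i p := by
  intro l hl
  rw [pdL_sum s (fun i hi => (hn i hi).1) l]
  calc ε ^ (2 * l.length) * ∫ p, (∑ i ∈ s, Kernel.pdL l (f i) p) ^ 2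
      ≤ ε ^ (2 * l.length) * (s.card * ∑ i ∈ s, ∫ p, Kernel.pdL l (f i) p ^ 2) :=
        mul_le_mul_of_nonneg_left (integral_sq_sum_le s fun i hi => ((hn i hi).pdL l).integrable_sq)
          (by rw [pow_mul]; positivity)
    _ = s.card * ∑ i ∈ s, ε ^ (2 * l.length) * ∫ p, Kernel.pdL l (f i) p ^ 2 := by
        rw [← Finset.mul_sum]; ring
    _ ≤ _ := mul_le_mul_of_nonneg_left (Finset.sum_le_sum fun i hi => h i hi l hl) (Nat.cast_nonneg _)

theorem EB.mono {ε X Y : ℝ} {g : Pt → ℝ} (h : EB ε X g) (hXY : X ≤ Y) : EB ε Y g :=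
  fun l hl => (h l hl).trans hXY

theorem EB.nonneg {ε X : ℝ} {g : Pt → ℝ} (h : EB ε X g) : 0 ≤ X :=
  le_trans (by simpa [Kernel.pdL] using integral_nonneg fun p => sq_nonneg (g p)) (h [] (by simp))

theorem sobR_le {X : ℝ} : ∀ (n : ℕ) {f : Pt → ℝ},
    (∀ l : List (Fin 4), l.length ≤ n → ∫ p, Kernel.pdL l f p ^ 2 ≤ X) →
      General.sobR n f ≤ 5 ^ n * X
  | 0, f, h => by simpa [General.sobR, Kernel.pdL] using h [] le_rfl
  | n + 1, f, h => by
    have h1 := sobR_le n fun l hl => h l (by omega)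
    have h2 : ∀ d, General.sobR n (pd d f) ≤ 5 ^ n * X := fun d => sobR_le n fun l hl => by
      have := h (l ++ [d]) (by rw [List.length_append, List.length_singleton]; omega)
      rwa [pdL_append] at this
    calc General.sobR (n + 1) f = General.sobR n f + ∑ d, General.sobR n (pd d f) := rfl
      _ ≤ 5 ^ n * X + ∑ _d : Fin 4, 5 ^ n * X := add_le_add h1 (Finset.sum_le_sum fun d _ => h2 d)
      _ = _ := by simp; ring

theorem Nice.mul_comp {γ g : Pt → ℝ} {T : Pt → Pt} (hγ : Nice γ) (hg : ContDiff ℝ ∞ g)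
    (hT : ContDiff ℝ ∞ T) : Nice fun p => γ p * g (T p) :=
  ⟨hγ.1.mul (hg.comp hT), hγ.2.mul_right⟩

theorem transfer_zero {T : Pt → Pt} (hT : ContDiff ℝ ∞ T) {O : Set Pt} (hO : IsOpen O)
    (hinj : InjOn T O) (hdet : ∀ p ∈ O, (fderiv ℝ T p).det ≠ 0) {γ : Pt → ℝ} (hγ : Nice γ)
    (hs : tsupport γ ⊆ O) :
    ∃ C : ℝ, 0 ≤ C ∧ ∀ g : Pt → ℝ, Nice g → ∫ p, (γ p * g (T p)) ^ 2 ≤ C * ∫ y, g y ^ 2 := by
  have hdc : Continuous fun p => |(fderiv ℝ T p).det| :=
    (ContinuousLinearMap.continuous_det.comp (hT.continuous_fderiv (by simp))).abs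
  have hcq : ContinuousOn (fun p => γ p ^ 2 / |(fderiv ℝ T p).det|) O :=
    (hγ.1.continuous.pow 2).continuousOn.div hdc.continuousOn fun p hp => abs_ne_zero.2 (hdet p hp)
  obtain ⟨B, hB⟩ := hγ.2.isCompact.exists_bound_of_continuousOn (hcq.mono hs)
  have hkey : ∀ p ∈ O, γ p ^ 2 ≤ max B 0 * |(fderiv ℝ T p).det| := fun p hp => by
    by_cases h : p ∈ tsupport γ
    · have := (le_abs_self _).trans (hB p h)
      rw [div_le_iff₀ (abs_pos.2 (hdet p hp))] at this
      exact this.trans (mul_le_mul_of_nonneg_right (le_max_left _ _) (abs_nonneg _))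
    · rw [image_eq_zero_of_notMem_tsupport h]; simp; positivity
  refine ⟨max B 0, le_max_right _ _, fun g hg => ?_⟩
  have hd : ∀ p ∈ O, HasFDerivWithinAt T (fderiv ℝ T p) O p := fun p _ =>
    ((hT.differentiable (by simp)) p).hasFDerivAt.hasFDerivWithinAt
  have hint : IntegrableOn (fun p => |(fderiv ℝ T p).det| * g (T p) ^ 2) O := by
    have := (integrableOn_image_iff_integrableOn_abs_det_fderiv_smul volume hO.measurableSet hd hinj
      fun y => g y ^ 2).1 hg.integrable_sq.integrableOn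
    simpa using this
  calc ∫ p, (γ p * g (T p)) ^ 2 = ∫ p in O, (γ p * g (T p)) ^ 2 := by
        refine (setIntegral_eq_integral_of_forall_compl_eq_zero fun p hp => ?_).symm
        rw [image_eq_zero_of_notMem_tsupport fun h => hp (hs h)]; simp
    _ ≤ ∫ p in O, max B 0 * (|(fderiv ℝ T p).det| * g (T p) ^ 2) := by
        refine integral_mono_of_nonneg (ae_of_all _ fun p => sq_nonneg _) (hint.const_mul _)
          ((ae_restrict_mem hO.measurableSet).mono fun p hp => ?_)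
        show (γ p * g (T p)) ^ 2 ≤ max B 0 * (|(fderiv ℝ T p).det| * g (T p) ^ 2)
        rw [mul_pow, ← mul_assoc]
        exact mul_le_mul_of_nonneg_right (hkey p hp) (sq_nonneg _)
    _ = max B 0 * ∫ y in T '' O, g y ^ 2 := by
        rw [integral_const_mul, integral_image_eq_integral_abs_det_fderiv_smul volume hO.measurableSet
          hd hinj]
        rfl
    _ ≤ _ := mul_le_mul_of_nonneg_left (setIntegral_le_integral hg.integrable_sq
        (ae_of_all _ fun y => sq_nonneg _)) (le_max_right _ _)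

theorem pd_mul_comp {T : Pt → Pt} (hT : ContDiff ℝ ∞ T) {γ g : Pt → ℝ} (hγ : ContDiff ℝ ∞ γ)
    (hg : ContDiff ℝ ∞ g) (i : Fin 4) :
    pd i (fun p => γ p * g (T p)) = fun p => ∑ o : Option (Fin 4),
      (o.elim (pd i γ p) fun j => γ p * pd i (fun q => T q j) p) * (o.elim g (fun j => pd j g)) (T p) := by
  funext p
  have h1 := ((hγ.differentiable (by simp)) p).hasFDerivAt
  have hTd := ((hT.differentiable (by simp)) p)
  have h2 := ((hg.differentiable (by simp)) (T p)).hasFDerivAt.comp p hTd.hasFDerivAt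
  simp only [pd, show (fun p => γ p * g (T p)) = fun p => γ p * (g ∘ T) p from rfl,
    (h1.fun_mul h2).fderiv, Fintype.sum_option, Option.elim_none, Option.elim_some]
  simp only [_root_.add_apply, _root_.smul_apply, smul_eq_mul, ContinuousLinearMap.comp_apply,
    Function.comp_apply]
  have hv : fderiv ℝ T p (Pi.single i 1) = ∑ j, fderiv ℝ T p (Pi.single i 1) j • (Pi.single j 1 : Pt) := by
    funext k; simp [Finset.sum_apply, Pi.single_apply]
  conv_lhs => rw [hv, map_sum]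
  simp only [map_smul, smul_eq_mul, Finset.mul_sum]
  rw [add_comm]
  congr 1
  · ring
  · refine Finset.sum_congr rfl fun j _ => ?_
    rw [fderiv_apply hTd j]
    simp only [ContinuousLinearMap.comp_apply, ContinuousLinearMap.proj_apply]
    ring

theorem transfer_one {T : Pt → Pt} (hT : ContDiff ℝ ∞ T) {O : Set Pt} (hO : IsOpen O)
    (hinj : InjOn T O) (hdet : ∀ p ∈ O, (fderiv ℝ T p).det ≠ 0) :
    ∀ (l : List (Fin 4)) {γ : Pt → ℝ}, Nice γ → tsupport γ ⊆ O → ∃ C : ℝ, 0 ≤ C ∧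
      ∀ ε : ℝ, 0 < ε → ε ≤ 1 → ∀ g : Pt → ℝ, Nice g → ∀ X : ℝ,
        (∀ l' : List (Fin 4), l'.length ≤ l.length →
          ε ^ (2 * l'.length) * ∫ y, Kernel.pdL l' g y ^ 2 ≤ X) →
        ε ^ (2 * l.length) * ∫ p, Kernel.pdL l (fun p => γ p * g (T p)) p ^ 2 ≤ C * X := by
  intro l
  induction l using List.reverseRecOn with
  | nil =>
    intro γ hγ hs
    obtain ⟨C, hC, h⟩ := transfer_zero hT hO hinj hdet hγ hs
    refine ⟨C, hC, fun ε _ _ g hg X hX => ?_⟩
    simpa [Kernel.pdL] using (h g hg).trans (mul_le_mul_of_nonneg_left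
      (by simpa [Kernel.pdL] using hX [] le_rfl) hC)
  | append_singleton l i ih =>
    intro γ hγ hs
    set γo : Option (Fin 4) → Pt → ℝ := fun o p =>
      o.elim (pd i γ p) fun j => γ p * pd i (fun q => T q j) p
    have hTj : ∀ j, ContDiff ℝ ∞ fun q => T q j := fun j => contDiff_pi.1 hT j
    have hγo : ∀ o, Nice (γo o) ∧ tsupport (γo o) ⊆ O := by
      rintro (_ | j)
      · exact ⟨hγ.pd i, (tsupport_fderiv_apply_subset ℝ _).trans hs⟩
      · exact ⟨⟨hγ.1.mul (contDiff_pd (hTj j) i), hγ.2.mul_right⟩,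
          (tsupport_mul_subset_left).trans hs⟩
    choose C hC h using fun o => ih (hγo o).1 (hγo o).2
    refine ⟨5 * ∑ o, C o, by have := Finset.sum_nonneg fun o (_ : o ∈ Finset.univ) => hC o; positivity,
      fun ε hε hε1 g hg X hX => ?_⟩
    set go : Option (Fin 4) → Pt → ℝ := fun o => o.elim g fun j => pd j g
    have hgo : ∀ o, Nice (go o) := by
      rintro (_ | j)
      · exact hg
      · exact hg.pd j
    have hsq : ε ^ 2 ≤ 1 := pow_le_one₀ hε.le hε1
    have hb : ∀ o, ε ^ (2 * (l.length + 1)) *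
        ∫ p, Kernel.pdL l (fun p => γo o p * go o (T p)) p ^ 2 ≤ C o * X := by
      intro o
      rw [mul_add_one, pow_add, mul_comm (ε ^ (2 * l.length)), mul_assoc]
      have hX0 : 0 ≤ X := le_trans (by simpa [Kernel.pdL] using integral_nonneg fun p => sq_nonneg (g p))
        (hX [] (Nat.zero_le _))
      rcases o with _ | j
      · refine (mul_le_of_le_one_left (mul_nonneg (by rw [pow_mul]; positivity)
          (integral_nonneg fun p => sq_nonneg _)) hsq).trans (h none ε hε hε1 g hg X fun l' hl' => ?_)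
        exact hX l' (by simp only [List.length_append, List.length_singleton]; omega)
      · refine le_trans (mul_le_mul_of_nonneg_left (h (some j) ε hε hε1 (pd j g) (hg.pd j) (X / ε ^ 2)
          fun l' hl' => ?_) (by positivity)) (le_of_eq (by field_simp))
        rw [le_div_iff₀ (by positivity)]
        have := hX (l' ++ [j]) (by simp only [List.length_append, List.length_singleton]; omega)
        rw [pdL_append, List.length_append, List.length_singleton, mul_add_one, pow_add] at this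
        calc ε ^ (2 * l'.length) * (∫ y, Kernel.pdL l' (pd j g) y ^ 2) * ε ^ 2
            = ε ^ (2 * l'.length) * ε ^ 2 * ∫ y, Kernel.pdL l' (pd j g) y ^ 2 := by ring
          _ ≤ X := this
    have hn : ∀ o, Nice fun p => γo o p * go o (T p) := fun o =>
      (hγo o).1.mul_comp (hgo o).1 hT
    rw [pdL_append, show Kernel.pdL [i] (fun p => γ p * g (T p)) = pd i fun p => γ p * g (T p) from rfl,
      pd_mul_comp hT hγ.1 hg.1 i, pdL_sum _ (fun o _ => (hn o).1) l, List.length_append,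
      List.length_singleton]
    refine (mul_le_mul_of_nonneg_left (integral_sq_sum_le _ fun o _ => ((hn o).pdL l).integrable_sq)
      (by rw [pow_mul]; positivity)).trans ?_
    rw [Finset.mul_sum, Finset.mul_sum, Finset.mul_sum, Finset.sum_mul]
    refine Finset.sum_le_sum fun o _ => ?_
    simp only [Finset.card_univ, Fintype.card_option, Fintype.card_fin]
    calc ε ^ (2 * (l.length + 1)) * (5 * ∫ p, Kernel.pdL l (fun p => γo o p * go o (T p)) p ^ 2)
        = 5 * (ε ^ (2 * (l.length + 1)) * ∫ p, Kernel.pdL l (fun p => γo o p * go o (T p)) p ^ 2) := by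
          ring
      _ ≤ 5 * (C o * X) := mul_le_mul_of_nonneg_left (hb o) (by norm_num)
      _ = _ := by ring

/-- Energies pass through a change of variables. -/
theorem EB.transfer {T : Pt → Pt} (hT : ContDiff ℝ ∞ T) {O : Set Pt} (hO : IsOpen O)
    (hinj : InjOn T O) (hdet : ∀ p ∈ O, (fderiv ℝ T p).det ≠ 0) {γ : Pt → ℝ} (hγ : Nice γ)
    (hs : tsupport γ ⊆ O) :
    ∃ C : ℝ, 0 ≤ C ∧ ∀ ε : ℝ, 0 < ε → ε ≤ 1 → ∀ g : Pt → ℝ, Nice g → ∀ X, EB ε X g →
      EB ε (C * X) fun p => γ p * g (T p) := by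
  choose C hC h using fun l => transfer_one hT hO hinj hdet l hγ hs
  refine ⟨∑ l ∈ LL 10, C l, Finset.sum_nonneg fun l _ => hC l, fun ε hε hε1 g hg X hX l hl => ?_⟩
  exact (h l ε hε hε1 g hg X fun l' hl' => hX l' (hl'.trans hl)).trans (mul_le_mul_of_nonneg_right
    (Finset.single_le_sum (fun l _ => hC l) ((mem_LL 10 l).2 hl)) hX.nonneg)

/-- Energies of a product with a fixed cut-off. -/
theorem EB.mul_left {γ : Pt → ℝ} (hγ : Nice γ) :
    ∃ C : ℝ, 0 ≤ C ∧ ∀ ε : ℝ, 0 < ε → ε ≤ 1 → ∀ g : Pt → ℝ, Nice g → ∀ X, EB ε X g →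
      EB ε (C * X) fun p => γ p * g p :=
  EB.transfer (T := id) contDiff_id isOpen_univ Function.injective_id.injOn
    (fun p _ => by
      rw [show (id : Pt → Pt) = fun x => x from rfl, fderiv_fun_id]
      simp [ContinuousLinearMap.det]) hγ (subset_univ _)

/-! ### Difference quotients in the width -/

/-- The difference quotient in the width. -/
noncomputable def dq (f : X3 → ℝ) : ℝ → Pt → Pt → ℝ :=
  fun σ q z => σ⁻¹ * (f ((σ, q), z) - f ((0, q), z))

theorem gaussFam_dq {f : X3 → ℝ} {c : ℝ} (hf : GaussB S3 c f) (hc : 0 < c) :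
    GaussFam (Ioc 0 1) (dq f) c := by
  set L : Pt × Pt →L[ℝ] X3 :=
    (((0 : Pt × Pt →L[ℝ] ℝ).prod (ContinuousLinearMap.fst ℝ Pt Pt))).prod
      (ContinuousLinearMap.snd ℝ Pt Pt)
  set e : X3 := ((1, 0), 0)
  set g : ℝ → Pt × Pt → ℝ := fun s => (fun y => f (s • e + y)) ∘ L
  have hg : ∀ s p, g s p = f ((s, p.1), p.2) := fun s p => by
    obtain ⟨q, z⟩ := p; simp [g, L, e]
  have hcd : ∀ s : ℝ, ContDiff ℝ ∞ fun y => f (s • e + y) := fun s =>
    hf.1.comp (contDiff_const.add contDiff_id)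
  have hgd : ∀ s, ContDiff ℝ ∞ (g s) := fun s => (hcd s).comp L.contDiff
  have heq : ∀ σ, Function.uncurry (dq f σ) = fun p => σ⁻¹ • (g σ p - g 0 p) := fun σ => by
    funext p; simp [dq, hg, Function.uncurry]
  refine ⟨hc, fun σ _ => by rw [heq]; exact ((hgd σ).sub (hgd 0)).const_smul σ⁻¹, fun n => ?_⟩
  obtain ⟨C, hC, hb⟩ := hf.2 (n + 1)
  refine ⟨C * ‖e‖ * ‖L‖ ^ n, by positivity, fun σ hσ p => ?_⟩
  have h1 : ∀ s, iteratedFDeriv ℝ n (g s) p =
      (iteratedFDeriv ℝ n f (s • e + L p)).compContinuousLinearMap fun _ => L := fun s => by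
    rw [L.iteratedFDeriv_comp_right (hcd s) p (by exact_mod_cast le_top), iteratedFDeriv_comp_add_left]
  rw [heq, show (fun p => σ⁻¹ • (g σ p - g 0 p)) = σ⁻¹ • (g σ - g 0) from rfl,
    iteratedFDeriv_const_smul_apply
      ((show ContDiff ℝ ∞ (g σ - g 0) from (hgd σ).sub (hgd 0)).contDiffAt.of_le
        (by exact_mod_cast le_top)), norm_smul,
    iteratedFDeriv_sub_apply ((hgd σ).contDiffAt.of_le (by exact_mod_cast le_top))
      ((hgd 0).contDiffAt.of_le (by exact_mod_cast le_top)), h1, h1]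
  set D := iteratedFDeriv ℝ n f
  have hD : Differentiable ℝ D := hf.1.differentiable_iteratedFDeriv (WithTop.coe_lt_coe.2 (WithTop.coe_lt_top n))
  have hline : ∀ s ∈ Icc 0 σ, HasDerivWithinAt (fun s : ℝ => D (s • e + L p))
      (fderiv ℝ D (s • e + L p) e) (Icc 0 σ) s := fun s _ => by
    have h := ((hasDerivAt_id s).smul_const e).add_const (L p)
    simp only [one_smul] at h
    exact ((hD _).hasFDerivAt.comp_hasDerivAt s h).hasDerivWithinAt
  have hbd : ∀ s ∈ Ico 0 σ, ‖fderiv ℝ D (s • e + L p) e‖ ≤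
      C * ‖e‖ * Real.exp (-c * ‖p.2‖ ^ 2) := fun s hs => by
    refine (ContinuousLinearMap.le_opNorm _ _).trans ?_
    rw [norm_fderiv_iteratedFDeriv, mul_right_comm]
    refine mul_le_mul_of_nonneg_right ?_ (norm_nonneg _)
    have hx : s • e + L p = ((s, p.1), p.2) := by
      obtain ⟨q, z⟩ := p; simp [L, e]
    rw [hx]
    exact hb _ (show |s| ≤ 1 by rw [abs_of_nonneg hs.1]; exact hs.2.le.trans hσ.2)
  have hmv := norm_image_sub_le_of_norm_deriv_le_segment' hline hbd σ (right_mem_Icc.2 hσ.1.le)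
  rw [← ContinuousMultilinearMap.compContinuousLinearMapL_apply,
    ← ContinuousMultilinearMap.compContinuousLinearMapL_apply, ← map_sub,
    ContinuousMultilinearMap.compContinuousLinearMapL_apply]
  refine (mul_le_mul_of_nonneg_left (ContinuousMultilinearMap.norm_compContinuousLinearMap_le _ _)
    (norm_nonneg _)).trans ?_
  rw [Finset.prod_const, Finset.card_univ, Fintype.card_fin, Real.norm_eq_abs,
    abs_of_pos (inv_pos.2 hσ.1)]
  calc σ⁻¹ * (‖D (σ • e + L p) - D (0 • e + L p)‖ * ‖L‖ ^ n)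
      ≤ σ⁻¹ * (C * ‖e‖ * Real.exp (-c * ‖p.2‖ ^ 2) * (σ - 0) * ‖L‖ ^ n) :=
        mul_le_mul_of_nonneg_left (mul_le_mul_of_nonneg_right hmv (by positivity)) (inv_nonneg.2 hσ.1.le)
    _ = _ := by rw [sub_zero]; field_simp [hσ.1.ne']

/-! ### Superposition in time -/

/-- The square of a superposition. -/
theorem integral_sq_super {μ : Measure ℝ} [SFinite μ] {ψ : ℝ → ℝ} (hψ : Integrable ψ μ)
    (hψp : ∀ᵐ t ∂μ, 0 < ψ t) {F : ℝ → Pt → ℝ}
    (hm : AEStronglyMeasurable (fun z : ℝ × Pt => F z.1 z.2) (μ.prod volume))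
    (hi : ∀ᵐ t ∂μ, Integrable fun q => F t q ^ 2) {X : ℝ}
    (hX : ∀ᵐ t ∂μ, ∫ q, F t q ^ 2 ≤ ψ t ^ 2 * X) :
    Integrable (fun q => (∫ t, F t q ∂μ) ^ 2) ∧
      ∫ q, (∫ t, F t q ∂μ) ^ 2 ≤ (∫ t, ψ t ∂μ) ^ 2 * X := by
  set G : ℝ × Pt → ℝ := fun z => F z.1 z.2 ^ 2 / ψ z.1
  have hψm : AEStronglyMeasurable (fun z : ℝ × Pt => ψ z.1) (μ.prod volume) :=
    hψ.aestronglyMeasurable.comp_fst
  have hGm : AEStronglyMeasurable G (μ.prod volume) :=
    (hm.aemeasurable.pow_const 2).div hψm.aemeasurable |>.aestronglyMeasurable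
  have hsec : ∀ᵐ t ∂μ, Integrable (fun q => G (t, q)) ∧
      ‖∫ q, ‖G (t, q)‖‖ ≤ ψ t * X := by
    filter_upwards [hi, hX, hψp] with t h1 h2 h3
    refine ⟨(h1.div_const (ψ t) : Integrable fun q => F t q ^ 2 / ψ t), ?_⟩
    have e : ∀ q, ‖G (t, q)‖ = F t q ^ 2 / ψ t := fun q => by
      rw [Real.norm_eq_abs, abs_of_nonneg (div_nonneg (sq_nonneg _) h3.le)]
    simp only [e, Real.norm_eq_abs, integral_div]
    rw [abs_of_nonneg (div_nonneg (integral_nonneg fun q => sq_nonneg _) h3.le), div_le_iff₀ h3]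
    linarith
  have hG : Integrable G (μ.prod volume) := (integrable_prod_iff hGm).2
    ⟨hsec.mono fun t h => h.1, (hψ.mul_const X).mono' hGm.norm.integral_prod_right'
      (hsec.mono fun t h => h.2)⟩
  have hpt : ∀ᵐ q, (∫ t, F t q ∂μ) ^ 2 ≤ (∫ t, ψ t ∂μ) * ∫ t, G (t, q) ∂μ := by
    filter_upwards [hG.prod_left_ae, hm.prod_swap.prodMk_left] with q h1 h2
    have hs : MemLp (fun t => Real.sqrt (ψ t)) 2 μ :=
      (memLp_two_iff_integrable_sq (hψ.aestronglyMeasurable.aemeasurable.sqrt.aestronglyMeasurable)).2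
        (hψ.congr (hψp.mono fun t ht => (Real.sq_sqrt ht.le).symm))
    have hsm : AEStronglyMeasurable (fun t => F t q / Real.sqrt (ψ t)) μ :=
      (h2.aemeasurable.div hψ.aestronglyMeasurable.aemeasurable.sqrt).aestronglyMeasurable
    have he : ∀ᵐ t ∂μ, (F t q / Real.sqrt (ψ t)) ^ 2 = G (t, q) := hψp.mono fun t ht => by
      rw [div_pow, Real.sq_sqrt ht.le]
    have hA := Est.abs_integral_mul_le hs ((memLp_two_iff_integrable_sq hsm).2
      (h1.congr (he.mono fun t h => h.symm)))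
    rw [integral_congr_ae (hψp.mono fun t ht =>
        (show Real.sqrt (ψ t) * (F t q / Real.sqrt (ψ t)) = F t q by
          have := Real.sqrt_pos.2 ht; field_simp)),
      integral_congr_ae (hψp.mono fun t ht => Real.sq_sqrt ht.le), integral_congr_ae he] at hA
    have h3 := pow_le_pow_left₀ (abs_nonneg _) hA 2
    rwa [sq_abs, mul_pow, Real.sq_sqrt (integral_nonneg_of_ae (hψp.mono fun t ht => ht.le)),
      Real.sq_sqrt (integral_nonneg_of_ae (hψp.mono fun t ht =>
        div_nonneg (sq_nonneg _) ht.le))] at h3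
  have hR : Integrable fun q => (∫ t, ψ t ∂μ) * ∫ t, G (t, q) ∂μ := hG.integral_prod_right.const_mul _
  have hL : Integrable fun q => (∫ t, F t q ∂μ) ^ 2 := hR.mono'
    ((hm.prod_swap.integral_prod_right'.aemeasurable.pow_const 2).aestronglyMeasurable)
    (hpt.mono fun q h => by rw [Real.norm_eq_abs, abs_of_nonneg (sq_nonneg _)]; exact h)
  refine ⟨hL, (integral_mono_ae hL hR hpt).trans ?_⟩
  rw [integral_const_mul, ← integral_integral_swap (f := fun t q => G (t, q)) hG, sq, mul_assoc]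
  refine mul_le_mul_of_nonneg_left ?_ (integral_nonneg_of_ae (hψp.mono fun t ht => ht.le))
  rw [← integral_mul_const]
  refine integral_mono_ae hG.integral_prod_left (hψ.mul_const X) ?_
  filter_upwards [hX, hψp] with t h2 h3
  simp only [G, integral_div]
  rw [div_le_iff₀ h3]
  linarith

end Vale.Agent.P204.Kernel
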