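import Mathlib
import Vale.Agent.P204.Kernel.Pull

/-!
# P204: derivatives of the localised double form on the manifold

On the transition region of the far cut-off the profiles vanish, so the derivatives of the cut-off
never enter.
-/

open MeasureTheory Matrix Filter Set
open scoped ContDiff Topology

namespace Vale.Agent.P204.Kernel

open Vale.Agent.P204.General Vale.Agent.P204.Torus

theorem hProf_eq_zero {e σ s : ℝ} (he : 0 < e) (hs : e ≤ s) : hProf e σ s = 0 := by
  rw [hProf, intervalIntegral.integral_symm, intervalIntegral.integral_congr (g := fun _ => (0 : ℝ))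
    fun t ht => gProf_eq_zero he (by rw [uIcc_of_le hs] at ht; exact ht.1)]
  simp

variable {N K : ℕ} {A : Atlas N K} {r e σ c₀ C₀ : ℝ}

/-- The cut-off does not enter the derivative of a product vanishing on its transition region. -/
theorem deriv_eta_mul (hr : 0 < r) {γ : ℝ → Amb N} {k : ℝ → ℝ} (hγ : DifferentiableAt ℝ γ 0)
    (hk : DifferentiableAt ℝ k 0)
    (h0 : r ^ 2 ≤ γ 0 ⬝ᵥ γ 0 → γ 0 ⬝ᵥ γ 0 ≤ 2 * r ^ 2 → k 0 = 0) :
    deriv (fun t => etaF r (γ t) * k t) 0 = etaF r (γ 0) * deriv k 0 := by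
  have he : DifferentiableAt ℝ (fun t => etaF r (γ t)) 0 :=
    (((contDiff_etaF r).differentiable (by simp)).differentiableAt).comp 0 hγ
  rw [deriv_fun_mul he hk]
  by_cases h : r ^ 2 ≤ γ 0 ⬝ᵥ γ 0 ∧ γ 0 ⬝ᵥ γ 0 ≤ 2 * r ^ 2
  · rw [h0 h.1 h.2, mul_zero, zero_add]
  · have hc : ContinuousAt (fun t => γ t ⬝ᵥ γ t) 0 :=
      Continuous.continuousAt (f := fun x : Amb N => x ⬝ᵥ x) (by
        simp only [dotProduct]; fun_prop) |>.comp hγ.continuousAt
    have hz : deriv (fun t => etaF r (γ t)) 0 = 0 := by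
      rw [not_and_or, not_le, not_le] at h
      rcases h with h | h
      · rw [EventuallyEq.deriv_eq (f := fun _ => (1 : ℝ))
          ((hc.eventually_lt continuousAt_const h).mono fun t ht => etaF_one_of_le hr ht.le)]
        simp
      · rw [EventuallyEq.deriv_eq (f := fun _ => (0 : ℝ))
          ((continuousAt_const.eventually_lt hc h).mono fun t ht => etaF_eq_zero hr ht.le)]
        simp
    rw [hz, zero_mul, zero_add]

theorem deriv_fderiv {f : Amb N → ℝ} {z : Amb N} (hf : DifferentiableAt ℝ f z) (u : Amb N) :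
    deriv (fun t : ℝ => f (z + t • u)) 0 = fderiv ℝ f z u :=
  (hf.hasFDerivAt.hasLineDerivAt u).deriv

theorem deriv_ray {f : Pt → ℝ} {p : Pt} (hf : DifferentiableAt ℝ f p) (a : Fin 4) :
    deriv (fun t => f (ray p a t)) 0 = pd a f p :=
  (hasDerivAt_pd hf a).deriv

variable (hR : GoodR A r e c₀ C₀) (c : Fin K) {p : Pt} (hp : p ∈ box) {z : Amb N} (hz : z ∈ A.X)
include hR hp hz

theorem sdist_far (h1 : r ^ 2 ≤ (z - A.psi c p) ⬝ᵥ (z - A.psi c p))
    (h2 : (z - A.psi c p) ⬝ᵥ (z - A.psi c p) ≤ 2 * r ^ 2) :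
    gProf e σ (sdist A c p z) = 0 ∧ hProf e σ (sdist A c p z) = 0 :=
  ⟨gProf_eq_zero hR.d_pos (hR.far c p hp z hz h1 h2).le,
    hProf_eq_zero hR.d_pos (hR.far c p hp z hz h1 h2).le⟩

theorem fderiv_loc22 (u v w : Amb N) (a b : Fin 4) :
    fderiv ℝ (fun y => loc22 A c r e σ p y v w a b) z u = etaF r (z - A.psi c p) *
      deriv (fun t : ℝ => k22 A c (gProf e σ) (hProf e σ) p (z + t • u) a b v w) 0 := by
  have hd : DifferentiableAt ℝ (fun y => loc22 A c r e σ p y v w a b) z :=
    ((contDiffOn_univ.1 (loc22_smoothOn A c r e σ (baseSmooth_const A c univ p) contDiffOn_id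
      (U := fun _ => v) (W := fun _ => w) contDiffOn_const contDiffOn_const a b)).differentiable
      (by simp)).differentiableAt
  rw [← deriv_fderiv hd]
  simp only [loc22, Matrix.of_apply]
  refine (deriv_eta_mul hR.r_pos (dz_offset A c p z u).differentiableAt
    (dz_k22 A c (hasDerivAt_gProf e σ) (hasDerivAt_hProf e σ) z u v w a b).differentiableAt ?_).trans
    (by simp)
  intro h1 h2
  simp only [zero_smul, add_zero] at h1 h2 ⊢
  obtain ⟨e1, e2⟩ := sdist_far (σ := σ) hR c hp hz h1 h2
  simp [k22, e1, e2]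

theorem pd_loc13 (u v w : Amb N) (a b : Fin 4) :
    pd a (fun q => loc13 A c r e σ q z u v w b) p = etaF r (z - A.psi c p) *
      deriv (fun t => k13 A c (gProf e σ) (ray p a t) z b u v w) 0 := by
  have hd : DifferentiableAt ℝ (fun q => loc13 A c r e σ q z u v w b) p :=
    ((loc13_smoothOn A c r e σ (baseSmooth_of_mapsTo A c contDiffOn_id fun x hx => hx)
      (Z := fun _ => z) (U := fun _ => u) (W := fun _ => v) (Y := fun _ => w) contDiffOn_const
      contDiffOn_const contDiffOn_const contDiffOn_const b).differentiableOn (by simp)).differentiableAt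
      (isOpen_box.mem_nhds hp)
  rw [← deriv_ray hd]
  simp only [loc13]
  refine (deriv_eta_mul hR.r_pos (hasDerivAt_offset A c z a).differentiableAt
    (dp_k13 A c hp (hasDerivAt_gProf e σ) z u v w a b).differentiableAt ?_).trans (by rw [ray_zero])
  intro h1 h2
  simp only [ray_zero] at h1 h2 ⊢
  obtain ⟨e1, -⟩ := sdist_far (σ := σ) hR c hp hz h1 h2
  simp [k13, e1]

theorem pd_loc22 (u w : Amb N) (a b d : Fin 4) :
    pd a (fun q => loc22 A c r e σ q z u w b d) p = etaF r (z - A.psi c p) *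
      deriv (fun t => k22 A c (gProf e σ) (hProf e σ) (ray p a t) z b d u w) 0 := by
  have hd : DifferentiableAt ℝ (fun q => loc22 A c r e σ q z u w b d) p :=
    ((loc22_smoothOn A c r e σ (baseSmooth_of_mapsTo A c contDiffOn_id fun x hx => hx)
      (Z := fun _ => z) (U := fun _ => u) (W := fun _ => w) contDiffOn_const contDiffOn_const
      contDiffOn_const b d).differentiableOn (by simp)).differentiableAt (isOpen_box.mem_nhds hp)
  rw [← deriv_ray hd]
  simp only [loc22, Matrix.of_apply]
  refine (deriv_eta_mul hR.r_pos (hasDerivAt_offset A c z a).differentiableAt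
    (dp_k22 A c hp (hasDerivAt_gProf e σ) (hasDerivAt_hProf e σ) z a b d u w).differentiableAt
    ?_).trans (by rw [ray_zero])
  intro h1 h2
  simp only [ray_zero] at h1 h2 ⊢
  obtain ⟨e1, e2⟩ := sdist_far (σ := σ) hR c hp hz h1 h2
  simp [k22, e1, e2]

omit hR hp hz in
theorem k31_sum (f h : ℝ → ℝ) (p : Pt) (y : Amb N) (a b d : Fin 4) (w : Amb N) :
    k31 A c f h p y a b d w = ∑ k, w k * k31 A c f h p y a b d (Pi.single k 1) := by
  have hlin : ∀ X Y Z : Pt,
      det4 X Y Z (yy A c p w) = ∑ k, w k * det4 X Y Z (yy A c p (Pi.single k 1)) := by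
    intro X Y Z
    simp only [det4_expand, yy, mulVec_single_one, Matrix.col_apply, mulVec, dotProduct,
      Finset.mul_sum, Finset.sum_mul, ← Finset.sum_sub_distrib, ← Finset.sum_add_distrib]
    exact Finset.sum_congr rfl fun k _ => by ring
  have hE : ∀ U V : Matrix (Fin 4) (Fin N) ℝ, ∀ X : Pt, curvE U V X (yy A c p w) =
      ∑ k, w k * curvE U V X (yy A c p (Pi.single k 1)) := by
    intro U V X
    simp only [curvE, Finset.mul_sum]
    rw [Finset.sum_comm]
    exact Finset.sum_congr rfl fun l _ => hlin _ _ _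
  simp only [k31, hlin, hE, Finset.mul_sum, ← Finset.sum_add_distrib]
  exact Finset.sum_congr rfl fun k _ => by ring

omit hR hp hz in
theorem loc31_dot (p : Pt) (y : Amb N) (a b d : Fin 4) (w : Amb N) :
    loc31 A c r e σ p a b d y ⬝ᵥ w =
      etaF r (y - A.psi c p) * k31 A c (gProf e σ) (hProf e σ) p y a b d w := by
  rw [k31_sum, Finset.mul_sum]
  simp only [dotProduct, loc31]
  exact Finset.sum_congr rfl fun k _ => by ring

theorem fderiv_loc31 (u w : Amb N) (a b d : Fin 4) :
    fderiv ℝ (fun y => loc31 A c r e σ p a b d y ⬝ᵥ w) z u = etaF r (z - A.psi c p) *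
      deriv (fun t : ℝ => k31 A c (gProf e σ) (hProf e σ) p (z + t • u) a b d w) 0 := by
  have hd : DifferentiableAt ℝ (fun y => loc31 A c r e σ p a b d y ⬝ᵥ w) z := by
    have h1 : ∀ k, DifferentiableAt ℝ (fun y => loc31 A c r e σ p a b d y k) z := fun k =>
      ((contDiffOn_univ.1 (loc31_smoothOn A c r e σ (baseSmooth_const A c univ p) (Z := fun y => y)
        contDiffOn_id a b d k)).differentiable (by simp)).differentiableAt
    simp only [dotProduct]
    fun_prop
  rw [← deriv_fderiv hd]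
  simp only [loc31_dot]
  refine (deriv_eta_mul hR.r_pos (dz_offset A c p z u).differentiableAt
    (dz_k31 A c (hasDerivAt_gProf e σ) (hasDerivAt_hProf e σ) z u w a b d).differentiableAt ?_).trans
    (by simp)
  intro h1 h2
  simp only [zero_smul, add_zero] at h1 h2 ⊢
  obtain ⟨e1, e2⟩ := sdist_far (σ := σ) hR c hp hz h1 h2
  simp [k31, e1, e2]

end Vale.Agent.P204.Kernel
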