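import Mathlib
import Vale.Agent.P204.Kernel.Eta
import Vale.Agent.P204.Kernel.Parts2

/-!
# P204: smoothing of weakly closed forms

The first half of `ExactStmt`: the differential of the kernel in the second point is exact in the
first.
-/

open MeasureTheory Matrix Filter Set
open scoped ContDiff Topology

namespace Vale.Agent.P204.Kernel

open Vale.Agent.P204.General Vale.Agent.P204.Torus

variable {N K : ℕ} {A : Atlas N K} {J : Amb N → MN N} {r e σ c₀ C₀ : ℝ}

/-- The differential in the second point, as a form in the first. -/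
noncomputable def kd (A : Atlas N K) (r e σ : ℝ) (z u v w x : Amb N) : MN N :=
  -(amb (fun y => kk A r e σ y v w x) z u + amb (fun y => kk A r e σ y w u x) z v +
    amb (fun y => kk A r e σ y u v x) z w)

theorem kk_diff (x z v w : Amb N) (i k : Fin N) :
    DifferentiableAt ℝ (fun y => kk A r e σ y v w x i k) z := by
  have hm : ContDiff ℝ ∞ fun y : Amb N => (y, v, w) :=
    contDiff_id.prodMk (contDiff_const.prodMk contDiff_const)
  have h := (((kk_smooth A r e σ x i k).comp hm).differentiable (by simp)).differentiableAt (x := z)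
  simp only [Function.comp_def] at h
  exact h

theorem amb_skew {F : Amb N → MN N} (h : ∀ y, (F y)ᵀ = -F y) (z u : Amb N) :
    (amb F z u)ᵀ = -amb F z u := by
  ext i k
  simp only [amb, Matrix.transpose_apply, Matrix.neg_apply, Matrix.of_apply]
  rw [show (fun y => F y k i) = fun y => -F y i k from funext fun y => by
    rw [← Matrix.neg_apply, ← h y, Matrix.transpose_apply], fderiv_fun_neg, _root_.neg_apply]

theorem kd_skew (z u v w x : Amb N) : (kd A r e σ z u v w x)ᵀ = -kd A r e σ z u v w x := by
  simp only [kd, transpose_neg, transpose_add,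
    amb_skew (fun y => kk_skew A r e σ y _ _ x) z]
  abel

variable (hJ : IsACS A J) (hR : GoodR A r e c₀ C₀)

include hJ in
theorem pull_amb_kk (z u v w : Amb N) (c : Fin K) {p : Pt} (hp : p ∈ box) (i k : Fin 4) :
    A.pullAt c (amb (fun y => kk A r e σ y v w (A.psi c p)) z u) p i k =
      fderiv ℝ (fun y => loc22 A c r e σ p y v w i k) z u := by
  rw [pullAt_fderiv (fun l m => kk_diff _ z v w l m) u c p i k]
  simp only [kk_chart A hJ r e σ _ v w c hp]

include hJ hR

/-- The differential in the second point, read in a chart. -/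
theorem pull_kd {z : Amb N} (hz : z ∈ A.X) (u v w : Amb N) (c : Fin K) {p : Pt} (hp : p ∈ box) :
    A.pull c (kd A r e σ z u v w) p = dOne (A.pullOne c (bk A r e σ z u v w)) p := by
  ext a b
  have hpd : ∀ a b, pd a (fun q => A.pullOne c (bk A r e σ z u v w) q b) p =
      pd a (fun q => loc13 A c r e σ q z u v w b) p := fun a b => by
    simp only [pd]
    rw [Filter.EventuallyEq.fderiv_eq ((eventually_of_mem (isOpen_box.mem_nhds hp))
      fun q hq => by rw [bk_chart A hJ r e σ z u v w c hq])]
  have h := closed13 A c hp (hasDerivAt_gProf e σ) (hasDerivAt_hProf e σ) z u v w a b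
  have hl : A.pull c (kd A r e σ z u v w) p a b =
      -(A.pullAt c (amb (fun y => kk A r e σ y v w (A.psi c p)) z u) p a b +
        A.pullAt c (amb (fun y => kk A r e σ y w u (A.psi c p)) z v) p a b +
        A.pullAt c (amb (fun y => kk A r e σ y u v (A.psi c p)) z w) p a b) := by
    simp only [Atlas.pull, Atlas.pullAt, kd, Matrix.mul_neg, Matrix.neg_mul, Matrix.mul_add,
      Matrix.add_mul, Matrix.neg_apply, Matrix.add_apply]
  rw [hl, pull_amb_kk hJ, pull_amb_kk hJ, pull_amb_kk hJ, fderiv_loc22 hR c hp hz,
    fderiv_loc22 hR c hp hz, fderiv_loc22 hR c hp hz]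
  · simp only [dOne, Matrix.of_apply, hpd, pd_loc13 hR c hp hz]
    linear_combination (-(etaF r (z - A.psi c p))) * h
  all_goals exact hp

omit hR in
theorem bk_isOne (z u v w : Amb N) : IsOneX A (bk A r e σ z u v w) := fun c k =>
  ((loc13_smoothOn A c r e σ (baseSmooth_of_mapsTo A c contDiffOn_id fun x hx => hx)
      (Z := fun _ => z) (U := fun _ => u) (W := fun _ => v) (Y := fun _ => w) contDiffOn_const
      contDiffOn_const contDiffOn_const contDiffOn_const k).congr fun p hp => by
    rw [bk_chart A hJ r e σ z u v w c hp]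
    rfl)

theorem kd_test {z : Amb N} (hz : z ∈ A.X) (u v w : Amb N) :
    IsTestX A (kd A r e σ z u v w) := by
  refine ⟨kd_skew z u v w, fun c i k => ?_⟩
  refine ContDiffOn.congr (f := fun p => dOne (A.pullOne c (bk A r e σ z u v w)) p i k) ?_
    fun p hp => by rw [pull_kd hJ hR hz u v w c hp]
  simp only [dOne, Matrix.of_apply]
  exact (pd_smooth isOpen_box (bk_isOne hJ z u v w c k) i).sub
    (pd_smooth isOpen_box (bk_isOne hJ z u v w c i) k)

/-- Smoothing a weakly closed form gives a closed form. -/
theorem GS_closed {b : Amb N → MN N} (hb : IsContX A b)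
    (hw : ∀ a β, IsOneX A β → IsTestX A a → IsDOne A a β → A.wedgeInt a b = 0) :
    IsClosedX A (GS A r e σ b) := by
  refine ⟨GS_test r e σ hJ hb, fun c p hp => ?_⟩
  refine pull_closed_at (GS_skew A r e σ b) (fun _ _ => pairing_smooth A r e σ hJ hb _ _) c p
    fun l m n => ?_
  set z := A.psi c p
  have hz : z ∈ A.X := A.psi_mem c p hp
  set u : Amb N := Pi.single l 1
  set v : Amb N := Pi.single m 1
  set w : Amb N := Pi.single n 1
  have hkd := kd_test (σ := σ) hJ hR hz u v w
  have h0 := hw _ _ (bk_isOne (σ := σ) hJ z u v w) hkd fun d q hq => pull_kd hJ hR hz u v w d hq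
  have hcomm : A.wedgeInt b (kd A r e σ z u v w) = 0 := by
    rw [← h0]
    exact integral_congr_ae (Eventually.of_forall fun x => A.wedgePt_comm _ _ _)
  show fderiv ℝ (fun y => A.wedgeInt b (kk A r e σ y v w)) z u +
    fderiv ℝ (fun y => A.wedgeInt b (kk A r e σ y w u)) z v +
    fderiv ℝ (fun y => A.wedgeInt b (kk A r e σ y u v)) z w = 0
  rw [fderiv_pairing r e σ hJ hb, fderiv_pairing r e σ hJ hb, fderiv_pairing r e σ hJ hb,
    ← neg_eq_zero, ← hcomm, wedgeInt_charts A hJ hb hkd.contX]
  simp only [← Finset.sum_add_distrib, ← Finset.sum_neg_distrib]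
  refine Finset.sum_congr rfl fun d _ => ?_
  have hi' : ∀ (a a' a'' : Amb N) i k, IntegrableOn (fun q => cWeight A b d i k q •
      fderiv ℝ (fun y => cCoef A r e σ a a' d i k (y, q)) z a'') box := fun a a' a'' i k => by
    refine Est.integrable_carried (μ := volume.restrict box) (pr := id)
      (g := fun q => fderiv ℝ (fun y => cCoef A r e σ a a' d i k (y, q)) z a'')
      ?_ (cWeight_integrable A hJ hb d i k) measurable_id (isCompact_closedBall (0 : Pt) (1 / 2))
      ((ae_restrict_mem isOpen_box.measurableSet).mono fun q hq h => cWeight_supp A b d i k hq h)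
    exact ((cCoef_smooth A r e σ a a' d i k).continuous_fderiv (by simp)).comp
      (Continuous.prodMk_right z) |>.clm_comp continuous_const |>.clm_apply continuous_const |>.congr
      fun q => by
        exact (congrArg (fun L : Amb N →L[ℝ] ℝ => L a'')
          ((((cCoef_smooth A r e σ a a' d i k).differentiable (by simp)).differentiableAt.hasFDerivAt.comp
            z (hasFDerivAt_prodMk_left (𝕜 := ℝ) z q)).fderiv)).symm
  have hj : ∀ i k, IntegrableOn (fun q => -(cWeight A b d i k q •
      fderiv ℝ (fun y => cCoef A r e σ v w d i k (y, q)) z u + cWeight A b d i k q •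
      fderiv ℝ (fun y => cCoef A r e σ w u d i k (y, q)) z v + cWeight A b d i k q •
      fderiv ℝ (fun y => cCoef A r e σ u v d i k (y, q)) z w)) box := fun i k =>
    (((hi' v w u i k).add (hi' w u v i k)).add (hi' u v w i k)).neg
  have hh : ∀ i k, -((∫ q in box, cWeight A b d i k q •
        fderiv ℝ (fun y => cCoef A r e σ v w d i k (y, q)) z u) + (∫ q in box, cWeight A b d i k q •
        fderiv ℝ (fun y => cCoef A r e σ w u d i k (y, q)) z v) + ∫ q in box, cWeight A b d i k q •
        fderiv ℝ (fun y => cCoef A r e σ u v d i k (y, q)) z w) = ∫ q in box, -(cWeight A b d i k q •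
      fderiv ℝ (fun y => cCoef A r e σ v w d i k (y, q)) z u + cWeight A b d i k q •
      fderiv ℝ (fun y => cCoef A r e σ w u d i k (y, q)) z v + cWeight A b d i k q •
      fderiv ℝ (fun y => cCoef A r e σ u v d i k (y, q)) z w) := fun i k => by
    have h1 := integral_add (hi' v w u i k) (hi' w u v i k)
    have h2 := integral_add (((hi' v w u i k).add (hi' w u v i k)).congr
      (Eventually.of_forall fun q => rfl)) (hi' u v w i k)
    simp only [Pi.add_apply] at h2
    rw [integral_neg, h2, h1]
  simp only [hh]
  rw [Finset.sum_congr rfl fun i _ => (integral_finsetSum _ fun k _ => hj i k).symm,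
    ← integral_finsetSum _ fun i _ => integrable_finsetSum _ fun k _ => hj i k]
  refine setIntegral_congr_fun isOpen_box.measurableSet fun q hq => ?_
  rw [wedge_expand, Finset.sum_div, Finset.mul_sum]
  refine Finset.sum_congr rfl fun i _ => ?_
  rw [Finset.sum_div, Finset.mul_sum]
  refine Finset.sum_congr rfl fun k _ => ?_
  rcases eq_or_ne (cWeight A b d i k q) 0 with h | h
  · have : A.chi d (A.psi d q) * (wedge (A.pull d b q) (Matrix.single i k 1) / A.dens d q) = 0 := h
    rw [h]
    simp only [zero_smul, add_zero, neg_zero]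
    linear_combination (-(A.pull d (kd A r e σ z u v w) q i k)) * this
  · have hb1 : chartBump q = 1 :=
      chartBump.one_of_mem_closedBall (cWeight_supp A b d i k hq h)
    have hc : ∀ a a' a'' : Amb N, fderiv ℝ (fun y => cCoef A r e σ a a' d i k (y, q)) z a'' =
        A.pullAt d (amb (fun y => kk A r e σ y a a' (A.psi d q)) z a'') q i k := fun a a' a'' => by
      rw [pull_amb_kk hJ z a'' a a' d hq]
      simp only [cCoef, hb1, one_mul]
    simp only [hc, cWeight, smul_eq_mul, Atlas.pull, Atlas.pullAt, kd, Matrix.mul_neg, Matrix.neg_mul,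
      Matrix.mul_add, Matrix.add_mul, Matrix.neg_apply, Matrix.add_apply]
    ring

end Vale.Agent.P204.Kernel
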