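import Vale.Agent.P204.Kernel.Estimates
import Vale.Agent.P204.General.Repr
import Vale.Agent.P204.General.Basic.Main

/-!
# P204: forms supported in one chart

Extension by zero, the functional on such forms, and its bound from the Sobolev bound.
-/

open MeasureTheory Matrix Filter Topology Set
open scoped ContDiff

namespace Vale.Agent.P204.Kernel

open Vale.Agent.P204.General Vale.Agent.P204.Torus

/-- A smooth form on coordinate space, supported in the ball of radius `ρ`. -/
structure ChartForm (ρ : ℝ) (f : Pt → M4) : Prop where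
  smooth : ∀ i k, ContDiff ℝ ∞ fun p => f p i k
  skew : ∀ p, (f p)ᵀ = -f p
  supp : ∀ p, ρ < ‖p‖ → f p = 0

theorem ChartForm.nice {ρ : ℝ} {f : Pt → M4} (hf : ChartForm ρ f) (i k : Fin 4) :
    Nice fun p => f p i k :=
  ⟨hf.smooth i k, HasCompactSupport.intro (isCompact_closedBall 0 ρ) fun p hp => by
    simp [hf.supp p (lt_of_not_ge fun h => hp (mem_closedBall_zero_iff.2 h))]⟩

theorem conj_entry' {n : ℕ} (U : Matrix (Fin n) (Fin 4) ℝ) (M : Matrix (Fin n) (Fin n) ℝ)
    (i k : Fin 4) : (Uᵀ * M * U) i k = ∑ a, ∑ b, M a b * (U a i * U b k) := by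
  simp only [Matrix.mul_apply, Matrix.transpose_apply, Finset.sum_mul]
  rw [Finset.sum_comm]
  exact Finset.sum_congr rfl fun a _ => Finset.sum_congr rfl fun b _ => by ring

variable {N K : ℕ} (A : Atlas N K)

open Classical in
/-- A chart form on the manifold. -/
noncomputable def ext (c : Fin K) (f : Pt → M4) (x : Amb N) : MN N :=
  if x ∈ A.psi c '' box then A.push c f x else 0

/-- Equal pullbacks in every chart. -/
def EqPull (a b : Amb N → MN N) : Prop := ∀ c, ∀ p ∈ box, A.pull c a p = A.pull c b p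

theorem ext_skew (c : Fin K) {ρ : ℝ} {f : Pt → M4} (hf : ChartForm ρ f) (x : Amb N) :
    (ext A c f x)ᵀ = -ext A c f x := by
  unfold ext
  split_ifs
  · exact skew_conj' (hf.skew _) _
  · simp

theorem pull_ext_mem (c e : Fin K) (f : Pt → M4) {p : Pt} (hc : A.psi e p ∈ A.psi c '' box) :
    A.pull e (ext A c f) p =
      (A.L c * A.dmat e p)ᵀ * f (A.trans c e p) * (A.L c * A.dmat e p) := by
  simp only [Atlas.pull, Atlas.pullAt, ext, if_pos hc, Atlas.push, Atlas.trans, transpose_mul,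
    Matrix.mul_assoc]

theorem pull_ext_notMem (c e : Fin K) (f : Pt → M4) {p : Pt}
    (hc : A.psi e p ∉ A.psi c '' box) : A.pull e (ext A c f) p = 0 := by
  simp [Atlas.pull, Atlas.pullAt, ext, if_neg hc]

theorem pull_ext_self (c : Fin K) (f : Pt → M4) {p : Pt} (hp : p ∈ box) :
    A.pull c (ext A c f) p = f p := by
  rw [pull_ext_mem A c c f ⟨p, hp, rfl⟩, Atlas.trans, A.phi_psi c hp, A.L_mul_dmat c hp]
  simp

theorem ext_eq_zero (c : Fin K) {ρ : ℝ} {f : Pt → M4} (hf : ChartForm ρ f) {x : Amb N}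
    (hx : x ∉ A.psi c '' Metric.closedBall 0 ρ) : ext A c f x = 0 := by
  unfold ext
  split_ifs with h
  · have : f (A.phi c x) = 0 := hf.supp _ (lt_of_not_ge fun hle =>
      hx ⟨A.phi c x, mem_closedBall_zero_iff.2 hle, A.psi_phi c h⟩)
    simp [Atlas.push, this]
  · rfl

theorem trans_smooth (c e : Fin K) : ContDiff ℝ ∞ (A.trans c e) :=
  (Matrix.mulVecLin (A.L c)).toContinuousLinearMap.contDiff.comp
    ((A.psi_smooth e).sub contDiff_const)

theorem jac_smooth (c e : Fin K) (a i : Fin 4) :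
    ContDiff ℝ ∞ fun p => (A.L c * A.dmat e p) a i := by
  simp only [Matrix.mul_apply]
  exact ContDiff.sum fun k _ => contDiff_const.mul (A.dmat_smooth e k i)

theorem ext_test (c : Fin K) {ρ : ℝ} (hρ : ρ < 1) {f : Pt → M4} (hf : ChartForm ρ f) :
    IsTestX A (ext A c f) := by
  refine ⟨fun x => ext_skew A c hf x, fun e i k p hp => ContDiffAt.contDiffWithinAt ?_⟩
  by_cases hc : A.psi e p ∈ A.psi c '' box
  · have h : ContDiff ℝ ∞
        fun q => ((A.L c * A.dmat e q)ᵀ * f (A.trans c e q) * (A.L c * A.dmat e q)) i k := by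
      simp only [conj_entry']
      exact ContDiff.sum fun a _ => ContDiff.sum fun b _ =>
        ((hf.smooth a b).comp (trans_smooth A c e)).mul
          ((jac_smooth A c e a i).mul (jac_smooth A c e b k))
    refine h.contDiffAt.congr_of_eventuallyEq ((A.psi_trans_eventually c e hp hc).mono fun q hq => ?_)
    show A.pull e (ext A c f) q i k = _
    rw [pull_ext_mem A c e f hq.2]
  · have hcl : IsClosed (A.psi c '' Metric.closedBall 0 ρ) :=
      ((isCompact_closedBall _ _).image (A.psi_cont c)).isClosed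
    refine contDiffAt_const (c := (0 : ℝ)).congr_of_eventuallyEq ?_
    filter_upwards [(A.psi_cont e).continuousAt.preimage_mem_nhds (hcl.isOpen_compl.mem_nhds
      fun h => hc (Set.image_mono (Metric.closedBall_subset_ball hρ) h))] with q hq
    simp [Atlas.pull, Atlas.pullAt, ext_eq_zero A c hf hq]

/-! ### The functional -/

variable {A} {J : Amb N → MN N} {m : Measure (Amb N × Amb N)} {R : (Amb N → MN N) → ℝ} {C₁ : ℝ}

theorem R_congr (hR : IsExtX A J m R C₁) {a b : Amb N → MN N} (ha : IsTestX A a)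
    (hb : IsTestX A b) (h : EqPull A a b) : R a = R b := by
  have hd := isTestX_sub ha hb
  have hz : InvX A J (a - b) := fun c p hp => by
    have : A.pull c (a - b) p = 0 := by
      have h1 := h c p hp
      simp only [Atlas.pull, Atlas.pullAt] at h1
      simp only [Atlas.pull, Atlas.pullAt, Pi.sub_apply, Matrix.mul_sub, Matrix.sub_mul, h1, sub_self]
    simp [this]
  have := hR.add _ _ hd hb
  rw [sub_add_cancel, hR.inv _ hd hz, zero_add] at this
  exact this

theorem R_zero (hR : IsExtX A J m R C₁) : R 0 = 0 := by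
  have := hR.smul 0 0 isTestX_zero
  simpa using this

theorem isTestX_sum {ι : Type*} (s : Finset ι) {a : ι → Amb N → MN N}
    (h : ∀ i ∈ s, IsTestX A (a i)) : IsTestX A (∑ i ∈ s, a i) := by
  classical
  induction s using Finset.induction_on with
  | empty => simpa using isTestX_zero (A := A)
  | insert i t hi ih =>
    rw [Finset.sum_insert hi]
    exact isTestX_add (h i (Finset.mem_insert_self i t))
      (ih fun k hk => h k (Finset.mem_insert_of_mem hk))

theorem R_sum (hR : IsExtX A J m R C₁) {ι : Type*} (s : Finset ι) {a : ι → Amb N → MN N}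
    (h : ∀ i ∈ s, IsTestX A (a i)) : R (∑ i ∈ s, a i) = ∑ i ∈ s, R (a i) := by
  classical
  induction s using Finset.induction_on with
  | empty => simpa using R_zero hR
  | insert i t hi ih =>
    have ht := fun k hk => h k (Finset.mem_insert_of_mem hk)
    rw [Finset.sum_insert hi, Finset.sum_insert hi,
      hR.add _ _ (h i (Finset.mem_insert_self i t)) (isTestX_sum t ht), ih ht]

theorem R_anti (hJ : IsACS A J) (hR : IsExtX A J m R C₁) {a : Amb N → MN N} (ha : IsTestX A a) :
    R a = R fun x => antiX J x (a x) := by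
  have ha' := isTestX_anti hJ ha
  have h1 := hR.add _ _ (isTestX_sub ha ha') ha'
  rw [sub_add_cancel, hR.inv _ (isTestX_sub ha ha') (invX_sub_anti hJ a), zero_add] at h1
  exact h1

variable (A R)

/-- The functional is bounded by the energy of order ten on every chart. -/
def Bnd (ε M : ℝ) : Prop :=
  ∀ (c : Fin K) (f : Pt → M4) (X : ℝ), ChartForm (1 / 2) f →
    (∀ i k, EB ε X fun p => f p i k) → |R (ext A c f)| ≤ M * Real.sqrt X

variable {A R}

theorem trans_det_ne (hJ : IsACS A J) (c e : Fin K) {p : Pt} (hp : p ∈ overlap A e c) :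
    (fderiv ℝ (A.trans c e) p).det ≠ 0 := by
  rw [(trans_hasFDeriv A c e p).fderiv, det_mulVecLin]
  exact (det_trans_pos A hJ c e hp.1 hp.2).ne'

theorem mem_half {e : Fin K} {p : Pt} (hp : p ∈ box) (h : A.chi e (A.psi e p) ≠ 0) :
    p ∈ Metric.closedBall (0 : Pt) (1 / 2) := by
  obtain ⟨q, hq, he⟩ := A.chi_supp e _ (A.psi_mem e p hp) h
  rw [← A.phi_psi e hp, ← he, A.phi_psi e (closedBall_subset_box hq)]
  exact hq

theorem exists_cutoff {K₀ O : Set Pt} (hK : IsCompact K₀) (hO : IsOpen O) (hKO : K₀ ⊆ O) :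
    ∃ ζ : Pt → ℝ, ContDiff ℝ ∞ ζ ∧ (∀ p ∈ K₀, ζ p = 1) ∧
      ∃ L, IsCompact L ∧ L ⊆ O ∧ ∀ p ∉ L, ζ p = 0 := by
  obtain ⟨L, hL, hKL, hLO⟩ := exists_compact_between hK hO hKO
  obtain ⟨f, h0, h1, -⟩ := exists_contMDiffMap_zero_one_of_isClosed (n := ⊤) (modelWithCornersSelf ℝ Pt)
    (isOpen_interior (s := L)).isClosed_compl hK.isClosed
    (disjoint_compl_left_iff_subset.2 hKL)
  refine ⟨f, f.contMDiff.contDiff, fun p hp => h1 hp, L, hL, hLO, fun p hp => h0 ?_⟩
  exact fun h => hp (interior_subset h)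

theorem transfer_form (hJ : IsACS A J) (c e : Fin K) {ρ : ℝ} (hρ : ρ < 1)
    {Φ : Fin 4 → Fin 4 → Fin 4 → Fin 4 → Pt → ℝ}
    (hΦ : ∀ i k a b, ContDiffOn ℝ ∞ (Φ i k a b) (overlap A e c)) :
    ∃ C : ℝ, 0 ≤ C ∧ ∀ (f : Pt → M4), ChartForm ρ f → ∀ i k (g : Pt → ℝ),
      (∀ p ∈ overlap A e c,
        g p = A.chi e (A.psi e p) * ∑ a, ∑ b, Φ i k a b p * f (A.trans c e p) a b) →
      (∀ p ∉ overlap A e c, g p = 0) →
      Nice g ∧ ∀ ε X : ℝ, 0 < ε → ε ≤ 1 → (∀ a b, EB ε X fun p => f p a b) → EB ε (C * X) g := by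
  have hO := isOpen_overlap A e c
  set K₀ := Metric.closedBall (0 : Pt) (1 / 2) ∩ A.psi e ⁻¹' (A.psi c '' Metric.closedBall 0 ρ)
  have hK : IsCompact K₀ := (isCompact_closedBall _ _).inter_right
    (((isCompact_closedBall _ _).image (A.psi_cont c)).isClosed.preimage (A.psi_cont e))
  have hKO : K₀ ⊆ overlap A e c := fun p hp =>
    ⟨closedBall_subset_box hp.1, Set.image_mono (Metric.closedBall_subset_ball hρ) hp.2⟩
  obtain ⟨ζ, hζ, hζ1, L, hL, hLO, hζ0⟩ := exists_cutoff hK hO hKO
  set γ : Fin 4 → Fin 4 → Fin 4 × Fin 4 → Pt → ℝ :=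
    fun i k z p => ζ p * (A.chi e (A.psi e p) * Φ i k z.1 z.2 p)
  have hγ : ∀ i k z, Nice (γ i k z) ∧ tsupport (γ i k z) ⊆ overlap A e c := fun i k z => by
    obtain ⟨h1, h2, -⟩ := smooth_of_supp hO hL hLO
      (hζ.contDiffOn.mul (((A.chi_smooth e).comp (A.psi_smooth e)).contDiffOn.mul (hΦ i k z.1 z.2)))
      fun p hp => by simp [hζ0 p hp]
    refine ⟨⟨h1, h2⟩, (closure_minimal (fun p hp => ?_) hL.isClosed).trans hLO⟩
    by_contra h
    exact hp (by simp [γ, hζ0 p h])
  choose C hC hT using fun x : Fin 4 × Fin 4 × (Fin 4 × Fin 4) =>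
    EB.transfer (trans_smooth A c e) hO (trans_injOn A c e) (fun p hp => trans_det_ne hJ c e hp)
      (hγ x.1 x.2.1 x.2.2).1 (hγ x.1 x.2.1 x.2.2).2
  have hC0 : 0 ≤ ∑ x, C x := Finset.sum_nonneg fun x _ => hC x
  refine ⟨16 * ∑ _z : Fin 4 × Fin 4, ∑ x, C x, by positivity, fun f hf i k g hg hg0 => ?_⟩
  have he : g = fun p => ∑ z : Fin 4 × Fin 4, γ i k z p * f (A.trans c e p) z.1 z.2 := by
    funext p
    by_cases hp : p ∈ overlap A e c
    · rw [hg p hp, Fintype.sum_prod_type, Finset.mul_sum]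
      refine Finset.sum_congr rfl fun a _ => ?_
      rw [Finset.mul_sum]
      refine Finset.sum_congr rfl fun b _ => ?_
      simp only [γ]
      by_cases h0 : A.chi e (A.psi e p) = 0
      · simp [h0]
      by_cases hf0 : f (A.trans c e p) = 0
      · simp [hf0]
      rw [hζ1 p ⟨mem_half hp.1 h0, A.trans c e p, mem_closedBall_zero_iff.2
        (le_of_not_gt fun h => hf0 (hf.supp _ h)), A.psi_phi c hp.2⟩]
      ring
    · rw [hg0 p hp]
      refine (Finset.sum_eq_zero fun z _ => ?_).symm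
      simp [γ, hζ0 p fun h => hp (hLO h)]
  have hn : ∀ z : Fin 4 × Fin 4, Nice fun p => γ i k z p * f (A.trans c e p) z.1 z.2 := fun z =>
    (hγ i k z).1.mul_comp (hf.smooth z.1 z.2) (trans_smooth A c e)
  refine ⟨he ▸ Nice.sum Finset.univ fun z _ => hn z, fun ε X hε hε1 hX => ?_⟩
  have hX0 := (hX 0 0).nonneg
  rw [he]
  refine (EB.sum Finset.univ (fun z _ => hn z)
    fun z _ => hT (i, k, z) ε hε hε1 _ (hf.nice z.1 z.2) X (hX z.1 z.2)).mono ?_
  simp only [Finset.card_univ, Fintype.card_prod, Fintype.card_fin, ← Finset.sum_mul, ← mul_assoc]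
  refine mul_le_mul_of_nonneg_right (mul_le_mul (by norm_num) (Finset.sum_le_sum fun z _ => ?_)
    (Finset.sum_nonneg fun z _ => hC _) (by norm_num)) hX0
  exact Finset.single_le_sum (fun x _ => hC x) (Finset.mem_univ (i, k, z))

/-- The pieces of a chart form are chart forms of controlled energy. -/
theorem exists_pieces (hJ : IsACS A J) {ρ : ℝ} (hρ : ρ < 1) :
    ∃ C : ℝ, 0 ≤ C ∧ ∀ (c e : Fin K) (f : Pt → M4), ChartForm ρ f →
      ChartForm (1 / 2) (fun p => Matrix.of fun i k => A.cutCoef e (ext A c f) i k p) ∧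
      ∀ ε X : ℝ, 0 < ε → ε ≤ 1 → (∀ a b, EB ε X fun p => f p a b) →
        ∀ i k, EB ε (C * X) (A.cutCoef e (ext A c f) i k) := by
  have hΦ : ∀ c e i k a b, ContDiffOn ℝ ∞
      (fun p => (A.L c * A.dmat e p) a i * (A.L c * A.dmat e p) b k) (overlap A e c) :=
    fun c e i k a b => ((jac_smooth A c e a i).mul (jac_smooth A c e b k)).contDiffOn
  choose C hC h using fun z : Fin K × Fin K => transfer_form hJ z.1 z.2 hρ (hΦ z.1 z.2)
  refine ⟨∑ z, C z, Finset.sum_nonneg fun z _ => hC z, fun c e f hf => ?_⟩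
  have hg : ∀ i k, ∀ p ∈ overlap A e c, A.cutCoef e (ext A c f) i k p = A.chi e (A.psi e p) *
      ∑ a, ∑ b, (A.L c * A.dmat e p) a i * (A.L c * A.dmat e p) b k * f (A.trans c e p) a b := by
    intro i k p hp
    simp only [Atlas.cutCoef, if_pos hp.1, pull_ext_mem A c e f hp.2, conj_entry']
    congr 1
    exact Finset.sum_congr rfl fun a _ => Finset.sum_congr rfl fun b _ => by ring
  have hg0 : ∀ i k, ∀ p ∉ overlap A e c, A.cutCoef e (ext A c f) i k p = 0 := fun i k p hp => by
    unfold Atlas.cutCoef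
    split_ifs with hb
    · rw [pull_ext_notMem A c e f fun h => hp ⟨hb, h⟩]; simp
    · rfl
  refine ⟨⟨fun i k => (h (c, e) f hf i k _ (hg i k) (hg0 i k)).1.1, fun p => ?_, fun p hp => ?_⟩,
    fun ε X hε hε1 hX i k => ((h (c, e) f hf i k _ (hg i k) (hg0 i k)).2 ε X hε hε1 hX).mono
      (mul_le_mul_of_nonneg_right (Finset.single_le_sum (fun z _ => hC z) (Finset.mem_univ (c, e)))
        (hX 0 0).nonneg)⟩
  · ext i k
    simp only [Matrix.transpose_apply, Matrix.of_apply, Matrix.neg_apply, Atlas.cutCoef]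
    split_ifs
    · have := congrFun (congrFun (pullAt_skew A e p (ext_skew A c hf (A.psi e p))) i) k
      simp only [Matrix.transpose_apply, Matrix.neg_apply] at this
      show A.chi e _ * A.pullAt e _ p k i = -(A.chi e _ * A.pullAt e _ p i k)
      rw [this]; ring
    · simp
  · ext i k
    simp only [Matrix.of_apply, Matrix.zero_apply, Atlas.cutCoef]
    split_ifs with hb
    · have : A.chi e (A.psi e p) = 0 := by
        by_contra h'; exact not_le.2 hp (mem_closedBall_zero_iff.1 (mem_half hb h'))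
      rw [this, zero_mul]
    · rfl

theorem eqPull_pieces (c : Fin K) (f : Pt → M4) :
    EqPull A (ext A c f)
      (∑ e, ext A e fun p => Matrix.of fun i k => A.cutCoef e (ext A c f) i k p) := by
  intro e' p hp
  have hsum : A.pull e' (∑ e, ext A e fun p => Matrix.of fun i k => A.cutCoef e (ext A c f) i k p) p =
      ∑ e, A.pull e' (ext A e fun p => Matrix.of fun i k => A.cutCoef e (ext A c f) i k p) p := by
    simp only [Atlas.pull, Atlas.pullAt, Finset.sum_apply, Matrix.mul_sum, Matrix.sum_mul]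
  rw [hsum]
  have hx := A.psi_mem e' p hp
  conv_lhs => rw [← one_smul ℝ (A.pull e' (ext A c f) p), ← A.chi_sum _ hx, Finset.sum_smul]
  refine Finset.sum_congr rfl fun e _ => ?_
  by_cases he : A.psi e' p ∈ A.psi e '' box
  · rw [pull_ext_mem A e e' _ he, A.pull_trans e e' hp he]
    have hq : A.trans e e' p ∈ box := A.phi_mem e he
    have hpsi : A.psi e (A.trans e e' p) = A.psi e' p := A.psi_phi e he
    have : (Matrix.of fun i k => A.cutCoef e (ext A c f) i k (A.trans e e' p)) =
        A.chi e (A.psi e' p) • A.pull e (ext A c f) (A.trans e e' p) := by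
      ext i k; simp [Atlas.cutCoef, if_pos hq, hpsi]
    rw [this, Matrix.mul_smul, Matrix.smul_mul]
  · rw [pull_ext_notMem A e e' _ he]
    have : A.chi e (A.psi e' p) = 0 := by
      by_contra h; exact he (A.chi_image hx h)
    simp [this]

/-- A bound on half balls gives one on larger balls. -/
theorem exists_bnd_big (hJ : IsACS A J) (hR : IsExtX A J m R C₁) {ρ : ℝ} (hρ : ρ < 1) :
    ∃ C : ℝ, 0 ≤ C ∧ ∀ ε M : ℝ, 0 < ε → ε ≤ 1 → 0 ≤ M → Bnd A R ε M →
      ∀ (c : Fin K) (f : Pt → M4) (X : ℝ), ChartForm ρ f →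
        (∀ i k, EB ε X fun p => f p i k) → |R (ext A c f)| ≤ C * M * Real.sqrt X := by
  obtain ⟨C, hC, h⟩ := exists_pieces hJ hρ
  refine ⟨K * Real.sqrt C, by positivity, fun ε M hε hε1 hM hB c f X hf hX => ?_⟩
  have ht : ∀ e, IsTestX A (ext A e fun p => Matrix.of fun i k => A.cutCoef e (ext A c f) i k p) :=
    fun e => ext_test A e (by norm_num) (h c e f hf).1
  rw [R_congr hR (ext_test A c hρ hf) (isTestX_sum _ fun e _ => ht e) (eqPull_pieces c f),
    R_sum hR _ fun e _ => ht e]
  refine (Finset.abs_sum_le_sum_abs _ _).trans ((Finset.sum_le_sum fun e _ =>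
    hB e _ (C * X) (h c e f hf).1 fun i k => ?_).trans_eq ?_)
  · exact (h c e f hf).2 ε X hε hε1 hX i k
  · rw [Finset.sum_const, Finset.card_univ, Fintype.card_fin, nsmul_eq_mul, Real.sqrt_mul hC]
    ring

/-- The crude bound from the extension. -/
theorem exists_bnd_base (hJ : IsACS A J) (hR : IsExtX A J m R C₁) :
    ∃ C : ℝ, 0 ≤ C ∧ ∀ ε : ℝ, 0 < ε → ε ≤ 1 → Bnd A R ε (C / ε ^ 3) := by
  set U : Fin K → Fin K → Pt → M4 := fun c e p => A.L c * A.dmat e p
  set Φ : Fin K → Fin K → Fin 4 → Fin 4 → Fin 4 → Fin 4 → Pt → ℝ := fun c e i k a b p =>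
    2⁻¹ * (U c e p a i * U c e p b k -
      (U c e p * A.jc J e p) a i * (U c e p * A.jc J e p) b k)
  have hΦ : ∀ c e i k a b, ContDiffOn ℝ ∞ (Φ c e i k a b) (overlap A e c) := by
    intro c e i k a b
    have hU : ∀ a i, ContDiffOn ℝ ∞ (fun p => U c e p a i) (overlap A e c) :=
      fun a i => (jac_smooth A c e a i).contDiffOn
    have hUj : ∀ a i, ContDiffOn ℝ ∞ (fun p => (U c e p * A.jc J e p) a i) (overlap A e c) :=
      fun a i => by
        simp only [Matrix.mul_apply (M := U c e _)]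
        exact ContDiffOn.sum fun l _ =>
          (hU a l).mul ((hJ.smooth e l i).mono Set.inter_subset_left)
    exact contDiffOn_const.mul (((hU a i).mul (hU b k)).sub ((hUj a i).mul (hUj b k)))
  choose C hC h using fun z : Fin K × Fin K =>
    transfer_form hJ z.1 z.2 (ρ := 1 / 2) (by norm_num) (hΦ z.1 z.2)
  set D := ∑ _e : Fin K, ∑ _i : Fin 4, ∑ _k : Fin 4, (5 : ℝ) ^ 3 * ∑ z, C z
  have hD : 0 ≤ D := by
    have : 0 ≤ ∑ z, C z := Finset.sum_nonneg fun z _ => hC z
    positivity
  refine ⟨|C₁| * Real.sqrt D, by positivity, fun ε hε hε1 c f X hf hX => ?_⟩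
  have hX0 := (hX 0 0).nonneg
  refine (hR.bound _ (ext_test A c (by norm_num) hf)).trans ?_
  have hs : A.sob 3 (fun x => antiX J x (ext A c f x)) ≤ D * (X / ε ^ 6) := by
    simp only [D, Finset.sum_mul]
    refine Finset.sum_le_sum fun e _ => Finset.sum_le_sum fun i _ => Finset.sum_le_sum fun k _ => ?_
    set g := A.cutCoef e (fun x => antiX J x (ext A c f x)) i k
    have hg : ∀ p ∈ overlap A e c,
        g p = A.chi e (A.psi e p) * ∑ a, ∑ b, Φ c e i k a b p * f (A.trans c e p) a b := by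
      intro p hp
      simp only [g, Atlas.cutCoef, if_pos hp.1]
      show A.chi e _ * A.pullAt e (antiX J _ (ext A c f (A.psi e p))) p i k = _
      rw [pullAt_antiX A hJ e hp.1,
        show A.pullAt e (ext A c f (A.psi e p)) p = _ from pull_ext_mem A c e f hp.2]
      congr 1
      have e2 : (A.jc J e p)ᵀ *
          ((A.L c * A.dmat e p)ᵀ * f (A.trans c e p) * (A.L c * A.dmat e p)) * A.jc J e p =
          (U c e p * A.jc J e p)ᵀ * f (A.trans c e p) * (U c e p * A.jc J e p) := by
        simp only [U, transpose_mul, Matrix.mul_assoc]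
      simp only [antiP, e2, Matrix.smul_apply, Matrix.sub_apply, conj_entry', smul_eq_mul,
        ← Finset.sum_sub_distrib, Finset.mul_sum, Φ, U]
      exact Finset.sum_congr rfl fun a _ => Finset.sum_congr rfl fun b _ => by ring
    have hg0 : ∀ p ∉ overlap A e c, g p = 0 := fun p hp => by
      simp only [g, Atlas.cutCoef]
      split_ifs with hb
      · show A.chi e _ * A.pullAt e (antiX J _ (ext A c f (A.psi e p))) p i k = 0
        rw [pullAt_antiX A hJ e hb,
          show A.pullAt e (ext A c f (A.psi e p)) p = _ from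
            pull_ext_notMem A c e f fun h => hp ⟨hb, h⟩]
        simp [antiP]
      · rfl
    have hb := (h (c, e) f hf i k g hg hg0).2 ε X hε hε1 hX
    refine (sobR_le (X := (∑ z, C z) * (X / ε ^ 6)) 3 fun l hl => ?_).trans_eq (by ring)
    have h1 := (hb l (by omega)).trans (mul_le_mul_of_nonneg_right
      (Finset.single_le_sum (fun z _ => hC z) (Finset.mem_univ (c, e))) hX0)
    rw [← mul_div_assoc, le_div_iff₀ (by positivity), mul_comm]
    refine le_trans ?_ h1
    refine mul_le_mul_of_nonneg_right (pow_le_pow_of_le_one hε.le hε1 (by omega)) ?_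
    exact integral_nonneg fun p => sq_nonneg _
  calc C₁ * Real.sqrt (A.sob 3 fun x => antiX J x (ext A c f x))
      ≤ |C₁| * Real.sqrt (D * (X / ε ^ 6)) :=
        mul_le_mul (le_abs_self _) (Real.sqrt_le_sqrt hs) (Real.sqrt_nonneg _) (abs_nonneg _)
    _ = _ := by
        rw [Real.sqrt_mul hD, Real.sqrt_div hX0, show ε ^ 6 = (ε ^ 3) ^ 2 by ring,
          Real.sqrt_sq (by positivity)]
        ring

/-! ### Supports and pairings -/

variable {r d c₀ C₀ : ℝ}

/-- The smoothing does not spread supports by more than `1/32`. -/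
theorem GS_eq_zero (hG : GoodR A r d c₀ C₀) (σ : ℝ) {c : Fin K} {ρ : ℝ} (hρ : ρ ≤ 7 / 8)
    {b : Amb N → MN N} (hb : ∀ x ∈ A.X, x ∉ A.psi c '' Metric.closedBall 0 ρ → b x = 0)
    {z : Amb N} (hz : z ∈ A.X) (hz' : z ∉ A.psi c '' Metric.closedBall 0 (ρ + 1 / 32)) :
    GS A r d σ b z = 0 := by
  ext u w
  simp only [GS, Matrix.of_apply, Matrix.zero_apply, Atlas.wedgeInt]
  refine integral_eq_zero_of_ae ((ae_mem_X A).mono fun x hx => ?_)
  show A.wedgePt x (b x) _ = 0
  by_cases hx' : x ∈ A.psi c '' Metric.closedBall 0 ρ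
  · obtain ⟨p, hp, rfl⟩ := hx'
    have hk : kk A r d σ z (Pi.single u 1) (Pi.single w 1) (A.psi c p) = 0 := by
      refine Finset.sum_eq_zero fun e _ => ?_
      rcases eq_or_ne (A.chi e (A.psi c p)) 0 with h | h
      · simp [h]
      have h0 : etaF r (z - A.psi e (A.phi e (A.psi c p))) = 0 := by
        rw [A.psi_phi e (A.chi_image hx h)]
        refine etaF_eq_zero hG.r_pos (le_of_not_gt fun hlt => ?_)
        obtain ⟨q, hq, he⟩ := hG.near c p (Metric.closedBall_subset_closedBall hρ hp) z hz hlt.le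
        refine hz' ⟨q, mem_closedBall_zero_iff.2 ?_, he⟩
        have h1 := norm_add_le (q - p) p
        rw [sub_add_cancel] at h1
        linarith [mem_closedBall_zero_iff.1 hp]
      have : loc22 A e r d σ (A.phi e (A.psi c p)) z (Pi.single u 1) (Pi.single w 1) = 0 := by
        ext i k; simp [loc22, h0]
      simp [Atlas.push, this]
    rw [hk]; simp [Atlas.wedgePt, Atlas.pullAt, wedge]
  · rw [hb x hx hx']; simp [Atlas.wedgePt, Atlas.pullAt, wedge]

theorem GE_eq_zero (hG : GoodR A r d c₀ C₀) (ε : ℝ) {c : Fin K} {ρ : ℝ} (hρ : ρ ≤ 7 / 8)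
    {b : Amb N → MN N} (hb : ∀ x ∈ A.X, x ∉ A.psi c '' Metric.closedBall 0 ρ → b x = 0)
    {z : Amb N} (hz : z ∈ A.X) (hz' : z ∉ A.psi c '' Metric.closedBall 0 (ρ + 1 / 32)) :
    GE A r d ε b z = 0 := by
  ext u w
  simp [GE, GS_eq_zero hG _ hρ hb hz hz']

theorem sN_zeroK (x : Amb N) : A.sN x 0 = 0 := by
  have h := A.sN_smul x 0 0
  simpa using h

theorem continuousOn_sN_cont {b : Amb N → MN N} (hb : IsContX A b) :
    ContinuousOn (fun x => A.sN x (b x)) A.X := by
  have h : ContinuousOn (fun x => ∑ e, A.chi e x * (fun p => sq2 (A.pull e b p)) (A.phi e x)) A.X := by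
    refine continuousOn_finsetSum _ fun e _ => A.continuousOn_term e
      (F := fun p => sq2 (A.pull e b p)) ?_
    simp only [sq2]
    exact continuousOn_finsetSum _ fun i _ => continuousOn_finsetSum _ fun k _ =>
      (hb.cont e i k).pow 2
  refine h.sqrt.congr fun x hx => ?_
  rw [← A.sqrt_sqX]
  congr 1
  refine Finset.sum_congr rfl fun e _ => ?_
  rcases eq_or_ne (A.chi e x) 0 with he | he
  · simp [he]
  · simp only [Atlas.pull, A.psi_phi e (A.supp_box hx he)]

theorem continuousOn_sqX {b : Amb N → MN N} (hb : IsContX A b) :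
    ContinuousOn (fun x => A.sqX x (b x)) A.X :=
  ((continuousOn_sN_cont hb).pow 2).congr fun _ _ => (A.sq_sN _ _).symm

/-- Cauchy–Schwarz for continuous forms. -/
theorem abs_wedgeInt_le (hJ : IsACS A J) :
    ∃ C : ℝ, 0 ≤ C ∧ ∀ a b : Amb N → MN N, IsContX A a → IsContX A b →
      |A.wedgeInt a b| ≤ C * A.n2 a * A.n2 b := by
  obtain ⟨c, C, -, hfin, hae, -, -, hw, -, -, -⟩ := basicStmt A J hJ
  refine ⟨|C|, abs_nonneg C, fun a b ha hb => ?_⟩
  have hm : ∀ {a : Amb N → MN N}, IsContX A a → MemLp (fun x => A.sN x (a x)) 2 A.vol := fun ha => by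
    refine (memLp_two_iff_integrable_sq (aesm_of_continuousOn hae (continuousOn_sN_cont ha))).2 ?_
    exact integrable_of_continuousOn A ((continuousOn_sN_cont ha).pow 2)
  have hA := Est.abs_integral_mul_le (hm ha) (hm hb)
  simp only [A.sq_sN] at hA
  refine le_trans ?_ ((mul_le_mul_of_nonneg_left ((le_abs_self _).trans hA) (abs_nonneg C)).trans_eq
    (mul_assoc |C| _ _).symm)
  rw [← integral_const_mul]
  refine abs_integral_le_integral_abs.trans (integral_mono_of_nonneg (ae_of_all _ fun x => abs_nonneg _)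
    (((hm ha).integrable_mul (hm hb)).const_mul _) (hae.mono fun x hx => ?_))
  refine (hw x hx (a x) (b x)).trans_eq' rfl |>.trans ?_
  rw [A.sqrt_sqX, A.sqrt_sqX, mul_assoc]
  exact mul_le_mul_of_nonneg_right (le_abs_self C) (mul_nonneg (A.sN_nonneg _ _) (A.sN_nonneg _ _))

/-- The size of a chart form. -/
theorem n2_ext_le (hJ : IsACS A J) {ρ : ℝ} (hρ : ρ < 1) :
    ∃ C : ℝ, 0 ≤ C ∧ ∀ (c : Fin K) (f : Pt → M4), ChartForm ρ f →
      A.n2 (ext A c f) ^ 2 ≤ C * ∑ i, ∑ k, ∫ p, f p i k ^ 2 := by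
  have hb : Metric.closedBall (0 : Pt) ρ ⊆ box := Metric.closedBall_subset_ball hρ
  set w : Fin K → Fin 4 → Fin 4 → MN N := fun c a b => (A.L c)ᵀ * Matrix.single a b (1 : ℝ) * A.L c
  have hcont : ∀ c a b, Continuous fun x => A.sN x (w c a b) := fun c a b =>
    A.sN_cont continuous_id fun _ _ => continuous_const
  choose B hB using fun z : Fin K × Fin 4 × Fin 4 =>
    A.compact.exists_bound_of_continuousOn (hcont z.1 z.2.1 z.2.2).continuousOn
  choose D hD using fun c : Fin K => (isCompact_closedBall (0 : Pt) ρ).exists_bound_of_continuousOn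
    ((continuousOn_dens A c).mono hb)
  set M := ∑ z, |B z|
  refine ⟨(∑ c, |D c|) * 16 * M ^ 2,
    by have := Finset.sum_nonneg fun c (_ : c ∈ Finset.univ) => abs_nonneg (D c); positivity,
    fun c f hf => ?_⟩
  have ht := (ext_test A c hρ hf).contX
  rw [Atlas.n2, Real.sq_sqrt (integral_nonneg fun x => A.sqX_nonneg _ _),
    integral_eq_chart' A hJ c (continuousOn_sqX ht) hρ fun x _ hx => by
      rw [ext_eq_zero A c hf hx, ← A.sq_sN, sN_zeroK]; ring]
  have hpt : ∀ q ∈ box, A.dens c q * A.sqX (A.psi c q) (ext A c f (A.psi c q)) ≤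
      (∑ c, |D c|) * 16 * M ^ 2 * ∑ i, ∑ k, f q i k ^ 2 := by
    intro q hq
    have hS : 0 ≤ ∑ i, ∑ k, f q i k ^ 2 :=
      Finset.sum_nonneg fun i _ => Finset.sum_nonneg fun k _ => sq_nonneg _
    have hDs : 0 ≤ ∑ c, |D c| := Finset.sum_nonneg fun c _ => abs_nonneg _
    by_cases hqρ : q ∈ Metric.closedBall 0 ρ
    · have hd : A.dens c q ≤ ∑ c, |D c| :=
        ((le_abs_self _).trans ((hD c q hqρ).trans (le_abs_self _))).trans
          (Finset.single_le_sum (f := fun c => |D c|) (fun c _ => abs_nonneg _) (Finset.mem_univ c))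
      have he : ext A c f (A.psi c q) = ∑ z : Fin 4 × Fin 4, f q z.1 z.2 • w c z.1 z.2 := by
        rw [ext, if_pos ⟨q, hq, rfl⟩, Atlas.push, A.phi_psi c hq]
        conv_lhs => rw [Matrix.matrix_eq_sum_single (f q)]
        simp only [w, Matrix.mul_sum, Matrix.sum_mul, Fintype.sum_prod_type]
        refine Finset.sum_congr rfl fun a _ => Finset.sum_congr rfl fun b _ => ?_
        rw [← Matrix.smul_mul, ← Matrix.mul_smul, Matrix.smul_single, smul_eq_mul, mul_one]
      have hn : A.sN (A.psi c q) (ext A c f (A.psi c q)) ≤ ∑ z : Fin 4 × Fin 4, |f q z.1 z.2| * M := by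
        rw [he]
        have : ∀ s : Finset (Fin 4 × Fin 4), A.sN (A.psi c q) (∑ z ∈ s, f q z.1 z.2 • w c z.1 z.2) ≤
            ∑ z ∈ s, |f q z.1 z.2| * M := by
          intro s
          induction s using Finset.induction_on with
          | empty => simp [sN_zeroK]
          | insert z t hz ih =>
            rw [Finset.sum_insert hz, Finset.sum_insert hz]
            refine (A.sN_add_le _ _ _).trans (add_le_add ?_ ih)
            rw [A.sN_smul]
            refine mul_le_mul_of_nonneg_left ?_ (abs_nonneg _)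
            refine ((le_abs_self _).trans ((hB (c, z) _ (A.psi_mem c q hq)).trans (le_abs_self _))).trans ?_
            exact Finset.single_le_sum (f := fun z => |B z|) (fun _ _ => abs_nonneg _) (Finset.mem_univ (c, z))
        exact this Finset.univ
      have h2 : A.sqX (A.psi c q) (ext A c f (A.psi c q)) ≤ 16 * M ^ 2 * ∑ i, ∑ k, f q i k ^ 2 := by
        rw [← A.sq_sN]
        refine (pow_le_pow_left₀ (A.sN_nonneg _ _) hn 2).trans ((sq_sum_le _ _).trans_eq ?_)
        simp only [Finset.card_univ, Fintype.card_prod, Fintype.card_fin, mul_pow, sq_abs,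
          ← Finset.sum_mul, Fintype.sum_prod_type]
        push_cast; ring
      calc _ ≤ (∑ c, |D c|) * (16 * M ^ 2 * ∑ i, ∑ k, f q i k ^ 2) :=
            mul_le_mul hd h2 (A.sqX_nonneg _ _) hDs
        _ = _ := by ring
    · rw [ext_eq_zero A c hf fun ⟨p, hp, he⟩ => hqρ (by
        rwa [← A.phi_psi c hq, ← he, A.phi_psi c (hb hp)]), ← A.sq_sN]
      rw [sN_zeroK]
      have : 0 ≤ (∑ c, |D c|) * 16 * M ^ 2 * ∑ i, ∑ k, f q i k ^ 2 :=
        mul_nonneg (mul_nonneg (mul_nonneg hDs (by norm_num)) (sq_nonneg M)) hS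
      simpa using this
  have hi : Integrable fun q => ∑ i, ∑ k, f q i k ^ 2 :=
    integrable_finsetSum _ fun i _ => integrable_finsetSum _ fun k _ => (hf.nice i k).integrable_sq
  refine (integral_mono_of_nonneg (μ := volume.restrict box)
    ((ae_restrict_mem isOpen_box.measurableSet).mono fun q hq =>
      mul_nonneg (dens_pos A hJ c hq).le (A.sqX_nonneg _ _)) (hi.const_mul _).restrict
    ((ae_restrict_mem isOpen_box.measurableSet).mono hpt)).trans ?_
  refine (setIntegral_le_integral (hi.const_mul _) (ae_of_all _ fun q => ?_)).trans_eq ?_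
  · have := Finset.sum_nonneg fun c (_ : c ∈ Finset.univ) => abs_nonneg (D c)
    positivity
  rw [integral_const_mul, integral_finsetSum _ fun i _ =>
    integrable_finsetSum _ fun k _ => (hf.nice i k).integrable_sq]
  congr 1
  exact Finset.sum_congr rfl fun i _ => integral_finsetSum _ fun k _ => (hf.nice i k).integrable_sq

end Vale.Agent.P204.Kernel
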