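import Vale.Agent.P204.Kernel.Param
import Vale.Agent.P204.Kernel.Smooth

/-!
# P204: the smoothing kernel in a chart

For `z = psi c q` and `p = q + σ w` the kernel, times `σ⁴`, is `amp (σ, q, σ w) exp (-expo)`, a
function smooth up to `σ = 0` with Gaussian decay of all derivatives in `w`.
-/

open MeasureTheory Matrix Filter Topology Set
open scoped ContDiff

namespace Vale.Agent.P204.Kernel

open Vale.Agent.P204.General Vale.Agent.P204.Torus

/-- Width, base point, scaled offset. -/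
abbrev X3 := (ℝ × Pt) × Pt

/-- Widths at most one. -/
def S3 : Set X3 := {x | |x.1.1| ≤ 1}

/-- The bump of the base point in the amplitude. -/
noncomputable def bA : ContDiffBump (0 : Pt) := ⟨5 / 8, 11 / 16, by norm_num, by norm_num⟩
/-- The bump of the base point in the exponent. -/
noncomputable def bF : ContDiffBump (0 : Pt) := ⟨11 / 16, 3 / 4, by norm_num, by norm_num⟩
/-- The bump of the offset in the amplitude. -/
noncomputable def tA : ContDiffBump (0 : Pt) := ⟨1 / 32, 1 / 16, by norm_num, by norm_num⟩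
/-- The bump of the offset in the exponent. -/
noncomputable def tF : ContDiffBump (0 : Pt) := ⟨1 / 16, 1 / 8, by norm_num, by norm_num⟩
/-- The bump of the forms. -/
noncomputable def bC : ContDiffBump (0 : Pt) := ⟨3 / 4, 7 / 8, by norm_num, by norm_num⟩
/-- The bump of the width. -/
noncomputable def bS : ContDiffBump (0 : ℝ) := ⟨1, 2, by norm_num, by norm_num⟩

theorem smooth_of_supp {E : Type} [NormedAddCommGroup E] [NormedSpace ℝ E] {f : E → ℝ}
    {O K : Set E} (hO : IsOpen O) (hK : IsCompact K) (hKO : K ⊆ O) (hf : ContDiffOn ℝ ∞ f O)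
    (h0 : ∀ x ∉ K, f x = 0) : ContDiff ℝ ∞ f ∧ HasCompactSupport f ∧ BddDerivs f := by
  have hd : ContDiff ℝ ∞ f := contDiff_iff_contDiffAt.2 fun x => by
    by_cases hx : x ∈ O
    · exact hf.contDiffAt (hO.mem_nhds hx)
    · refine contDiffAt_const (c := (0 : ℝ)).congr_of_eventuallyEq ?_
      filter_upwards [hK.isClosed.isOpen_compl.mem_nhds fun h => hx (hKO h)] with y hy
      exact h0 y hy
  have hs : HasCompactSupport f := HasCompactSupport.intro hK h0
  exact ⟨hd, hs, bddDerivs_of_compactSupport hd hs⟩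

theorem contDiff_cutF (d : ℝ) : ContDiff ℝ ∞ (cutF d) :=
  Real.smoothTransition.contDiff.comp (contDiff_const.sub ((contDiff_const.mul contDiff_id).div_const d))

theorem cutF_of_le {d s : ℝ} (hd : 0 < d) (hs : d ≤ s) : cutF d s = 0 := by
  refine Real.smoothTransition.zero_of_nonpos ?_
  rw [sub_nonpos, le_div_iff₀ hd]; linarith

theorem bddDerivs_cutF {d : ℝ} (hd : 0 < d) : BddDerivs (cutF d) := fun n => by
  rcases n with _ | n
  · refine ⟨1, zero_le_one, fun x => ?_⟩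
    rw [norm_iteratedFDeriv_zero, Real.norm_eq_abs, cutF,
      abs_of_nonneg (Real.smoothTransition.nonneg _)]
    exact Real.smoothTransition.le_one _
  have hc : HasCompactSupport (fderiv ℝ (cutF d)) := by
    refine HasCompactSupport.intro (isCompact_Icc (a := d / 2) (b := d)) fun x hx => ?_
    obtain ⟨v, he⟩ : ∃ v : ℝ, cutF d =ᶠ[𝓝 x] fun _ => v := by
      rcases lt_or_ge x (d / 2) with h | h
      · refine ⟨1, eventually_of_mem (Iio_mem_nhds h) fun y (hy : y < d / 2) => ?_⟩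
        refine Real.smoothTransition.one_of_one_le ?_
        have : 2 * y / d ≤ 1 := by rw [div_le_iff₀ hd]; linarith
        linarith
      · have hdx : d < x := by by_contra h'; exact hx ⟨h, not_lt.1 h'⟩
        exact ⟨0, eventually_of_mem (Ioi_mem_nhds hdx) fun y hy => cutF_of_le hd (le_of_lt hy)⟩
    rw [he.fderiv_eq]; simp
  obtain ⟨C, hC⟩ := (hc.iteratedFDeriv (𝕜 := ℝ) n).exists_bound_of_continuous
    (((contDiff_cutF d).fderiv_right (m := ∞) (by simp)).continuous_iteratedFDeriv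
      (by exact_mod_cast le_top))
  exact ⟨max C 0, le_max_right _ _, fun x => by
    rw [← norm_iteratedFDeriv_fderiv]; exact (hC x).trans (le_max_left _ _)⟩

/-- The tail of the cut profile, scaled. -/
noncomputable def Hh (d : ℝ) (y : ℝ × ℝ) : ℝ :=
  ∫ v in Ioi 0, 2 * v * cutF d (y.2 + y.1 ^ 2 * v ^ 2) * Real.exp (-(v ^ 2 / 4))

theorem contDiff_Hh {d : ℝ} (hd : 0 < d) : ContDiff ℝ ∞ (Hh d) := by
  refine contDiff_iff_contDiffAt.2 fun y₀ => ?_
  set U : Set (ℝ × ℝ) := Metric.ball 0 (‖y₀‖ + 1)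
  set R := ‖y₀‖ + 1
  have hR : 0 ≤ R := by positivity
  set S : Set ((ℝ × ℝ) × ℝ) := {x | ‖x.1‖ ≤ R}
  have hl : ∀ L : (ℝ × ℝ) × ℝ →L[ℝ] ℝ, (∀ x, ‖L x‖ ≤ ‖x.1‖) → PolyB S ⇑L := fun L h =>
    PolyB.linear L hR fun x hx => ((h x).trans hx).trans (le_mul_of_one_le_right hR
      (le_add_of_nonneg_right (norm_nonneg _)))
  have h1 : PolyB S (fun x : (ℝ × ℝ) × ℝ => x.1.1) :=
    hl ((ContinuousLinearMap.fst ℝ ℝ ℝ).comp (ContinuousLinearMap.fst ℝ (ℝ × ℝ) ℝ)) fun x =>
      norm_fst_le x.1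
  have h2 : PolyB S (fun x : (ℝ × ℝ) × ℝ => x.1.2) :=
    hl ((ContinuousLinearMap.snd ℝ ℝ ℝ).comp (ContinuousLinearMap.fst ℝ (ℝ × ℝ) ℝ)) fun x =>
      norm_snd_le x.1
  have hv : PolyB S (fun x : (ℝ × ℝ) × ℝ => x.2) :=
    PolyB.linear (ContinuousLinearMap.snd ℝ (ℝ × ℝ) ℝ) zero_le_one fun x _ => by simp
  have hg := (h2.add ((h1.smul h1).smul (hv.smul hv))).polyD
  have hc := PolyB.comp (contDiff_cutF d) (bddDerivs_cutF hd) hg
  have he := GaussB.exp_neg ((PolyB.const (S := S) (4⁻¹ : ℝ)).smul (hv.smul hv))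
    (c := 4⁻¹) (by norm_num) (C₀ := 0) fun x _ => by
      simp only [smul_eq_mul, Real.norm_eq_abs, sq_abs, sub_zero]; linarith [sq x.2]
  obtain ⟨hGd, hGb⟩ := GaussB.poly_smul (by norm_num) (((PolyB.const (S := S) (2 : ℝ)).smul hv).smul hc) he
  choose C hC hb using hGb
  have key := (param_integral (μ := volume.restrict (Ioi (0 : ℝ))) (U := U) (W := univ)
    Metric.isOpen_ball isOpen_univ (ae_of_all _ fun _ => trivial) hGd.contDiffOn
    (b := fun n v => C n * Real.exp (-(4⁻¹ / 2 / 2 : ℝ) * v ^ 2))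
    (fun n => ((integrable_exp_neg_mul_sq (by norm_num)).restrict).const_mul _)
    fun n => ae_of_all _ fun v x hx => ?_).1
  · refine ((key.congr fun y _ => ?_).contDiffAt (Metric.isOpen_ball.mem_nhds (by simp)))
    refine setIntegral_congr_fun measurableSet_Ioi fun v _ => ?_
    simp only [smul_eq_mul]; ring_nf
  · have hx' : (x, v) ∈ S := (mem_ball_zero_iff.1 hx).le
    simpa [Real.norm_eq_abs, sq_abs] using hb n (x, v) hx'

theorem Hh_of_lt {d : ℝ} (hd : 0 < d) {y : ℝ × ℝ} (h : d ≤ y.2) : Hh d y = 0 := by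
  refine setIntegral_eq_zero_of_forall_eq_zero fun v _ => ?_
  rw [cutF_of_le hd (h.trans (le_add_of_nonneg_right (by positivity)))]; ring

theorem hProf_eq {d σ : ℝ} (hd : 0 < d) (hσ : 0 < σ) (s : ℝ) :
    σ ^ 4 * hProf d σ s =
      σ ^ 2 * 2⁻¹ * Hh d (σ, s) * ((4 * Real.pi) ^ 2)⁻¹ * Real.exp (-s / (4 * σ ^ 2)) := by
  have hz : ∀ t, d ≤ t → gProf d σ t = 0 := fun t ht => gProf_eq_zero hd ht
  have h1 : ∫ t in s..d, gProf d σ t = ∫ t in Ioi s, gProf d σ t := by
    rcases le_or_gt s d with h | h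
    · rw [intervalIntegral.integral_of_le h]
      exact (setIntegral_eq_of_subset_of_forall_sdiff_eq_zero measurableSet_Ioi Ioc_subset_Ioi_self
        fun t ht => hz t (le_of_lt (not_le.1 fun h' => ht.2 ⟨ht.1, h'⟩))).symm
    · rw [show ∫ t in Ioi s, gProf d σ t = 0 from
          setIntegral_eq_zero_of_forall_eq_zero fun t (ht : s < t) => hz t (by linarith),
        intervalIntegral.integral_congr (g := fun _ => (0 : ℝ))
          fun t ht => hz t (by rw [uIcc_of_ge h.le] at ht; exact ht.1)]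
      simp
  have himg : (fun v : ℝ => s + σ ^ 2 * v ^ 2) '' Ioi 0 = Ioi s := by
    ext t
    refine ⟨?_, fun ht => ⟨Real.sqrt (t - s) / σ,
      div_pos (Real.sqrt_pos.2 (sub_pos.2 ht)) hσ, ?_⟩⟩
    · rintro ⟨v, hv, rfl⟩
      exact lt_add_of_pos_right s (mul_pos (pow_pos hσ 2) (pow_pos hv 2))
    · simp only [div_pow, Real.sq_sqrt (sub_nonneg.2 (le_of_lt ht))]
      field_simp
      ring
  have hinj : InjOn (fun v : ℝ => s + σ ^ 2 * v ^ 2) (Ioi 0) := fun v (hv : 0 < v) v' (hv' : 0 < v') h => by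
    have : v ^ 2 = v' ^ 2 := mul_left_cancel₀ (pow_ne_zero 2 hσ.ne') (add_left_cancel h)
    exact (sq_eq_sq₀ hv.le hv'.le).1 this
  have hder : ∀ v ∈ Ioi (0 : ℝ),
      HasDerivWithinAt (fun v : ℝ => s + σ ^ 2 * v ^ 2) (σ ^ 2 * (2 * v)) (Ioi 0) v := fun v _ => by
    simpa using ((((hasDerivAt_pow 2 v)).const_mul (σ ^ 2)).const_add s).hasDerivWithinAt
  rw [hProf, h1, ← himg,
    integral_image_eq_integral_abs_deriv_smul measurableSet_Ioi hder hinj, Hh,
    ← integral_const_mul, ← integral_const_mul, ← integral_const_mul, ← integral_mul_const,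
    ← integral_mul_const]
  refine setIntegral_congr_fun measurableSet_Ioi fun v (hv : 0 < v) => ?_
  rw [abs_of_pos (by positivity), gProf, smul_eq_mul,
    show -(s + σ ^ 2 * v ^ 2) / (4 * σ ^ 2) = -s / (4 * σ ^ 2) + -(v ^ 2 / 4) by field_simp; ring,
    Real.exp_add]
  field_simp

variable {N K : ℕ} (A : Atlas N K) (c : Fin K) (r d : ℝ)

/-- The offset in the ambient space. -/
noncomputable def dz (q u : Pt) : Amb N := A.psi c q - A.psi c (q + u)

/-- The averaged differential along the segment. -/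
noncomputable def dlt (q u : Pt) : Matrix (Fin N) (Fin 4) ℝ :=
  Matrix.of fun k i => ∫ τ in Icc (0 : ℝ) 1, A.dmat c (q + τ • u) k i

theorem dlt_mulVec (q u : Pt) : dlt A c q u *ᵥ u = -dz A c q u := by
  funext k
  have hD : ∀ i, Continuous fun τ : ℝ => A.dmat c (q + τ • u) k i := fun i =>
    (A.dmat_smooth c k i).continuous.comp (by fun_prop)
  have hint : ∀ i, IntegrableOn (fun τ : ℝ => A.dmat c (q + τ • u) k i * u i) (Icc 0 1) := fun i =>
    ((hD i).mul continuous_const).integrableOn_Icc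
  have hder : ∀ τ ∈ uIcc (0 : ℝ) 1, HasDerivAt (fun τ : ℝ => A.psi c (q + τ • u) k)
      (∑ i, A.dmat c (q + τ • u) k i * u i) τ := fun τ _ => by
    have h1 : HasDerivAt (fun τ : ℝ => q + τ • u) u τ := by
      simpa using ((hasDerivAt_id τ).smul_const u).const_add q
    have h2 := hasDerivAt_pi.1 ((A.psi_diff c _).hasFDerivAt.comp_hasDerivAt τ h1) k
    rw [← A.dmat_mulVec] at h2
    exact h2
  have hc : Continuous fun τ : ℝ => ∑ i, A.dmat c (q + τ • u) k i * u i :=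
    continuous_finsetSum _ fun i _ => (hD i).mul continuous_const
  have h := intervalIntegral.integral_eq_sub_of_hasDerivAt hder (hc.intervalIntegrable _ _)
  rw [intervalIntegral.integral_of_le zero_le_one, ← integral_Icc_eq_integral_Ioc,
    integral_finsetSum _ fun i _ => hint i] at h
  simp only [integral_mul_const] at h
  simp only [mulVec, dotProduct, dlt, Matrix.of_apply, h, dz, Pi.neg_apply, Pi.sub_apply, one_smul,
    zero_smul, add_zero, neg_sub]

theorem dlt_zero (q : Pt) : dlt A c q 0 = A.dmat c q := by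
  ext k i
  simp [dlt]

theorem dlt_smooth (k : Fin N) (i : Fin 4) :
    ContDiff ℝ ∞ fun y : Pt × Pt => dlt A c y.1 y.2 k i := by
  refine contDiff_iff_contDiffAt.2 fun y₀ => ?_
  set G : (Pt × Pt) × ℝ → ℝ := fun x => A.dmat c (x.1.1 + x.2 • x.1.2) k i
  have hG : ContDiff ℝ ∞ G := (A.dmat_smooth c k i).comp (by fun_prop)
  have hb : ∀ n : ℕ, ∃ C, ∀ x ∈ Metric.closedBall y₀ 1 ×ˢ Icc (0 : ℝ) 1,
      ‖iteratedFDeriv ℝ n G x‖ ≤ C := fun n =>
    ((isCompact_closedBall y₀ 1).prod isCompact_Icc).exists_bound_of_continuousOn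
      (hG.continuous_iteratedFDeriv (by exact_mod_cast le_top)).continuousOn
  choose C hC using hb
  have key := (param_integral (μ := volume.restrict (Icc (0 : ℝ) 1)) (U := Metric.ball y₀ 1)
    (W := univ) Metric.isOpen_ball isOpen_univ (ae_of_all _ fun _ => trivial) hG.contDiffOn
    (b := fun n _ => C n) (fun n => integrable_const _) fun n =>
      (ae_restrict_mem measurableSet_Icc).mono fun t ht x hx =>
        hC n (x, t) ⟨Metric.ball_subset_closedBall hx, ht⟩).1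
  exact key.contDiffAt (Metric.ball_mem_nhds y₀ one_pos)

/-- The offset pulled back to coordinates. -/
noncomputable def Vm (q u : Pt) : M4 := pim A c (q + u) * dlt A c q u

/-- The quadratic form of the squared length. -/
noncomputable def Qm (q u : Pt) : M4 := (Vm A c q u)ᵀ * gram A c (q + u) * Vm A c q u

theorem vv_eq (q u : Pt) : vv A c (q + u) (A.psi c q) = -(Vm A c q u *ᵥ u) := by
  rw [vv, Vm, ← mulVec_mulVec, dlt_mulVec, mulVec_neg, neg_neg]; rfl

theorem sdist_eq_quad (q u : Pt) : sdist A c (q + u) (A.psi c q) = u ⬝ᵥ (Qm A c q u *ᵥ u) := by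
  rw [sdist, vv_eq, Qm, ← mulVec_mulVec, ← mulVec_mulVec, dotProduct_mulVec u (Vm A c q u)ᵀ,
    vecMul_transpose, mulVec_neg, dotProduct_neg, neg_dotProduct, neg_neg]

theorem Qm_zero {q : Pt} (hq : q ∈ box) : Qm A c q 0 = gram A c q := by
  simp [Qm, Vm, dlt_zero, pim_mul_dmat A c hq]

theorem gram_quad (q w : Pt) :
    w ⬝ᵥ (gram A c q *ᵥ w) = (A.dmat c q *ᵥ w) ⬝ᵥ (A.dmat c q *ᵥ w) := by
  rw [gram, ← mulVec_mulVec, dotProduct_mulVec w, vecMul_transpose]

/-- The pairs with second point in the box. -/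
def O2 : Set (Pt × Pt) := {y | y.1 + y.2 ∈ box}

theorem isOpen_O2 : IsOpen O2 := isOpen_box.preimage (by fun_prop)

/-- The support of the exponent cut-off. -/
def K2 : Set (Pt × Pt) := Metric.closedBall 0 (3 / 4) ×ˢ Metric.closedBall 0 (1 / 8)

theorem K2_subset : K2 ⊆ O2 := fun y hy => by
  have h1 := mem_closedBall_zero_iff.1 hy.1
  have h2 := mem_closedBall_zero_iff.1 hy.2
  exact mem_ball_zero_iff.2 ((norm_add_le _ _).trans_lt (by linarith))

theorem comp_add_O2 {f : Pt → ℝ} (hf : ContDiffOn ℝ ∞ f box) :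
    ContDiffOn ℝ ∞ (fun y : Pt × Pt => f (y.1 + y.2)) O2 :=
  hf.comp (contDiff_fst.add contDiff_snd).contDiffOn fun _ h => h

theorem Vm_smooth (i j : Fin 4) :
    ContDiffOn ℝ ∞ (fun y : Pt × Pt => Vm A c y.1 y.2 i j) O2 := by
  simp only [Vm, Matrix.mul_apply]
  exact ContDiffOn.sum fun k _ =>
    (comp_add_O2 (pim_smooth A c i k)).mul (dlt_smooth A c k j).contDiffOn

theorem Qm_smooth (i j : Fin 4) :
    ContDiffOn ℝ ∞ (fun y : Pt × Pt => Qm A c y.1 y.2 i j) O2 := by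
  simp only [Qm, Matrix.mul_apply, Matrix.transpose_apply]
  exact ContDiffOn.sum fun k _ => (ContDiffOn.sum fun l _ =>
    (Vm_smooth A c l i).mul (comp_add_O2 (gram_smoothK A c l k).contDiffOn)).mul (Vm_smooth A c k j)

theorem dz_smooth : ContDiff ℝ ∞ fun y : Pt × Pt => dz A c y.1 y.2 :=
  ((A.psi_smooth c).comp contDiff_fst).sub ((A.psi_smooth c).comp (contDiff_fst.add contDiff_snd))

/-- The exponent cut-off. -/
noncomputable def kap (q u : Pt) : ℝ := bF q * tF u * etaF r (dz A c q u)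

theorem kap_mem (q u : Pt) : 0 ≤ kap A c r q u ∧ kap A c r q u ≤ 1 := by
  have h1 := bF.nonneg (x := q)
  have h2 := tF.nonneg (x := u)
  have h3 := Real.smoothTransition.nonneg (2 - dz A c q u ⬝ᵥ dz A c q u / r ^ 2)
  exact ⟨mul_nonneg (mul_nonneg h1 h2) h3,
    mul_le_one₀ (mul_le_one₀ bF.le_one h2 tF.le_one) h3 (Real.smoothTransition.le_one _)⟩

/-- The correction of the quadratic form. -/
noncomputable def Phi (i j : Fin 4) (y : Pt × Pt) : ℝ :=
  kap A c r y.1 y.2 * (Qm A c y.1 y.2 i j - (1 : M4) i j)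

theorem Phi_smooth (i j : Fin 4) :
    ContDiff ℝ ∞ (Phi A c r i j) ∧ HasCompactSupport (Phi A c r i j) ∧ BddDerivs (Phi A c r i j) := by
  refine smooth_of_supp isOpen_O2 ((isCompact_closedBall _ _).prod (isCompact_closedBall _ _))
    K2_subset ?_ fun y hy => ?_
  · refine ContDiffOn.mul ?_ ((Qm_smooth A c i j).sub contDiffOn_const)
    exact (((bF.contDiff.comp contDiff_fst).mul (tF.contDiff.comp contDiff_snd)).mul
      ((contDiff_etaF r).comp (dz_smooth A c))).contDiffOn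
  · rcases not_and_or.1 hy with h | h
    · simp [Phi, kap, bF.zero_of_le_dist (not_le.1 h).le]
    · simp [Phi, kap, tF.zero_of_le_dist (not_le.1 h).le]

/-- The exponent. -/
noncomputable def expo (x : X3) : ℝ :=
  4⁻¹ * ∑ i, ∑ j, x.2 i * x.2 j * ((1 : M4) i j + Phi A c r i j (x.1.2, x.1.1 • x.2))

theorem quad_sum (M : M4) (w : Pt) : w ⬝ᵥ (M *ᵥ w) = ∑ i, ∑ j, w i * w j * M i j := by
  simp only [dotProduct, mulVec, Finset.mul_sum]
  exact Finset.sum_congr rfl fun i _ => Finset.sum_congr rfl fun j _ => by ring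

theorem expo_eq (x : X3) : expo A c r x =
    4⁻¹ * ((1 - kap A c r x.1.2 (x.1.1 • x.2)) * (x.2 ⬝ᵥ x.2) +
      kap A c r x.1.2 (x.1.1 • x.2) * (x.2 ⬝ᵥ (Qm A c x.1.2 (x.1.1 • x.2) *ᵥ x.2))) := by
  rw [quad_sum]
  conv_rhs => rw [show x.2 ⬝ᵥ x.2 = x.2 ⬝ᵥ ((1 : M4) *ᵥ x.2) by rw [one_mulVec], quad_sum]
  simp only [expo, Phi, Finset.mul_sum, ← Finset.sum_add_distrib]
  exact Finset.sum_congr rfl fun i _ => Finset.sum_congr rfl fun j _ => by ring

/-- The first component of the offset is bounded on `S3`. -/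
theorem polyB_sigma : PolyB S3 fun x : X3 => x.1.1 :=
  PolyB.linear ((ContinuousLinearMap.fst ℝ ℝ Pt).comp (ContinuousLinearMap.fst ℝ (ℝ × Pt) Pt))
    zero_le_one fun x hx => (show ‖x.1.1‖ ≤ 1 from hx).trans
      (by rw [one_mul]; exact le_add_of_nonneg_right (norm_nonneg _))

theorem polyD_g2 : PolyD S3 fun x : X3 => ((x.1.2, x.1.1 • x.2) : Pt × Pt) := by
  have hL : PolyB S3 fun x : X3 => ((0, x.2) : Pt × Pt) :=
    PolyB.linear ((0 : X3 →L[ℝ] Pt).prod (ContinuousLinearMap.snd ℝ (ℝ × Pt) Pt)) zero_le_one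
      fun x _ => by simp [Prod.norm_def]
  have h1 : PolyD S3 fun x : X3 => ((x.1.2, 0) : Pt × Pt) :=
    PolyD.linear (((ContinuousLinearMap.snd ℝ ℝ Pt).comp
      (ContinuousLinearMap.fst ℝ (ℝ × Pt) Pt)).prod (0 : X3 →L[ℝ] Pt))
  simpa using h1.add (polyB_sigma.smul hL).polyD

theorem polyD_g3 : PolyD S3 fun x : X3 => ((x.1, x.1.1 • x.2) : X3) := by
  have hL : PolyB S3 fun x : X3 => ((0, x.2) : X3) :=
    PolyB.linear ((0 : X3 →L[ℝ] ℝ × Pt).prod (ContinuousLinearMap.snd ℝ (ℝ × Pt) Pt)) zero_le_one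
      fun x _ => by simp [Prod.norm_def]
  have h1 : PolyD S3 fun x : X3 => ((x.1, 0) : X3) :=
    PolyD.linear ((ContinuousLinearMap.fst ℝ (ℝ × Pt) Pt).prod (0 : X3 →L[ℝ] Pt))
  simpa using h1.add (polyB_sigma.smul hL).polyD

theorem polyB_expo : PolyB S3 (expo A c r) := by
  have hw : ∀ i, PolyB S3 fun x : X3 => x.2 i := fun i =>
    PolyB.linear ((ContinuousLinearMap.proj (φ := fun _ : Fin 4 => ℝ) i).comp
      (ContinuousLinearMap.snd ℝ (ℝ × Pt) Pt)) zero_le_one
      fun x _ => by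
        rw [one_mul]; exact (norm_le_pi_norm x.2 i).trans (le_add_of_nonneg_left zero_le_one)
  have h := (PolyB.const (4⁻¹ : ℝ)).smul (PolyB.sum Finset.univ fun i _ =>
    PolyB.sum Finset.univ fun j _ => ((hw i).smul (hw j)).smul ((PolyB.const ((1 : M4) i j)).add
      (PolyB.comp (Phi_smooth A c r i j).1 (Phi_smooth A c r i j).2.2 polyD_g2)))
  unfold expo
  simpa only [smul_eq_mul] using h

theorem norm_sq_le_dot {n : ℕ} (v : Fin n → ℝ) : ‖v‖ ^ 2 ≤ v ⬝ᵥ v := by
  have h0 : 0 ≤ v ⬝ᵥ v := Finset.sum_nonneg fun i _ => mul_self_nonneg _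
  have h : ‖v‖ ≤ Real.sqrt (v ⬝ᵥ v) := (pi_norm_le_iff_of_nonneg (Real.sqrt_nonneg _)).2 fun i => by
    refine Real.abs_le_sqrt ?_
    rw [sq]; exact Finset.single_le_sum (f := fun j => v j * v j) (fun j _ => mul_self_nonneg _)
      (Finset.mem_univ i)
  calc ‖v‖ ^ 2 ≤ Real.sqrt (v ⬝ᵥ v) ^ 2 := pow_le_pow_left₀ (norm_nonneg _) h 2
    _ = _ := Real.sq_sqrt h0

variable {A c r d} {c₀ C₀ : ℝ}

theorem expo_low (hG : GoodR A r d c₀ C₀) :
    ∃ c₁ : ℝ, 0 < c₁ ∧ ∀ x : X3, c₁ * ‖x.2‖ ^ 2 ≤ expo A c r x := by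
  set L := (Matrix.mulVecLin (A.L c)).toContinuousLinearMap
  set Λ := 1 + ‖L‖
  have hΛ : 0 < Λ := by positivity
  set m := min 1 (min 1 c₀ / Λ ^ 2)
  have hm : 0 < m := lt_min one_pos (div_pos (lt_min one_pos hG.c_pos) (by positivity))
  refine ⟨m / 4, by positivity, fun x => ?_⟩
  rw [expo_eq]
  obtain ⟨⟨σ, q⟩, w⟩ := x
  obtain ⟨h0, h1⟩ := kap_mem A c r q (σ • w)
  have hw : m * ‖w‖ ^ 2 ≤ w ⬝ᵥ w :=
    (mul_le_of_le_one_left (sq_nonneg _) (min_le_left _ _)).trans (norm_sq_le_dot w)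
  suffices hQ : kap A c r q (σ • w) ≠ 0 → m * ‖w‖ ^ 2 ≤ w ⬝ᵥ (Qm A c q (σ • w) *ᵥ w) by
    rcases eq_or_ne (kap A c r q (σ • w)) 0 with h | h
    · simp only [h]; linarith
    · have := mul_le_mul_of_nonneg_left (hQ h) h0
      have := mul_le_mul_of_nonneg_left hw (sub_nonneg.2 h1)
      nlinarith
  intro hk
  simp only [kap, mul_ne_zero_iff] at hk
  obtain ⟨⟨hq, hu⟩, he⟩ := hk
  have hq' : ‖q‖ < 3 / 4 := by
    by_contra h; exact hq (bF.zero_of_le_dist (by rw [dist_zero_right]; exact not_lt.1 h))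
  have hu' : ‖σ • w‖ < 1 / 8 := by
    by_contra h; exact hu (tF.zero_of_le_dist (by rw [dist_zero_right]; exact not_lt.1 h))
  have hqb : q ∈ box := mem_ball_zero_iff.2 (by linarith)
  set u := σ • w with hudef
  have hp : q + u ∈ Metric.closedBall (0 : Pt) (7 / 8) :=
    mem_closedBall_zero_iff.2 ((norm_add_le _ _).trans (by linarith))
  have hpb : q + u ∈ box := Metric.closedBall_subset_ball (by norm_num) hp
  have hLn : ∀ v, ‖A.L c *ᵥ v‖ ≤ Λ * ‖v‖ := fun v =>
    (L.le_opNorm v).trans (mul_le_mul_of_nonneg_right (by simp [Λ]) (norm_nonneg _))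
  have hmle : m * Λ ^ 2 ≤ min 1 c₀ := by
    have := mul_le_mul_of_nonneg_right (min_le_right 1 (min 1 c₀ / Λ ^ 2)) (sq_nonneg Λ)
    rwa [div_mul_cancel₀ _ (by positivity)] at this
  rcases eq_or_ne σ 0 with hσ | hσ
  · rw [hudef, hσ, zero_smul, Qm_zero A c hqb, gram_quad A c q w]
    refine le_trans ?_ (norm_sq_le_dot _)
    have := hLn (A.dmat c q *ᵥ w)
    rw [A.L_mulVec_dmat c hqb] at this
    calc m * ‖w‖ ^ 2 ≤ m * (Λ * ‖A.dmat c q *ᵥ w‖) ^ 2 := by gcongr
      _ = m * Λ ^ 2 * ‖A.dmat c q *ᵥ w‖ ^ 2 := by ring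
      _ ≤ _ := mul_le_of_le_one_left (sq_nonneg _) (hmle.trans (min_le_left _ _))
  have hnear : (A.psi c q - A.psi c (q + u)) ⬝ᵥ (A.psi c q - A.psi c (q + u)) ≤ 2 * r ^ 2 := by
    by_contra hlt
    refine he (Real.smoothTransition.zero_of_nonpos ?_)
    rw [sub_nonpos, le_div_iff₀ (pow_pos hG.r_pos 2)]
    exact (not_le.1 hlt).le
  obtain ⟨hlow, -, -⟩ := hG.low c (q + u) hp (A.psi c q) (A.psi_mem c q hqb) hnear
  have hsq : ∀ M : M4, u ⬝ᵥ (M *ᵥ u) = σ ^ 2 * (w ⬝ᵥ (M *ᵥ w)) := fun M => by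
    simp only [u, mulVec_smul, dotProduct_smul, smul_dotProduct, smul_eq_mul]; ring
  rw [sdist_eq_quad, hsq] at hlow
  have hphi : A.L c *ᵥ (A.psi c q - A.psi c (q + u)) = -u := by
    have h1 := A.phi_psi c hqb
    have h2 := A.phi_psi c hpb
    simp only [Atlas.phi, mulVec_sub] at h1 h2 ⊢
    rw [← sub_sub_sub_cancel_right _ _ (A.L c *ᵥ A.o c), h1, h2]; abel
  have hnu := hLn (A.psi c q - A.psi c (q + u))
  rw [hphi, norm_neg, hudef, norm_smul, Real.norm_eq_abs, ← hudef] at hnu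
  set D := ‖A.psi c q - A.psi c (q + u)‖
  refine le_of_mul_le_mul_left (a := σ ^ 2) ?_ (by positivity)
  calc σ ^ 2 * (m * ‖w‖ ^ 2) = m * (|σ| * ‖w‖) ^ 2 := by rw [mul_pow, sq_abs]; ring
    _ ≤ m * (Λ * D) ^ 2 := by gcongr
    _ = m * Λ ^ 2 * D ^ 2 := by ring
    _ ≤ c₀ * D ^ 2 := mul_le_mul_of_nonneg_right (hmle.trans (min_le_right _ _)) (sq_nonneg _)
    _ ≤ _ := hlow

variable (A c r d)

/-- The profile part of the amplitude. -/
noncomputable def Lm (σ : ℝ) (q u : Pt) (i j : Fin 4) : M4 :=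
  Matrix.of fun a b =>
    cutF d (u ⬝ᵥ (Qm A c q u *ᵥ u)) * (vs A c (q + u) *
        det4 (xx A c a (q + u) (A.psi c q)) (xx A c b (q + u) (A.psi c q))
          (yy A c (q + u) (A.dmat c q *ᵥ Pi.single i 1)) (yy A c (q + u) (A.dmat c q *ᵥ Pi.single j 1))) +
      σ ^ 2 * 2⁻¹ * Hh d (σ, u ⬝ᵥ (Qm A c q u *ᵥ u)) * (vs A c (q + u) *
        curvE (wop A c a (q + u)) (wop A c b (q + u))
          (yy A c (q + u) (A.dmat c q *ᵥ Pi.single i 1)) (yy A c (q + u) (A.dmat c q *ᵥ Pi.single j 1)))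

/-- The amplitude. -/
noncomputable def amp (a b i j : Fin 4) (x : X3) : ℝ :=
  ((4 * Real.pi) ^ 2)⁻¹ * (bS x.1.1 * bA x.1.2 * tA x.2) * etaF r (dz A c x.1.2 x.2) *
    wedge (Matrix.single a b 1) (Lm A c d x.1.1 x.1.2 x.2 i j)

/-- The kernel in the chart. -/
noncomputable def kerf (a b i j : Fin 4) (x : X3) : ℝ :=
  amp A c r d a b i j (x.1, x.1.1 • x.2) * Real.exp (-expo A c r x)

theorem contDiffOn_det4 {E : Type} [NormedAddCommGroup E] [NormedSpace ℝ E] {O : Set E}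
    {X Y Z W : E → Pt} (hX : ∀ n, ContDiffOn ℝ ∞ (fun x => X x n) O)
    (hY : ∀ n, ContDiffOn ℝ ∞ (fun x => Y x n) O) (hZ : ∀ n, ContDiffOn ℝ ∞ (fun x => Z x n) O)
    (hW : ∀ n, ContDiffOn ℝ ∞ (fun x => W x n) O) :
    ContDiffOn ℝ ∞ (fun x => det4 (X x) (Y x) (Z x) (W x)) O := by
  have p : ∀ m n, ContDiffOn ℝ ∞ (fun x => X x m * Y x n - X x n * Y x m) O :=
    fun m n => ((hX m).mul (hY n)).sub ((hX n).mul (hY m))
  have q : ∀ m n, ContDiffOn ℝ ∞ (fun x => Z x m * W x n - Z x n * W x m) O :=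
    fun m n => ((hZ m).mul (hW n)).sub ((hZ n).mul (hW m))
  simp only [det4_expand]
  exact ((((((q 2 3).mul (p 0 1)).sub ((q 1 3).mul (p 0 2))).add ((q 1 2).mul (p 0 3))).add
    ((q 0 3).mul (p 1 2))).sub ((q 0 2).mul (p 1 3))).add ((q 0 1).mul (p 2 3))

theorem comp_add_X3 {f : Pt → ℝ} (hf : ContDiffOn ℝ ∞ f box) :
    ContDiffOn ℝ ∞ (fun x : X3 => f (x.1.2 + x.2)) {x : X3 | x.1.2 + x.2 ∈ box} :=
  hf.comp (contDiff_fst.snd.add contDiff_snd).contDiffOn fun _ h => h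

theorem sq_smooth : ContDiffOn ℝ ∞ (fun x : X3 => x.2 ⬝ᵥ (Qm A c x.1.2 x.2 *ᵥ x.2))
    {x : X3 | x.1.2 + x.2 ∈ box} := by
  simp only [quad_sum]
  refine ContDiffOn.sum fun i _ => ContDiffOn.sum fun j _ => ContDiffOn.mul ?_ ?_
  · have h : ∀ i : Fin 4, ContDiff ℝ ∞ fun x : X3 => x.2 i :=
      fun i => (contDiff_apply ℝ ℝ i).comp contDiff_snd
    exact ((h i).mul (h j)).contDiffOn
  · have hπ : ContDiff ℝ ∞ fun x : X3 => (x.1.2, x.2) := contDiff_fst.snd.prodMk contDiff_snd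
    have h := ContDiffOn.comp (Qm_smooth A c i j) hπ.contDiffOn
      (fun (x : X3) (h : x ∈ {x : X3 | x.1.2 + x.2 ∈ box}) => h)
    simpa only [Function.comp_def] using h

theorem xx_smooth (a n : Fin 4) :
    ContDiffOn ℝ ∞ (fun x : X3 => xx A c a (x.1.2 + x.2) (A.psi c x.1.2) n)
      {x : X3 | x.1.2 + x.2 ∈ box} := by
  have hπ : ContDiff ℝ ∞ fun x : X3 => (x.1.2, x.2) := contDiff_fst.snd.prodMk contDiff_snd
  have hz0 : ContDiff ℝ ∞ fun x : X3 => dz A c x.1.2 x.2 :=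
    (dz_smooth A c).comp (g := fun y : Pt × Pt => dz A c y.1 y.2) hπ
  have hz : ∀ k, ContDiff ℝ ∞ fun x : X3 => (A.psi c x.1.2 - A.psi c (x.1.2 + x.2)) k := fun k =>
    (contDiff_apply ℝ ℝ k).comp hz0
  simp only [xx, Pi.add_apply, mulVec, dotProduct]
  exact contDiffOn_const.add (ContDiffOn.sum fun k _ =>
    (comp_add_X3 (wop_smooth A c a n k)).mul (hz k).contDiffOn)

theorem yy_smooth (i n : Fin 4) :
    ContDiffOn ℝ ∞ (fun x : X3 => yy A c (x.1.2 + x.2) (A.dmat c x.1.2 *ᵥ Pi.single i 1) n)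
      {x : X3 | x.1.2 + x.2 ∈ box} := by
  have he : ∀ y, A.dmat c y *ᵥ Pi.single i 1 = fun k => A.dmat c y k i := fun y => by
    funext k; rw [mulVec_single_one]; rfl
  simp only [yy, he]
  simp only [mulVec, dotProduct]
  exact ContDiffOn.sum fun k _ => (comp_add_X3 (pim_smooth A c n k)).mul
    ((A.dmat_smooth c k i).comp contDiff_fst.snd).contDiffOn

theorem curv_smooth (i j a b : Fin 4) :
    ContDiffOn ℝ ∞ (fun x : X3 => vs A c (x.1.2 + x.2) *
      curvE (wop A c a (x.1.2 + x.2)) (wop A c b (x.1.2 + x.2))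
        (yy A c (x.1.2 + x.2) (A.dmat c x.1.2 *ᵥ Pi.single i 1))
        (yy A c (x.1.2 + x.2) (A.dmat c x.1.2 *ᵥ Pi.single j 1)))
      {x : X3 | x.1.2 + x.2 ∈ box} := by
  refine (comp_add_X3 (vs_smoothOn A c)).mul ?_
  unfold curvE
  exact ContDiffOn.sum fun k _ => contDiffOn_det4 (fun n => comp_add_X3 (wop_smooth A c a n k))
    (fun n => comp_add_X3 (wop_smooth A c b n k)) (yy_smooth A c i) (yy_smooth A c j)

theorem Lm_smooth (hd : 0 < d) (i j a b : Fin 4) :
    ContDiffOn ℝ ∞ (fun x : X3 => Lm A c d x.1.1 x.1.2 x.2 i j a b)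
      {x : X3 | x.1.2 + x.2 ∈ box} := by
  have h1 := ((contDiff_cutF d).comp_contDiffOn (sq_smooth A c)).mul
    ((comp_add_X3 (vs_smoothOn A c)).mul
      (contDiffOn_det4 (xx_smooth A c a) (xx_smooth A c b) (yy_smooth A c i) (yy_smooth A c j)))
  have hσ : ContDiff ℝ ∞ fun x : X3 => x.1.1 := contDiff_fst.fst
  have h2 := (((hσ.pow 2).mul (contDiff_const (c := (2 : ℝ)⁻¹))).contDiffOn.mul
    ((contDiff_Hh hd).comp_contDiffOn (hσ.contDiffOn.prodMk (sq_smooth A c)))).mul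
    (curv_smooth A c i j a b)
  exact h1.add h2

theorem amp_smooth (hd : 0 < d) (a b i j : Fin 4) :
    ContDiff ℝ ∞ (amp A c r d a b i j) ∧ HasCompactSupport (amp A c r d a b i j) ∧
      BddDerivs (amp A c r d a b i j) := by
  set Ks : Set X3 := (Metric.closedBall (0 : ℝ) 2 ×ˢ Metric.closedBall (0 : Pt) (11 / 16)) ×ˢ
    Metric.closedBall (0 : Pt) (1 / 16)
  refine smooth_of_supp (O := {x : X3 | x.1.2 + x.2 ∈ box}) (isOpen_box.preimage (by fun_prop))
    (K := Ks) (((isCompact_closedBall _ _).prod (isCompact_closedBall _ _)).prod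
      (isCompact_closedBall _ _)) (fun x hx => ?_) ?_ fun x hx => ?_
  · have h1 := mem_closedBall_zero_iff.1 hx.1.2
    have h2 := mem_closedBall_zero_iff.1 hx.2
    exact mem_ball_zero_iff.2 ((norm_add_le _ _).trans_lt (by linarith))
  · have hπ : ContDiff ℝ ∞ fun x : X3 => (x.1.2, x.2) := by fun_prop
    refine ContDiffOn.mul ?_ ?_
    · exact ((contDiff_const.mul (((bS.contDiff.comp (contDiff_fst.fst)).mul
        (bA.contDiff.comp (contDiff_fst.snd))).mul (tA.contDiff.comp contDiff_snd))).mul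
        ((contDiff_etaF r).comp ((dz_smooth A c).comp hπ))).contDiffOn
    · have h := fun m n => Lm_smooth A c d hd i j m n
      simp only [wedge]
      exact ((((((contDiffOn_const.mul (h 2 3)).sub (contDiffOn_const.mul (h 1 3))).add
        (contDiffOn_const.mul (h 1 2))).add (contDiffOn_const.mul (h 0 3))).sub
        (contDiffOn_const.mul (h 0 2))).add (contDiffOn_const.mul (h 0 1)))
  · simp only [Ks, Set.mem_prod, not_and_or] at hx
    rcases hx with (h | h) | h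
    · simp [amp, bS.zero_of_le_dist (not_le.1 h).le]
    · simp [amp, bA.zero_of_le_dist (not_le.1 h).le]
    · simp [amp, tA.zero_of_le_dist (not_le.1 h).le]

variable {A c r d}

/-- The kernel has Gaussian decay of all derivatives, up to width zero. -/
theorem kerf_gauss (hG : GoodR A r d c₀ C₀) :
    ∃ c₁ : ℝ, 0 < c₁ ∧ ∀ a b i j, GaussB S3 c₁ (kerf A c r d a b i j) := by
  obtain ⟨c₁, hc, hlow⟩ := expo_low (c := c) hG
  refine ⟨c₁ / 2 / 2, by positivity, fun a b i j => ?_⟩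
  obtain ⟨h1, -, h2⟩ := amp_smooth A c r d hG.d_pos a b i j
  have h := GaussB.poly_smul (by positivity) (PolyB.comp h1 h2 polyD_g3)
    (GaussB.exp_neg (polyB_expo A c r) hc (C₀ := 0) fun x _ => by simpa using hlow x)
  unfold kerf
  simpa only [smul_eq_mul] using h

theorem expo_eq_sdist {σ : ℝ} (hσ : σ ≠ 0) {q u : Pt} (hk : kap A c r q u = 1) :
    expo A c r ((σ, q), σ⁻¹ • u) = sdist A c (q + u) (A.psi c q) / (4 * σ ^ 2) := by
  rw [expo_eq]
  simp only [smul_inv_smul₀ hσ, hk, sdist_eq_quad, mulVec_smul, dotProduct_smul, smul_dotProduct,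
    smul_eq_mul]
  field_simp; ring

/-- On the support everything is close, in the chart. -/
theorem near_chart (hG : GoodR A r d c₀ C₀) {q : Pt} (hq : q ∈ Metric.closedBall 0 (7 / 8))
    {x : Amb N} (hx : x ∈ A.X) (he : etaF r (A.psi c q - x) ≠ 0) :
    ∃ p, ‖p - q‖ ≤ 1 / 32 ∧ A.psi c p = x := by
  refine hG.near c q hq x hx ?_
  by_contra hlt
  refine he (Real.smoothTransition.zero_of_nonpos ?_)
  rw [sub_nonpos, le_div_iff₀ (pow_pos hG.r_pos 2),
    show (A.psi c q - x) ⬝ᵥ (A.psi c q - x) = (x - A.psi c q) ⬝ᵥ (x - A.psi c q) by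
      rw [← neg_sub x, neg_dotProduct, dotProduct_neg, neg_neg]]
  exact (not_le.1 hlt).le

theorem wedge_single_smul (a b : Fin 4) (t : ℝ) (M : M4) :
    wedge (Matrix.single a b 1) (t • M) = t * wedge (Matrix.single a b 1) M := by
  rw [wedge_comm, wedge_smul_left, wedge_comm]

/-- The kernel is the double form in the chart. -/
theorem kerf_eq (hG : GoodR A r d c₀ C₀) {σ : ℝ} (hσ : 0 < σ) (hσ1 : σ ≤ 1) {q p : Pt}
    (hq : q ∈ Metric.closedBall 0 (5 / 8)) (hp : p ∈ box) (a b i j : Fin 4) :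
    kerf A c r d a b i j ((σ, q), σ⁻¹ • (p - q)) = σ ^ 4 * wedge (Matrix.single a b 1)
      (loc22 A c r d σ p (A.psi c q) (A.dmat c q *ᵥ Pi.single i 1) (A.dmat c q *ᵥ Pi.single j 1)) := by
  obtain ⟨u, rfl⟩ : ∃ u, p = q + u := ⟨p - q, by abel⟩
  simp only [add_sub_cancel_left, kerf, amp, smul_inv_smul₀ hσ.ne']
  have hloc : loc22 A c r d σ (q + u) (A.psi c q) (A.dmat c q *ᵥ Pi.single i 1)
      (A.dmat c q *ᵥ Pi.single j 1) = etaF r (dz A c q u) • Matrix.of (fun a b =>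
        k22 A c (gProf d σ) (hProf d σ) (q + u) (A.psi c q) a b
          (A.dmat c q *ᵥ Pi.single i 1) (A.dmat c q *ᵥ Pi.single j 1)) := by
    ext a b; simp [loc22, dz]
  rw [hloc, wedge_single_smul]
  rcases eq_or_ne (etaF r (dz A c q u)) 0 with he | he
  · simp [he]
  obtain ⟨p', hp', hpe⟩ := near_chart hG (q := q) (Metric.closedBall_subset_closedBall (by norm_num) hq)
    (A.psi_mem c _ hp) he
  have hqn := mem_closedBall_zero_iff.1 hq
  have hpb : p' ∈ box := mem_ball_zero_iff.2 (by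
    have := norm_add_le (p' - q) q; rw [sub_add_cancel] at this; linarith)
  have hu : ‖u‖ ≤ 1 / 32 := by
    have : p' = q + u := by rw [← A.phi_psi c hpb, hpe, A.phi_psi c hp]
    rwa [this, add_sub_cancel_left] at hp'
  have hbS : bS σ = 1 := bS.one_of_mem_closedBall
    (mem_closedBall_zero_iff.2 (by rw [Real.norm_eq_abs, abs_of_pos hσ]; exact hσ1))
  have hbA : bA q = 1 := bA.one_of_mem_closedBall hq
  have htA : tA u = 1 := tA.one_of_mem_closedBall (mem_closedBall_zero_iff.2 hu)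
  have hkey : ∀ a' b', k22 A c (gProf d σ) (hProf d σ) (q + u) (A.psi c q) a' b'
      (A.dmat c q *ᵥ Pi.single i 1) (A.dmat c q *ᵥ Pi.single j 1) * σ ^ 4 =
      ((4 * Real.pi) ^ 2)⁻¹ * Real.exp (-expo A c r ((σ, q), σ⁻¹ • u)) *
        Lm A c d σ q u i j a' b' := by
    intro a' b'
    simp only [k22, Lm, Matrix.of_apply]
    rw [← sdist_eq_quad]
    set s := sdist A c (q + u) (A.psi c q)
    by_cases hfar : r ^ 2 ≤ dz A c q u ⬝ᵥ dz A c q u
    · have hd2 : dz A c q u ⬝ᵥ dz A c q u ≤ 2 * r ^ 2 := by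
        by_contra hlt
        refine he (Real.smoothTransition.zero_of_nonpos ?_)
        rw [sub_nonpos, le_div_iff₀ (pow_pos hG.r_pos 2)]; exact (not_le.1 hlt).le
      have hds : d < s := hG.far c _ hp _ (A.psi_mem c q
        (mem_ball_zero_iff.2 (by linarith))) hfar hd2
      have h4 := hProf_eq hG.d_pos hσ s
      rw [Hh_of_lt hG.d_pos (y := (σ, s)) hds.le] at h4
      rw [gProf_eq_zero hG.d_pos hds.le, cutF_of_le hG.d_pos hds.le,
        Hh_of_lt hG.d_pos (y := (σ, s)) hds.le]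
      linear_combination (vs A c (q + u) * curvE (wop A c a' (q + u)) (wop A c b' (q + u))
        (yy A c (q + u) (A.dmat c q *ᵥ Pi.single i 1))
        (yy A c (q + u) (A.dmat c q *ᵥ Pi.single j 1))) * h4
    · have hk : kap A c r q u = 1 := by
        rw [kap, bF.one_of_mem_closedBall (mem_closedBall_zero_iff.2 (by
            show ‖q‖ ≤ 11 / 16; linarith)),
          tF.one_of_mem_closedBall (mem_closedBall_zero_iff.2 (by show ‖u‖ ≤ 1 / 16; linarith)),
          etaF_one_of_le hG.r_pos (not_le.1 hfar).le, one_mul, one_mul]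
      rw [expo_eq_sdist hσ.ne' hk, ← neg_div]
      have h4 := hProf_eq hG.d_pos hσ s
      have e : ((4 * Real.pi * σ ^ 2) ^ 2)⁻¹ * σ ^ 4 = ((4 * Real.pi) ^ 2)⁻¹ := by field_simp
      simp only [gProf]
      linear_combination (vs A c (q + u) * curvE (wop A c a' (q + u)) (wop A c b' (q + u))
        (yy A c (q + u) (A.dmat c q *ᵥ Pi.single i 1))
        (yy A c (q + u) (A.dmat c q *ᵥ Pi.single j 1))) * h4 +
        (cutF d s * Real.exp (-s / (4 * σ ^ 2)) * (vs A c (q + u) *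
          det4 (xx A c a' (q + u) (A.psi c q)) (xx A c b' (q + u) (A.psi c q))
            (yy A c (q + u) (A.dmat c q *ᵥ Pi.single i 1))
            (yy A c (q + u) (A.dmat c q *ᵥ Pi.single j 1)))) * e
  have hM : σ ^ 4 • Matrix.of (fun a b => k22 A c (gProf d σ) (hProf d σ) (q + u) (A.psi c q) a b
      (A.dmat c q *ᵥ Pi.single i 1) (A.dmat c q *ᵥ Pi.single j 1)) =
      (((4 * Real.pi) ^ 2)⁻¹ * Real.exp (-expo A c r ((σ, q), σ⁻¹ • u))) • Lm A c d σ q u i j := by
    ext a' b'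
    simp only [Matrix.smul_apply, Matrix.of_apply, smul_eq_mul]
    linarith [hkey a' b']
  have h := congrArg (fun M => wedge (Matrix.single a b 1) M) hM
  simp only [wedge_single_smul] at h
  rw [hbS, hbA, htA]
  linear_combination (-etaF r (dz A c q u)) * h

theorem wedge_eq_sum (h M : M4) :
    wedge h M = ∑ a, ∑ b, h a b * wedge (Matrix.single a b 1) M := by
  simp [wedge, Fin.sum_univ_four, Matrix.single]
  ring

/-- At width zero the exponent is the metric. -/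
theorem expo_zero (hG : GoodR A r d c₀ C₀) {q : Pt} (hq : ‖q‖ ≤ 11 / 16) (w : Pt) :
    expo A c r ((0, q), w) = 4⁻¹ * (w ⬝ᵥ (gram A c q *ᵥ w)) := by
  have hk : kap A c r q 0 = 1 := by
    rw [kap, bF.one_of_mem_closedBall (mem_closedBall_zero_iff.2 hq),
      tF.one_of_mem_closedBall (mem_closedBall_zero_iff.2 (by simp; norm_num [tF])),
      etaF_one_of_le hG.r_pos (by simp [dz]; positivity), one_mul, one_mul]
  rw [expo_eq]
  simp only [zero_smul, hk, Qm_zero A c (mem_ball_zero_iff.2 (by linarith) : q ∈ box)]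
  ring

/-- At width zero the kernel is the heat kernel times the identity. -/
theorem sum_kerf_zero (hG : GoodR A r d c₀ C₀) (q w : Pt) {h : M4} (hh : hᵀ = -h) (i j : Fin 4) :
    ∑ a, ∑ b, h a b * kerf A c r d a b i j ((0, q), w) =
      bA q * (((4 * Real.pi) ^ 2)⁻¹ * vs A c q *
        Real.exp (-(w ⬝ᵥ (gram A c q *ᵥ w)) / 4)) * h i j := by
  rcases eq_or_ne (bA q) 0 with hb | hb
  · simp [kerf, amp, hb]
  have hq : ‖q‖ < 11 / 16 := by
    by_contra h'; exact hb (bA.zero_of_le_dist (by rw [dist_zero_right]; exact not_lt.1 h'))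
  have hqb : q ∈ box := mem_ball_zero_iff.2 (by linarith)
  have hbS : bS (0 : ℝ) = 1 := bS.one_of_mem_closedBall (by simp; norm_num [bS])
  have htA : tA (0 : Pt) = 1 := tA.one_of_mem_closedBall (by simp; norm_num [tA])
  have he : etaF r (dz A c q 0) = 1 := etaF_one_of_le hG.r_pos (by simp [dz]; positivity)
  have hs : cutF d 0 = 1 := Real.smoothTransition.one_of_one_le (by simp)
  have hL : Lm A c d 0 q 0 i j = vs A c q • Matrix.of (fun a b =>
      det4 (Pi.single a 1) (Pi.single b 1) (Pi.single i 1) (Pi.single j 1)) := by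
    ext a b
    simp only [Lm, Matrix.of_apply, Matrix.smul_apply, smul_eq_mul, add_zero, zero_dotProduct, hs,
      xx, sub_self, mulVec_zero, yy, mulVec_mulVec, pim_mul_dmat A c hqb, one_mulVec]
    rw [show -Pi.single (M := fun _ => ℝ) a (1 : ℝ) = (-1 : ℝ) • Pi.single a 1 by simp,
      det4_smul₁, det4_swap₁₂,
      show -Pi.single (M := fun _ => ℝ) b (1 : ℝ) = (-1 : ℝ) • Pi.single b 1 by simp, det4_smul₁,
      det4_swap₁₂]
    ring
  have hsum : wedge h (Matrix.of fun a b =>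
      det4 (Pi.single a 1) (Pi.single b 1) (Pi.single i 1) (Pi.single j 1)) = h i j := by
    have hs' : ∀ a b, h b a = -h a b := fun a b => congrFun (congrFun hh a) b
    fin_cases i <;> fin_cases j <;>
      simp [wedge, det4_expand, hs' 0 1, hs' 0 2, hs' 0 3, hs' 1 2, hs' 1 3, hs' 2 3] <;>
      linarith [hs' 0 0, hs' 1 1, hs' 2 2, hs' 3 3]
  simp only [kerf, amp, zero_smul, hbS, htA, he, hL, wedge_single_smul, expo_zero hG hq.le w]
  rw [← hsum, wedge_eq_sum h, Finset.mul_sum]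
  refine Finset.sum_congr rfl fun a _ => ?_
  rw [Finset.mul_sum]
  exact Finset.sum_congr rfl fun b _ => by ring_nf

end Vale.Agent.P204.Kernel
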