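import Vale.Agent.P204.Kernel.Local
import Vale.Agent.P204.Kernel.Global

/-!
# P204: the smoothing of a form in a chart

`pull c (GS σ a) = ∑ Op (fam kerf) σ (hco a)` near the centre of the chart.
-/

open MeasureTheory Matrix Filter Topology Set
open scoped ContDiff

namespace Vale.Agent.P204.Kernel

open Vale.Agent.P204.General Vale.Agent.P204.Torus

/-- A family of kernels from a function of width, point and offset. -/
def fam (f : X3 → ℝ) : ℝ → Pt → Pt → ℝ := fun σ q z => f ((σ, q), z)

theorem gaussFam_fam {f : X3 → ℝ} {c σ₀ : ℝ} (hf : GaussB S3 c f) (hc : 0 < c) (h0 : σ₀ ≤ 1) :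
    GaussFam (Ioc 0 σ₀) (fam f) c := by
  set L : Pt × Pt →L[ℝ] X3 :=
    (((0 : Pt × Pt →L[ℝ] ℝ).prod (ContinuousLinearMap.fst ℝ Pt Pt))).prod
      (ContinuousLinearMap.snd ℝ Pt Pt)
  have heq : ∀ σ, Function.uncurry (fam f σ) = (fun y => f ((((σ, 0), 0) : X3) + y)) ∘ L := fun σ => by
    funext p; obtain ⟨q, z⟩ := p; simp [fam, L, Function.uncurry]
  have hcd : ∀ σ : ℝ, ContDiff ℝ ∞ fun y => f ((((σ, 0), 0) : X3) + y) := fun σ =>
    hf.1.comp (contDiff_const.add contDiff_id)
  refine ⟨hc, fun σ _ => by rw [heq]; exact (hcd σ).comp L.contDiff, fun n => ?_⟩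
  obtain ⟨C, hC, hb⟩ := hf.2 n
  refine ⟨C * ‖L‖ ^ n, by positivity, fun σ hσ p => ?_⟩
  rw [heq, L.iteratedFDeriv_comp_right (hcd σ) p (by exact_mod_cast le_top)]
  refine (ContinuousMultilinearMap.norm_compContinuousLinearMap_le _ _).trans ?_
  rw [Finset.prod_const, Finset.card_univ, Fintype.card_fin, iteratedFDeriv_comp_add_left, mul_right_comm]
  refine mul_le_mul_of_nonneg_right ?_ (by positivity)
  have hx : (((σ, 0), 0) : X3) + L p = ((σ, p.1), p.2) := by
    obtain ⟨q, z⟩ := p; simp [L]
  rw [hx]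
  exact hb _ (show |σ| ≤ 1 by rw [abs_of_pos hσ.1]; exact hσ.2.trans h0)

theorem integrable_kerOf {S : Set ℝ} {M : ℝ → Pt → Pt → ℝ} {c : ℝ} (hM : GaussFam S M c) {σ : ℝ}
    (hσ : σ ∈ S) {h : Pt → ℝ} (hc : Continuous h) (hs : HasCompactSupport h) (q : Pt) :
    Integrable fun p => kerOf M σ q p * h p := by
  have h1 := (hM.continuous_kerOf hσ).comp (Continuous.prodMk_right (X := Pt) q)
  simp only [Function.comp_def, Function.uncurry] at h1
  exact (h1.mul hc).integrable_of_hasCompactSupport hs.mul_left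

variable {N K : ℕ} (A : Atlas N K) (c : Fin K)

/-- The coefficient of a form in the chart, cut off. -/
noncomputable def hco (a : Amb N → MN N) (i k : Fin 4) (p : Pt) : ℝ := bC p * A.pull c a p i k

theorem hco_cont {a : Amb N → MN N} (ha : IsContX A a) (i k : Fin 4) :
    Continuous (hco A c a i k) ∧ HasCompactSupport (hco A c a i k) := by
  have hK : Metric.closedBall (0 : Pt) (7 / 8) ⊆ box := Metric.closedBall_subset_ball (by norm_num)
  have h0 : ∀ p ∉ Metric.closedBall (0 : Pt) (7 / 8), hco A c a i k p = 0 := fun p hp => by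
    rw [hco, bC.zero_of_le_dist (not_le.1 hp).le, zero_mul]
  refine ⟨continuous_iff_continuousAt.2 fun p => ?_,
    HasCompactSupport.intro (isCompact_closedBall _ _) h0⟩
  by_cases hp : p ∈ box
  · exact bC.continuous.continuousAt.mul ((ha.cont c i k).continuousAt (isOpen_box.mem_nhds hp))
  · refine (continuousAt_const (y := (0 : ℝ))).congr ?_
    filter_upwards [(Metric.isClosed_closedBall (x := (0 : Pt)) (ε := 7 / 8)).isOpen_compl.mem_nhds
      fun h => hp (hK h)] with y hy
    exact (h0 y hy).symm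

theorem hco_integrable {a : Amb N → MN N} (ha : IsContX A a) (i k : Fin 4) :
    Integrable (hco A c a i k) ∧ MemLp (hco A c a i k) 2 :=
  ⟨(hco_cont A c ha i k).1.integrable_of_hasCompactSupport (hco_cont A c ha i k).2,
    (hco_cont A c ha i k).1.memLp_of_hasCompactSupport (hco_cont A c ha i k).2⟩

theorem hco_smooth {a : Amb N → MN N} (ha : IsTestX A a) (i k : Fin 4) :
    ContDiff ℝ ∞ (hco A c a i k) ∧ HasCompactSupport (hco A c a i k) ∧
      BddDerivs (hco A c a i k) := by
  refine smooth_of_supp isOpen_box (isCompact_closedBall (0 : Pt) (7 / 8))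
    (Metric.closedBall_subset_ball (by norm_num)) (bC.contDiff.contDiffOn.mul (ha.smooth c i k))
    fun p hp => ?_
  rw [hco, bC.zero_of_le_dist (not_le.1 hp).le, zero_mul]

/-- A function supported inside a chart is integrated in that chart against the density. -/
theorem integral_eq_chart' {J : Amb N → MN N} (hJ : IsACS A J) (e : Fin K) {h : Amb N → ℝ}
    (hc : ContinuousOn h A.X) {ρ : ℝ} (hρ : ρ < 1)
    (h0 : ∀ x ∈ A.X, x ∉ A.psi e '' Metric.closedBall 0 ρ → h x = 0) :
    ∫ x, h x ∂A.vol = ∫ q in box, A.dens e q * h (A.psi e q) := by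
  have hb : Metric.closedBall (0 : Pt) ρ ⊆ box := Metric.closedBall_subset_ball hρ
  rw [integral_vol A hc]
  have hterm : ∀ c, ∫ p in box, A.chi c (A.psi c p) * h (A.psi c p) =
      ∫ q in box, A.chi c (A.psi e q) * (A.L c * A.dmat e q).det * h (A.psi e q) := fun c => by
    rw [setIntegral_eq_of_subset_of_forall_sdiff_eq_zero isOpen_box.measurableSet
      (s := overlap A c e) Set.inter_subset_left fun p hp => by
        rw [h0 _ (A.psi_mem c p hp.1) fun hmem => hp.2 ⟨hp.1, Set.image_mono hb hmem⟩, mul_zero]]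
    conv_lhs => rw [← trans_image A c e]
    rw [integral_image_eq_integral_abs_det_fderiv_smul volume
      (isOpen_overlap A e c).measurableSet
      (fun q _ => (trans_hasFDeriv A c e q).hasFDerivWithinAt) (trans_injOn A c e)]
    rw [setIntegral_eq_of_subset_of_forall_sdiff_eq_zero isOpen_box.measurableSet
      (s := overlap A e c) Set.inter_subset_left fun q hq => by
        by_cases hχ : A.chi c (A.psi e q) = 0
        · simp [hχ]
        · exact absurd ⟨hq.1, A.chi_image (A.psi_mem e q hq.1) hχ⟩ hq.2]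
    refine setIntegral_congr_fun (isOpen_overlap A e c).measurableSet fun q hq => ?_
    simp only [det_mulVecLin, smul_eq_mul, Atlas.trans, A.psi_phi c hq.2]
    rw [abs_of_pos (det_trans_pos A hJ c e hq.1 hq.2)]
    ring
  simp only [hterm]
  rw [← integral_finsetSum _ fun c _ => ?_]
  · exact setIntegral_congr_fun isOpen_box.measurableSet fun q _ => by
      simp only [Atlas.dens, Finset.sum_mul]
  · have hg : ContinuousOn
        (fun q => A.chi c (A.psi e q) * (A.L c * A.dmat e q).det * h (A.psi e q)) box := by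
      refine ((((A.chi_smooth c).continuous.comp (A.psi_cont e)).mul
        (Continuous.matrix_det ?_)).continuousOn).mul
        (hc.comp (A.psi_cont e).continuousOn fun q hq => A.psi_mem e q hq)
      have := fun a i => (A.dmat_smooth e a i).continuous
      refine continuous_matrix fun i k => ?_
      simp only [Matrix.mul_apply]
      fun_prop
    exact IntegrableOn.of_forall_sdiff_eq_zero
      ((hg.mono hb).integrableOn_compact (μ := volume) (isCompact_closedBall (0 : Pt) ρ))
      isOpen_box.measurableSet fun q hq => by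
      rw [h0 _ (A.psi_mem e q hq.1) fun ⟨p, hp, he⟩ => hq.2 (by
        rw [← A.phi_psi e hq.1, ← he, A.phi_psi e (hb hp)]; exact hp), mul_zero]

variable {A c} {J : Amb N → MN N} {r d c₀ C₀ : ℝ}

/-- The pairing with the kernel is linear in the directions. -/
theorem wedgeInt_kk_linear (hJ : IsACS A J) (σ : ℝ) {a : Amb N → MN N} (ha : IsContX A a)
    (z u u' w : Amb N) (t : ℝ) :
    A.wedgeInt a (kk A r d σ z (t • u + u') w) =
      t * A.wedgeInt a (kk A r d σ z u w) + A.wedgeInt a (kk A r d σ z u' w) := by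
  have hi : ∀ u, Integrable (fun x => A.wedgePt x (a x) (kk A r d σ z u w x)) A.vol := fun u =>
    integrable_of_continuousOn A (continuousOn_wedge_cont hJ ha (kk_contX A r d σ z u w hJ))
  simp only [Atlas.wedgeInt]
  rw [← integral_const_mul, ← integral_add ((hi u).const_mul t) (hi u')]
  refine integral_congr_ae (ae_of_all _ fun x => ?_)
  show A.wedgePt x (a x) _ = _
  rw [kk_linear, A.wedgePt_comm, A.wedgePt_add_left, A.wedgePt_smul_left, A.wedgePt_comm x _ (a x),
    A.wedgePt_comm x (kk A r d σ z u' w x)]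

/-- The smoothing on two vectors. -/
theorem GS_apply (hJ : IsACS A J) (σ : ℝ) {a : Amb N → MN N} (ha : IsContX A a) (z u w : Amb N) :
    u ⬝ᵥ (GS A r d σ a z *ᵥ w) = A.wedgeInt a (kk A r d σ z u w) := by
  set B : Amb N → Amb N → ℝ := fun u w => A.wedgeInt a (kk A r d σ z u w)
  have hadd : ∀ (u u' w : Amb N) (t : ℝ), B (t • u + u') w = t * B u w + B u' w :=
    fun u u' w t => wedgeInt_kk_linear hJ σ ha z u u' w t
  have hz : ∀ w, B 0 w = 0 := fun w => by
    have := hadd 0 0 w 1; simp at this; linarith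
  have hsum : ∀ (u w : Amb N), B u w = ∑ k, u k * B (Pi.single k 1) w := by
    intro u w
    have hs : ∀ s : Finset (Fin N), B (∑ k ∈ s, u k • Pi.single k 1) w =
        ∑ k ∈ s, u k * B (Pi.single k 1) w := by
      intro s
      induction s using Finset.induction_on with
      | empty => simp [hz]
      | insert k t hk ih => rw [Finset.sum_insert hk, Finset.sum_insert hk, hadd, ih]
    have hu : ∑ k, u k • Pi.single (M := fun _ => ℝ) k 1 = u := by
      funext j; simp [Finset.sum_apply, Pi.single_apply]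
    rw [← hs, hu]
  have hswap : ∀ u w, B u w = -B w u := fun u w => by
    simp only [B, Atlas.wedgeInt, ← integral_neg]
    refine integral_congr_ae (ae_of_all _ fun x => ?_)
    show A.wedgePt x _ _ = -A.wedgePt x _ _
    rw [kk_swap, A.wedgePt_comm, A.wedgePt_comm x (a x), ← neg_one_smul ℝ (kk A r d σ z w u x),
      A.wedgePt_smul_left]
    ring
  show _ = B u w
  rw [hsum u w]
  simp only [dotProduct, mulVec, GS, Matrix.of_apply]
  refine Finset.sum_congr rfl fun k _ => ?_
  congr 1
  rw [hswap, hsum w, ← Finset.sum_neg_distrib]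
  refine Finset.sum_congr rfl fun l _ => ?_
  rw [hswap (Pi.single l 1)]
  show B (Pi.single k 1) (Pi.single l 1) * w l = _
  ring

/-- The kernel vanishes away from the chart. -/
theorem kk_eq_zero (hG : GoodR A r d c₀ C₀) (σ : ℝ) {q : Pt} (hq : q ∈ Metric.closedBall 0 (5 / 8))
    (U W : Amb N) {x : Amb N} (hx : x ∈ A.X)
    (hx' : x ∉ A.psi c '' Metric.closedBall 0 (3 / 4)) :
    kk A r d σ (A.psi c q) U W x = 0 := by
  refine Finset.sum_eq_zero fun e _ => ?_
  rcases eq_or_ne (A.chi e x) 0 with h | h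
  · simp [h]
  have h0 : etaF r (A.psi c q - A.psi e (A.phi e x)) = 0 := by
    rw [A.psi_phi e (A.chi_image hx h)]
    by_contra hne
    obtain ⟨p, hp, rfl⟩ := near_chart hG (Metric.closedBall_subset_closedBall (by norm_num) hq) hx hne
    refine hx' ⟨p, mem_closedBall_zero_iff.2 ?_, rfl⟩
    have h1 := norm_add_le (p - q) q
    rw [sub_add_cancel] at h1
    linarith [mem_closedBall_zero_iff.1 hq]
  have : loc22 A e r d σ (A.phi e x) (A.psi c q) U W = 0 := by
    ext m n; simp [loc22, h0]
  simp [Atlas.push, this]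

/-- The smoothing in a chart is a chart integral. -/
theorem pull_GS_int (hJ : IsACS A J) (hG : GoodR A r d c₀ C₀) {a : Amb N → MN N} (ha : IsContX A a)
    (σ : ℝ) {q : Pt} (hq : q ∈ Metric.closedBall 0 (5 / 8)) (i j : Fin 4) :
    A.pull c (GS A r d σ a) q i j = ∫ p in box, wedge (A.pull c a p)
      (loc22 A c r d σ p (A.psi c q) (A.dmat c q *ᵥ Pi.single i 1) (A.dmat c q *ᵥ Pi.single j 1)) := by
  set U := A.dmat c q *ᵥ Pi.single i 1
  set W := A.dmat c q *ᵥ Pi.single j 1
  have hc : ∀ k (v : Fin 4), (A.dmat c q *ᵥ Pi.single v 1) k = A.dmat c q k v := fun k v => by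
    rw [mulVec_single_one]; rfl
  have e1 : A.pull c (GS A r d σ a) q i j = A.wedgeInt a (kk A r d σ (A.psi c q) U W) := by
    rw [← GS_apply hJ σ ha (A.psi c q) U W]
    simp only [Atlas.pull, Atlas.pullAt, U, W, dotProduct, mulVec, Matrix.mul_apply,
      Matrix.transpose_apply, Finset.sum_mul, Finset.mul_sum]
    rw [Finset.sum_comm]
    refine Finset.sum_congr rfl fun k _ => Finset.sum_congr rfl fun l _ => ?_
    simp [Pi.single_apply]; ring
  have hk := kk_contX A r d σ (A.psi c q) U W hJ
  rw [e1, Atlas.wedgeInt, integral_eq_chart' A hJ c (continuousOn_wedge_cont hJ ha hk)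
    (ρ := 3 / 4) (by norm_num) fun x hx hx' => by
      rw [kk_eq_zero hG σ hq U W hx hx']; simp [Atlas.wedgePt, Atlas.pullAt, wedge]]
  refine setIntegral_congr_fun isOpen_box.measurableSet fun p hp => ?_
  rw [wedgePt_chart A (ha.skew _) (hk.skew _) c hp, kk_chart A hJ r d σ _ U W c hp,
    mul_div_cancel₀ _ (dens_pos A hJ c hp).ne']
  rfl

/-- The smoothing near the centre of a chart, as a sum of Gaussian smoothings. -/
theorem pull_GS (hJ : IsACS A J) (hG : GoodR A r d c₀ C₀) {a : Amb N → MN N} (ha : IsContX A a)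
    {σ : ℝ} (hσ : 0 < σ) (hσ1 : σ ≤ 1) {q : Pt} (hq : q ∈ Metric.closedBall 0 (5 / 8))
    (i j : Fin 4) :
    A.pull c (GS A r d σ a) q i j =
      ∑ k, ∑ l, Op (fam (kerf A c r d k l i j)) σ (hco A c a k l) q := by
  rw [pull_GS_int hJ hG ha σ hq i j]
  have hOp : ∀ k l, Op (fam (kerf A c r d k l i j)) σ (hco A c a k l) q =
      ∫ p in box, kerOf (fam (kerf A c r d k l i j)) σ q p * hco A c a k l p := fun k l => by
    rw [Op_eq_kerOf hσ, setIntegral_eq_integral_of_forall_compl_eq_zero]
    intro p hp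
    rw [hco, bC.zero_of_le_dist (by
      rw [dist_zero_right]; exact (show (7 / 8 : ℝ) ≤ 1 by norm_num).trans
        (not_lt.1 fun h => hp (mem_ball_zero_iff.2 h))), zero_mul, mul_zero]
  obtain ⟨c₁, hc₁, hg⟩ := kerf_gauss (c := c) hG
  have hint : ∀ k l, Integrable (fun p => kerOf (fam (kerf A c r d k l i j)) σ q p *
      hco A c a k l p) (volume.restrict box) := fun k l =>
    (integrable_kerOf (gaussFam_fam (σ₀ := 1) (hg k l i j) hc₁ le_rfl) ⟨hσ, hσ1⟩
      (hco_cont A c ha k l).1 (hco_cont A c ha k l).2 q).restrict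
  simp only [hOp]
  rw [Finset.sum_congr rfl fun k _ => (integral_finsetSum _ fun l _ => hint k l).symm,
    ← integral_finsetSum _ fun k _ => integrable_finsetSum _ fun l _ => hint k l]
  refine setIntegral_congr_fun isOpen_box.measurableSet fun p hp => ?_
  rw [wedge_eq_sum (A.pull c a p)]
  refine Finset.sum_congr rfl fun k _ => Finset.sum_congr rfl fun l _ => ?_
  rw [show kerOf (fam (kerf A c r d k l i j)) σ q p =
      (σ ^ 4)⁻¹ * kerf A c r d k l i j ((σ, q), σ⁻¹ • (p - q)) from rfl,
    kerf_eq hG hσ hσ1 hq hp, ← mul_assoc (σ ^ 4)⁻¹, inv_mul_cancel₀ (pow_ne_zero 4 hσ.ne'), one_mul]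
  rcases le_or_gt ‖p‖ (3 / 4) with h | h
  · rw [hco, bC.one_of_mem_closedBall (mem_closedBall_zero_iff.2 h), one_mul, mul_comm]
  · have hne : A.psi c p ∉ A.psi c '' Metric.closedBall 0 (3 / 4) := by
      rintro ⟨p', hp', he⟩
      have hpb : p' ∈ box := Metric.closedBall_subset_ball (by norm_num) hp'
      rw [← A.phi_psi c hp, ← he, A.phi_psi c hpb] at h
      exact not_lt.2 (mem_closedBall_zero_iff.1 hp') h
    have hl : loc22 A c r d σ p (A.psi c q) (A.dmat c q *ᵥ Pi.single i 1)
        (A.dmat c q *ᵥ Pi.single j 1) = 0 := by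
      rw [← kk_chart A hJ r d σ _ _ _ c hp, kk_eq_zero hG σ hq _ _ (A.psi_mem c p hp) hne]
      simp [Atlas.pullAt]
    rw [hl]; simp [wedge]

end Vale.Agent.P204.Kernel
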