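import Mathlib
import Vale.Agent.P204.Kernel.Exact
import Vale.Agent.P204.Kernel.DOne

/-!
# P204: smoothing of weakly closed line measures

The second half of `ExactStmt`.
-/

open MeasureTheory Matrix Filter Set
open scoped ContDiff Topology

namespace Vale.Agent.P204.Kernel

open Vale.Agent.P204.General Vale.Agent.P204.Torus

variable {N K : ℕ} {A : Atlas N K} {J : Amb N → MN N} {r e σ c₀ C₀ : ℝ}

open Classical in
/-- A line, with the rotated vector. -/
noncomputable def prL (A : Atlas N K) (J : Amb N → MN N) (s : Amb N × Amb N) :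
    Amb N × Amb N × Amb N :=
  if s ∈ A.unitTan then (s.1, s.2, J s.1 *ᵥ s.2) else 0

variable (hJ : IsACS A J)
include hJ

theorem continuousOn_line :
    ContinuousOn (fun s : Amb N × Amb N => (s.1, s.2, J s.1 *ᵥ s.2)) A.unitTan := by
  refine continuousOn_fst.prodMk (continuousOn_snd.prodMk (continuousOn_pi.2 fun i => ?_))
  simp only [mulVec, dotProduct]
  exact continuousOn_finsetSum _ fun j _ =>
    ((Atlas.J_continuousOn hJ i j).comp continuousOn_fst fun s hs => hs.1).mul
      ((continuous_apply j).comp continuous_snd).continuousOn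

theorem prL_measurable : Measurable (prL A J) := by
  classical
  exact (continuousOn_line hJ).measurable_piecewise continuousOn_const
    A.isCompact_unitTan.isClosed.measurableSet

theorem isCompact_lines :
    IsCompact ((fun s : Amb N × Amb N => (s.1, s.2, J s.1 *ᵥ s.2)) '' A.unitTan) :=
  A.isCompact_unitTan.image_of_continuousOn (continuousOn_line hJ)

variable {m' : Measure (Amb N × Amb N)} [IsFiniteMeasure m']
  (hm : ∀ᵐ s ∂m', s ∈ A.unitTan)
include hm

omit hJ [IsFiniteMeasure m'] in
theorem prL_supp : ∀ᵐ s ∂m', (1 : ℝ) ≠ 0 →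
    prL A J s ∈ (fun s : Amb N × Amb N => (s.1, s.2, J s.1 *ᵥ s.2)) '' A.unitTan :=
  hm.mono fun s hs _ => ⟨s, hs, by rw [prL, if_pos hs]⟩

theorem int_prL {E : Type} [NormedAddCommGroup E] [NormedSpace ℝ E]
    {g : Amb N × Amb N × Amb N → E} (hg : Continuous g) :
    Integrable (fun s => g (prL A J s)) m' := by
  simpa using Est.integrable_carried (μ := m') (w := fun _ => (1 : ℝ)) hg (integrable_const _)
    (prL_measurable hJ) (isCompact_lines hJ) (prL_supp hm)

/-- The smoothing of a line measure, read in a chart. -/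
theorem pull_mS (c : Fin K) {p : Pt} (hp : p ∈ box) (a b : Fin 4) :
    A.pull c (mS A r e σ J m') p a b = ∫ s, loc22 A c r e σ p (prL A J s).1 (prL A J s).2.1
      (prL A J s).2.2 a b ∂m' := by
  have hmS : ∀ i k, mS A r e σ J m' (A.psi c p) i k =
      ∫ s, kk A r e σ (prL A J s).1 (prL A J s).2.1 (prL A J s).2.2 (A.psi c p) i k ∂m' :=
    fun i k => integral_congr_ae (hm.mono fun s hs => by simp only [prL, if_pos hs]; rfl)
  have hint := fun i k => int_prL hJ hm ((kk_smooth A r e σ (A.psi c p) i k).continuous)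
  simp only [← kk_chart A hJ r e σ _ _ _ c hp]
  simp only [Atlas.pull, Atlas.pullAt, Matrix.mul_apply, Matrix.transpose_apply, Finset.sum_mul, hmS,
    ← integral_const_mul, ← integral_mul_const]
  rw [integral_finsetSum _ fun j _ => integrable_finsetSum _ fun l _ =>
    ((hint l j).const_mul _).mul_const _]
  refine Finset.sum_congr rfl fun j _ => ?_
  rw [integral_finsetSum _ fun l _ => ((hint l j).const_mul _).mul_const _]

theorem mS_local (c : Fin K) {p : Pt} (hp : p ∈ box) (a b : Fin 4) :
    ContDiffAt ℝ ∞ (fun q => A.pull c (mS A r e σ J m') q a b) p ∧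
      ∀ i, pd i (fun q => A.pull c (mS A r e σ J m') q a b) p =
        ∫ s, pd i (fun q => loc22 A c r e σ q (prL A J s).1 (prL A J s).2.1
          (prL A J s).2.2 a b) p ∂m' := by
  obtain ⟨ρ, hρ, hball⟩ := Metric.mem_nhds_iff.1 (isOpen_box.mem_nhds hp)
  let θ : ContDiffBump p := ⟨ρ / 4, ρ / 2, by positivity, by linarith⟩
  have hsub : tsupport (θ : Pt → ℝ) ⊆ box := by
    rw [θ.tsupport_eq]
    exact (Metric.closedBall_subset_ball (show ρ / 2 < ρ by linarith)).trans hball
  set F : Pt × (Amb N × Amb N × Amb N) → ℝ := fun x =>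
    θ x.1 * loc22 A c r e σ x.1 x.2.1 x.2.2.1 x.2.2.2 a b with hFdef
  have hF : ContDiff ℝ ∞ F := contDiff_iff_contDiffAt.2 fun x => by
    by_cases hx : x.1 ∈ box
    · refine (θ.contDiff.contDiffAt.comp x contDiffAt_fst).mul
        ((loc22_smoothOn A c r e σ (s := box ×ˢ univ)
          (baseSmooth_of_mapsTo A c contDiffOn_fst fun y hy => hy.1)
          (contDiff_fst.comp contDiff_snd).contDiffOn
          (contDiff_fst.comp (contDiff_snd.comp contDiff_snd)).contDiffOn
          (contDiff_snd.comp (contDiff_snd.comp contDiff_snd)).contDiffOn a b).contDiffAt ?_)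
      exact prod_mem_nhds (isOpen_box.mem_nhds hx) univ_mem
    · refine contDiffAt_const (c := (0 : ℝ)).congr_of_eventuallyEq ?_
      filter_upwards [continuous_fst.continuousAt.eventually
        (notMem_tsupport_iff_eventuallyEq.1 fun h => hx (hsub h))] with y hy
      simp only [F, hy, Pi.zero_apply, zero_mul]
  have hloc : ∀ᶠ q in 𝓝 p, q ∈ box ∧ θ q = 1 := by
    filter_upwards [isOpen_box.mem_nhds hp, Metric.ball_mem_nhds p θ.rIn_pos] with q h1 h2
    exact ⟨h1, θ.one_of_mem_closedBall (Metric.ball_subset_closedBall h2)⟩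
  have heq : (fun q => A.pull c (mS A r e σ J m') q a b) =ᶠ[𝓝 p]
      fun q => ∫ s, (1 : ℝ) • F (q, prL A J s) ∂m' :=
    hloc.mono fun q hq => by
      show A.pull c (mS A r e σ J m') q a b = _
      rw [pull_mS hJ hm c hq.1]
      simp only [F, hq.2, one_mul, one_smul]
  have hw : Integrable (fun _ : Amb N × Amb N => (1 : ℝ)) m' := integrable_const _
  refine ⟨((Est.contDiff_param hF hw (prL_measurable hJ) (isCompact_lines hJ)
    (prL_supp hm)).contDiffAt).congr_of_eventuallyEq heq, fun i => ?_⟩
  simp only [pd]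
  rw [heq.fderiv_eq, Est.fderiv_param_apply hF hw (prL_measurable hJ) (isCompact_lines hJ)
    (prL_supp hm)]
  refine integral_congr_ae (Eventually.of_forall fun s => ?_)
  simp only [one_smul]
  rw [Filter.EventuallyEq.fderiv_eq (f := fun q => loc22 A c r e σ q (prL A J s).1 (prL A J s).2.1
    (prL A J s).2.2 a b) (hloc.mono fun q hq => by simp only [F, hq.2, one_mul])]

omit hJ [IsFiniteMeasure m'] hm in
theorem mS_skew (x : Amb N) : (mS A r e σ J m' x)ᵀ = -mS A r e σ J m' x := by
  ext i k
  simp only [mS, Matrix.transpose_apply, Matrix.neg_apply, Matrix.of_apply, ← integral_neg]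
  refine integral_congr_ae (Eventually.of_forall fun s => ?_)
  exact congrFun (congrFun (kk_skew A r e σ s.1 s.2 (J s.1 *ᵥ s.2) x) i) k

variable (hR : GoodR A r e c₀ C₀)
include hR

/-- Smoothing a weakly closed line measure gives a closed form. -/
theorem mS_closed (hk : ∀ a β, IsOneX A β → IsTestX A a → IsDOne A a β → tcurX J m' a = 0) :
    IsClosedX A (mS A r e σ J m') := by
  refine ⟨⟨mS_skew, fun c a b p hp => (mS_local hJ hm c hp a b).1.contDiffWithinAt⟩,
    fun c p hp i j k => ?_⟩
  rw [(mS_local hJ hm c hp j k).2, (mS_local hJ hm c hp k i).2, (mS_local hJ hm c hp i j).2]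
  set β : Amb N → Amb N := loc31 A c r e σ p i j k
  have hβ : ∀ l, ContDiff ℝ ∞ fun y => β y l := fun l =>
    contDiffOn_univ.1 (loc31_smoothOn A c r e σ (baseSmooth_const A c univ p) (Z := fun y => y)
      contDiffOn_id i j k l)
  have hint : ∀ a b d, Integrable (fun s => pd a (fun q => loc22 A c r e σ q (prL A J s).1
      (prL A J s).2.1 (prL A J s).2.2 b d) p) m' := by
    intro a b d
    have hd : ContDiffOn ℝ ∞ (fun x : Pt × (Amb N × Amb N × Amb N) =>
        loc22 A c r e σ x.1 x.2.1 x.2.2.1 x.2.2.2 b d) (box ×ˢ univ) :=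
      loc22_smoothOn A c r e σ (baseSmooth_of_mapsTo A c contDiffOn_fst fun y hy => hy.1)
        (contDiff_fst.comp contDiff_snd).contDiffOn
        (contDiff_fst.comp (contDiff_snd.comp contDiff_snd)).contDiffOn
        (contDiff_snd.comp (contDiff_snd.comp contDiff_snd)).contDiffOn b d
    have hopen : IsOpen (box ×ˢ (univ : Set (Amb N × Amb N × Amb N))) := isOpen_box.prod isOpen_univ
    have hfd := (hd.continuousOn_fderiv_of_isOpen hopen (by simp)).comp_continuous
      (Continuous.prodMk_right p) (fun y => ⟨hp, trivial⟩)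
    refine int_prL hJ hm (g := fun y => pd a (fun q => loc22 A c r e σ q y.1 y.2.1 y.2.2 b d) p) ?_
    refine (hfd.clm_apply (continuous_const (y := ((Pi.single a 1, 0) :
      Pt × (Amb N × Amb N × Amb N))))).congr fun y => ?_
    have hh := ((hd.differentiableOn (by simp)).differentiableAt
      (hopen.mem_nhds (show (p, y) ∈ box ×ˢ univ from ⟨hp, trivial⟩))).hasFDerivAt.comp p
      (hasFDerivAt_prodMk_left (𝕜 := ℝ) p y)
    exact (congrArg (fun L : Pt →L[ℝ] ℝ => L (Pi.single a 1)) hh.fderiv).symm
  have h0 := hk _ β (ambD_isOne hβ) (ambD_test hβ) (ambD_isDOne hβ)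
  rw [tcurX] at h0
  have h2 := integral_add ((hint i j k).add (hint j k i)) (hint k i j)
  simp only [Pi.add_apply] at h2
  rw [← integral_add (hint i j k) (hint j k i), ← h2, ← h0]
  refine integral_congr_ae (hm.mono fun s hs => ?_)
  simp only [prL, if_pos hs]
  rw [ambD_pair (fun l => ((hβ l).differentiable (by simp)).differentiableAt),
    fderiv_loc31 hR c hp hs.1, fderiv_loc31 hR c hp hs.1, pd_loc22 hR c hp hs.1,
    pd_loc22 hR c hp hs.1, pd_loc22 hR c hp hs.1]
  have h := closed31 A c hp (hasDerivAt_gProf e σ) (hasDerivAt_hProf e σ) s.1 s.2 (J s.1 *ᵥ s.2) i j k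
  linear_combination (etaF r (s.1 - A.psi c p)) * h

omit hJ hm hR in
/-- Both halves of `ExactStmt`. -/
theorem exactStmt : ExactStmt := fun _ _ _ _ _ _ hJ hR _ _ =>
  ⟨fun _ hb hw => GS_closed hJ hR hb hw, fun _ hfin hm hk => by
    have := hfin
    exact mS_closed hJ hm hR hk⟩

end Vale.Agent.P204.Kernel
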