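import Mathlib
import Vale.Agent.P204.Torus.AlgBound
import Vale.Agent.P204.General.Basics

/-!
# P204: algebra behind the pointwise bounds of the line kernel
-/

open MeasureTheory Matrix Filter Set
open scoped ContDiff Topology

namespace Vale.Agent.P204.Kernel

open Vale.Agent.P204.General Vale.Agent.P204.Torus

/-- Powers of the distance are paid by powers of the width. -/
theorem exists_pow_exp {a : ℝ} (ha : 0 < a) : ∃ C : ℝ, 1 ≤ C ∧ ∀ σ ρ : ℝ, 0 < σ → 0 ≤ ρ →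
    ρ * Real.exp (-(a * ρ ^ 2) / σ ^ 2) ≤ C * (σ * Real.exp (-(a / 2 * ρ ^ 2) / σ ^ 2)) ∧
    ρ ^ 2 * Real.exp (-(a * ρ ^ 2) / σ ^ 2) ≤ C * (σ ^ 2 * Real.exp (-(a / 2 * ρ ^ 2) / σ ^ 2)) := by
  refine ⟨1 + 2 / a, le_add_of_nonneg_right (by positivity), fun σ ρ hσ hρ => ?_⟩
  set v := ρ ^ 2 / σ ^ 2 with hv
  have hv0 : 0 ≤ v := by positivity
  set e := Real.exp (-(a / 2 * ρ ^ 2) / σ ^ 2) with he
  have he0 : 0 < e := Real.exp_pos _
  have hE : Real.exp (-(a * ρ ^ 2) / σ ^ 2) = Real.exp (-(a / 2 * v)) * e := by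
    rw [he, ← Real.exp_add]; congr 1; simp only [hv]; field_simp; ring
  have h0 : Real.exp (-(a / 2 * v)) ≤ 1 := Real.exp_le_one_iff.2 (neg_nonpos.2 (by positivity))
  have h1 : v * Real.exp (-(a / 2 * v)) ≤ 2 / a := by
    have h := Real.add_one_le_exp (a / 2 * v)
    calc v * Real.exp (-(a / 2 * v)) = 2 / a * (a / 2 * v) * Real.exp (-(a / 2 * v)) := by
          field_simp
      _ ≤ 2 / a * Real.exp (a / 2 * v) * Real.exp (-(a / 2 * v)) := by
          refine mul_le_mul_of_nonneg_right (mul_le_mul_of_nonneg_left ?_ (by positivity))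
            (Real.exp_pos _).le
          linarith
      _ = 2 / a := by rw [mul_assoc, ← Real.exp_add, add_neg_cancel, Real.exp_zero, mul_one]
  have hp : 0 < Real.exp (-(a / 2 * v)) := Real.exp_pos _
  have hsq : ρ ^ 2 = σ ^ 2 * v := by simp only [hv]; field_simp
  have hw : Real.sqrt v ≤ 1 + v := by nlinarith [Real.sq_sqrt hv0, Real.sqrt_nonneg v]
  have hρv : ρ = σ * Real.sqrt v := by
    rw [← Real.sqrt_sq hρ, hsq, Real.sqrt_mul (sq_nonneg σ), Real.sqrt_sq hσ.le]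
  rw [hE]
  constructor
  · rw [hρv]
    calc σ * Real.sqrt v * (Real.exp (-(a / 2 * v)) * e)
        ≤ σ * (1 + v) * (Real.exp (-(a / 2 * v)) * e) := by gcongr
      _ = σ * e * (Real.exp (-(a / 2 * v)) + v * Real.exp (-(a / 2 * v))) := by ring
      _ ≤ σ * e * (1 + 2 / a) := mul_le_mul_of_nonneg_left (add_le_add h0 h1) (by positivity)
      _ = _ := by ring
  · rw [hsq]
    calc σ ^ 2 * v * (Real.exp (-(a / 2 * v)) * e) = σ ^ 2 * e * (v * Real.exp (-(a / 2 * v))) := by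
          ring
      _ ≤ σ ^ 2 * e * (1 + 2 / a) :=
          mul_le_mul_of_nonneg_left (h1.trans (le_add_of_nonneg_left zero_le_one)) (by positivity)
      _ = _ := by ring

theorem kern_nonneg (ε t : ℝ) : 0 ≤ kern ε t :=
  div_nonneg (one_div_nonneg.2 (Even.pow_nonneg (by decide) ε)) (by positivity)

theorem kern_le_inv (ε t : ℝ) : kern ε t ≤ 1 / ε ^ 4 :=
  div_le_self (one_div_nonneg.2 (Even.pow_nonneg (by decide) ε))
    (one_le_pow₀ (le_add_of_nonneg_right (by positivity)))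

/-- Convolution inequality of the kernel. -/
theorem kern_mul_le (ε : ℝ) {a b e : ℝ} (he : 0 ≤ e) (ha : 0 ≤ a) (hb : 0 ≤ b) (h : e ≤ a + b) :
    kern ε a * kern ε b ≤ 4 ^ 5 * kern ε e * (kern ε a + kern ε b) := by
  have key : ∀ {u : ℝ}, 0 ≤ u → e ≤ 2 * u → kern ε u ≤ 4 ^ 5 * kern ε e := by
    intro u hu h2
    have hsq : e ^ 2 ≤ 4 * u ^ 2 := by nlinarith
    have h3 : 1 + e ^ 2 / ε ^ 2 ≤ 4 * (1 + u ^ 2 / ε ^ 2) := by
      have := div_le_div_of_nonneg_right hsq (sq_nonneg ε)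
      rw [mul_div_assoc] at this
      linarith
    have hu0 : (0 : ℝ) ≤ u ^ 2 / ε ^ 2 := by positivity
    have he0 : (0 : ℝ) ≤ e ^ 2 / ε ^ 2 := by positivity
    simp only [kern]
    rw [← mul_div_assoc, div_le_div_iff₀ (by positivity) (by positivity)]
    calc 1 / ε ^ 4 * (1 + e ^ 2 / ε ^ 2) ^ 5 ≤ 1 / ε ^ 4 * (4 * (1 + u ^ 2 / ε ^ 2)) ^ 5 :=
          mul_le_mul_of_nonneg_left (pow_le_pow_left₀ (by positivity) h3 5)
            (one_div_nonneg.2 (Even.pow_nonneg (by decide) ε))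
      _ = _ := by rw [mul_pow]; ring
  have ka := kern_nonneg ε a
  have kb := kern_nonneg ε b
  have ke := kern_nonneg ε e
  rcases le_total a b with hab | hab
  · have := mul_le_mul_of_nonneg_left (key hb (by linarith)) ka
    nlinarith
  · have := mul_le_mul_of_nonneg_right (key ha (by linarith)) kb
    nlinarith

/-- Two nearly complex lines of one structure pair at least as their squared angle. -/
theorem exists_det_lower (B μ : ℝ) (hμ : 0 < μ) : ∃ c C : ℝ, 0 < c ∧ 0 ≤ C ∧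
    ∀ j : M4, j * j = -1 → oSgn j = 1 → (∀ i k, |j i k| ≤ B) → ∀ U V a b : Pt,
    μ ≤ ‖U‖ → μ ≤ ‖V‖ → ‖U‖ ≤ B → ‖V‖ ≤ B →
      c * ‖perp j V U‖ ^ 2 - C * (‖a‖ ^ 2 + ‖b‖ ^ 2) ≤
        det4 V (j *ᵥ V + b) U (j *ᵥ U + a) := by
  obtain ⟨c₁, hc₁, hlow⟩ := exists_det4_lines_lower B
  set c := c₁ * μ ^ 2 / 4
  set E := 24 * (4 * B * B) * B + 24 * B
  have hc : 0 < c := by positivity
  refine ⟨c, E ^ 2 / c + |E * B|, hc, by positivity, fun j hj ho hB U V a b hU hV hUB hVB => ?_⟩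
  have hB0 : 0 ≤ B := (norm_nonneg U).trans hUB
  have hU0 : U ≠ 0 := norm_pos_iff.1 (hμ.trans_le hU)
  have hV0 : V ≠ 0 := norm_pos_iff.1 (hμ.trans_le hV)
  set e := perp j V U
  set e' := perp j U V
  set D₀ := det4 V (j *ᵥ V) U (j *ᵥ U)
  have l1 : c₁ * μ ^ 2 * ‖e‖ ^ 2 ≤ D₀ := by
    have h := hlow j hj hB V U hV0
    rw [ho, one_mul] at h
    refine le_trans ?_ h
    gcongr
  have l2 : c₁ * μ ^ 2 * ‖e'‖ ^ 2 ≤ D₀ := by
    have h := hlow j hj hB U V hU0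
    rw [ho, one_mul, det4_swap V (j *ᵥ V) U (j *ᵥ U)] at h
    refine le_trans ?_ h
    gcongr
  have hexp : det4 V (j *ᵥ V + b) U (j *ᵥ U + a) =
      D₀ + det4 V (j *ᵥ V) e a + det4 U (j *ᵥ U) e' b + det4 V b U a := by
    rw [← det4_perp hj, ← det4_perp hj]
    simp only [D₀, det4_expand, Pi.add_apply]
    ring
  have hj4 : ∀ W : Pt, ‖W‖ ≤ B → ‖j *ᵥ W‖ ≤ 4 * B * B := fun W hW =>
    (norm_mulVec_le hB W).trans (mul_le_mul_of_nonneg_left hW (by positivity))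
  have b1 : ∀ W W' f g : Pt, ‖W‖ ≤ B → ‖W'‖ ≤ 4 * B * B →
      |det4 W W' f g| ≤ E * (‖f‖ * ‖g‖) := fun W W' f g h1 h2 => by
    refine (abs_det4_le _ _ _ _).trans ?_
    calc 24 * ‖W‖ * ‖W'‖ * ‖f‖ * ‖g‖ ≤ 24 * B * (4 * B * B) * ‖f‖ * ‖g‖ := by gcongr
      _ ≤ E * (‖f‖ * ‖g‖) := by
          rw [mul_assoc (24 * B * (4 * B * B))]
          refine mul_le_mul_of_nonneg_right ?_ (by positivity)
          simp only [E]; nlinarith
  have b3 : |det4 V b U a| ≤ E * B * (‖b‖ * ‖a‖) := by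
    refine (abs_det4_le _ _ _ _).trans ?_
    calc 24 * ‖V‖ * ‖b‖ * ‖U‖ * ‖a‖ ≤ 24 * B * ‖b‖ * B * ‖a‖ := by gcongr
      _ = 24 * B * B * (‖b‖ * ‖a‖) := by ring
      _ ≤ _ := by
          refine mul_le_mul_of_nonneg_right (mul_le_mul_of_nonneg_right ?_ hB0) (by positivity)
          simp only [E]; nlinarith [mul_nonneg (mul_nonneg hB0 hB0) hB0]
  have young : ∀ x y : ℝ, E * (x * y) ≤ c * x ^ 2 + E ^ 2 / (4 * c) * y ^ 2 := fun x y => by
    have h : 0 ≤ (2 * c * x - E * y) ^ 2 / (4 * c) := by positivity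
    have h' : (2 * c * x - E * y) ^ 2 / (4 * c) = c * x ^ 2 - E * (x * y) + E ^ 2 / (4 * c) * y ^ 2 := by
      field_simp; ring
    linarith
  have hEB : E * B * (‖b‖ * ‖a‖) ≤ E * B * (‖a‖ ^ 2 + ‖b‖ ^ 2) := by
    have hE : 0 ≤ E := by positivity
    refine mul_le_mul_of_nonneg_left ?_ (by positivity)
    nlinarith [sq_nonneg (‖a‖ - ‖b‖)]
  have q1 := abs_le.1 (b1 V (j *ᵥ V) e a hVB (hj4 V hVB))
  have q2 := abs_le.1 (b1 U (j *ᵥ U) e' b hUB (hj4 U hUB))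
  have q3 := abs_le.1 b3
  have y1 := young ‖e‖ ‖a‖
  have y2 := young ‖e'‖ ‖b‖
  have hcc : c₁ * μ ^ 2 = 4 * c := by simp only [c]; ring
  rw [hexp]
  have hCC : E ^ 2 / (4 * c) ≤ E ^ 2 / c := div_le_div_of_nonneg_left (sq_nonneg _) hc (by linarith)
  have hE1 : E * B ≤ |E * B| := le_abs_self _
  nlinarith [l1, l2, sq_nonneg ‖a‖, sq_nonneg ‖b‖, sq_nonneg ‖e‖, sq_nonneg ‖e'‖]

end Vale.Agent.P204.Kernel
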