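import Mathlib
import Vale.Agent.P204.Kernel.Calc
import Vale.Agent.P204.General.Whitney.Smooth

/-!
# P204: the squared length of the offset and the second order contact of the tangent space
-/

open MeasureTheory Matrix Filter Set
open scoped ContDiff Topology

namespace Vale.Agent.P204.Kernel

open Vale.Agent.P204.General Vale.Agent.P204.Torus

variable {N K : ℕ} (A : Atlas N K) (c : Fin K)

theorem abs_le_of_dot {n : ℕ} {v : Fin n → ℝ} {B : ℝ} (hB : 0 ≤ B) (h : v ⬝ᵥ v ≤ B ^ 2) :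
    ‖v‖ ≤ B := by
  refine (pi_norm_le_iff_of_nonneg hB).2 fun i => ?_
  have h1 : v i * v i ≤ v ⬝ᵥ v :=
    Finset.single_le_sum (f := fun k => v k * v k) (fun k _ => mul_self_nonneg _) (Finset.mem_univ i)
  rw [Real.norm_eq_abs]
  exact abs_le_of_sq_le_sq (by nlinarith) hB

theorem sq_norm_le_dot {n : ℕ} (v : Fin n → ℝ) : ‖v‖ ^ 2 ≤ v ⬝ᵥ v := by
  have h0 : 0 ≤ v ⬝ᵥ v := Finset.sum_nonneg fun i _ => mul_self_nonneg _
  have h := abs_le_of_dot (v := v) (Real.sqrt_nonneg (v ⬝ᵥ v)) (le_of_eq (Real.sq_sqrt h0).symm)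
  exact (pow_le_pow_left₀ (norm_nonneg _) h 2).trans_eq (Real.sq_sqrt h0)

theorem dot_le_sq_norm {n : ℕ} (v : Fin n → ℝ) : v ⬝ᵥ v ≤ n * ‖v‖ ^ 2 := by
  refine (Finset.sum_le_sum (g := fun _ => ‖v‖ ^ 2) fun i _ => ?_).trans_eq (by simp)
  have h := norm_le_pi_norm v i
  rw [Real.norm_eq_abs] at h
  have := mul_self_le_mul_self (abs_nonneg _) h
  rw [abs_mul_abs_self] at this
  rw [sq]; exact this

theorem norm_mulVec_le_card {n m : ℕ} {M : Matrix (Fin n) (Fin m) ℝ} {B : ℝ} (hB0 : 0 ≤ B)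
    (hB : ∀ i k, |M i k| ≤ B) (v : Fin m → ℝ) : ‖M *ᵥ v‖ ≤ m * B * ‖v‖ := by
  refine (pi_norm_le_iff_of_nonneg (by positivity)).2 fun i => ?_
  rw [Real.norm_eq_abs]
  refine (Finset.abs_sum_le_sum_abs _ _).trans
    ((Finset.sum_le_sum (s := Finset.univ) (g := fun _ : Fin m => B * ‖v‖) fun k _ => ?_).trans_eq
      (by simp [mul_assoc]))
  rw [abs_mul]
  exact mul_le_mul (hB i k) (norm_le_pi_norm v k) (abs_nonneg _) hB0

/-- A uniform entry bound of continuous matrix fields on a compact set. -/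
theorem exists_mat_bound {Z : Type*} [TopologicalSpace Z] {ι : Type*} [Finite ι] {n m : ℕ}
    {S : Set Z} (hS : IsCompact S) {F : ι → Z → Matrix (Fin n) (Fin m) ℝ}
    (hF : ∀ a i k, ContinuousOn (fun z => F a z i k) S) :
    ∃ B : ℝ, 0 ≤ B ∧ ∀ a, ∀ z ∈ S, ∀ i k, |F a z i k| ≤ B := by
  have := Fintype.ofFinite ι
  choose B hB using fun w : ι × Fin n × Fin m =>
    hS.exists_bound_of_continuousOn (hF w.1 w.2.1 w.2.2)
  refine ⟨∑ w, |B w|, Finset.sum_nonneg fun w _ => abs_nonneg _, fun a z hz i k => ?_⟩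
  have h := hB (a, i, k) z hz
  rw [Real.norm_eq_abs] at h
  exact (h.trans (le_abs_self _)).trans
    (Finset.single_le_sum (f := fun w => |B w|) (fun w _ => abs_nonneg _) (Finset.mem_univ _))

theorem closedBall_in_box {ρ : ℝ} (hρ : ρ < 1) : Metric.closedBall (0 : Pt) ρ ⊆ box :=
  Metric.closedBall_subset_ball hρ

/-- The projection in any chart at the point. -/
theorem proj_eq {p : Pt} (hp : p ∈ box) :
    A.proj (A.psi c p) = A.dmat c p * pim A c p := by
  refine Matrix.toLin'.injective (LinearMap.ext fun u => ?_)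
  simp only [Matrix.toLin'_apply, ← mulVec_mulVec]
  set x := A.psi c p
  have hx : x ∈ A.X := A.psi_mem c p hp
  set w := u - A.dmat c p *ᵥ (pim A c p *ᵥ u)
  have horth : ∀ v : Amb N, A.IsTan x v → w ⬝ᵥ v = 0 := by
    intro v hv
    have hv' := A.tan_in_chart hv c ⟨p, hp, rfl⟩
    rw [A.phi_psi c hp] at hv'
    rw [← hv', dotProduct_mulVec, ← mulVec_transpose]
    have h1 : w = nor A c p *ᵥ u := by
      simp only [w, nor, sub_mulVec, one_mulVec, mulVec_mulVec]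
    rw [h1, mulVec_mulVec, dmatT_nor A c hp, zero_mulVec, zero_dotProduct]
  have hw : A.proj x *ᵥ w = 0 := by
    rw [← dotProduct_self_eq_zero, ← Atlas.dot_proj, A.proj_fix (A.proj_tan hx w), dotProduct_comm,
      ← dotProduct_comm]
    exact horth _ (A.proj_tan hx w)
  have h2 : u = w + A.dmat c p *ᵥ (pim A c p *ᵥ u) := (sub_add_cancel _ _).symm
  conv_lhs => rw [h2]
  rw [mulVec_add, hw, zero_add, A.proj_fix (A.isTan_dmat c hp _)]

theorem dmat_pim {p : Pt} (hp : p ∈ box) (u : Amb N) :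
    A.dmat c p *ᵥ (pim A c p *ᵥ u) = A.proj (A.psi c p) *ᵥ u := by
  rw [proj_eq A c hp, mulVec_mulVec]

/-- The squared length of the offset is intrinsic. -/
theorem sdist_eq {p : Pt} (hp : p ∈ box) (z : Amb N) :
    sdist A c p z = (A.proj (A.psi c p) *ᵥ (z - A.psi c p)) ⬝ᵥ
      (A.proj (A.psi c p) *ᵥ (z - A.psi c p)) := by
  rw [← dmat_pim A c hp, sdist, gram, ← mulVec_mulVec, dotProduct_mulVec, vecMul_transpose]
  rfl

theorem sdist_nonneg {p : Pt} (hp : p ∈ box) (z : Amb N) : 0 ≤ sdist A c p z := by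
  rw [sdist_eq A c hp]
  exact Finset.sum_nonneg fun i _ => mul_self_nonneg _

/-- A point near a point of the cube of radius `ρ` lies in the chart, with nearby coordinates. -/
theorem exists_near {ρ : ℝ} (hρ : ρ < 1) :
    ∃ δ L₀ : ℝ, 0 < δ ∧ 0 ≤ L₀ ∧ ∀ c, ∀ p ∈ Metric.closedBall (0 : Pt) ρ, ∀ z ∈ A.X,
      ‖z - A.psi c p‖ < δ → ∃ q ∈ box, A.psi c q = z ∧ ‖q - p‖ ≤ L₀ * ‖z - A.psi c p‖ := by
  choose U hU hXU using A.open_image
  have hd : ∀ c, ∃ δ, 0 < δ ∧ ∀ p ∈ Metric.closedBall (0 : Pt) ρ, ∀ z ∈ A.X,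
      ‖z - A.psi c p‖ < δ → z ∈ U c := by
    intro c
    have hdisj : Disjoint (A.psi c '' Metric.closedBall 0 ρ) (A.X ∩ (U c)ᶜ) := by
      rw [Set.disjoint_left]
      rintro z ⟨p, hp, rfl⟩ ⟨-, hzU⟩
      exact hzU ((hXU c).symm ▸ ⟨p, closedBall_in_box hρ hp, rfl⟩ : A.psi c p ∈ A.X ∩ U c).2
    obtain ⟨δ, hδ, hd⟩ := hdisj.exists_thickenings
      ((isCompact_closedBall _ _).image (A.psi_cont c))
      (A.compact.isClosed.inter (hU c).isClosed_compl)
    refine ⟨δ, hδ, fun p hp z hz hzp => ?_⟩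
    by_contra hzU
    refine Set.disjoint_left.1 hd (Metric.self_subset_thickening hδ _ ⟨p, hp, rfl⟩) ?_
    exact Metric.mem_thickening_iff.2 ⟨z, ⟨hz, hzU⟩, by rwa [dist_comm, dist_eq_norm]⟩
  choose δ hδ hmem using hd
  obtain ⟨L, hL0, hL⟩ := exists_mat_bound (S := ({0} : Set Pt)) (F := fun c _ => A.L c)
    isCompact_singleton (fun c i k => continuousOn_const)
  have hne : (Finset.univ : Finset (Fin K)).Nonempty := by
    obtain ⟨x, hx⟩ := A.nonempty
    obtain ⟨c, -⟩ := A.exists_chart hx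
    exact ⟨c, Finset.mem_univ c⟩
  refine ⟨Finset.univ.inf' hne δ, N * L, (Finset.lt_inf'_iff hne).2 fun c _ => hδ c,
    by positivity, fun c p hp z hz hzp => ?_⟩
  have hzU := hmem c p hp z hz (hzp.trans_le (Finset.inf'_le _ (Finset.mem_univ c)))
  obtain ⟨q, hq, rfl⟩ : z ∈ A.psi c '' box := hXU c ▸ ⟨hz, hzU⟩
  refine ⟨q, hq, rfl, ?_⟩
  have hpb := closedBall_in_box hρ hp
  have e : q - p = A.L c *ᵥ (A.psi c q - A.psi c p) := by
    rw [show A.psi c q - A.psi c p = (A.psi c q - A.o c) - (A.psi c p - A.o c) by abel,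
      mulVec_sub, A.left_inv c q hq, A.left_inv c p hpb]
  rw [e]
  exact norm_mulVec_le_card hL0 (hL c 0 rfl) _

/-- Second order Taylor bound of the parametrisations on a closed cube. -/
theorem exists_taylor (ρ : ℝ) :
    ∃ M : ℝ, 0 ≤ M ∧ ∀ c, ∀ p ∈ Metric.closedBall (0 : Pt) ρ,
      ∀ q ∈ Metric.closedBall (0 : Pt) ρ,
      ‖A.psi c q - A.psi c p - A.dmat c p *ᵥ (q - p)‖ ≤ M * ‖q - p‖ ^ 2 := by
  have hd : ∀ c, ∃ M : NNReal,
      LipschitzOnWith M (fderiv ℝ (A.psi c)) (Metric.closedBall (0 : Pt) ρ) := fun c =>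
    LocallyLipschitzOn.exists_lipschitzOnWith_of_compact (isCompact_closedBall _ _)
      ((((A.psi_smooth c).fderiv_right (m := ∞) (by norm_num)).of_le (by norm_num)).locallyLipschitz.locallyLipschitzOn)
  choose M hM using hd
  refine ⟨∑ c, (M c : ℝ), Finset.sum_nonneg fun c _ => (M c).2, fun c p hp q hq => ?_⟩
  have hseg : segment ℝ p q ⊆ Metric.closedBall (0 : Pt) ρ :=
    (convex_closedBall _ _).segment_subset hp hq
  have hMc : (M c : ℝ) ≤ ∑ c, (M c : ℝ) :=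
    Finset.single_le_sum (f := fun c => (M c : ℝ)) (fun c _ => (M c).2) (Finset.mem_univ c)
  have key := (convex_segment p q).norm_image_sub_le_of_norm_hasFDerivWithin_le'
    (f := A.psi c) (f' := fderiv ℝ (A.psi c)) (φ := fderiv ℝ (A.psi c) p)
    (C := (∑ c, (M c : ℝ)) * ‖q - p‖)
    (fun y _ => (A.psi_diff c y).hasFDerivAt.hasFDerivWithinAt) (fun y hy => ?_)
    (left_mem_segment ℝ p q) (right_mem_segment ℝ p q)
  · rw [A.dmat_mulVec]
    refine key.trans_eq ?_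
    ring
  · have h := (hM c).dist_le_mul y (hseg hy) p hp
    rw [dist_eq_norm, dist_eq_norm] at h
    refine h.trans (mul_le_mul hMc ?_ (norm_nonneg _) (Finset.sum_nonneg fun c _ => (M c).2))
    have := norm_sub_le_of_mem_segment hy
    exact this

/-- The normal part of a chord is of second order, and so is the second fundamental operator. -/
theorem exists_contact : ∃ δ L₀ C : ℝ, 0 < δ ∧ 0 ≤ L₀ ∧ 0 ≤ C ∧
    ∀ c, ∀ p ∈ Metric.closedBall (0 : Pt) (7 / 8), ∀ z ∈ A.X, ‖z - A.psi c p‖ < δ →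
      (∃ q, ‖q - p‖ ≤ L₀ * ‖z - A.psi c p‖ ∧ A.psi c q = z) ∧
      ‖(z - A.psi c p) - A.proj (A.psi c p) *ᵥ (z - A.psi c p)‖ ≤ C * ‖z - A.psi c p‖ ^ 2 ∧
      ∀ a, ‖wop A c a p *ᵥ (z - A.psi c p)‖ ≤ C * ‖z - A.psi c p‖ ^ 2 := by
  obtain ⟨δ, L₀, hδ, hL0, hnear⟩ := exists_near A (ρ := 7 / 8) (by norm_num)
  obtain ⟨M, hM0, hM⟩ := exists_taylor A (15 / 16)
  obtain ⟨W, hW0, hW⟩ := exists_mat_bound (F := fun w : Fin K × Fin 4 => wop A w.1 w.2)
    (isCompact_closedBall (0 : Pt) (7 / 8)) (fun w i k =>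
      (wop_smooth A w.1 w.2 i k).continuousOn.mono (closedBall_in_box (by norm_num)))
  obtain ⟨P, hP0, hP⟩ := exists_mat_bound (F := fun _ : Unit => fun x => A.proj x) A.compact
    (fun _ a b => A.proj_continuousOn a b)
  refine ⟨min δ (1 / (16 * (L₀ + 1))), L₀, (1 + N * P + N * W) * (M * L₀ ^ 2),
    lt_min hδ (by positivity), hL0, by positivity, fun c p hp z hz hzp => ?_⟩
  have hpb : p ∈ box := closedBall_in_box (by norm_num) hp
  obtain ⟨q, hq, rfl, hqp⟩ := hnear c p hp z hz (hzp.trans_le (min_le_left _ _))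
  refine ⟨⟨q, hqp, rfl⟩, ?_⟩
  set u := A.psi c q - A.psi c p
  set ρ := ‖u‖
  have hρ : ρ ≤ 1 / (16 * (L₀ + 1)) := hzp.le.trans (min_le_right _ _)
  have hρ0 : 0 ≤ ρ := norm_nonneg _
  have hp' : ‖p‖ ≤ 7 / 8 := mem_closedBall_zero_iff.1 hp
  have hq' : q ∈ Metric.closedBall (0 : Pt) (15 / 16) := by
    refine mem_closedBall_zero_iff.2 ?_
    have h1 : L₀ * ρ ≤ 1 / 16 := by
      rw [le_div_iff₀ (by positivity)] at hρ
      nlinarith
    have := norm_le_norm_add_norm_sub' q p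
    linarith
  set R := u - A.dmat c p *ᵥ (q - p)
  have hR : ‖R‖ ≤ M * L₀ ^ 2 * ρ ^ 2 := by
    refine (hM c p (Metric.closedBall_subset_closedBall (by norm_num) hp) q hq').trans ?_
    rw [mul_assoc, ← mul_pow]
    exact mul_le_mul_of_nonneg_left (pow_le_pow_left₀ (norm_nonneg _) hqp 2) hM0
  have hu : u = R + A.dmat c p *ᵥ (q - p) := (sub_add_cancel _ _).symm
  have hPr := norm_mulVec_le_card hP0 (hP () (A.psi c p) (A.psi_mem c p hpb)) R
  refine ⟨?_, fun a => ?_⟩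
  · have e : u - A.proj (A.psi c p) *ᵥ u = R - A.proj (A.psi c p) *ᵥ R := by
      rw [hu, mulVec_add, A.proj_fix (A.isTan_dmat c hpb (q - p))]
      abel
    rw [e]
    refine (norm_sub_le _ _).trans ?_
    calc ‖R‖ + ‖A.proj (A.psi c p) *ᵥ R‖ ≤ (1 + N * P) * ‖R‖ := by linarith
      _ ≤ (1 + N * P + N * W) * (M * L₀ ^ 2 * ρ ^ 2) :=
          mul_le_mul (le_add_of_nonneg_right (by positivity)) hR (norm_nonneg _) (by positivity)
      _ = _ := by ring
  · have e : wop A c a p *ᵥ u = wop A c a p *ᵥ R := by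
      rw [hu, mulVec_add, mulVec_mulVec, wop_dmat A c hpb, zero_mulVec, add_zero]
    rw [e]
    refine (norm_mulVec_le_card hW0 (hW (c, a) p hp) R).trans ?_
    calc (N : ℝ) * W * ‖R‖ ≤ (1 + N * P + N * W) * (M * L₀ ^ 2 * ρ ^ 2) :=
          mul_le_mul (le_add_of_nonneg_left (by positivity)) hR (norm_nonneg _) (by positivity)
      _ = _ := by ring

end Vale.Agent.P204.Kernel
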