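import Mathlib
import Vale.Agent.P204.Kernel.RadiusBasic
import Vale.Agent.P204.Kernel.PointFlat
import Vale.Agent.P204.General.Closed.Setup

/-!
# P204: the pairing of two lines against the squared distance of one from the other
-/

open MeasureTheory Matrix Filter Set
open scoped ContDiff Topology

namespace Vale.Agent.P204.Kernel

open Vale.Agent.P204.General Vale.Agent.P204.Torus

variable {N K : ℕ} (A : Atlas N K) {J : Amb N → MN N}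

/-- The projection onto the coordinates intertwines the structures. -/
theorem pim_J (hJ : IsACS A J) (c : Fin K) {p : Pt} (hp : p ∈ box) (u : Amb N) :
    pim A c p *ᵥ (J (A.psi c p) *ᵥ u) = A.jc J c p *ᵥ (pim A c p *ᵥ u) := by
  rw [← Atlas.J_proj hJ (A.psi_mem c p hp) u, ← dmat_pim A c hp, mulVec_mulVec _ (J _) (A.dmat c p),
    hJ.tangent c p hp, ← mulVec_mulVec, mulVec_mulVec _ (pim A c p) (A.dmat c p),
    pim_mul_dmat A c hp, one_mulVec]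

theorem norm_unit {v : Amb N} (h : v ⬝ᵥ v = 1) : ‖v‖ ≤ 1 :=
  abs_le_of_dot zero_le_one (by rw [h, one_pow])

theorem norm_unit_ge {v : Amb N} (h : v ⬝ᵥ v = 1) : 1 / ((N : ℝ) + 1) ≤ ‖v‖ := by
  have h1 := dot_le_sq_norm v
  rw [h] at h1
  rw [div_le_iff₀ (by positivity)]
  by_contra hc
  rw [not_le] at hc
  have h0 := norm_nonneg v
  have h2 := norm_unit h
  nlinarith

/-- Frame vectors of a line read at another point. -/
theorem exists_frame_bounds (hJ : IsACS A J) : ∃ C₁ : ℝ, 1 ≤ C₁ ∧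
    ∀ x ∈ A.X, ∀ e, A.chi e x ≠ 0 → ∀ p ∈ A.unitTan,
      ‖pim A e (A.phi e x) *ᵥ p.2‖ ≤ C₁ ∧ ‖pim A e (A.phi e x) *ᵥ (J p.1 *ᵥ p.2)‖ ≤ C₁ ∧
      ‖J p.1 *ᵥ p.2‖ ≤ C₁ ∧
      ‖pim A e (A.phi e x) *ᵥ (J p.1 *ᵥ p.2) -
          A.jc J e (A.phi e x) *ᵥ (pim A e (A.phi e x) *ᵥ p.2)‖ ≤ C₁ * ‖x - p.1‖ ∧
      ‖p.2 - A.dmat e (A.phi e x) *ᵥ (pim A e (A.phi e x) *ᵥ p.2)‖ ≤ C₁ * ‖x - p.1‖ ∧
      ‖J p.1 *ᵥ p.2 - A.dmat e (A.phi e x) *ᵥ
          (A.jc J e (A.phi e x) *ᵥ (pim A e (A.phi e x) *ᵥ p.2))‖ ≤ C₁ * ‖x - p.1‖ ∧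
      (∀ i k, |A.jc J e (A.phi e x) i k| ≤ C₁) ∧
      ∀ w, ‖A.dmat e (A.phi e x) *ᵥ w‖ ≤ C₁ * ‖w‖ := by
  set S := Metric.closedBall (0 : Pt) (1 / 2)
  have hS : IsCompact S := isCompact_closedBall _ _
  obtain ⟨P, hP0, hP⟩ := exists_mat_bound hS (F := pim A)
    (fun c i k => (pim_smooth A c i k).continuousOn.mono closedBall_subset_box)
  obtain ⟨D, hD0, hD⟩ := exists_mat_bound hS (F := A.dmat)
    (fun c i k => (A.dmat_smooth c i k).continuous.continuousOn)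
  obtain ⟨B, hB0, hB⟩ := exists_mat_bound hS (F := fun c p => A.jc J c p)
    (fun c i k => (hJ.smooth c i k).continuousOn.mono closedBall_subset_box)
  obtain ⟨G, hG0, hG⟩ := exists_mat_bound (F := fun _ : Unit => fun x => J x) A.compact
    (fun _ a b => Atlas.J_continuousOn hJ a b)
  obtain ⟨CP, hCP0, hCP⟩ := A.proj_lipschitz
  obtain ⟨CJ, hCJ0, hCJ⟩ := exists_J_lipschitz A hJ
  refine ⟨1 + N * P + N * P * (N * G) + N * G + N * P * (N * CJ) + N * CP + N * CJ + B + 4 * D,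
    ?_, fun x hx e he p hp => ?_⟩
  · have : (0 : ℝ) ≤ N * P + N * P * (N * G) + N * G + N * P * (N * CJ) + N * CP + N * CJ + B + 4 * D := by
      positivity
    linarith
  set C₁ := 1 + N * P + N * P * (N * G) + N * G + N * P * (N * CJ) + N * CP + N * CJ + B + 4 * D
  obtain ⟨q, hq, rfl⟩ := A.chi_supp e x hx he
  have hqb : q ∈ box := closedBall_subset_box hq
  rw [A.phi_psi e hqb]
  obtain ⟨y, u⟩ := p
  obtain ⟨hy, hu, hu1⟩ := hp
  simp only at hy hu hu1 ⊢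
  have hun := norm_unit hu1
  set ρ := ‖A.psi e q - y‖
  have hρ : 0 ≤ ρ := norm_nonneg _
  have n0 : 0 ≤ ‖u‖ := norm_nonneg u
  have hJu : ‖J y *ᵥ u‖ ≤ N * G :=
    (norm_mulVec_le_card hG0 (hG () y hy) u).trans (mul_le_of_le_one_right (by positivity) hun)
  have hpim : ∀ w : Amb N, ‖pim A e q *ᵥ w‖ ≤ N * P * ‖w‖ := norm_mulVec_le_card hP0 (hP e q hq)
  have hdJ : ‖(J y - J (A.psi e q)) *ᵥ u‖ ≤ N * CJ * ρ := by
    refine (norm_mulVec_le_card (B := CJ * ρ) (by positivity) (fun i k => ?_) u).trans ?_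
    · rw [Matrix.sub_apply, abs_sub_comm]
      exact hCJ _ (A.psi_mem e q hqb) y hy i k
    · rw [← mul_assoc]; exact mul_le_of_le_one_right (by positivity) hun
  have hdP : ‖(A.proj y - A.proj (A.psi e q)) *ᵥ u‖ ≤ N * CP * ρ := by
    refine (norm_mulVec_le_card (B := CP * ρ) (by positivity) (fun i k => ?_) u).trans ?_
    · rw [Matrix.sub_apply, abs_sub_comm]
      exact hCP _ (A.psi_mem e q hqb) y hy i k
    · rw [← mul_assoc]; exact mul_le_of_le_one_right (by positivity) hun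
  have t1 : (0 : ℝ) ≤ N * P := by positivity
  have t2 : (0 : ℝ) ≤ N * P * (N * G) := by positivity
  have t3 : (0 : ℝ) ≤ N * P * (N * CJ) := by positivity
  have t4 : (0 : ℝ) ≤ (N : ℝ) * G := by positivity
  have t5 : (0 : ℝ) ≤ (N : ℝ) * CJ := by positivity
  have t6 : (0 : ℝ) ≤ (N : ℝ) * CP := by positivity
  refine ⟨?_, ?_, ?_, ?_, ?_, ?_, fun i k => (hB e q hq i k).trans ?_, fun w => ?_⟩
  · exact (hpim u).trans ((mul_le_of_le_one_right t1 hun).trans (by simp only [C₁]; linarith))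
  · exact (hpim _).trans ((mul_le_mul_of_nonneg_left hJu t1).trans (by simp only [C₁]; linarith))
  · exact hJu.trans (by simp only [C₁]; linarith)
  · rw [← pim_J A hJ e hqb, ← mulVec_sub, ← sub_mulVec]
    refine (hpim _).trans ((mul_le_mul_of_nonneg_left hdJ t1).trans ?_)
    rw [← mul_assoc]
    exact mul_le_mul_of_nonneg_right (by simp only [C₁]; linarith) hρ
  · rw [dmat_pim A e hqb]
    have h : u - A.proj (A.psi e q) *ᵥ u = (A.proj y - A.proj (A.psi e q)) *ᵥ u := by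
      rw [sub_mulVec, A.proj_fix hu]
    rw [h]
    exact hdP.trans (mul_le_mul_of_nonneg_right (by simp only [C₁]; linarith) hρ)
  · rw [mulVec_mulVec _ (A.dmat e q), ← hJ.tangent e q hqb, ← mulVec_mulVec, dmat_pim A e hqb,
      Atlas.J_proj hJ (A.psi_mem e q hqb), ← sub_mulVec]
    exact hdJ.trans (mul_le_mul_of_nonneg_right (by simp only [C₁]; linarith) hρ)
  · simp only [C₁]; linarith
  · refine (norm_mulVec_le_card hD0 (hD e q hq) w).trans (mul_le_mul_of_nonneg_right ?_ (norm_nonneg _))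
    push_cast
    simp only [C₁]; linarith

/-- The line of `q` kills itself. -/
theorem offX_line (hJ : IsACS A J) {y l : Amb N} (hl : A.IsTan y l) (s t : ℝ) :
    A.offX J y l (s • l + t • (J y *ᵥ l)) = 0 := by
  have hy := A.mem_of_isTan hl
  have hv := A.isTan_add (A.isTan_smul s hl) (A.isTan_smul t (Atlas.J_tan hJ hy l))
  have e0 : l ⬝ᵥ (A.gMat J y *ᵥ (J y *ᵥ l)) = 0 := Atlas.g_self_J hJ hl
  have e1 : (J y *ᵥ l) ⬝ᵥ (A.gMat J y *ᵥ l) = 0 := by rw [Atlas.g_symm]; exact e0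
  have e2 : (J y *ᵥ l) ⬝ᵥ (A.gMat J y *ᵥ (J y *ᵥ l)) = l ⬝ᵥ (A.gMat J y *ᵥ l) :=
    Atlas.g_J hJ hl hl
  simp only [Atlas.offX]
  rw [A.proj_fix hv]
  simp only [add_dotProduct, smul_dotProduct, mulVec_add, mulVec_smul, dotProduct_add,
    dotProduct_smul, smul_eq_mul, e0, e1, e2]
  ring

theorem abs_gJ_le {j : M4} {B : ℝ} (hB : ∀ i k, |j i k| ≤ B) (a b : Pt) :
    |gJ j a b| ≤ (4 + 64 * B * B) * ‖a‖ * ‖b‖ := by
  have hB0 : 0 ≤ B := (abs_nonneg _).trans (hB 0 0)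
  have h1 := abs_dot_le a b
  have h2 := abs_dot_le (j *ᵥ a) (j *ᵥ b)
  have h3 := norm_mulVec_le hB a
  have h4 := norm_mulVec_le hB b
  refine (abs_add_le _ _).trans ((add_le_add h1 h2).trans ?_)
  calc 4 * ‖a‖ * ‖b‖ + 4 * ‖j *ᵥ a‖ * ‖j *ᵥ b‖
      ≤ 4 * ‖a‖ * ‖b‖ + 4 * (4 * B * ‖a‖) * (4 * B * ‖b‖) := by gcongr
    _ = _ := by ring

/-- The coefficients of the projection on a line. -/
theorem abs_coef_le {j : M4} {B μ : ℝ} (hμ : 0 < μ) (hB : ∀ i k, |j i k| ≤ B) {U V : Pt}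
    (hU : ‖U‖ ≤ B) (hV : ‖V‖ ≤ B) (hVμ : μ ≤ ‖V‖) :
    |gJ j U V / gJ j V V| ≤ (4 + 64 * B * B) * B * B / μ ^ 2 ∧
      |gJ j U (j *ᵥ V) / gJ j V V| ≤ (4 + 64 * B * B) * B * (4 * B * B) / μ ^ 2 := by
  have hB0 : 0 ≤ B := (norm_nonneg U).trans hU
  have hg : μ ^ 2 ≤ gJ j V V := (pow_le_pow_left₀ hμ.le hVμ 2).trans (sq_norm_le_gJ j V)
  constructor <;> rw [abs_div, abs_of_pos ((pow_pos hμ 2).trans_le hg)] <;>
    refine div_le_div₀ (by positivity) ((abs_gJ_le hB _ _).trans ?_) (by positivity) hg <;> gcongr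
  exact (norm_mulVec_le hB V).trans (by gcongr)

theorem sq_le_three {x a b e C : ℝ} (hx : 0 ≤ x) (h : x ≤ C * (a + b + e)) :
    x ^ 2 ≤ 3 * C ^ 2 * (a ^ 2 + b ^ 2 + e ^ 2) := by
  refine (pow_le_pow_left₀ hx h 2).trans ?_
  rw [mul_pow]
  nlinarith [mul_nonneg (sq_nonneg C) (sq_nonneg (a - b)), mul_nonneg (sq_nonneg C) (sq_nonneg (b - e)),
    mul_nonneg (sq_nonneg C) (sq_nonneg (a - e))]

/-- A vector near the line of `l` makes a small angle with it. -/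
theorem offX_le_rem (hJ : IsACS A J) {Bo : ℝ} (hBo : ∀ p ∈ A.unitTan, ∀ w,
    A.offX J p.1 p.2 w ≤ Bo * ‖w‖ ^ 2) {q : Amb N × Amb N} (hq : q ∈ A.unitTan) {v R : Amb N} (s t : ℝ)
    (h : v = (s • q.2 + t • (J q.1 *ᵥ q.2)) + R) :
    A.offX J q.1 q.2 v ≤ 2 * Bo * ‖R‖ ^ 2 := by
  have h1 := offX_add_le hJ hq.2.1 (s • q.2 + t • (J q.1 *ᵥ q.2)) R
  rw [← h, offX_line A hJ hq.2.1] at h1
  have h2 := hBo q hq R
  linarith

/-- The decomposition of a vector along a line read at another point. -/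
theorem norm_rem_le {n : ℕ} {E a b d : Fin n → ℝ} {s t CE Ca S T ρ : ℝ}
    (hE : ‖E‖ ≤ CE) (ha : ‖a‖ ≤ Ca) (hb : ‖b‖ ≤ ρ) (hd : ‖d‖ ≤ ρ) (hs : |s| ≤ S) (ht : |t| ≤ T) :
    ‖E + a - s • b - t • d‖ ≤ CE + Ca + S * ρ + T * ρ := by
  refine (norm_sub_le _ _).trans (add_le_add ((norm_sub_le _ _).trans
    (add_le_add ((norm_add_le _ _).trans (add_le_add hE ha)) ?_)) ?_) <;>
    rw [norm_smul, Real.norm_eq_abs]
  · exact mul_le_mul hs hb (norm_nonneg _) ((abs_nonneg s).trans hs)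
  · exact mul_le_mul ht hd (norm_nonneg _) ((abs_nonneg t).trans ht)

/-- Two lines read at a common point pair at least as their squared angle. -/
theorem exists_line_lower (hJ : IsACS A J) : ∃ c C : ℝ, 0 < c ∧ 0 ≤ C ∧
    ∀ x ∈ A.X, ∀ e, A.chi e x ≠ 0 → ∀ p ∈ A.unitTan, ∀ q ∈ A.unitTan,
      c * A.offX J q.1 q.2 p.2 - C * (‖x - p.1‖ ^ 2 + ‖x - q.1‖ ^ 2) ≤
        det4 (pim A e (A.phi e x) *ᵥ q.2) (pim A e (A.phi e x) *ᵥ (J q.1 *ᵥ q.2))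
          (pim A e (A.phi e x) *ᵥ p.2) (pim A e (A.phi e x) *ᵥ (J p.1 *ᵥ p.2)) := by
  obtain ⟨C₁, hC1, hfr⟩ := exists_frame_bounds A hJ
  have hC0 : 0 < C₁ := lt_of_lt_of_le one_pos hC1
  obtain ⟨Bo, hBo0, hBo⟩ := exists_offX_le (A := A) hJ
  set n₀ : ℝ := 1 / ((N : ℝ) + 1) with hn₀
  have hn₀p : 0 < n₀ := by positivity
  set μ : ℝ := n₀ / (2 * C₁)
  set ρ₀ : ℝ := n₀ / (2 * C₁)
  have hμ : 0 < μ := by positivity
  obtain ⟨c₁, D₁, hc₁, hD₁, hdet⟩ := exists_det_lower C₁ μ hμ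
  set S : ℝ := (4 + 64 * C₁ * C₁) * C₁ * C₁ / μ ^ 2 * C₁ with hSdef
  have hS0 : 0 ≤ S := by positivity
  set C₂ : ℝ := C₁ + S + S * (4 * C₁)
  set H : ℝ := 6 * Bo * C₂ ^ 2 + 1
  have hH : 0 < H := by positivity
  set c : ℝ := c₁ / H
  have hc : 0 < c := by positivity
  set M : ℝ := c * Bo + 24 * C₁ * C₁ * C₁ * C₁
  refine ⟨c, D₁ * C₁ ^ 2 + c * H + M / ρ₀ ^ 2, hc, by positivity, fun x hx e he p hp q hq => ?_⟩
  obtain ⟨hU, hW, -, hWa, hUd, -, hB, hD⟩ := hfr x hx e he p hp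
  obtain ⟨hU', hW', -, hWb, hUd', hJd', -, -⟩ := hfr x hx e he q hq
  have hx' := A.supp_box hx he
  have hqb := A.phi_mem e hx'
  set j := A.jc J e (A.phi e x)
  set U := pim A e (A.phi e x) *ᵥ p.2
  set W := pim A e (A.phi e x) *ᵥ (J p.1 *ᵥ p.2)
  set V := pim A e (A.phi e x) *ᵥ q.2
  set Z := pim A e (A.phi e x) *ᵥ (J q.1 *ᵥ q.2)
  set ρp := ‖x - p.1‖
  set ρq := ‖x - q.1‖
  have hρp : 0 ≤ ρp := norm_nonneg _
  have hρq : 0 ≤ ρq := norm_nonneg _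
  have hun := norm_unit hp.2.2
  have hoff : A.offX J q.1 q.2 p.2 ≤ Bo :=
    (hBo q hq p.2).trans (mul_le_of_le_one_right hBo0 (pow_le_one₀ (norm_nonneg _) hun))
  have hM0 : 0 ≤ M := by positivity
  rcases le_or_gt (max ρp ρq) ρ₀ with hsm | hlg
  swap
  · have hb : |det4 V Z U W| ≤ 24 * C₁ * C₁ * C₁ * C₁ :=
      (abs_det4_le _ _ _ _).trans (by gcongr)
    have hbig : ρ₀ ^ 2 ≤ ρp ^ 2 + ρq ^ 2 := by
      rcases lt_max_iff.1 hlg with h | h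
      · exact (pow_le_pow_left₀ (by positivity) h.le 2).trans (le_add_of_nonneg_right (sq_nonneg _))
      · exact (pow_le_pow_left₀ (by positivity) h.le 2).trans (le_add_of_nonneg_left (sq_nonneg _))
    have hMb : M ≤ M / ρ₀ ^ 2 * (ρp ^ 2 + ρq ^ 2) := by
      rw [div_mul_eq_mul_div, le_div_iff₀ (by positivity)]
      exact mul_le_mul_of_nonneg_left hbig hM0
    have h0 : 0 ≤ (D₁ * C₁ ^ 2 + c * H) * (ρp ^ 2 + ρq ^ 2) := by positivity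
    have h1 := mul_le_mul_of_nonneg_left hoff hc.le
    have h2 := (abs_le.1 hb).1
    simp only [M] at hMb
    nlinarith
  obtain ⟨hsp, hsq⟩ := max_le_iff.1 hsm
  have hlow : ∀ v : Amb N, v ⬝ᵥ v = 1 → ∀ w : Pt, ∀ ρ, ρ ≤ ρ₀ →
      ‖v - A.dmat e (A.phi e x) *ᵥ w‖ ≤ C₁ * ρ → ‖A.dmat e (A.phi e x) *ᵥ w‖ ≤ C₁ * ‖w‖ →
      μ ≤ ‖w‖ := by
    intro v hv w ρ hρ h1 h2
    have h3 := norm_unit_ge hv
    have h4 := norm_le_norm_add_norm_sub' v (A.dmat e (A.phi e x) *ᵥ w)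
    have h5 : C₁ * ρ ≤ n₀ / 2 := by
      refine (mul_le_mul_of_nonneg_left hρ hC0.le).trans_eq ?_
      simp only [ρ₀]; field_simp
    simp only [μ]
    rw [div_le_iff₀ (by positivity)]
    rw [← hn₀] at h3
    linarith
  have hUμ : μ ≤ ‖U‖ := hlow _ hp.2.2 U ρp hsp hUd (hD U)
  have hVμ : μ ≤ ‖V‖ := hlow _ hq.2.2 V ρq hsq hUd' (hD V)
  have hsgn : oSgn j = 1 := oSgn_jc A hJ e hqb
  have hj2 : j * j = -1 := hJ.sq e _ hqb
  have key := hdet j hj2 hsgn hB U V (W - j *ᵥ U) (Z - j *ᵥ V) hUμ hVμ hU hU'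
  rw [add_sub_cancel, add_sub_cancel] at key
  set D := A.dmat e (A.phi e x)
  set E := perp j V U
  set s := gJ j U V / gJ j V V with hs
  set t := gJ j U (j *ᵥ V) / gJ j V V with ht
  obtain ⟨hsb, htb⟩ := abs_coef_le hμ hB hU hU' hVμ
  set R := D *ᵥ E + (p.2 - D *ᵥ U) - s • (q.2 - D *ᵥ V) - t • (J q.1 *ᵥ q.2 - D *ᵥ (j *ᵥ V))
  have hdec : p.2 = (s • q.2 + t • (J q.1 *ᵥ q.2)) + R := by
    have hE : D *ᵥ E = D *ᵥ U - s • (D *ᵥ V) - t • (D *ᵥ (j *ᵥ V)) := by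
      simp only [E, perp, mulVec_sub, mulVec_smul, hs, ht]
    simp only [R, hE]
    module
  have hR : ‖R‖ ≤ C₂ * (‖E‖ + ρp + ρq) := by
    refine (norm_rem_le (hD E) hUd hUd' hJd' hsb htb).trans ?_
    have a1 : 0 ≤ (S + S * (4 * C₁)) * (‖E‖ + ρp) := by positivity
    have a2 : 0 ≤ C₁ * ρq := by positivity
    simp only [C₂, S] at a1 a2 ⊢
    ring_nf at a1 a2 ⊢
    linarith
  have hoff2 := offX_le_rem A hJ hBo hq s t hdec
  have hR2 := sq_le_three (norm_nonneg R) hR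
  have hab : ‖W - j *ᵥ U‖ ^ 2 + ‖Z - j *ᵥ V‖ ^ 2 ≤ C₁ ^ 2 * (ρp ^ 2 + ρq ^ 2) := by
    have h1 := pow_le_pow_left₀ (norm_nonneg _) hWa 2
    have h2 := pow_le_pow_left₀ (norm_nonneg _) hWb 2
    rw [mul_pow] at h1 h2
    rw [mul_add]; exact add_le_add h1 h2
  have hH' : c * A.offX J q.1 q.2 p.2 ≤ c₁ * ‖E‖ ^ 2 + c * H * (ρp ^ 2 + ρq ^ 2) := by
    have h3 : A.offX J q.1 q.2 p.2 ≤ H * (‖E‖ ^ 2 + ρp ^ 2 + ρq ^ 2) :=
      calc A.offX J q.1 q.2 p.2 ≤ 2 * Bo * ‖R‖ ^ 2 := hoff2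
        _ ≤ 2 * Bo * (3 * C₂ ^ 2 * (‖E‖ ^ 2 + ρp ^ 2 + ρq ^ 2)) := by gcongr
        _ ≤ H * (‖E‖ ^ 2 + ρp ^ 2 + ρq ^ 2) := by
            rw [← mul_assoc]
            refine mul_le_mul_of_nonneg_right ?_ (by positivity)
            simp only [H]; linarith
    refine (mul_le_mul_of_nonneg_left h3 hc.le).trans_eq ?_
    simp only [c]; field_simp; ring
  have hMρ : 0 ≤ M / ρ₀ ^ 2 * (ρp ^ 2 + ρq ^ 2) := by positivity
  have := mul_le_mul_of_nonneg_left hab hD₁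
  linarith

end Vale.Agent.P204.Kernel
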