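import Mathlib
import Vale.Agent.P204.Kernel.PointOff
import Vale.Agent.P204.Kernel.Smooth
import Vale.Agent.P204.Kernel.Density.Expand

/-!
# P204: the line kernel of one width against its flat model
-/

open MeasureTheory Matrix Filter Set
open scoped ContDiff Topology

namespace Vale.Agent.P204.Kernel

open Vale.Agent.P204.General Vale.Agent.P204.Torus

variable {N K : ℕ} (A : Atlas N K) {J : Amb N → MN N} {r d c₀ C₀ : ℝ}

theorem exists_gauss_trade {a : ℝ} (ha : 0 < a) : ∃ C : ℝ, 1 ≤ C ∧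
    ∀ σ, 0 < σ → ∀ x z : Amb N,
      gauss a σ x z ≤ C * gauss (a / 2) σ x z ∧
      ‖z - x‖ * gauss a σ x z ≤ C * (σ * gauss (a / 2) σ x z) ∧
      ‖z - x‖ ^ 2 * gauss a σ x z ≤ C * (σ ^ 2 * gauss (a / 2) σ x z) := by
  obtain ⟨C, hC, h⟩ := exists_pow_exp ha
  refine ⟨C, hC, fun σ hσ x z => ?_⟩
  obtain ⟨h1, h2⟩ := h σ ‖z - x‖ hσ (norm_nonneg _)
  have hσ4 : 0 < σ ^ 4 := pow_pos hσ 4
  refine ⟨?_, ?_, ?_⟩
  · refine le_trans ?_ (le_mul_of_one_le_left (gauss_nonneg _ _ _ _) hC)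
    refine div_le_div_of_nonneg_right (Real.exp_le_exp.2 ?_) hσ4.le
    refine div_le_div_of_nonneg_right ?_ (sq_nonneg σ)
    nlinarith [sq_nonneg ‖z - x‖]
  · simp only [gauss, ← mul_div_assoc]
    exact div_le_div_of_nonneg_right h1 hσ4.le
  · simp only [gauss, ← mul_div_assoc]
    exact div_le_div_of_nonneg_right h2 hσ4.le

theorem abs_antiP_le {j M : M4} {B t : ℝ} (hB : ∀ i k, |j i k| ≤ B) (hM : ∀ i k, |M i k| ≤ t)
    (i k : Fin 4) : |antiP j M i k| ≤ (1 + 16 * B ^ 2) * t := by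
  have hB0 : 0 ≤ B := (abs_nonneg _).trans (hB 0 0)
  have ht : 0 ≤ t := (abs_nonneg _).trans (hM 0 0)
  have h1 : |(jᵀ * M * j) i k| ≤ 16 * B ^ 2 * t := by
    simp only [Matrix.mul_apply, Matrix.transpose_apply, Finset.sum_mul]
    refine (Finset.abs_sum_le_sum_abs _ _).trans ((Finset.sum_le_sum fun a _ =>
      (Finset.abs_sum_le_sum_abs _ _).trans (Finset.sum_le_sum fun b _ => ?_)).trans_eq
      (b := ∑ _a : Fin 4, ∑ _b : Fin 4, B * t * B) ?_)
    · rw [abs_mul, abs_mul]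
      exact mul_le_mul (mul_le_mul (hB _ _) (hM _ _) (abs_nonneg _) hB0) (hB _ _)
        (abs_nonneg _) (by positivity)
    · simp; ring
  simp only [antiP, Matrix.smul_apply, Matrix.sub_apply, smul_eq_mul, abs_mul]
  have h2 := abs_sub (M i k) ((jᵀ * M * j) i k)
  have h3 := hM i k
  rw [abs_of_nonneg (by norm_num : (0 : ℝ) ≤ 2⁻¹)]
  nlinarith [abs_nonneg (M i k - (jᵀ * M * j) i k)]

theorem sqrt_sq2_le {M : M4} {t : ℝ} (h : ∀ i k, |M i k| ≤ t) : Real.sqrt (sq2 M) ≤ 4 * t := by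
  have ht : 0 ≤ t := (abs_nonneg _).trans (h 0 0)
  refine Real.sqrt_le_iff.2 ⟨by positivity, ?_⟩
  refine (Finset.sum_le_sum fun i _ => Finset.sum_le_sum fun k _ =>
    ((sq_abs _).symm.trans_le (pow_le_pow_left₀ (abs_nonneg _) (h i k) 2))).trans_eq ?_
  simp; ring

/-- The weight of one chart, not yet divided by the density. -/
noncomputable def gco (c : Fin K) (r d σ : ℝ) (x z : Amb N) : ℝ :=
  etaF r (z - x) * gProf d σ (sdist A c (A.phi c x) z) * vs A c (A.phi c x)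

theorem gco_nonneg (c : Fin K) (r d σ : ℝ) (x z : Amb N) : 0 ≤ gco A c r d σ x z :=
  mul_nonneg (mul_nonneg (etaF_mem r _).1 (gProf_nonneg _ _ _)) (Real.sqrt_nonneg _)

theorem wS_eq (r d σ : ℝ) (x z : Amb N) :
    wS A r d σ x z = ∑ c, A.chi c x * (gco A c r d σ x z / A.dens c (A.phi c x)) := rfl

/-- The pairing of a form value with a line read at another point. -/
noncomputable def lineVal (J : Amb N → MN N) (x : Amb N) (p : Amb N × Amb N) (M : MN N) : ℝ :=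
  (A.proj x *ᵥ p.2) ⬝ᵥ (M *ᵥ (A.proj x *ᵥ (J p.1 *ᵥ p.2)))

theorem lineVal_chart (J : Amb N → MN N) (c : Fin K) {x : Amb N} (hx : x ∈ A.psi c '' box)
    (p : Amb N × Amb N) {M : MN N} (hM : Mᵀ = -M) :
    lineVal A J x p M = ev2 (A.pullAt c M (A.phi c x)) (pim A c (A.phi c x) *ᵥ p.2)
      (pim A c (A.phi c x) *ᵥ (J p.1 *ᵥ p.2)) := by
  obtain ⟨q, hq, rfl⟩ := hx
  rw [A.phi_psi c hq, ← dot_mulVec_eq_ev2 (pullAt_skew A c q hM), lineVal, ← dmat_pim A c hq,
    ← dmat_pim A c hq, Atlas.pullAt]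
  simp only [← mulVec_mulVec]
  rw [dotProduct_mulVec (pim A c q *ᵥ p.2) (A.dmat c q)ᵀ, vecMul_transpose]

theorem kfS_chart (hJ : IsACS A J) (r d σ : ℝ) (c : Fin K) {x : Amb N} (hx : x ∈ A.psi c '' box)
    (p : Amb N × Amb N) :
    A.pullAt c (kfS A r d σ J x p) (A.phi c x) =
      loc22 A c r d σ (A.phi c x) p.1 p.2 (J p.1 *ᵥ p.2) := by
  obtain ⟨q, hq, rfl⟩ := hx
  rw [A.phi_psi c hq]
  exact kk_chart A hJ r d σ p.1 p.2 (J p.1 *ᵥ p.2) c hq

theorem kfS_skew (r d σ : ℝ) (J : Amb N → MN N) (x : Amb N) (p : Amb N × Amb N) :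
    (kfS A r d σ J x p)ᵀ = -kfS A r d σ J x p := kk_skew A r d σ _ _ _ _

theorem flat22_eq (c : Fin K) (σ : ℝ) {x : Amb N} (hx : x ∈ A.psi c '' box) (z u w : Amb N) :
    flat22 A c r d σ (A.phi c x) z u w = gco A c r d σ x z •
      dualBiv (pim A c (A.phi c x) *ᵥ u) (pim A c (A.phi c x) *ᵥ w) := by
  rw [flat22, flat_eq_dualBiv, A.psi_phi c hx, gco, mul_assoc]
  rfl

variable (hJ : IsACS A J) (hG : GoodR A r d c₀ C₀)
include hG

theorem exists_gco_le : ∃ C : ℝ, 0 ≤ C ∧ ∀ σ, 0 < σ → ∀ x ∈ A.X, ∀ z ∈ A.X, ∀ c, A.chi c x ≠ 0 →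
    gco A c r d σ x z ≤ C * gauss (c₀ / 4) σ x z := by
  choose V hV using fun c => (isCompact_closedBall (0 : Pt) (1 / 2)).exists_bound_of_continuousOn
    ((vs_continuousOn A c).mono closedBall_subset_box)
  refine ⟨∑ c, |V c|, Finset.sum_nonneg fun _ _ => abs_nonneg _, fun σ hσ x hx z hz c hc => ?_⟩
  have hg₀ := gauss_nonneg (c₀ / 4) σ x z
  obtain ⟨q, hq, rfl⟩ := A.chi_supp c x hx hc
  have hqb := closedBall_subset_box hq
  rw [gco, A.phi_psi c hqb]
  set x := A.psi c q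
  by_cases hη : etaF r (z - x) = 0
  · rw [hη, zero_mul, zero_mul]; positivity
  have hnear : (z - x) ⬝ᵥ (z - x) ≤ 2 * r ^ 2 := by
    by_contra h; exact hη (etaF_zero hG.r_pos (not_le.1 h).le)
  have hlo := (hG.low c q (Metric.closedBall_subset_closedBall (by norm_num) hq) z hz hnear).1
  have hg : gProf d σ (sdist A c q z) ≤ gauss (c₀ / 4) σ x z :=
    (le_abs_self _).trans ((gProf_bound _ _ _).trans (by
      refine div_le_div_of_nonneg_right (Real.exp_le_exp.2 ?_) (by positivity)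
      rw [neg_div, neg_div, neg_le_neg_iff, div_le_div_iff₀ (by positivity) (by positivity)]
      nlinarith))
  have hvs : vs A c q ≤ ∑ c, |V c| := ((le_abs_self _).trans ((hV c q hq).trans (le_abs_self _))).trans
    (Finset.single_le_sum (f := fun c => |V c|) (fun _ _ => abs_nonneg _) (Finset.mem_univ c))
  calc etaF r (z - x) * gProf d σ (sdist A c q z) * vs A c q
      ≤ 1 * gauss (c₀ / 4) σ x z * ∑ c, |V c| :=
        mul_le_mul (mul_le_mul (etaF_mem _ _).2 hg (gProf_nonneg _ _ _) zero_le_one) hvs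
          (Real.sqrt_nonneg _) (by positivity)
    _ = _ := by ring

include hJ

/-- The kernel in a chart against its flat model. -/
theorem exists_chart_err : ∃ C : ℝ, 0 ≤ C ∧ ∀ σ, 0 < σ → σ ≤ 1 → ∀ x ∈ A.X, ∀ p ∈ A.unitTan,
    ∀ c, A.chi c x ≠ 0 →
      (∀ i k, |loc22 A c r d σ (A.phi c x) p.1 p.2 (J p.1 *ᵥ p.2) i k|
        ≤ C * gauss (c₀ / 8) σ x p.1) ∧
      (∀ i k, |(A.pullAt c (kfS A r d σ J x p) (A.phi c x) - gco A c r d σ x p.1 •
          dualBiv (pim A c (A.phi c x) *ᵥ p.2) (pim A c (A.phi c x) *ᵥ (J p.1 *ᵥ p.2))) i k|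
        ≤ C * (σ ^ 2 * gauss (c₀ / 8) σ x p.1)) ∧
      gco A c r d σ x p.1 ≤ C * gauss (c₀ / 8) σ x p.1 ∧
      gco A c r d σ x p.1 * ‖x - p.1‖ ≤ C * (σ * gauss (c₀ / 8) σ x p.1) ∧
      gco A c r d σ x p.1 * ‖x - p.1‖ ^ 2 ≤ C * (σ ^ 2 * gauss (c₀ / 8) σ x p.1) := by
  obtain ⟨C₁, hC1, hfr⟩ := exists_frame_bounds A hJ
  obtain ⟨F, hF, hflat⟩ := abs_flat22_le A hG
  obtain ⟨G, hG0, hgco⟩ := exists_gco_le A hG
  obtain ⟨T, hT, htr⟩ := exists_gauss_trade (N := N) (a := c₀ / 4) (by linarith [hG.c_pos])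
  rw [show c₀ / 4 / 2 = c₀ / 8 by ring] at htr
  refine ⟨3 * F * C₁ * T + 3 * F * C₁ + G * T, by positivity, fun σ hσ hσ1 x hx p hp c hc => ?_⟩
  obtain ⟨-, -, hw, -⟩ := hfr x hx c hc p hp
  obtain ⟨t0, t1, t2⟩ := htr σ hσ x p.1
  have hz := hp.1
  have hcb := A.supp_box hx hc
  have hqh : A.phi c x ∈ Metric.closedBall (0 : Pt) (1 / 2) := by
    obtain ⟨q, hq, rfl⟩ := A.chi_supp c x hx hc
    rwa [A.phi_psi c (closedBall_subset_box hq)]
  have hu := norm_unit hp.2.2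
  have huw : ‖p.2‖ * ‖J p.1 *ᵥ p.2‖ ≤ C₁ :=
    (mul_le_mul hu hw (norm_nonneg _) zero_le_one).trans_eq (one_mul _)
  set g := gauss (c₀ / 4) σ x p.1
  set g' := gauss (c₀ / 8) σ x p.1
  have hg : 0 ≤ g := gauss_nonneg _ _ _ _
  have hg' : 0 ≤ g' := gauss_nonneg _ _ _ _
  have hb := fun i k => hflat c (A.phi c x) hqh σ hσ hσ1 p.1 hz p.2 (J p.1 *ᵥ p.2) i k
  rw [A.psi_phi c hcb] at hb
  have hC1' : 0 ≤ C₁ := zero_le_one.trans hC1
  have hA : (0 : ℝ) ≤ 3 * F * C₁ * T := by positivity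
  have hB : (0 : ℝ) ≤ 3 * F * C₁ := by positivity
  have hD : (0 : ℝ) ≤ G * T := by positivity
  have herr : ∀ i k, |loc22 A c r d σ (A.phi c x) p.1 p.2 (J p.1 *ᵥ p.2) i k -
      flat22 A c r d σ (A.phi c x) p.1 p.2 (J p.1 *ᵥ p.2) i k| ≤ 2 * F * C₁ * T * (σ ^ 2 * g') := by
    intro i k
    refine ((hb i k).2).trans ?_
    calc F * (σ ^ 2 + ‖p.1 - x‖ ^ 2) * g * (‖p.2‖ * ‖J p.1 *ᵥ p.2‖)
        ≤ F * (σ ^ 2 + ‖p.1 - x‖ ^ 2) * g * C₁ := mul_le_mul_of_nonneg_left huw (by positivity)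
      _ = F * C₁ * (σ ^ 2 * g + ‖p.1 - x‖ ^ 2 * g) := by ring
      _ ≤ F * C₁ * (σ ^ 2 * (T * g') + T * (σ ^ 2 * g')) := by gcongr
      _ = _ := by ring
  refine ⟨fun i k => ?_, fun i k => ?_, ?_, ?_, ?_⟩
  · have h1 : |flat22 A c r d σ (A.phi c x) p.1 p.2 (J p.1 *ᵥ p.2) i k| ≤ F * C₁ * (T * g') := by
      refine ((hb i k).1).trans ?_
      calc F * g * (‖p.2‖ * ‖J p.1 *ᵥ p.2‖) ≤ F * g * C₁ := mul_le_mul_of_nonneg_left huw (by positivity)
        _ ≤ F * (T * g') * C₁ := by gcongr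
        _ = _ := by ring
    have h2 : σ ^ 2 * g' ≤ g' := mul_le_of_le_one_left hg' (pow_le_one₀ hσ.le hσ1)
    have h3 := abs_le.1 (herr i k)
    have h4 := abs_le.1 h1
    have h5 := mul_le_mul_of_nonneg_left h2 (by positivity : (0 : ℝ) ≤ 2 * F * C₁ * T)
    have h6 : 0 ≤ (3 * F * C₁ + G * T) * g' := by positivity
    rw [abs_le]; constructor <;> linarith
  · rw [kfS_chart A hJ r d σ c hcb, ← flat22_eq A c σ hcb, Matrix.sub_apply]
    refine (herr i k).trans (mul_le_mul_of_nonneg_right (by linarith) (by positivity))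
  · refine (hgco σ hσ x hx p.1 hz c hc).trans ?_
    calc G * g ≤ G * (T * g') := mul_le_mul_of_nonneg_left t0 hG0
      _ ≤ _ := by rw [← mul_assoc]; exact mul_le_mul_of_nonneg_right (by linarith) hg'
  · rw [norm_sub_rev]
    calc gco A c r d σ x p.1 * ‖p.1 - x‖ ≤ G * g * ‖p.1 - x‖ :=
          mul_le_mul_of_nonneg_right (hgco σ hσ x hx p.1 hz c hc) (norm_nonneg _)
      _ = G * (‖p.1 - x‖ * g) := by ring
      _ ≤ G * (T * (σ * g')) := mul_le_mul_of_nonneg_left t1 hG0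
      _ ≤ _ := by rw [← mul_assoc]; exact mul_le_mul_of_nonneg_right (by linarith) (by positivity)
  · rw [norm_sub_rev]
    calc gco A c r d σ x p.1 * ‖p.1 - x‖ ^ 2 ≤ G * g * ‖p.1 - x‖ ^ 2 :=
          mul_le_mul_of_nonneg_right (hgco σ hσ x hx p.1 hz c hc) (sq_nonneg _)
      _ = G * (‖p.1 - x‖ ^ 2 * g) := by ring
      _ ≤ G * (T * (σ ^ 2 * g')) := mul_le_mul_of_nonneg_left t2 hG0
      _ ≤ _ := by rw [← mul_assoc]; exact mul_le_mul_of_nonneg_right (by linarith) (by positivity)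

/-- The size of the kernel and of its anti-invariant part. -/
theorem exists_size : ∃ C : ℝ, 0 ≤ C ∧ ∀ σ, 0 < σ → σ ≤ 1 → ∀ x ∈ A.X, ∀ p ∈ A.unitTan,
    (∀ i k, |kfS A r d σ J x p i k| ≤ C * gauss (c₀ / 8) σ x p.1) ∧
    ∀ c, A.chi c x ≠ 0 → ∀ i k,
      |A.pullAt c (kfS A r d σ J x p) (A.phi c x) i k| ≤ C * gauss (c₀ / 8) σ x p.1 ∧
      |antiP (A.jc J c (A.phi c x)) (A.pullAt c (kfS A r d σ J x p) (A.phi c x)) i k|
        ≤ C * (σ * gauss (c₀ / 8) σ x p.1) := by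
  obtain ⟨C₁, hC1, hfr⟩ := exists_frame_bounds A hJ
  obtain ⟨E, hE, herr⟩ := exists_chart_err A hJ hG
  obtain ⟨L, hL0, hL⟩ := exists_mat_bound (S := ({0} : Set Pt)) (F := fun c _ => A.L c)
    isCompact_singleton (fun c i k => continuousOn_const)
  set T := 1 + 16 * C₁ ^ 2
  have hT : 0 ≤ T := by positivity
  refine ⟨E + 16 * L ^ 2 * E + T * E * (1 + 2 * C₁ * C₁), by positivity,
    fun σ hσ hσ1 x hx p hp => ?_⟩
  set g := gauss (c₀ / 8) σ x p.1
  have hg : 0 ≤ g := gauss_nonneg _ _ _ _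
  have n1 : 0 ≤ 16 * L ^ 2 * E := by positivity
  have n2 : 0 ≤ T * E * (1 + 2 * C₁ * C₁) := by positivity
  refine ⟨fun i k => ?_, fun c hc i k => ?_⟩
  · simp only [kfS, kk, Atlas.push, Matrix.sum_apply, Matrix.smul_apply, smul_eq_mul]
    refine (Finset.abs_sum_le_sum_abs _ _).trans ?_
    refine (Finset.sum_le_sum (g := fun c => A.chi c x * (16 * L ^ 2 * (E * g))) fun c _ => ?_).trans ?_
    · rw [abs_mul, abs_of_nonneg (A.chi_nonneg c x)]
      rcases eq_or_ne (A.chi c x) 0 with h | h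
      · simp [h]
      refine mul_le_mul_of_nonneg_left ?_ (A.chi_nonneg c x)
      have hb := (herr σ hσ hσ1 x hx p hp c h).1
      simp only [Matrix.mul_apply, Matrix.transpose_apply, Finset.sum_mul]
      refine (Finset.abs_sum_le_sum_abs _ _).trans ((Finset.sum_le_sum fun a _ =>
        (Finset.abs_sum_le_sum_abs _ _).trans (Finset.sum_le_sum fun b _ => ?_)).trans_eq
        (b := ∑ _a : Fin 4, ∑ _b : Fin 4, L * (E * g) * L) ?_)
      · rw [abs_mul, abs_mul]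
        exact mul_le_mul (mul_le_mul (hL c 0 rfl _ _) (hb _ _) (abs_nonneg _) hL0) (hL c 0 rfl _ _)
          (abs_nonneg _) (by positivity)
      · simp; ring
    · rw [← Finset.sum_mul, A.chi_sum x hx, one_mul, ← mul_assoc]
      exact mul_le_mul_of_nonneg_right (by linarith) hg
  obtain ⟨hloc, hdiff, -, hgρ, -⟩ := herr σ hσ hσ1 x hx p hp c hc
  obtain ⟨hU, -, -, hWa, -, -, hB, -⟩ := hfr x hx c hc p hp
  have hcb := A.supp_box hx hc
  set j := A.jc J c (A.phi c x)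
  have hj2 : j * j = -1 := hJ.sq c _ (A.phi_mem c hcb)
  set P := A.pullAt c (kfS A r d σ J x p) (A.phi c x)
  set U := pim A c (A.phi c x) *ᵥ p.2
  set W := pim A c (A.phi c x) *ᵥ (J p.1 *ᵥ p.2)
  set G := gco A c r d σ x p.1
  refine ⟨?_, ?_⟩
  · simp only [P, kfS_chart A hJ r d σ c hcb]
    exact (hloc i k).trans (mul_le_mul_of_nonneg_right (by linarith) hg)
  have hsplit : antiP j P i k = antiP j (P - G • dualBiv U W) i k + G * antiP j (dualBiv U W) i k := by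
    simp only [antiP, Matrix.mul_sub, Matrix.sub_mul, Matrix.mul_smul, Matrix.smul_mul,
      Matrix.smul_apply, Matrix.sub_apply, smul_eq_mul]
    ring
  have hline : antiP j (dualBiv U W) = antiP j (dualBiv U (W - j *ᵥ U)) := by
    have e : dualBiv U W = lineForm j U + dualBiv U (W - j *ᵥ U) := by
      ext a b; fin_cases a <;> fin_cases b <;> simp [lineForm_eq, dualBiv] <;> ring
    have h0 := antiP_lineForm hj2 U
    rw [e]
    simp only [antiP, Matrix.mul_add, Matrix.add_mul] at h0 ⊢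
    rw [add_sub_add_comm, smul_add, h0, zero_add]
  have h1 : |antiP j (P - G • dualBiv U W) i k| ≤ T * (E * (σ * g)) := by
    refine abs_antiP_le hB (fun a b => (hdiff a b).trans ?_) i k
    refine mul_le_mul_of_nonneg_left (mul_le_mul_of_nonneg_right ?_ hg) hE
    rw [sq]; exact mul_le_of_le_one_left hσ.le hσ1
  have h2 : |G * antiP j (dualBiv U W) i k| ≤ T * (2 * C₁ * C₁) * (E * (σ * g)) := by
    have hG0 : 0 ≤ G := gco_nonneg A c r d σ x p.1
    rw [hline, abs_mul, abs_of_nonneg hG0]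
    have := abs_antiP_le hB (fun a b => (abs_dualBiv_le U (W - j *ᵥ U) a b).trans
      (mul_le_mul (mul_le_mul_of_nonneg_left hU zero_le_two) hWa (norm_nonneg _) (by positivity))) i k
    refine (mul_le_mul_of_nonneg_left this hG0).trans ?_
    calc G * ((1 + 16 * C₁ ^ 2) * (2 * C₁ * (C₁ * ‖x - p.1‖)))
        = T * (2 * C₁ * C₁) * (G * ‖x - p.1‖) := by simp only [T]; ring
      _ ≤ _ := mul_le_mul_of_nonneg_left hgρ (by positivity)
  rw [hsplit]
  refine (abs_add_le _ _).trans ((add_le_add h1 h2).trans ?_)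
  have n3 : 0 ≤ (E + 16 * L ^ 2 * E) * (σ * g) := by positivity
  nlinarith

/-- The wedge product with the kernel against the weighted line. -/
theorem exists_main : ∃ C : ℝ, 0 ≤ C ∧ ∀ σ, 0 < σ → σ ≤ 1 → ∀ x ∈ A.X, ∀ p ∈ A.unitTan,
    ∀ M : MN N, Mᵀ = -M →
      |A.wedgePt x (kfS A r d σ J x p) M - wS A r d σ x p.1 * lineVal A J x p M|
        ≤ C * (σ ^ 2 * gauss (c₀ / 8) σ x p.1) * A.sN x M := by
  obtain ⟨E, hE, herr⟩ := exists_chart_err A hJ hG
  obtain ⟨a, b, B, ha, hb, hbd⟩ := exists_chart_bounds A hJ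
  refine ⟨(K : ℝ) * (24 * E / a), by positivity, fun σ hσ hσ1 x hx p hp M hM => ?_⟩
  set g := gauss (c₀ / 8) σ x p.1
  have hg : 0 ≤ g := gauss_nonneg _ _ _ _
  have hs := A.sN_nonneg x M
  simp only [Atlas.wedgePt, wS_eq, Finset.sum_mul, ← Finset.sum_sub_distrib]
  refine (Finset.abs_sum_le_sum_abs _ _).trans ((Finset.sum_le_sum
    (g := fun _ => 24 * E / a * (σ ^ 2 * g) * A.sN x M) fun c _ => ?_).trans_eq (by simp; ring))
  rcases eq_or_ne (A.chi c x) 0 with h | h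
  · simp [h]; positivity
  have hcb := A.supp_box hx h
  obtain ⟨-, hdiff, -, -, -⟩ := herr σ hσ hσ1 x hx p hp c h
  have hden : a ≤ A.dens c (A.phi c x) := by
    obtain ⟨q, hq, rfl⟩ := A.chi_supp c x hx h
    rw [A.phi_psi c (closedBall_subset_box hq)]
    exact (hbd c q hq).1
  set χ := A.chi c x
  set D := A.dens c (A.phi c x)
  set P := A.pullAt c (kfS A r d σ J x p) (A.phi c x)
  set Q := A.pullAt c M (A.phi c x)
  set G := gco A c r d σ x p.1
  set Fl := dualBiv (pim A c (A.phi c x) *ᵥ p.2) (pim A c (A.phi c x) *ᵥ (J p.1 *ᵥ p.2))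
  have e : χ * (wedge P Q / D) - χ * (G / D) * lineVal A J x p M =
      χ * (wedge (P - G • Fl) Q / D) := by
    have h1 : lineVal A J x p M = wedge Fl Q := by
      rw [lineVal_chart A J c hcb p hM, wedge_dualBiv_left]
    rw [h1]
    simp only [wedge, Matrix.sub_apply, Matrix.smul_apply, smul_eq_mul]
    ring
  rw [e]
  have hχ0 : 0 ≤ χ := A.chi_nonneg c x
  have hχ1 : χ ≤ 1 := chi_le_one A c hx
  have hD : 0 < D := ha.trans_le hden
  have hQ : χ * Real.sqrt (sq2 Q) ≤ A.sN x M := by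
    rw [← A.sqrt_sqX]
    refine le_trans ?_ (Real.sqrt_le_sqrt (chi_sq_le_sqX A c x M))
    rw [Real.sqrt_mul hχ0]
    exact mul_le_mul_of_nonneg_right (Real.le_sqrt_of_sq_le (by nlinarith)) (Real.sqrt_nonneg _)
  rw [abs_mul, abs_of_nonneg hχ0, abs_div, abs_of_pos hD]
  calc χ * (|wedge (P - G • Fl) Q| / D)
      ≤ χ * (6 * (4 * (E * (σ ^ 2 * g))) * Real.sqrt (sq2 Q) / a) := by
        refine mul_le_mul_of_nonneg_left (div_le_div₀ (by positivity) ((abs_wedge_le _ _).trans ?_)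
          ha hden) hχ0
        exact mul_le_mul_of_nonneg_right (mul_le_mul_of_nonneg_left (sqrt_sq2_le hdiff) (by norm_num))
          (Real.sqrt_nonneg _)
    _ = 24 * E / a * (σ ^ 2 * g) * (χ * Real.sqrt (sq2 Q)) := by ring
    _ ≤ _ := mul_le_mul_of_nonneg_left hQ (by positivity)

/-- The weight, and the value of one kernel on a line. -/
theorem exists_weight : ∃ c C : ℝ, 0 < c ∧ 0 ≤ C ∧ ∀ σ, 0 < σ → σ ≤ 1 → ∀ x ∈ A.X,
    ∀ p ∈ A.unitTan,
      0 ≤ wS A r d σ x p.1 ∧ wS A r d σ x p.1 ≤ C * gauss (c₀ / 8) σ x p.1 ∧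
      wS A r d σ x p.1 * ‖x - p.1‖ ^ 2 ≤ C * (σ ^ 2 * gauss (c₀ / 8) σ x p.1) ∧
      ∀ p' ∈ A.unitTan,
        wS A r d σ x p.1 * (c * A.offX J p.1 p.2 p'.2 - C * ‖x - p'.1‖ ^ 2)
            - C * (σ ^ 2 * gauss (c₀ / 8) σ x p.1)
          ≤ lineVal A J x p' (kfS A r d σ J x p) := by
  obtain ⟨C₁, hC1, hfr⟩ := exists_frame_bounds A hJ
  obtain ⟨E, hE, herr⟩ := exists_chart_err A hJ hG
  obtain ⟨a, b, B, ha, hb, hbd⟩ := exists_chart_bounds A hJ
  obtain ⟨cl, Cl, hcl, hCl, hline⟩ := exists_line_lower A hJ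
  set C := E / a + b * Cl + 12 * E * C₁ * C₁ + Cl * E
  refine ⟨a * cl, C, by positivity, by positivity, fun σ hσ hσ1 x hx p hp => ?_⟩
  set g := gauss (c₀ / 8) σ x p.1
  have hg : 0 ≤ g := gauss_nonneg _ _ _ _
  have hC1' : 0 ≤ C₁ := zero_le_one.trans hC1
  have n1 : 0 ≤ E / a := by positivity
  have n2 : 0 ≤ b * Cl := by positivity
  have n3 : 0 ≤ 12 * E * C₁ * C₁ := by positivity
  have n4 : 0 ≤ Cl * E := by positivity
  have hden : ∀ c, A.chi c x ≠ 0 → a ≤ A.dens c (A.phi c x) ∧ A.dens c (A.phi c x) ≤ b := by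
    intro c h
    obtain ⟨q, hq, rfl⟩ := A.chi_supp c x hx h
    rw [A.phi_psi c (closedBall_subset_box hq)]
    exact ⟨(hbd c q hq).1, (hbd c q hq).2.1⟩
  have hterm : ∀ c (t u : ℝ), 0 ≤ u → 0 ≤ t → (A.chi c x ≠ 0 → gco A c r d σ x p.1 * u ≤ t) →
      A.chi c x * (gco A c r d σ x p.1 / A.dens c (A.phi c x)) * u ≤ A.chi c x * (t / a) := by
    intro c t u hu ht h1
    rcases eq_or_ne (A.chi c x) 0 with h | h
    · simp [h]
    rw [mul_assoc, div_mul_eq_mul_div]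
    exact mul_le_mul_of_nonneg_left (div_le_div₀ ht (h1 h) ha (hden c h).1) (A.chi_nonneg c x)
  refine ⟨?_, ?_, ?_, fun p' hp' => ?_⟩
  · rw [wS_eq]
    refine Finset.sum_nonneg fun c _ => ?_
    rcases eq_or_ne (A.chi c x) 0 with h | h
    · simp [h]
    exact mul_nonneg (A.chi_nonneg c x) (div_nonneg (gco_nonneg A c r d σ x p.1) (ha.le.trans (hden c h).1))
  · rw [wS_eq]
    refine (Finset.sum_le_sum (g := fun c => A.chi c x * (E * g / a)) fun c _ => ?_).trans ?_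
    · have := hterm c (E * g) 1 zero_le_one (by positivity) fun h => by
        rw [mul_one]; exact (herr σ hσ hσ1 x hx p hp c h).2.2.1
      simpa using this
    · rw [← Finset.sum_mul, A.chi_sum x hx, one_mul, mul_div_right_comm]
      exact mul_le_mul_of_nonneg_right (by simp only [C]; linarith) hg
  · rw [wS_eq, Finset.sum_mul]
    refine (Finset.sum_le_sum (g := fun c => A.chi c x * (E * (σ ^ 2 * g) / a)) fun c _ =>
      hterm c _ _ (sq_nonneg _) (by positivity) fun h => (herr σ hσ hσ1 x hx p hp c h).2.2.2.2).trans ?_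
    rw [← Finset.sum_mul, A.chi_sum x hx, one_mul, mul_div_right_comm]
    exact mul_le_mul_of_nonneg_right (by simp only [C]; linarith) (by positivity)
  set X := A.offX J p.1 p.2 p'.2
  have hX : 0 ≤ X := Atlas.offX_nonneg hJ hp.2.1 _
  set R := ‖x - p'.1‖ ^ 2
  have hR : 0 ≤ R := sq_nonneg _
  set V := lineVal A J x p' (kfS A r d σ J x p)
  have key : ∀ c, A.chi c x * ((gco A c r d σ x p.1 / A.dens c (A.phi c x)) * (a * cl * X - C * R)
      - C * (σ ^ 2 * g)) ≤ A.chi c x * V := by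
    intro c
    rcases eq_or_ne (A.chi c x) 0 with h | h
    · simp [h]
    refine mul_le_mul_of_nonneg_left ?_ (A.chi_nonneg c x)
    have hcb := A.supp_box hx h
    obtain ⟨-, hdiff, -, -, hg2⟩ := herr σ hσ hσ1 x hx p hp c h
    obtain ⟨hU', hW', -⟩ := hfr x hx c h p' hp'
    obtain ⟨hda, hdb⟩ := hden c h
    have hd0 : 0 < A.dens c (A.phi c x) := ha.trans_le hda
    set G := gco A c r d σ x p.1
    set D := A.dens c (A.phi c x)
    set P := A.pullAt c (kfS A r d σ J x p) (A.phi c x)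
    set Fl := dualBiv (pim A c (A.phi c x) *ᵥ p.2) (pim A c (A.phi c x) *ᵥ (J p.1 *ᵥ p.2))
    set U' := pim A c (A.phi c x) *ᵥ p'.2
    set W' := pim A c (A.phi c x) *ᵥ (J p'.1 *ᵥ p'.2)
    have hV : V = G * det4 (pim A c (A.phi c x) *ᵥ p.2) (pim A c (A.phi c x) *ᵥ (J p.1 *ᵥ p.2)) U' W'
        + ev2 (P - G • Fl) U' W' := by
      rw [det4_swap U' W', det4_eq]
      show lineVal A J x p' _ = _
      rw [lineVal_chart A J c hcb p' (kfS_skew A r d σ J x p)]
      simp only [ev2, P, G, Fl, U', W', Matrix.sub_apply, Matrix.smul_apply, smul_eq_mul]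
      ring
    have h1 := abs_le.1 ((abs_ev2_le hdiff U' W').trans
      (show _ ≤ 12 * (E * (σ ^ 2 * g)) * C₁ * C₁ by gcongr))
    have h2 := mul_le_mul_of_nonneg_left (hline x hx c h p' hp' p hp) (gco_nonneg A c r d σ x p.1)
    have hGD : 0 ≤ G / D := div_nonneg (gco_nonneg A c r d σ x p.1) hd0.le
    have hGeq : G / D * D = G := div_mul_cancel₀ _ hd0.ne'
    have h3 : G / D * (a * cl * X) ≤ G * (cl * X) := by
      calc G / D * (a * cl * X) ≤ G / D * (D * (cl * X)) := by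
            refine mul_le_mul_of_nonneg_left ?_ hGD
            rw [mul_assoc]; exact mul_le_mul_of_nonneg_right hda (by positivity)
        _ = _ := by rw [← mul_assoc, hGeq]
    have h4 : G * (Cl * R) ≤ G / D * (C * R) := by
      calc G * (Cl * R) = G / D * (D * (Cl * R)) := by rw [← mul_assoc (G / D) D, hGeq]
        _ ≤ _ := by
          refine mul_le_mul_of_nonneg_left ?_ hGD
          rw [← mul_assoc]
          refine mul_le_mul_of_nonneg_right ((mul_le_mul_of_nonneg_right hdb hCl).trans ?_) hR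
          simp only [C]; linarith
    have h5 : G * (Cl * ‖x - p.1‖ ^ 2) ≤ Cl * (E * (σ ^ 2 * g)) := by
      rw [mul_left_comm]; exact mul_le_mul_of_nonneg_left hg2 hCl
    have h6 : 0 ≤ (E / a + b * Cl) * (σ ^ 2 * g) := by positivity
    rw [hV]
    simp only [C, X, R] at h3 h4 h5 ⊢
    nlinarith
  have := Finset.sum_le_sum fun c (_ : c ∈ Finset.univ) => key c
  rw [← Finset.sum_mul, A.chi_sum x hx, one_mul] at this
  refine le_trans (le_of_eq ?_) this
  simp only [mul_sub, Finset.sum_sub_distrib, ← Finset.sum_mul, wS_eq, A.chi_sum x hx, one_mul,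
    ← mul_assoc]

end Vale.Agent.P204.Kernel
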