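import Mathlib
import Vale.Agent.P204.Kernel.PointSigma
import Vale.Agent.P204.Kernel.Density.Subord

/-!
# P204: superposition of the line kernels over the widths
-/

open MeasureTheory Matrix Filter Set
open scoped ContDiff Topology

namespace Vale.Agent.P204.Kernel

open Vale.Agent.P204.General Vale.Agent.P204.Torus

variable {N K : ℕ} (A : Atlas N K) {J : Amb N → MN N} {r d c₀ C₀ : ℝ}

theorem width_unit {ε t : ℝ} (hε : 0 < ε) (hε1 : ε ≤ 1) (ht : 0 < t) (ht1 : t ≤ 1 / ε) :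
    0 < ε * Real.sqrt t ∧ ε * Real.sqrt t ≤ 1 := by
  have h := sigma_sq_le hε ht ht1
  have h0 : 0 < ε * Real.sqrt t := mul_pos hε (Real.sqrt_pos.2 ht)
  exact ⟨h0, by nlinarith⟩

/-- Superposition of Gaussian bounds. -/
theorem exists_sup_bound {a : ℝ} (ha : 0 < a) (k : ℕ) : ∃ C : ℝ, 0 ≤ C ∧
    ∀ ε B : ℝ, 0 < ε → ε ≤ 1 → 0 ≤ B → ∀ (x z : Amb N) (f : ℝ → ℝ),
      (∀ σ, 0 < σ → σ ≤ 1 → |f σ| ≤ B * (σ ^ k * gauss a σ x z)) → Measurable f →
      |∫ t, omW ε t * f (ε * Real.sqrt t)| ≤ B * C * ε ^ k * kern ε ‖x - z‖ ∧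
        Integrable fun t => omW ε t * f (ε * Real.sqrt t) := by
  obtain ⟨C, hC, hO⟩ := exists_omW_bound ha k
  refine ⟨C, hC, fun ε B hε hε1 hB x z f hf hfm => ?_⟩
  obtain ⟨h1, h2⟩ := hO ε ‖x - z‖ B hε (norm_nonneg _) hB (fun t => f (ε * Real.sqrt t))
    fun t ht ht1 => by
      obtain ⟨h0, h1⟩ := width_unit hε hε1 ht ht1
      refine (hf _ h0 h1).trans_eq ?_
      have hs : (ε * Real.sqrt t) ^ 2 = ε ^ 2 * t := by rw [mul_pow, Real.sq_sqrt ht.le]
      rw [gauss, norm_sub_rev z x, hs]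
      ring
  exact ⟨h1, h2 (hfm.comp ((Real.continuous_sqrt.measurable).const_mul ε)).aestronglyMeasurable⟩

/-- Monotonicity of the superposition. -/
theorem omW_mono {ε : ℝ} (hε : 0 < ε) (hε1 : ε ≤ 1) {f g : ℝ → ℝ}
    (hf : Integrable fun t => omW ε t * f (ε * Real.sqrt t))
    (hg : Integrable fun t => omW ε t * g (ε * Real.sqrt t))
    (h : ∀ σ, 0 < σ → σ ≤ 1 → f σ ≤ g σ) :
    ∫ t, omW ε t * f (ε * Real.sqrt t) ≤ ∫ t, omW ε t * g (ε * Real.sqrt t) := by
  refine integral_mono hf hg fun t => ?_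
  by_cases ht : t ∈ Ioc 0 (1 / ε)
  · obtain ⟨h0, h1⟩ := width_unit hε hε1 ht.1 ht.2
    exact mul_le_mul_of_nonneg_left (h _ h0 h1) (omW_nonneg ε t)
  · rw [omW, indicator_of_notMem ht]; simp

theorem omW_integral_nonneg {ε : ℝ} (hε : 0 < ε) (hε1 : ε ≤ 1) {f : ℝ → ℝ}
    (h : ∀ σ, 0 < σ → σ ≤ 1 → 0 ≤ f σ) : 0 ≤ ∫ t, omW ε t * f (ε * Real.sqrt t) := by
  refine integral_nonneg fun t => ?_
  by_cases ht : t ∈ Ioc 0 (1 / ε)
  · obtain ⟨h0, h1⟩ := width_unit hε hε1 ht.1 ht.2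
    exact mul_nonneg (omW_nonneg ε t) (h _ h0 h1)
  · rw [omW, indicator_of_notMem ht]; simp

theorem measurable_kfS (r d : ℝ) (J : Amb N → MN N) (x : Amb N) (p : Amb N × Amb N) (i k : Fin N) :
    Measurable fun σ => kfS A r d σ J x p i k := by
  have h : ∀ c a b, Measurable fun σ => loc22 A c r d σ (A.phi c x) p.1 p.2 (J p.1 *ᵥ p.2) a b :=
    fun c a b => by
      have h1 := measurable_loc22 A c r d (A.phi c x) p.2 (J p.1 *ᵥ p.2) a b
      have h2 : Measurable fun σ : ℝ => (σ, p.1) := measurable_id.prodMk measurable_const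
      have h3 := h1.comp h2
      exact h3
  simp only [kfS, kk, Atlas.push, Matrix.sum_apply, Matrix.smul_apply, Matrix.mul_apply,
    Matrix.transpose_apply, smul_eq_mul]
  exact Finset.measurable_fun_sum _ fun c _ => (Finset.measurable_fun_sum _ fun b _ =>
    (Finset.measurable_fun_sum _ fun a _ => (h c a b).const_mul _).mul_const _).const_mul _

theorem measurable_wS (r d : ℝ) (x y : Amb N) : Measurable fun σ => wS A r d σ x y := by
  simp only [wS_eq, gco]
  exact Finset.measurable_fun_sum _ fun c _ => (((((measurable_gProf d).comp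
    (measurable_id.prodMk measurable_const)).const_mul _).mul_const _).div_const _).const_mul _

theorem linear_expand (ℓ : MN N →ₗ[ℝ] ℝ) (M : MN N) :
    ℓ M = ∑ i, ∑ k, M i k * ℓ (Matrix.single i k 1) := by
  conv_lhs => rw [matrix_eq_sum_single M]
  rw [map_sum]
  refine Finset.sum_congr rfl fun i _ => ?_
  rw [map_sum]
  refine Finset.sum_congr rfl fun k _ => ?_
  rw [← smul_eq_mul, ← map_smul, Matrix.smul_single, smul_eq_mul, mul_one]

/-- The coefficient of a form value in a chart. -/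
noncomputable def pullLin (c : Fin K) (q : Pt) (i k : Fin 4) : MN N →ₗ[ℝ] ℝ where
  toFun M := A.pullAt c M q i k
  map_add' M M' := by simp [Atlas.pullAt, Matrix.mul_add, Matrix.add_mul]
  map_smul' t M := by simp [Atlas.pullAt, Matrix.mul_smul, Matrix.smul_mul]

/-- The anti-invariant coefficient in a chart. -/
noncomputable def antiLin (j : M4) (c : Fin K) (q : Pt) (i k : Fin 4) : MN N →ₗ[ℝ] ℝ where
  toFun M := antiP j (A.pullAt c M q) i k
  map_add' M M' := by
    simp only [antiP, Atlas.pullAt, Matrix.mul_add, Matrix.add_mul, Matrix.smul_apply,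
      Matrix.sub_apply, Matrix.add_apply, smul_eq_mul]
    ring
  map_smul' t M := by
    simp only [antiP, Atlas.pullAt, Matrix.mul_smul, Matrix.smul_mul, Matrix.smul_apply,
      Matrix.sub_apply, smul_eq_mul, RingHom.id_apply]
    ring

/-- The wedge product with a fixed form value. -/
noncomputable def wedgeLin (x : Amb N) (P : MN N) : MN N →ₗ[ℝ] ℝ where
  toFun M := A.wedgePt x M P
  map_add' M M' := A.wedgePt_add_left x M M' P
  map_smul' t M := by simp [A.wedgePt_smul_left]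

/-- The value on a line. -/
noncomputable def valLin (J : Amb N → MN N) (x : Amb N) (p : Amb N × Amb N) : MN N →ₗ[ℝ] ℝ where
  toFun M := lineVal A J x p M
  map_add' M M' := by simp only [lineVal, Matrix.add_mulVec, dotProduct_add]
  map_smul' t M := by simp only [lineVal, Matrix.smul_mulVec, dotProduct_smul, smul_eq_mul, RingHom.id_apply]

variable (hJ : IsACS A J) (hG : GoodR A r d c₀ C₀)
include hJ hG

/-- Linear functions pass through the superposition. -/
theorem kfE_linear : ∀ ε, 0 < ε → ε ≤ 1 → ∀ x ∈ A.X, ∀ p ∈ A.unitTan, ∀ ℓ : MN N →ₗ[ℝ] ℝ,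
    Integrable (fun t => omW ε t * ℓ (kfS A r d (ε * Real.sqrt t) J x p)) ∧
      ℓ (kfE A r d ε J x p) = ∫ t, omW ε t * ℓ (kfS A r d (ε * Real.sqrt t) J x p) ∧
      Measurable fun σ => ℓ (kfS A r d σ J x p) := by
  intro ε hε hε1 x hx p hp ℓ
  obtain ⟨S, hS0, hS⟩ := exists_size A hJ hG
  obtain ⟨U, -, hU⟩ := exists_sup_bound (N := N) (a := c₀ / 8) (by linarith [hG.c_pos]) 0
  have hm := measurable_kfS A r d J x p
  have hi : ∀ i k, Integrable fun t => omW ε t * kfS A r d (ε * Real.sqrt t) J x p i k := fun i k =>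
    (hU ε S hε hε1 hS0 x p.1 (fun σ => kfS A r d σ J x p i k)
      (fun σ h0 h1 => by rw [pow_zero, one_mul]; exact (hS σ h0 h1 x hx p hp).1 i k) (hm i k)).2
  have e : (fun t => omW ε t * ℓ (kfS A r d (ε * Real.sqrt t) J x p)) = fun t =>
      ∑ i, ∑ k, omW ε t * kfS A r d (ε * Real.sqrt t) J x p i k * ℓ (Matrix.single i k 1) := by
    funext t
    rw [linear_expand ℓ, Finset.mul_sum]
    simp only [Finset.mul_sum, mul_assoc]
  refine ⟨?_, ?_, ?_⟩
  · rw [e]
    exact integrable_finsetSum _ fun i _ => integrable_finsetSum _ fun k _ => (hi i k).mul_const _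
  · rw [e, linear_expand ℓ, integral_finsetSum _ fun i _ =>
      integrable_finsetSum _ fun k _ => (hi i k).mul_const _]
    refine Finset.sum_congr rfl fun i _ => ?_
    rw [integral_finsetSum _ fun k _ => (hi i k).mul_const _]
    refine Finset.sum_congr rfl fun k _ => ?_
    rw [integral_mul_const]
    rfl
  · simp only [linear_expand ℓ (kfS A r d _ J x p)]
    exact Finset.measurable_fun_sum _ fun i _ =>
      Finset.measurable_fun_sum _ fun k _ => (hm i k).mul_const _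

/-- The size of the kernel of width `ε`, and of its anti-invariant part. -/
theorem exists_sizeE : ∃ C : ℝ, 0 ≤ C ∧ ∀ ε, 0 < ε → ε ≤ 1 → ∀ x ∈ A.X, ∀ p ∈ A.unitTan,
    A.sqX x (kfE A r d ε J x p) ≤ (C * kern ε ‖x - p.1‖) ^ 2 ∧
      A.sqX x (antiX J x (kfE A r d ε J x p)) ≤ (C * ε * kern ε ‖x - p.1‖) ^ 2 := by
  obtain ⟨S, hS0, hS⟩ := exists_size A hJ hG
  have ha : 0 < c₀ / 8 := by linarith [hG.c_pos]
  obtain ⟨U₀, hU0, hU₀⟩ := exists_sup_bound (N := N) ha 0
  obtain ⟨U₁, hU1, hU₁⟩ := exists_sup_bound (N := N) ha 1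
  refine ⟨4 * S * (U₀ + U₁), by positivity, fun ε hε hε1 x hx p hp => ?_⟩
  have hk := kern_nonneg ε ‖x - p.1‖
  have hlin := kfE_linear A hJ hG ε hε hε1 x hx p hp
  have hsum : ∀ (M : MN N) (t : ℝ),
      (∀ c, A.chi c x ≠ 0 → ∀ i k, |A.pullAt c M (A.phi c x) i k| ≤ t) →
      A.sqX x M ≤ (4 * t) ^ 2 := by
    intro M t h
    refine (Finset.sum_le_sum (g := fun c => A.chi c x * (4 * t) ^ 2) fun c _ => ?_).trans ?_
    · rcases eq_or_ne (A.chi c x) 0 with h0 | h0
      · simp [h0]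
      refine mul_le_mul_of_nonneg_left ?_ (A.chi_nonneg c x)
      have hb := h c h0
      have h2 := sqrt_sq2_le hb
      exact (Real.sqrt_le_left (by have := (abs_nonneg _).trans (hb 0 0); positivity)).1 h2
    · rw [← Finset.sum_mul, A.chi_sum x hx, one_mul]
  constructor
  · refine (hsum _ (S * U₀ * kern ε ‖x - p.1‖) fun c hc i k => ?_).trans ?_
    · have h := hlin (pullLin A c (A.phi c x) i k)
      have hb := (hU₀ ε S hε hε1 hS0 x p.1 (fun σ => pullLin A c (A.phi c x) i k (kfS A r d σ J x p))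
        (fun σ h0 h1 => by rw [pow_zero, one_mul]; exact ((hS σ h0 h1 x hx p hp).2 c hc i k).1) h.2.2).1
      rw [← h.2.1, pow_zero, mul_one] at hb
      exact hb
    · refine pow_le_pow_left₀ (by positivity) ?_ 2
      have : 0 ≤ 4 * S * U₁ * kern ε ‖x - p.1‖ := by positivity
      nlinarith
  · refine (hsum _ (S * U₁ * ε * kern ε ‖x - p.1‖) fun c hc i k => ?_).trans ?_
    · have h := hlin (antiLin A (A.jc J c (A.phi c x)) c (A.phi c x) i k)
      have hb := (hU₁ ε S hε hε1 hS0 x p.1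
        (fun σ => antiLin A (A.jc J c (A.phi c x)) c (A.phi c x) i k (kfS A r d σ J x p))
        (fun σ h0 h1 => by rw [pow_one]; exact ((hS σ h0 h1 x hx p hp).2 c hc i k).2) h.2.2).1
      rw [← h.2.1, pow_one] at hb
      rw [Atlas.pull_antiX hJ hx hc]
      exact hb
    · refine pow_le_pow_left₀ (by positivity) ?_ 2
      have : 0 ≤ 4 * S * U₀ * ε * kern ε ‖x - p.1‖ := by positivity
      nlinarith

/-- The main term, the weight, and the value on a line, at width `ε`. -/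
theorem exists_mainE : ∃ c C : ℝ, 0 < c ∧ 0 ≤ C ∧ ∀ ε, 0 < ε → ε ≤ 1 → ∀ x ∈ A.X, ∀ p ∈ A.unitTan,
    0 ≤ wE A r d ε x p.1 ∧ wE A r d ε x p.1 ≤ C * kern ε ‖x - p.1‖ ∧
      wE A r d ε x p.1 * ‖x - p.1‖ ^ 2 ≤ C * ε ^ 2 * kern ε ‖x - p.1‖ ∧
      (∀ M : MN N, Mᵀ = -M → |A.wedgePt x (kfE A r d ε J x p) M - wE A r d ε x p.1 * lineVal A J x p M|
        ≤ C * ε ^ 2 * kern ε ‖x - p.1‖ * A.sN x M) ∧
      ∀ p' ∈ A.unitTan, wE A r d ε x p.1 * (c * A.offX J p.1 p.2 p'.2 - C * ‖x - p'.1‖ ^ 2)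
          - C * ε ^ 2 * kern ε ‖x - p.1‖ ≤ lineVal A J x p' (kfE A r d ε J x p) := by
  obtain ⟨E, hE0, hE⟩ := exists_main A hJ hG
  obtain ⟨cw, W, hcw, hW0, hW⟩ := exists_weight A hJ hG
  have ha : 0 < c₀ / 8 := by linarith [hG.c_pos]
  obtain ⟨U₀, hU0, hU₀⟩ := exists_sup_bound (N := N) ha 0
  obtain ⟨U₂, hU2, hU₂⟩ := exists_sup_bound (N := N) ha 2
  refine ⟨cw, W + W * U₀ + W * U₂ + E * U₂, hcw, by positivity, fun ε hε hε1 x hx p hp => ?_⟩
  set k := kern ε ‖x - p.1‖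
  have hk : 0 ≤ k := kern_nonneg _ _
  set C := W + W * U₀ + W * U₂ + E * U₂
  have n0 : 0 ≤ W * U₀ := by positivity
  have n2 : 0 ≤ W * U₂ := by positivity
  have n3 : 0 ≤ E * U₂ := by positivity
  have hlin := kfE_linear A hJ hG ε hε hε1 x hx p hp
  have hwm := measurable_wS A r d x p.1
  obtain ⟨hwb, hwi⟩ := hU₀ ε W hε hε1 hW0 x p.1 (fun σ => wS A r d σ x p.1) (fun σ h0 h1 => by
    obtain ⟨h2, h3, -⟩ := hW σ h0 h1 x hx p hp
    rw [pow_zero, one_mul, abs_of_nonneg h2]; exact h3) hwm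
  have hwR : wE A r d ε x p.1 = ∫ t, omW ε t * wS A r d (ε * Real.sqrt t) x p.1 := rfl
  refine ⟨?_, ?_, ?_, fun M hM => ?_, fun p' hp' => ?_⟩
  · rw [hwR]
    exact omW_integral_nonneg hε hε1 (f := fun σ => wS A r d σ x p.1) fun σ h0 h1 =>
      (hW σ h0 h1 x hx p hp).1
  · rw [hwR]
    refine (le_abs_self _).trans (hwb.trans ?_)
    rw [pow_zero, mul_one]
    exact mul_le_mul_of_nonneg_right (by simp only [C]; linarith) hk
  · rw [hwR, ← integral_mul_const]
    simp only [mul_assoc (omW ε _)]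
    refine (le_abs_self _).trans ((hU₂ ε W hε hε1 hW0 x p.1
      (fun σ => wS A r d σ x p.1 * ‖x - p.1‖ ^ 2) (fun σ h0 h1 => ?_) (hwm.mul_const _)).1.trans ?_)
    · obtain ⟨h2, -, h3, -⟩ := hW σ h0 h1 x hx p hp
      rw [abs_of_nonneg (mul_nonneg h2 (sq_nonneg _))]; exact h3
    · exact mul_le_mul_of_nonneg_right (mul_le_mul_of_nonneg_right (by simp only [C]; linarith)
        (sq_nonneg ε)) hk
  · obtain ⟨hi, heq, hm⟩ := hlin (wedgeLin A x M)
    set v := lineVal A J x p M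
    have hs := A.sN_nonneg x M
    obtain ⟨hb, -⟩ := hU₂ ε (E * A.sN x M) hε hε1 (by positivity) x p.1
      (fun σ => wedgeLin A x M (kfS A r d σ J x p) - wS A r d σ x p.1 * v)
      (fun σ h0 h1 => (hE σ h0 h1 x hx p hp M hM).trans_eq (by ring)) (hm.sub (hwm.mul_const _))
    have e : A.wedgePt x (kfE A r d ε J x p) M - wE A r d ε x p.1 * v = ∫ t, omW ε t *
        (wedgeLin A x M (kfS A r d (ε * Real.sqrt t) J x p) - wS A r d (ε * Real.sqrt t) x p.1 * v) := by
      simp only [mul_sub, ← mul_assoc]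
      rw [integral_sub hi (hwi.mul_const v), integral_mul_const, ← hwR, ← heq]
      rfl
    rw [e]
    refine hb.trans ?_
    calc E * A.sN x M * U₂ * ε ^ 2 * k = E * U₂ * ε ^ 2 * k * A.sN x M := by ring
      _ ≤ _ := by gcongr; simp only [C]; linarith
  · obtain ⟨hi, heq, -⟩ := hlin (valLin A J x p')
    obtain ⟨hgb, hgi⟩ := hU₂ ε W hε hε1 hW0 x p.1 (fun σ => W * (σ ^ 2 * gauss (c₀ / 8) σ x p.1))
      (fun σ h0 h1 => by rw [abs_of_nonneg (mul_nonneg hW0 (mul_nonneg (sq_nonneg _) (gauss_nonneg _ _ _ _)))])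
      (by unfold gauss; fun_prop)
    set Q := cw * A.offX J p.1 p.2 p'.2 - W * ‖x - p'.1‖ ^ 2
    have hleft : Integrable fun t => omW ε t * (wS A r d (ε * Real.sqrt t) x p.1 * Q -
        W * ((ε * Real.sqrt t) ^ 2 * gauss (c₀ / 8) (ε * Real.sqrt t) x p.1)) := by
      simp only [mul_sub, ← mul_assoc (omW ε _) _ Q]
      exact (hwi.mul_const Q).sub hgi
    have key := omW_mono hε hε1 (f := fun σ => wS A r d σ x p.1 * Q -
        W * (σ ^ 2 * gauss (c₀ / 8) σ x p.1)) (g := fun σ => valLin A J x p' (kfS A r d σ J x p))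
      hleft hi fun σ h0 h1 => (hW σ h0 h1 x hx p hp).2.2.2 p' hp'
    simp only [mul_sub, ← mul_assoc (omW ε _) _ Q] at key
    rw [integral_sub (hwi.mul_const Q) hgi, integral_mul_const, ← hwR, ← heq] at key
    refine le_trans ?_ (key.trans_eq rfl)
    have h1 := (le_abs_self _).trans hgb
    have hw0 : 0 ≤ wE A r d ε x p.1 := by
      rw [hwR]
      exact omW_integral_nonneg hε hε1 (f := fun σ => wS A r d σ x p.1) fun σ h0 h1 =>
        (hW σ h0 h1 x hx p hp).1
    have h2 : W * U₂ * ε ^ 2 * k ≤ C * ε ^ 2 * k := by gcongr; simp only [C]; linarith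
    have h3 : wE A r d ε x p.1 * (cw * A.offX J p.1 p.2 p'.2 - C * ‖x - p'.1‖ ^ 2) ≤
        wE A r d ε x p.1 * Q := by
      refine mul_le_mul_of_nonneg_left (sub_le_sub_left ?_ _) hw0
      exact mul_le_mul_of_nonneg_right (by simp only [C]; linarith) (sq_nonneg _)
    linarith

end Vale.Agent.P204.Kernel
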