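import Mathlib
import Vale.Agent.P204.Kernel.PointSup
import Vale.Agent.P204.General.VolLower
import Vale.Agent.P204.Kernel.Parts

/-!
# P204: the pointwise bounds of the line kernel and of the scalar weight
-/

open MeasureTheory Matrix Filter Set
open scoped ContDiff Topology

namespace Vale.Agent.P204.Kernel

open Vale.Agent.P204.General Vale.Agent.P204.Torus

variable {N K : ℕ} (A : Atlas N K) {J : Amb N → MN N} {r d c₀ C₀ : ℝ}

theorem exists_unit_at {y : Amb N} (hy : y ∈ A.X) : ∃ u, (y, u) ∈ A.unitTan := by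
  obtain ⟨c, -, p, hp, rfl⟩ := A.exists_chart hy
  have hpb := closedBall_subset_box hp
  set v := A.dmat c p *ᵥ Pi.single 0 (1 : ℝ)
  have hv : 0 < v ⬝ᵥ v := by
    refine lt_of_le_of_ne (Finset.sum_nonneg fun i _ => mul_self_nonneg _) fun h => ?_
    have h1 := A.L_mulVec_dmat c hpb (Pi.single 0 1)
    rw [show A.dmat c p *ᵥ Pi.single 0 (1 : ℝ) = 0 from dotProduct_self_eq_zero.1 h.symm,
      mulVec_zero] at h1
    simpa using congrFun h1 0
  refine ⟨(Real.sqrt (v ⬝ᵥ v))⁻¹ • v, A.psi_mem c p hpb,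
    A.isTan_smul _ (A.isTan_dmat c hpb _), ?_⟩
  show ((Real.sqrt (v ⬝ᵥ v))⁻¹ • v) ⬝ᵥ ((Real.sqrt (v ⬝ᵥ v))⁻¹ • v) = 1
  rw [smul_dotProduct, dotProduct_smul, smul_eq_mul, smul_eq_mul, ← mul_assoc, ← mul_inv,
    Real.mul_self_sqrt hv.le, inv_mul_cancel₀ hv.ne']

theorem kfE_skew (ε : ℝ) (J : Amb N → MN N) (x : Amb N) (p : Amb N × Amb N) :
    (kfE A r d ε J x p)ᵀ = -kfE A r d ε J x p := by
  ext i k
  simp only [kfE, Matrix.transpose_apply, Matrix.neg_apply, Matrix.of_apply, ← integral_neg]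
  refine integral_congr_ae (Eventually.of_forall fun t => ?_)
  have h := congrFun (congrFun (kfS_skew A r d (ε * Real.sqrt t) J x p) i) k
  simp only [Matrix.transpose_apply, Matrix.neg_apply] at h
  show omW ε t * _ = -(omW ε t * _)
  rw [h, mul_neg]

/-- The kernel has an integral bounded uniformly in the width. -/
theorem exists_kern_integral : ∃ C : ℝ, 0 ≤ C ∧ ∀ ε, 0 < ε → ∀ y : Amb N,
    ∫ x, kern ε ‖x - y‖ ∂A.vol ≤ C := by
  obtain ⟨Cv, hCv, hb⟩ := exists_vol_ball A
  have hA : 0 ≤ Cv + A.vol.real univ := add_nonneg hCv measureReal_nonneg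
  have G := geom_rD A le_rfl hCv hb
  refine ⟨128 * (Cv + A.vol.real univ), by positivity, fun ε hε y => ?_⟩
  refine le_trans ?_ (G.ker_vol hε y)
  have hc : Continuous fun x : Amb N => kern ε ‖x - y‖ := by
    unfold kern
    refine continuous_const.div (by fun_prop) fun x => ?_
    positivity
  refine integral_mono (integrable_of_continuousOn A hc.continuousOn) ?_ fun x => ?_
  · refine Integrable.of_bound ?_ (1 / ε ^ 4) (Eventually.of_forall fun x => ?_)
    · have : Continuous fun x : Amb N => Est.ker 3 ε (rD 1 y x) := by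
        unfold Est.ker rD
        refine continuous_const.div (by fun_prop) fun x => ?_
        positivity
      exact this.aestronglyMeasurable
    · rw [Real.norm_eq_abs, abs_of_nonneg (Est.ker_nonneg _ _ _)]
      exact Est.ker_le 3 hε _
  · show kern ε ‖x - y‖ ≤ _
    rw [norm_sub_rev]
    exact kern_le_ker3 hε zero_le_one y x

variable (hJ : IsACS A J) (hG : GoodR A r d c₀ C₀)
include hJ hG

theorem continuous_kfE : ∀ ε, 0 < ε → ε ≤ 1 → ∀ i k,
    Continuous fun z : A.X × A.unitTan => kfE A r d ε J z.1 z.2 i k := by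
  intro ε hε hε1 i k
  obtain ⟨S, hS0, hS⟩ := exists_size A hJ hG
  have ha : 0 < c₀ / 8 := by linarith [hG.c_pos]
  obtain ⟨U, -, hU⟩ := exists_sup_bound (N := N) ha 0
  obtain ⟨x₀, hx₀⟩ := A.nonempty
  obtain ⟨-, hbi⟩ := hU ε S hε hε1 hS0 x₀ x₀ (fun σ => S * gauss (c₀ / 8) σ x₀ x₀)
    (fun σ h0 h1 => by rw [pow_zero, one_mul, abs_of_nonneg (mul_nonneg hS0 (gauss_nonneg _ _ _ _))])
    (by unfold gauss; fun_prop)
  simp only [kfE, Matrix.of_apply]
  refine continuous_of_dominated (fun z => ?_) (fun z => Eventually.of_forall fun t => ?_) hbi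
    (Eventually.of_forall fun t => ?_)
  · exact ((measurable_omW ε).mul ((measurable_kfS A r d J z.1 z.2 i k).comp
      ((Real.continuous_sqrt.measurable).const_mul ε))).aestronglyMeasurable
  · by_cases ht : t ∈ Ioc 0 (1 / ε)
    · obtain ⟨h0, h1⟩ := width_unit hε hε1 ht.1 ht.2
      rw [Real.norm_eq_abs, abs_mul, abs_of_nonneg (omW_nonneg ε t)]
      refine mul_le_mul_of_nonneg_left (((hS _ h0 h1 _ z.1.2 _ z.2.2).1 i k).trans
        (mul_le_mul_of_nonneg_left ?_ hS0)) (omW_nonneg ε t)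
      simp only [gauss, sub_self, norm_zero]
      refine div_le_div_of_nonneg_right (Real.exp_le_exp.2 ?_) (by positivity)
      refine div_le_div_of_nonneg_right ?_ (sq_nonneg _)
      nlinarith [mul_nonneg ha.le (sq_nonneg ‖(z.2 : Amb N × Amb N).1 - (z.1 : Amb N)‖)]
    · rw [omW, indicator_of_notMem ht]; simp
  · refine continuous_const.mul ?_
    have hx : Continuous fun z : A.X × A.unitTan => (z.1 : Amb N) :=
      continuous_subtype_val.comp continuous_fst
    have hy : Continuous fun z : A.X × A.unitTan => (z.2 : Amb N × Amb N).1 :=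
      continuous_fst.comp (continuous_subtype_val.comp continuous_snd)
    have hu : Continuous fun z : A.X × A.unitTan => (z.2 : Amb N × Amb N).2 :=
      continuous_snd.comp (continuous_subtype_val.comp continuous_snd)
    have hJy : Continuous fun z : A.X × A.unitTan =>
        J (z.2 : Amb N × Amb N).1 *ᵥ (z.2 : Amb N × Amb N).2 := by
      have hJc : ∀ a b, Continuous fun z : A.X × A.unitTan => J (z.2 : Amb N × Amb N).1 a b :=
        fun a b => (Atlas.J_continuousOn hJ a b).comp_continuous hy fun z => z.2.2.1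
      refine continuous_pi fun a => ?_
      simp only [Matrix.mulVec, dotProduct]
      exact continuous_finsetSum _ fun b _ => (hJc a b).mul ((continuous_apply b).comp hu)
    exact (kk_continuousOn A r d (ε * Real.sqrt t) i k).comp_continuous
      (hx.prodMk (hy.prodMk (hu.prodMk hJy))) fun z => ⟨z.1.2, trivial⟩

theorem kfE_contX {ε : ℝ} (hε : 0 < ε) (hε1 : ε ≤ 1) {p : Amb N × Amb N} (hp : p ∈ A.unitTan)
    (c : Fin K) (i k : Fin 4) :
    ContinuousOn (fun q => A.pull c (fun x => kfE A r d ε J x p) q i k) box := by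
  have h : ∀ a b, ContinuousOn (fun q => kfE A r d ε J (A.psi c q) p a b) box := fun a b => by
    rw [continuousOn_iff_continuous_domRestrict]
    have hm : Continuous fun q : box => ((⟨A.psi c q, A.psi_mem c q q.2⟩, ⟨p, hp⟩) : A.X × A.unitTan) :=
      (Continuous.subtype_mk ((A.psi_cont c).comp continuous_subtype_val) _).prodMk continuous_const
    exact (continuous_kfE A hJ hG ε hε hε1 a b).comp hm
  have hD : ∀ a i, ContinuousOn (fun q => A.dmat c q a i) box := fun a i =>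
    (A.dmat_cont c a i).continuousOn
  simp only [Atlas.pull, A.pullAt_apply]
  exact continuousOn_finsetSum _ fun b _ => (continuousOn_finsetSum _ fun a _ =>
    (hD a i).mul (h a b)).mul (hD b k)

/-- The weight is large near the diagonal. -/
theorem exists_wE_lower : ∃ c ε₀ : ℝ, 0 < c ∧ 0 < ε₀ ∧ ε₀ ≤ 1 / 2 ∧ ∀ ε, 0 < ε → ε ≤ ε₀ →
    ∀ x ∈ A.X, ∀ p ∈ A.unitTan, ‖x - p.1‖ ≤ ε → c / ε ^ 4 ≤ wE A r d ε x p.1 := by
  obtain ⟨a, b, B, ha, hb, hbd⟩ := exists_chart_bounds A hJ
  obtain ⟨cw, W, -, hW0, hW⟩ := exists_weight A hJ hG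
  have hS : IsCompact (Metric.closedBall (0 : Pt) (1 / 2)) := isCompact_closedBall _ _
  choose v hv0 hv using fun c => hS.exists_forall_le' (a := (0 : ℝ))
    ((vs_continuousOn A c).mono closedBall_subset_box)
    fun p hp => Real.sqrt_pos.2 (gram_det_pos A c (closedBall_subset_box hp))
  have hne : (Finset.univ : Finset (Fin K)).Nonempty := by
    obtain ⟨x, hx⟩ := A.nonempty
    obtain ⟨c, -⟩ := A.exists_chart hx
    exact ⟨c, Finset.mem_univ c⟩
  set v₀ := Finset.univ.inf' hne v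
  have hv0' : 0 < v₀ := (Finset.lt_inf'_iff hne).2 fun c _ => hv0 c
  set g₀ : ℝ := ((8 * Real.pi) ^ 2)⁻¹ * Real.exp (-|C₀| / 4)
  have hg₀ : 0 < g₀ := by positivity
  set w₀ : ℝ := g₀ * v₀ / b
  have hw₀ : 0 < w₀ := by positivity
  set ε₀ : ℝ := min (1 / 2) (min (r / ((N : ℝ) + 1)) (d / (2 * (|C₀| + 1))))
  have hε₀ : 0 < ε₀ := lt_min (by norm_num)
    (lt_min (div_pos hG.r_pos (by positivity)) (div_pos hG.d_pos (by positivity)))
  refine ⟨Real.exp (-2) / 24 * w₀, ε₀, by positivity, hε₀, min_le_left _ _,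
    fun ε hε hεe x hx p hp hxp => ?_⟩
  have e1 : ε ≤ 1 / 2 := hεe.trans (min_le_left _ _)
  have e2 : ε * ((N : ℝ) + 1) ≤ r := (le_div_iff₀ (by positivity)).1
    (hεe.trans ((min_le_right _ _).trans (min_le_left _ _)))
  have e3 : ε * (2 * (|C₀| + 1)) ≤ d := (le_div_iff₀ (by positivity)).1
    (hεe.trans ((min_le_right _ _).trans (min_le_right _ _)))
  have hε1 : ε ≤ 1 := e1.trans (by norm_num)
  have low : ∀ σ, 0 < σ → ε ^ 2 ≤ σ ^ 2 → σ ^ 2 ≤ 2 * ε ^ 2 → w₀ / ε ^ 4 ≤ wS A r d σ x p.1 := by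
    intro σ hσ hs1 hs2
    rw [wS_eq, ← one_mul (w₀ / ε ^ 4), ← A.chi_sum x hx, Finset.sum_mul]
    refine Finset.sum_le_sum fun c _ => ?_
    rcases eq_or_ne (A.chi c x) 0 with h | h
    · simp [h]
    refine mul_le_mul_of_nonneg_left ?_ (A.chi_nonneg c x)
    obtain ⟨q, hq, rfl⟩ := A.chi_supp c x hx h
    have hqb := closedBall_subset_box hq
    rw [gco, A.phi_psi c hqb]
    rw [norm_sub_rev] at hxp
    set u := p.1 - A.psi c q
    have hu2 : ‖u‖ ^ 2 ≤ ε ^ 2 := pow_le_pow_left₀ (norm_nonneg _) hxp 2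
    have hN : (0 : ℝ) ≤ N := Nat.cast_nonneg N
    have huu : u ⬝ᵥ u ≤ r ^ 2 := by
      refine (dot_le_sq_norm u).trans ((mul_le_mul_of_nonneg_left hu2 hN).trans ?_)
      have h1 := pow_le_pow_left₀ (mul_nonneg hε.le (by positivity)) e2 2
      nlinarith [mul_nonneg (sq_nonneg ε) (sq_nonneg (N : ℝ)), mul_nonneg (sq_nonneg ε) hN]
    have hsd : sdist A c q p.1 ≤ |C₀| * ε ^ 2 := by
      refine (hG.low c q (Metric.closedBall_subset_closedBall (by norm_num) hq) p.1 hp.1
        (huu.trans (le_mul_of_one_le_left (sq_nonneg r) one_le_two))).2.1.trans ?_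
      exact (mul_le_mul_of_nonneg_right (le_abs_self C₀) (sq_nonneg _)).trans
        (mul_le_mul_of_nonneg_left hu2 (abs_nonneg _))
    have hcut : cutF d (sdist A c q p.1) = 1 := by
      refine Real.smoothTransition.one_of_one_le ?_
      have h2 : 2 * sdist A c q p.1 ≤ d := by
        nlinarith [mul_le_mul_of_nonneg_left e1 (mul_nonneg hε.le (abs_nonneg C₀)), mul_nonneg hε.le (abs_nonneg C₀)]
      have : 2 * sdist A c q p.1 / d ≤ 1 := (div_le_one hG.d_pos).2 h2
      linarith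
    have hg : g₀ / ε ^ 4 ≤ gProf d σ (sdist A c q p.1) := by
      rw [gProf, hcut, one_mul, div_eq_mul_inv, mul_right_comm, ← mul_inv]
      refine mul_le_mul (inv_anti₀ (by positivity) ?_) (Real.exp_le_exp.2 ?_) (Real.exp_pos _).le
        (by positivity)
      · calc (4 * Real.pi * σ ^ 2) ^ 2 ≤ (4 * Real.pi * (2 * ε ^ 2)) ^ 2 := by gcongr
          _ = _ := by ring
      · rw [neg_div, neg_div, neg_le_neg_iff, div_le_div_iff₀ (by positivity) (by positivity)]
        nlinarith [abs_nonneg C₀]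
    have hη : etaF r u = 1 := etaF_one_of_le hG.r_pos huu
    rw [hη, one_mul]
    obtain ⟨hda, hdb, -⟩ := hbd c q hq
    have hvq : v₀ ≤ vs A c q := (Finset.inf'_le v (Finset.mem_univ c)).trans (hv c q hq)
    calc w₀ / ε ^ 4 = g₀ / ε ^ 4 * v₀ / b := by simp only [w₀]; ring
      _ ≤ gProf d σ (sdist A c q p.1) * vs A c q / A.dens c q :=
        div_le_div₀ (mul_nonneg (gProf_nonneg _ _ _) (Real.sqrt_nonneg _))
          (mul_le_mul hg hvq hv0'.le (gProf_nonneg _ _ _)) (ha.trans_le hda) hdb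
  obtain ⟨U, -, hU⟩ := exists_sup_bound (N := N) (a := c₀ / 8) (by linarith [hG.c_pos]) 0
  obtain ⟨-, hwi⟩ := hU ε W hε hε1 hW0 x p.1 (fun σ => wS A r d σ x p.1) (fun σ h0 h1 => by
    obtain ⟨h2, h3, -⟩ := hW σ h0 h1 x hx p hp
    rw [pow_zero, one_mul, abs_of_nonneg h2]; exact h3) (measurable_wS A r d x p.1)
  have hI : ∫ t, (Ioc (1 : ℝ) 2).indicator (fun _ => Real.exp (-2) / 24 * (w₀ / ε ^ 4)) t =
      Real.exp (-2) / 24 * (w₀ / ε ^ 4) := by
    rw [integral_indicator measurableSet_Ioc, setIntegral_const, Real.volume_real_Ioc_of_le one_le_two]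
    norm_num
  rw [mul_div_assoc, ← hI]
  refine integral_mono ?_ hwi fun t => ?_
  · exact (integrable_indicator_iff measurableSet_Ioc).2 (integrableOn_const measure_Ioc_lt_top.ne)
  by_cases ht : t ∈ Ioc (1 : ℝ) 2
  · have h2 : (2 : ℝ) ≤ 1 / ε := by rw [le_div_iff₀ hε]; linarith
    have htm : t ∈ Ioc 0 (1 / ε) := ⟨by linarith [ht.1], ht.2.trans h2⟩
    have hs : (ε * Real.sqrt t) ^ 2 = ε ^ 2 * t := by rw [mul_pow, Real.sq_sqrt htm.1.le]
    rw [indicator_of_mem ht, omW, indicator_of_mem htm]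
    refine mul_le_mul ?_ (low _ (width_unit hε hε1 htm.1 htm.2).1 ?_ ?_) (by positivity)
      (by have := htm.1; positivity)
    · have h1 : 1 ≤ t ^ 4 := one_le_pow₀ ht.1.le
      have h3 : Real.exp (-2) ≤ Real.exp (-t) := Real.exp_le_exp.2 (by linarith [ht.2])
      calc Real.exp (-2) / 24 = 1 / 24 * Real.exp (-2) := by ring
        _ ≤ t ^ 4 / 24 * Real.exp (-t) :=
            mul_le_mul (by linarith) h3 (Real.exp_pos _).le (by positivity)
    · rw [hs]; exact le_mul_of_one_le_right (sq_nonneg ε) ht.1.le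
    · rw [hs, mul_comm 2]; exact mul_le_mul_of_nonneg_left ht.2 (sq_nonneg ε)
  · rw [indicator_of_notMem ht]
    by_cases htm : t ∈ Ioc 0 (1 / ε)
    · obtain ⟨h0, h1⟩ := width_unit hε hε1 htm.1 htm.2
      exact mul_nonneg (omW_nonneg ε t) (hW _ h0 h1 x hx p hp).1
    · rw [omW, indicator_of_notMem htm]; simp

/-- The pairing of two kernels. -/
theorem exists_pair : ∃ c C ε₀ : ℝ, 0 < c ∧ 0 ≤ C ∧ 0 < ε₀ ∧ ∀ ε, 0 < ε → ε ≤ ε₀ →
    ∀ p ∈ A.unitTan, ∀ q ∈ A.unitTan,
      -(C * ε ^ 2 * kern ε ‖p.1 - q.1‖)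
        ≤ A.wedgeInt (fun x => kfE A r d ε J x p) (fun x => kfE A r d ε J x q) ∧
      (‖p.1 - q.1‖ ≤ c * ε → c / ε ^ 4 * A.offX J q.1 q.2 p.2 - C / ε ^ 2
        ≤ A.wedgeInt (fun x => kfE A r d ε J x p) (fun x => kfE A r d ε J x q)) := by
  obtain ⟨S, hS0, hS⟩ := exists_sizeE A hJ hG
  obtain ⟨cm, M, hcm, hM0, hM⟩ := exists_mainE A hJ hG
  obtain ⟨cl, ε₁, hcl, hε₁, hε₁2, hlow⟩ := exists_wE_lower A hJ hG
  obtain ⟨cv, hcv, hvol⟩ := A.vol_lower inferInstance
  obtain ⟨I, hI0, hI⟩ := exists_kern_integral A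
  set E := M * (M + M * M + S) + M * S
  have hE : 0 ≤ E := by positivity
  set CC := E * (4 ^ 5 * (2 * I))
  set κ := cm * cl * cl * (cv / 16)
  refine ⟨min (1 / 2) κ, CC, ε₁, lt_min (by norm_num) (by positivity), by positivity, hε₁,
    fun ε hε hεe p hp q hq => ?_⟩
  have hε1 : ε ≤ 1 := hεe.trans (hε₁2.trans (by norm_num))
  set X := A.offX J q.1 q.2 p.2
  have hX : 0 ≤ X := Atlas.offX_nonneg hJ hq.2.1 _
  set Sb : Set (Amb N) := {y | ‖q.1 - y‖ ≤ ε / 2}
  have hSb : MeasurableSet Sb := measurableSet_le (by fun_prop) measurable_const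
  set f := fun x => A.wedgePt x (kfE A r d ε J x p) (kfE A r d ε J x q)
  set kp := fun x : Amb N => kern ε ‖x - p.1‖
  set kq := fun x : Amb N => kern ε ‖x - q.1‖
  have hk : ∀ (y : Amb N), Continuous fun x : Amb N => kern ε ‖x - y‖ := fun y => by
    unfold kern
    refine continuous_const.div (by fun_prop) fun x => ?_
    positivity
  have hfc : ContinuousOn f A.X := continuousOn_wedgePt A (fun x => kfE_skew A ε J x p)
    (fun x => kfE_skew A ε J x q) hJ (kfE_contX A hJ hG hε hε1 hp) (kfE_contX A hJ hG hε hε1 hq)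
  have hfi : Integrable f A.vol := integrable_of_continuousOn A hfc
  have hkk : Integrable (fun x => kp x * kq x) A.vol :=
    integrable_of_continuousOn A ((hk p.1).mul (hk q.1)).continuousOn
  have hlow2 : ∀ x ∈ A.X,
      wE A r d ε x p.1 * wE A r d ε x q.1 * (cm * X) - E * ε ^ 2 * (kp x * kq x) ≤ f x := by
    intro x hx
    obtain ⟨hp0, hp1, hp2, hp3, -⟩ := hM ε hε hε1 x hx p hp
    obtain ⟨hq0, hq1, -, -, hq4⟩ := hM ε hε hε1 x hx q hq
    have h1 := (abs_le.1 (hp3 _ (kfE_skew A (r := r) (d := d) ε J x q))).1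
    have h2 := hq4 p hp
    set P := wE A r d ε x p.1
    set Q := wE A r d ε x q.1
    have hs : A.sN x (kfE A r d ε J x q) ≤ S * kq x := by
      rw [← A.sqrt_sqX]
      exact (Real.sqrt_le_left (mul_nonneg hS0 (kern_nonneg _ _))).2 (hS ε hε hε1 x hx q hq).1
    have k1 : 0 ≤ kp x := kern_nonneg _ _
    have k2 : 0 ≤ kq x := kern_nonneg _ _
    have a1 : M * ε ^ 2 * kp x * A.sN x (kfE A r d ε J x q) ≤ M * S * (ε ^ 2 * (kp x * kq x)) := by
      refine (mul_le_mul_of_nonneg_left hs (by positivity)).trans_eq ?_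
      ring
    have a2 : Q * (M * (P * ‖x - p.1‖ ^ 2)) ≤ M * (M * M) * (ε ^ 2 * (kp x * kq x)) := by
      refine (mul_le_mul hq1 (mul_le_mul_of_nonneg_left hp2 hM0) (by positivity) (by positivity)).trans_eq ?_
      ring
    have a3 : P * (M * ε ^ 2 * kq x) ≤ M * M * (ε ^ 2 * (kp x * kq x)) := by
      refine (mul_le_mul_of_nonneg_right hp1 (by positivity)).trans_eq ?_
      ring
    have a4 : 0 ≤ M * S * (ε ^ 2 * (kp x * kq x)) := by positivity
    have h3 := mul_le_mul_of_nonneg_left h2 hp0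
    simp only [f, E, X, kp, kq] at *
    linarith
  set L := cm * X * (cl * cl / ε ^ 8)
  have hL0 : 0 ≤ L := by positivity
  have key : ∀ T : Set (Amb N), MeasurableSet T → (∀ x ∈ T, ‖x - p.1‖ ≤ ε ∧ ‖x - q.1‖ ≤ ε) →
      L * (A.vol T).toReal - E * ε ^ 2 * (4 ^ 5 * (2 * I) * kern ε ‖p.1 - q.1‖) ≤
        A.wedgeInt (fun x => kfE A r d ε J x p) (fun x => kfE A r d ε J x q) := by
    intro T hT hTε
    have hi : Integrable (T.indicator fun _ => L) A.vol :=
      (integrable_const L).indicator hT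
    have h1 : ∫ x, (T.indicator (fun _ => L) x - E * ε ^ 2 * (kp x * kq x)) ∂A.vol ≤ ∫ x, f x ∂A.vol := by
      refine integral_mono_ae (hi.sub (hkk.const_mul _)) hfi ((ae_mem_X A).mono fun x hx => ?_)
      refine le_trans (sub_le_sub_right ?_ _) (hlow2 x hx)
      obtain ⟨hp0, -⟩ := hM ε hε hε1 x hx p hp
      obtain ⟨hq0, -⟩ := hM ε hε hε1 x hx q hq
      by_cases hxT : x ∈ T
      · rw [indicator_of_mem hxT]
        have := mul_le_mul (hlow ε hε hεe x hx p hp (hTε x hxT).1) (hlow ε hε hεe x hx q hq (hTε x hxT).2)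
          (by positivity) hp0
        refine le_trans (le_of_eq ?_) (mul_le_mul_of_nonneg_right this (mul_nonneg hcm.le hX))
        simp only [L]; ring
      · rw [indicator_of_notMem hxT]; positivity
    rw [integral_sub hi (hkk.const_mul _), integral_const_mul, integral_indicator hT,
      setIntegral_const, smul_eq_mul, measureReal_def, mul_comm _ L] at h1
    refine le_trans (sub_le_sub_left ?_ _) h1
    refine mul_le_mul_of_nonneg_left ?_ (by positivity)
    have hip : Integrable kp A.vol := integrable_of_continuousOn A (hk p.1).continuousOn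
    have hiq : Integrable kq A.vol := integrable_of_continuousOn A (hk q.1).continuousOn
    refine (integral_mono (g := fun x => 4 ^ 5 * kern ε ‖p.1 - q.1‖ * (kp x + kq x)) hkk
      ((hip.add hiq).const_mul _) fun x => ?_).trans ?_
    · refine kern_mul_le ε (norm_nonneg _) (norm_nonneg _) (norm_nonneg _) ?_
      rw [norm_sub_rev x p.1]
      exact norm_sub_le_norm_sub_add_norm_sub _ _ _
    · rw [integral_const_mul, integral_add hip hiq]
      have := add_le_add (hI ε hε p.1) (hI ε hε q.1)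
      refine (mul_le_mul_of_nonneg_left this
        (mul_nonneg (by norm_num) (kern_nonneg _ _))).trans_eq ?_
      ring
  constructor
  · have := key ∅ MeasurableSet.empty (fun x hx => hx.elim)
    simp only [measure_empty, ENNReal.toReal_zero, mul_zero, zero_sub] at this
    refine le_trans (le_of_eq ?_) this
    simp only [CC]; ring
  · intro hpq
    have h := key Sb hSb fun x hx => by
      have h1 : ‖x - q.1‖ ≤ ε / 2 := by rw [norm_sub_rev]; exact hx
      have h2 : ‖p.1 - q.1‖ ≤ ε / 2 := hpq.trans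
        ((mul_le_mul_of_nonneg_right (min_le_left _ _) hε.le).trans_eq (by ring))
      refine ⟨?_, by linarith⟩
      have := norm_sub_le_norm_sub_add_norm_sub x q.1 p.1
      rw [norm_sub_rev q.1 p.1] at this
      linarith
    refine le_trans (sub_le_sub ?_ ?_) h
    · have hv := hvol q.1 hq.1 (ε / 2) (by positivity) (by linarith)
      refine le_trans ?_ (mul_le_mul_of_nonneg_left hv hL0)
      calc min (1 / 2) κ / ε ^ 4 * X ≤ κ / ε ^ 4 * X := by
            refine mul_le_mul_of_nonneg_right ?_ hX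
            exact div_le_div_of_nonneg_right (min_le_right _ _) (by positivity)
        _ = _ := by simp only [κ, L]; field_simp; ring
    · have hk4 := kern_le_inv ε ‖p.1 - q.1‖
      calc E * ε ^ 2 * (4 ^ 5 * (2 * I) * kern ε ‖p.1 - q.1‖)
          ≤ E * ε ^ 2 * (4 ^ 5 * (2 * I) * (1 / ε ^ 4)) := by gcongr
        _ = CC / ε ^ 2 := by simp only [CC]; field_simp

omit hJ hG in
/-- The pointwise bounds. -/
theorem pointStmt : PointStmt := by
  intro N K A J r d c₀ C₀ hJ hG
  obtain ⟨S, hS0, hS⟩ := exists_sizeE A hJ hG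
  obtain ⟨cm, M, hcm, hM0, hM⟩ := exists_mainE A hJ hG
  obtain ⟨cl, ε₁, hcl, hε₁, hε₁2, hlow⟩ := exists_wE_lower A hJ hG
  obtain ⟨cp, P, ε₂, hcp, hP0, hε₂, hpair⟩ := exists_pair A hJ hG
  refine ⟨min (min 1 cl) cp, S + M + P, min ε₁ ε₂, lt_min (lt_min one_pos hcl) hcp, lt_min hε₁ hε₂,
    fun ε hε hεe => ?_⟩
  have hε1 : ε ≤ ε₁ := hεe.trans (min_le_left _ _)
  have hε2 : ε ≤ ε₂ := hεe.trans (min_le_right _ _)
  have hεone : ε ≤ 1 := hε1.trans (hε₁2.trans (by norm_num))
  have hmono : ∀ {a b : ℝ}, a ≤ S + M + P → 0 ≤ b → a * b ≤ (S + M + P) * b := fun h hb =>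
    mul_le_mul_of_nonneg_right h hb
  refine ⟨continuous_kfE A hJ hG ε hε hεone, kfE_skew A ε J, fun x hx p hp => ?_,
    fun x hx p hp => ?_, fun x hx y hy => ?_, fun x hx p hp Q hQ => ?_, fun p hp q hq => ?_⟩
  · refine (hS ε hε hεone x hx p hp).1.trans (pow_le_pow_left₀ ?_ ?_ 2)
    · exact mul_nonneg hS0 (kern_nonneg _ _)
    · exact hmono (by linarith) (kern_nonneg _ _)
  · refine (hS ε hε hεone x hx p hp).2.trans (pow_le_pow_left₀ ?_ ?_ 2)
    · exact mul_nonneg (mul_nonneg hS0 hε.le) (kern_nonneg _ _)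
    · exact mul_le_mul_of_nonneg_right (hmono (by linarith) hε.le) (kern_nonneg _ _)
  · obtain ⟨u, hu⟩ := exists_unit_at A hy
    obtain ⟨h1, h2, -⟩ := hM ε hε hεone x hx (y, u) hu
    refine ⟨h1, h2.trans (hmono (by linarith) (kern_nonneg _ _)), fun hxy => ?_⟩
    have h3 : ‖x - y‖ ≤ ε := hxy.trans
      (mul_le_of_le_one_left hε.le ((min_le_left _ _).trans (min_le_left _ _)))
    refine le_trans ?_ (hlow ε hε hε1 x hx (y, u) hu h3)
    exact div_le_div_of_nonneg_right ((min_le_left _ _).trans (min_le_right _ _)) (by positivity)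
  · obtain ⟨-, -, -, h, -⟩ := hM ε hε hεone x hx p hp
    rw [A.sqrt_sqX]
    refine (h Q hQ).trans (mul_le_mul_of_nonneg_right ?_ (A.sN_nonneg _ _))
    exact mul_le_mul_of_nonneg_right (hmono (by linarith) (sq_nonneg ε)) (kern_nonneg _ _)
  · obtain ⟨h1, h2⟩ := hpair ε hε hε2 p hp q hq
    refine ⟨le_trans ?_ h1, fun hpq => le_trans ?_ (h2 (hpq.trans
      (mul_le_mul_of_nonneg_right (min_le_right _ _) hε.le)))⟩
    · have := mul_le_mul_of_nonneg_right (hmono (b := ε ^ 2) (by linarith : P ≤ S + M + P) (sq_nonneg ε))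
        (kern_nonneg ε ‖p.1 - q.1‖)
      linarith
    · have hX := Atlas.offX_nonneg hJ hq.2.1 p.2
      refine sub_le_sub (mul_le_mul_of_nonneg_right
        (div_le_div_of_nonneg_right (min_le_right _ _) (by positivity)) hX) ?_
      exact div_le_div_of_nonneg_right (by linarith) (sq_nonneg ε)

end Vale.Agent.P204.Kernel
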