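import Mathlib
import Vale.Agent.P204.Kernel.RadiusBasic
import Vale.Agent.P204.Kernel.Parts

/-!
# P204: the cut-off radii
-/

open MeasureTheory Matrix Filter Set
open scoped ContDiff Topology

namespace Vale.Agent.P204.Kernel

open Vale.Agent.P204.General Vale.Agent.P204.Torus

/-- The cut-off radii exist. -/
theorem radiusStmt : RadiusStmt := by
  intro N K A J _
  obtain ⟨δ, L₀, C, hδ, hL0, hC, hcon⟩ := exists_contact A
  obtain ⟨P, hP0, hP⟩ := exists_mat_bound (F := fun _ : Unit => fun x => A.proj x) A.compact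
    (fun _ a b => A.proj_continuousOn a b)
  set r : ℝ := min (δ / 4) (min (1 / (4 * (C + 1))) (1 / (64 * (L₀ + 1))))
  have hr : 0 < r := lt_min (by positivity) (lt_min (by positivity) (by positivity))
  have hr1 : r ≤ δ / 4 := min_le_left _ _
  have hr2 : 2 * C * r ≤ 1 / 2 := by
    have h := (min_le_right _ _).trans (min_le_left _ _) |>.trans_eq' (rfl : r = _)
    rw [le_div_iff₀ (by positivity)] at h
    nlinarith
  have hr3 : 2 * L₀ * r ≤ 1 / 32 := by
    have h := (min_le_right _ _).trans (min_le_right _ _) |>.trans_eq' (rfl : r = _)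
    rw [le_div_iff₀ (by positivity)] at h
    nlinarith
  set d : ℝ := r ^ 2 / (8 * ((N : ℝ) + 1)) with hddef
  have hd : 0 < d := by positivity
  have hsmall : ∀ u : Amb N, u ⬝ᵥ u ≤ 2 * r ^ 2 → ‖u‖ ≤ 2 * r := fun u hu =>
    abs_le_of_dot (by positivity) (by nlinarith)
  have hlow : ∀ x : Amb N, ∀ u : Amb N, ‖u - A.proj x *ᵥ u‖ ≤ C * ‖u‖ ^ 2 → ‖u‖ ≤ 2 * r →
      1 / 4 * ‖u‖ ^ 2 ≤ (A.proj x *ᵥ u) ⬝ᵥ (A.proj x *ᵥ u) := by
    intro x u h1 h2
    have h3 := norm_sub_norm_le u (u - A.proj x *ᵥ u)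
    rw [sub_sub_cancel] at h3
    have h4 : C * ‖u‖ ^ 2 ≤ 1 / 2 * ‖u‖ := by
      rw [sq, ← mul_assoc]
      exact mul_le_mul_of_nonneg_right
        ((mul_le_mul_of_nonneg_left h2 hC).trans (le_trans (le_of_eq (by ring)) hr2)) (norm_nonneg _)
    have h5 : 1 / 2 * ‖u‖ ≤ ‖A.proj x *ᵥ u‖ := by linarith
    have h6 := pow_le_pow_left₀ (by positivity) h5 2
    exact le_trans (le_of_eq (by ring)) (h6.trans (sq_norm_le_dot _))
  refine ⟨r, d, 1 / 4, C + N * (N * P) ^ 2, hr, hd, by norm_num, ?_, ?_, ?_⟩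
  · intro c p hp z hz hu
    obtain ⟨q, hq, he⟩ := (hcon c p hp z hz ((hsmall _ hu).trans_lt (by linarith))).1
    refine ⟨q, hq.trans ?_, he⟩
    exact (mul_le_mul_of_nonneg_left (hsmall _ hu) hL0).trans (le_trans (le_of_eq (by ring)) hr3)
  · intro c p hp z hz hu
    obtain ⟨-, h1, h2⟩ := hcon c p hp z hz ((hsmall _ hu).trans_lt (by linarith))
    have hpb : p ∈ box := closedBall_in_box (by norm_num) hp
    rw [sdist_eq A c hpb]
    refine ⟨hlow _ _ h1 (hsmall _ hu), ?_, fun a => (h2 a).trans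
      (mul_le_mul_of_nonneg_right (le_add_of_nonneg_right (by positivity)) (sq_nonneg _))⟩
    refine (dot_le_sq_norm _).trans ?_
    have h3 := pow_le_pow_left₀ (norm_nonneg _)
      (norm_mulVec_le_card hP0 (hP () _ (A.psi_mem c p hpb)) (z - A.psi c p)) 2
    rw [mul_pow] at h3
    refine (mul_le_mul_of_nonneg_left h3 (Nat.cast_nonneg N)).trans ?_
    rw [← mul_assoc]
    exact mul_le_mul_of_nonneg_right (le_add_of_nonneg_left hC) (sq_nonneg _)
  · intro c p hp z hz hu1 hu2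
    obtain ⟨e, -, hxe⟩ := A.exists_chart (A.psi_mem c p hp)
    obtain ⟨q, hq, hqx⟩ := hxe
    have hq' := Metric.closedBall_subset_closedBall (by norm_num : (1 / 2 : ℝ) ≤ 7 / 8) hq
    obtain ⟨-, h1, -⟩ := hcon e q hq' z hz (by rw [hqx]; exact (hsmall _ hu2).trans_lt (by linarith))
    rw [hqx] at h1
    rw [sdist_eq A c hp]
    refine lt_of_lt_of_le ?_ (hlow _ _ h1 (hsmall _ hu2))
    have h5 := hu1.trans (dot_le_sq_norm _)
    have hN : (0 : ℝ) ≤ N := Nat.cast_nonneg N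
    rw [hddef, div_lt_iff₀ (by positivity)]
    nlinarith [sq_nonneg ‖z - A.psi c p‖, pow_pos hr 2]

end Vale.Agent.P204.Kernel
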