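import Mathlib
import Vale.Agent.P204.Kernel.Approx.Avg

/-!
# P204: exchanging integrals of dominated continuous integrands

Tools for `RepStmt`: a Fubini lemma for a product of an integrable function and a dominated
continuous one, and the superposition weight as a weight on its support.
-/

open MeasureTheory Filter Topology Set
open scoped ContDiff

namespace Vale.Agent.P204.Kernel

open Vale.Agent.P204.General Vale.Agent.P204.Torus

section fubini

variable {α β : Type*} [TopologicalSpace α] [MeasurableSpace α] [OpensMeasurableSpace α]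
  [SecondCountableTopology α] [TopologicalSpace β] [MeasurableSpace β] [OpensMeasurableSpace β]
  [SecondCountableTopology β]
  {μ : Measure α} {ν : Measure β} [SFinite μ] [SFinite ν] {S : Set α} {T : Set β}
  {f : α → ℝ} {h : β → ℝ} {g : α × β → ℝ}

/-- A product of an integrable function and a dominated continuous one is integrable. -/
theorem integrable_dom (hS : MeasurableSet S) (hT : MeasurableSet T) (hμ : ∀ᵐ x ∂μ, x ∈ S)
    (hν : ∀ᵐ y ∂ν, y ∈ T) (hf : Integrable f μ) (hh : Integrable h ν)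
    (hg : ContinuousOn g (S ×ˢ T)) (hb : ∀ x ∈ S, ∀ y ∈ T, |g (x, y)| ≤ h y) :
    Integrable (fun z => f z.1 * g z) (μ.prod ν) := by
  have he : (μ.prod ν).restrict (S ×ˢ T) = μ.prod ν := by
    rw [← Measure.prod_restrict, Measure.restrict_eq_self_of_ae_mem hμ,
      Measure.restrict_eq_self_of_ae_mem hν]
  have hm : AEStronglyMeasurable g (μ.prod ν) :=
    he ▸ hg.aestronglyMeasurable (hS.prod hT)
  refine (hf.mul_prod hh).mono (hf.aestronglyMeasurable.comp_fst.mul hm) ?_
  rw [← he]
  refine (ae_restrict_mem (hS.prod hT)).mono fun z hz => ?_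
  rw [norm_mul, norm_mul]
  refine mul_le_mul_of_nonneg_left ?_ (norm_nonneg _)
  exact (hb z.1 hz.1 z.2 hz.2).trans (le_abs_self _)

/-- The order of integration does not matter. -/
theorem swap_dom (hS : MeasurableSet S) (hT : MeasurableSet T) (hμ : ∀ᵐ x ∂μ, x ∈ S)
    (hν : ∀ᵐ y ∂ν, y ∈ T) (hf : Integrable f μ) (hh : Integrable h ν)
    (hg : ContinuousOn g (S ×ˢ T)) (hb : ∀ x ∈ S, ∀ y ∈ T, |g (x, y)| ≤ h y) :
    Integrable (fun y => ∫ x, f x * g (x, y) ∂μ) ν ∧
      Integrable (fun x => f x * ∫ y, g (x, y) ∂ν) μ ∧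
      ∫ x, f x * ∫ y, g (x, y) ∂ν ∂μ = ∫ y, ∫ x, f x * g (x, y) ∂μ ∂ν := by
  have hi := integrable_dom hS hT hμ hν hf hh hg hb
  refine ⟨hi.integral_prod_right, ?_, ?_⟩
  · simpa only [integral_const_mul] using hi.integral_prod_left
  · rw [← integral_integral_swap hi]
    simp only [integral_const_mul]

end fubini

/-- The superposition weight before cutting. -/
noncomputable def pW (t : ℝ) : ℝ := t ^ 4 / 24 * Real.exp (-t)

/-- The superposition weight over the seventh power of the width. -/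
noncomputable def fW (ε t : ℝ) : ℝ := pW t / (ε * Real.sqrt t) ^ 7

theorem fW_mul {ε t : ℝ} (hε : 0 < ε) (ht : 0 < t) :
    fW ε t * (ε * Real.sqrt t) ^ 7 = pW t :=
  div_mul_cancel₀ _ (pow_pos (mul_pos hε (Real.sqrt_pos.2 ht)) 7).ne'

theorem fW_nonneg {ε t : ℝ} (hε : 0 < ε) (ht : 0 < t) : 0 ≤ fW ε t := by
  unfold fW pW
  positivity

theorem integrableOn_fW {ε : ℝ} (hε : 0 < ε) : IntegrableOn (fW ε) (Ioc 0 (1 / ε)) := by
  refine ((by fun_prop : Continuous fun t : ℝ => Real.sqrt t / (24 * ε ^ 7) * Real.exp (-t)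
    ).integrableOn_Ioc).congr_fun (fun t ht => ?_) measurableSet_Ioc
  have h0 := Real.sqrt_pos.2 ht.1
  have h2 : t ^ 4 = Real.sqrt t ^ 8 := by
    rw [show (8 : ℕ) = 2 * 4 from rfl, pow_mul, Real.sq_sqrt ht.1.le]
  rw [fW, pW, h2]
  field_simp

theorem omW_set (ε : ℝ) (f : ℝ → ℝ) :
    ∫ t, omW ε t * f t = ∫ t in Ioc 0 (1 / ε), pW t * f t := by
  rw [← integral_indicator measurableSet_Ioc]
  exact integral_congr_ae (ae_of_all _ fun t => (indicator_mul_left _ _ _).symm)

theorem integrable_omW_mul {ε : ℝ} {f : ℝ → ℝ}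
    (hf : IntegrableOn (fun t => pW t * f t) (Ioc 0 (1 / ε))) :
    Integrable fun t => omW ε t * f t :=
  ((integrable_indicator_iff measurableSet_Ioc).2 hf).congr
    (ae_of_all _ fun _ => indicator_mul_left _ _ _)

end Vale.Agent.P204.Kernel
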