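import Vale.Agent.P204.Kernel.Build

/-!
# P204: calculus for the smoothing module

Smoothness and derivative bounds of parameter integrals, functions of polynomial growth and of
Gaussian decay in the second variable, iterated partial derivatives.
-/

open MeasureTheory Filter Topology Set
open scoped ContDiff

namespace Vale.Agent.P204.Kernel

section param

set_option linter.unusedSectionVars false

variable {E T : Type} [NormedAddCommGroup E] [NormedSpace ℝ E] [NormedAddCommGroup T]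
  [NormedSpace ℝ T] [MeasurableSpace T] [BorelSpace T] [SecondCountableTopology T]
  {μ : Measure T} {U : Set E} {W : Set T}

theorem aesm_section {F : Type} [NormedAddCommGroup F] (hW : IsOpen W) (hμ : ∀ᵐ t ∂μ, t ∈ W)
    {G : E × T → F} (hG : ContinuousOn G (U ×ˢ W)) {x : E} (hx : x ∈ U) :
    AEStronglyMeasurable (fun t => G (x, t)) μ := by
  have h : ContinuousOn (fun t => G (x, t)) W :=
    hG.comp (by fun_prop : Continuous fun t : T => (x, t)).continuousOn fun t ht => ⟨hx, ht⟩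
  simpa [Measure.restrict_eq_self_of_ae_mem hμ] using
    h.aestronglyMeasurable (μ := μ) hW.measurableSet

/-- The derivative in the parameter. -/
noncomputable def dX {F : Type} [NormedAddCommGroup F] [NormedSpace ℝ F] (G : E × T → F)
    (p : E × T) : E →L[ℝ] F :=
  (fderiv ℝ G p).comp (ContinuousLinearMap.inl ℝ E T)

theorem param_step {F : Type} [NormedAddCommGroup F] [NormedSpace ℝ F] (hU : IsOpen U)
    (hW : IsOpen W) {G : E × T → F} (hG : ContDiffOn ℝ ∞ G (U ×ˢ W)) :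
    ContDiffOn ℝ ∞ (dX G) (U ×ˢ W) ∧
      ∀ n, ∀ p ∈ U ×ˢ W, ‖iteratedFDeriv ℝ n (dX G) p‖ ≤ ‖iteratedFDeriv ℝ (n + 1) G p‖ := by
  set P := (ContinuousLinearMap.compL ℝ E (E × T) F).flip (ContinuousLinearMap.inl ℝ E T)
  have h1 : ContDiffOn ℝ ∞ (fderiv ℝ G) (U ×ˢ W) :=
    hG.fderiv_of_isOpen (hU.prod hW) (by simp)
  have he : dX G = ⇑P ∘ fderiv ℝ G := rfl
  have hP : ‖P‖ ≤ 1 := ContinuousLinearMap.opNorm_le_bound _ zero_le_one fun L => by
    refine (ContinuousLinearMap.opNorm_comp_le L _).trans ?_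
    rw [one_mul]
    exact mul_le_of_le_one_right (norm_nonneg _)
      (ContinuousLinearMap.opNorm_le_bound _ zero_le_one fun v => by simp [Prod.norm_def])
  refine ⟨he ▸ P.contDiff.comp_contDiffOn h1, fun n p hp => ?_⟩
  rw [he, ← norm_iteratedFDeriv_fderiv]
  exact (P.norm_iteratedFDeriv_comp_left (h1.contDiffAt ((hU.prod hW).mem_nhds hp))
    (by exact_mod_cast le_top)).trans (mul_le_of_le_one_left (norm_nonneg _) hP)

theorem param_hasFDeriv {F : Type} [NormedAddCommGroup F] [NormedSpace ℝ F] [CompleteSpace F]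
    (hU : IsOpen U) (hW : IsOpen W) (hμ : ∀ᵐ t ∂μ, t ∈ W) {G : E × T → F}
    (hG : ContDiffOn ℝ ∞ G (U ×ˢ W)) {b : ℕ → T → ℝ} (hb : ∀ n, Integrable (b n) μ)
    (hGb : ∀ n, ∀ᵐ t ∂μ, ∀ x ∈ U, ‖iteratedFDeriv ℝ n G (x, t)‖ ≤ b n t) {x : E} (hx : x ∈ U) :
    HasFDerivAt (fun x => ∫ t, G (x, t) ∂μ) (∫ t, dX G (x, t) ∂μ) x := by
  obtain ⟨hd, hdb⟩ := param_step hU hW hG
  refine hasFDerivAt_integral_of_dominated_of_fderiv_le (𝕜 := ℝ) (F := fun x t => G (x, t))
    (F' := fun x t => dX G (x, t)) (bound := b 1) (hU.mem_nhds hx)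
    (eventually_of_mem (hU.mem_nhds hx) fun y hy => aesm_section hW hμ hG.continuousOn hy)
    ((hb 0).mono' (aesm_section hW hμ hG.continuousOn hx) ((hGb 0).mono fun t h => by
      simpa using h x hx))
    (aesm_section hW hμ hd.continuousOn hx) ?_ (hb 1) ?_
  · filter_upwards [hGb 1, hμ] with t h ht y hy
    have h0 := hdb 0 (y, t) ⟨hy, ht⟩
    rw [norm_iteratedFDeriv_zero] at h0
    exact h0.trans (h y hy)
  · filter_upwards [hμ] with t ht y hy
    exact ((hG.contDiffAt ((hU.prod hW).mem_nhds ⟨hy, ht⟩)).differentiableAt (by simp)).hasFDerivAt.comp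
      y (hasFDerivAt_prodMk_left y t)

/-- A parameter integral is smooth, with the integrated bounds on its derivatives. -/
theorem param_integral {F : Type} [NormedAddCommGroup F] [NormedSpace ℝ F] [CompleteSpace F]
    (hU : IsOpen U) (hW : IsOpen W) (hμ : ∀ᵐ t ∂μ, t ∈ W) {G : E × T → F}
    (hG : ContDiffOn ℝ ∞ G (U ×ˢ W)) {b : ℕ → T → ℝ} (hb : ∀ n, Integrable (b n) μ)
    (hGb : ∀ n, ∀ᵐ t ∂μ, ∀ x ∈ U, ‖iteratedFDeriv ℝ n G (x, t)‖ ≤ b n t) :
    ContDiffOn ℝ ∞ (fun x => ∫ t, G (x, t) ∂μ) U ∧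
      ∀ n, ∀ x ∈ U, ‖iteratedFDeriv ℝ n (fun x => ∫ t, G (x, t) ∂μ) x‖ ≤ ∫ t, b n t ∂μ := by
  suffices h : ∀ n : ℕ, ∀ (F : Type) [NormedAddCommGroup F] [NormedSpace ℝ F] [CompleteSpace F]
      (G : E × T → F) (b : ℕ → T → ℝ), ContDiffOn ℝ ∞ G (U ×ˢ W) → (∀ n, Integrable (b n) μ) →
      (∀ n, ∀ᵐ t ∂μ, ∀ x ∈ U, ‖iteratedFDeriv ℝ n G (x, t)‖ ≤ b n t) →
      ContDiffOn ℝ (n : ℕ∞ω) (fun x => ∫ t, G (x, t) ∂μ) U ∧
        ∀ x ∈ U, ‖iteratedFDeriv ℝ n (fun x => ∫ t, G (x, t) ∂μ) x‖ ≤ ∫ t, b n t ∂μ from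
    ⟨contDiffOn_infty.2 fun n => (h n F G b hG hb hGb).1, fun n => (h n F G b hG hb hGb).2⟩
  intro n
  induction n with
  | zero =>
    intro F _ _ _ G b hG hb hGb
    refine ⟨contDiffOn_zero.2 fun x hx => (ContinuousAt.continuousWithinAt ?_), fun x hx => ?_⟩
    · exact (param_hasFDeriv hU hW hμ hG hb hGb hx).continuousAt
    · rw [norm_iteratedFDeriv_zero]
      exact norm_integral_le_of_norm_le (hb 0) ((hGb 0).mono fun t h => by simpa using h x hx)
  | succ n ih =>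
    intro F _ _ _ G b hG hb hGb
    obtain ⟨hd, hdb⟩ := param_step hU hW hG
    obtain ⟨hc, hbd⟩ := ih (E →L[ℝ] F) (dX G) (fun n => b (n + 1)) hd (fun n => hb _) fun n => by
      filter_upwards [hGb (n + 1), hμ] with t h ht x hx
      exact (hdb n (x, t) ⟨hx, ht⟩).trans (h x hx)
    have he : ∀ x ∈ U, fderiv ℝ (fun x => ∫ t, G (x, t) ∂μ) x = ∫ t, dX G (x, t) ∂μ :=
      fun x hx => (param_hasFDeriv hU hW hμ hG hb hGb hx).fderiv
    refine ⟨?_, fun x hx => ?_⟩
    · rw [show ((n + 1 : ℕ) : ℕ∞ω) = (n : ℕ∞ω) + 1 by simp, contDiffOn_succ_iff_fderiv_of_isOpen hU]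
      exact ⟨fun x hx => (param_hasFDeriv hU hW hμ hG hb hGb hx).differentiableAt.differentiableWithinAt,
        fun h => absurd h (by simp), hc.congr he⟩
    · have hev : fderiv ℝ (fun x => ∫ t, G (x, t) ∂μ) =ᶠ[𝓝 x] fun x => ∫ t, dX G (x, t) ∂μ :=
        eventually_of_mem (hU.mem_nhds hx) he
      rw [← norm_iteratedFDeriv_fderiv, (hev.iteratedFDeriv (𝕜 := ℝ) n).eq_of_nhds]
      exact hbd x hx

theorem param_fderiv {F : Type} [NormedAddCommGroup F] [NormedSpace ℝ F] [CompleteSpace F]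
    (hU : IsOpen U) (hW : IsOpen W) (hμ : ∀ᵐ t ∂μ, t ∈ W) {G : E × T → F}
    (hG : ContDiffOn ℝ ∞ G (U ×ˢ W)) {b : ℕ → T → ℝ} (hb : ∀ n, Integrable (b n) μ)
    (hGb : ∀ n, ∀ᵐ t ∂μ, ∀ x ∈ U, ‖iteratedFDeriv ℝ n G (x, t)‖ ≤ b n t) {x : E} (hx : x ∈ U)
    (e : E) : fderiv ℝ (fun x => ∫ t, G (x, t) ∂μ) x e = ∫ t, fderiv ℝ G (x, t) (e, 0) ∂μ := by
  rw [(param_hasFDeriv hU hW hμ hG hb hGb hx).fderiv, ContinuousLinearMap.integral_apply]
  · rfl
  · obtain ⟨hd, hdb⟩ := param_step hU hW hG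
    refine (hb 1).mono' (aesm_section hW hμ hd.continuousOn hx) ?_
    filter_upwards [hGb 1, hμ] with t h ht
    have h0 := hdb 0 (x, t) ⟨hx, ht⟩
    rw [norm_iteratedFDeriv_zero] at h0
    exact h0.trans (h x hx)

end param

/-! ### Polynomial growth and Gaussian decay in the second variable -/

section growth

variable {P Q F : Type} [NormedAddCommGroup P] [NormedSpace ℝ P] [NormedAddCommGroup Q]
  [NormedSpace ℝ Q] [NormedAddCommGroup F] [NormedSpace ℝ F] {S : Set (P × Q)} {c : ℝ}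

/-- All derivatives of `f` grow at most polynomially in the second variable on `S`. -/
def PolyB (S : Set (P × Q)) (f : P × Q → F) : Prop :=
  ContDiff ℝ ∞ f ∧ ∀ n : ℕ, ∃ (C : ℝ) (k : ℕ), 0 ≤ C ∧ ∀ x ∈ S,
    ‖iteratedFDeriv ℝ n f x‖ ≤ C * (1 + ‖x.2‖) ^ k

/-- The same for the derivatives of positive order only. -/
def PolyD (S : Set (P × Q)) (f : P × Q → F) : Prop :=
  ContDiff ℝ ∞ f ∧ ∀ n : ℕ, ∃ (C : ℝ) (k : ℕ), 0 ≤ C ∧ ∀ x ∈ S,
    ‖iteratedFDeriv ℝ (n + 1) f x‖ ≤ C * (1 + ‖x.2‖) ^ k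

/-- All derivatives of `f` decay like a Gaussian in the second variable on `S`. -/
def GaussB (S : Set (P × Q)) (c : ℝ) (f : P × Q → F) : Prop :=
  ContDiff ℝ ∞ f ∧ ∀ n : ℕ, ∃ C : ℝ, 0 ≤ C ∧ ∀ x ∈ S,
    ‖iteratedFDeriv ℝ n f x‖ ≤ C * Real.exp (-c * ‖x.2‖ ^ 2)

theorem PolyB.polyD {f : P × Q → F} (hf : PolyB S f) : PolyD S f := ⟨hf.1, fun n => hf.2 (n + 1)⟩

theorem norm_linear_deriv (L : P × Q →L[ℝ] F) (n : ℕ) (x : P × Q) :
    ‖iteratedFDeriv ℝ (n + 1) (⇑L) x‖ ≤ ‖L‖ := by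
  rw [← norm_iteratedFDeriv_fderiv,
    show fderiv ℝ (⇑L) = fun _ => L from funext fun x => L.fderiv]
  rcases eq_or_ne n 0 with rfl | hn
  · rw [norm_iteratedFDeriv_zero]
  · simp [iteratedFDeriv_const_of_ne hn]

theorem PolyD.linear (L : P × Q →L[ℝ] F) : PolyD S ⇑L :=
  ⟨L.contDiff, fun n => ⟨‖L‖, 0, norm_nonneg L, fun x _ => by simpa using norm_linear_deriv L n x⟩⟩

theorem PolyB.linear (L : P × Q →L[ℝ] F) {C : ℝ} (hC : 0 ≤ C)
    (h : ∀ x ∈ S, ‖L x‖ ≤ C * (1 + ‖x.2‖)) : PolyB S ⇑L := by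
  refine ⟨L.contDiff, fun n => ⟨C + ‖L‖, 1, by positivity, fun x hx => ?_⟩⟩
  rw [pow_one, add_mul]
  rcases n with _ | n
  · rw [norm_iteratedFDeriv_zero]
    exact (h x hx).trans (le_add_of_nonneg_right (by positivity))
  · exact (norm_linear_deriv L n x).trans ((le_mul_of_one_le_right (norm_nonneg _)
      (le_add_of_nonneg_right (norm_nonneg _))).trans (le_add_of_nonneg_left (by positivity)))

theorem PolyB.const (a : F) : PolyB S (fun _ => a) := by
  refine ⟨contDiff_const, fun n => ⟨‖a‖, 0, norm_nonneg a, fun x _ => ?_⟩⟩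
  rcases eq_or_ne n 0 with rfl | hn
  · simp
  · simp [iteratedFDeriv_const_of_ne hn]

theorem poly_add_bound {C C' : ℝ} {k k' : ℕ} (hC : 0 ≤ C) (hC' : 0 ≤ C') {r : ℝ} (hr : 0 ≤ r) :
    C * (1 + r) ^ k + C' * (1 + r) ^ k' ≤ (C + C') * (1 + r) ^ (k + k') := by
  rw [add_mul]
  exact add_le_add
    (mul_le_mul_of_nonneg_left (pow_le_pow_right₀ (by linarith) (Nat.le_add_right _ _)) hC)
    (mul_le_mul_of_nonneg_left (pow_le_pow_right₀ (by linarith) (Nat.le_add_left _ _)) hC')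

theorem PolyB.add {f g : P × Q → F} (hf : PolyB S f) (hg : PolyB S g) :
    PolyB S (fun x => f x + g x) := by
  refine ⟨hf.1.add hg.1, fun n => ?_⟩
  obtain ⟨C, k, hC, h⟩ := hf.2 n
  obtain ⟨C', k', hC', h'⟩ := hg.2 n
  refine ⟨C + C', k + k', by positivity, fun x hx => ?_⟩
  rw [show (fun x => f x + g x) = f + g from rfl, iteratedFDeriv_add_apply
    (hf.1.contDiffAt.of_le (by exact_mod_cast le_top)) (hg.1.contDiffAt.of_le (by exact_mod_cast le_top))]
  exact (norm_add_le _ _).trans ((add_le_add (h x hx) (h' x hx)).trans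
    (poly_add_bound hC hC' (norm_nonneg _)))

theorem PolyD.add {f g : P × Q → F} (hf : PolyD S f) (hg : PolyD S g) :
    PolyD S (fun x => f x + g x) := by
  refine ⟨hf.1.add hg.1, fun n => ?_⟩
  obtain ⟨C, k, hC, h⟩ := hf.2 n
  obtain ⟨C', k', hC', h'⟩ := hg.2 n
  refine ⟨C + C', k + k', by positivity, fun x hx => ?_⟩
  rw [show (fun x => f x + g x) = f + g from rfl, iteratedFDeriv_add_apply
    (hf.1.contDiffAt.of_le (by exact_mod_cast le_top)) (hg.1.contDiffAt.of_le (by exact_mod_cast le_top))]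
  exact (norm_add_le _ _).trans ((add_le_add (h x hx) (h' x hx)).trans
    (poly_add_bound hC hC' (norm_nonneg _)))

theorem PolyB.sum {ι : Type*} (s : Finset ι) {f : ι → P × Q → F} (h : ∀ i ∈ s, PolyB S (f i)) :
    PolyB S (fun x => ∑ i ∈ s, f i x) := by
  classical
  induction s using Finset.induction_on with
  | empty => simpa using PolyB.const (S := S) (0 : F)
  | insert i t hi ih =>
    simpa [Finset.sum_insert hi] using (h i (Finset.mem_insert_self i t)).add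
      (ih fun k hk => h k (Finset.mem_insert_of_mem hk))

theorem PolyB.smul {f : P × Q → ℝ} {g : P × Q → F} (hf : PolyB S f) (hg : PolyB S g) :
    PolyB S (fun x => f x • g x) := by
  refine ⟨hf.1.smul hg.1, fun n => ?_⟩
  choose C k hC h using hf.2
  choose C' k' hC' h' using hg.2
  refine ⟨∑ i ∈ Finset.range (n + 1), (n.choose i : ℝ) * C i * C' (n - i),
    (∑ i ∈ Finset.range (n + 1), k i) + ∑ i ∈ Finset.range (n + 1), k' i,
    Finset.sum_nonneg fun i _ => by have := hC i; have := hC' (n - i); positivity, fun x hx => ?_⟩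
  refine (norm_iteratedFDeriv_smul_le hf.1 hg.1 x (by exact_mod_cast le_top)).trans ?_
  rw [Finset.sum_mul]
  refine Finset.sum_le_sum fun i hi => ?_
  have h1 : 1 ≤ 1 + ‖x.2‖ := le_add_of_nonneg_right (norm_nonneg _)
  calc (n.choose i : ℝ) * ‖iteratedFDeriv ℝ i f x‖ * ‖iteratedFDeriv ℝ (n - i) g x‖
      ≤ (n.choose i : ℝ) * (C i * (1 + ‖x.2‖) ^ k i) * (C' (n - i) * (1 + ‖x.2‖) ^ k' (n - i)) := by
        gcongr
        · have := hC i; positivity
        · exact h i x hx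
        · exact h' _ x hx
    _ = (n.choose i : ℝ) * C i * C' (n - i) * (1 + ‖x.2‖) ^ (k i + k' (n - i)) := by
        rw [pow_add]; ring
    _ ≤ _ := mul_le_mul_of_nonneg_left (pow_le_pow_right₀ h1
          (add_le_add (Finset.single_le_sum (fun _ _ => Nat.zero_le _) hi)
            (Finset.single_le_sum (fun _ _ => Nat.zero_le _) (Finset.mem_range.2 (by omega)))))
          (by have := hC i; have := hC' (n - i); positivity)

theorem PolyB.comp {R G : Type} [NormedAddCommGroup R] [NormedSpace ℝ R] [NormedAddCommGroup G]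
    [NormedSpace ℝ G] {Φ : R → G} (hΦ : ContDiff ℝ ∞ Φ)
    (hb : ∀ n : ℕ, ∃ C : ℝ, 0 ≤ C ∧ ∀ y, ‖iteratedFDeriv ℝ n Φ y‖ ≤ C) {g : P × Q → R}
    (hg : PolyD S g) : PolyB S (fun x => Φ (g x)) := by
  refine ⟨hΦ.comp hg.1, fun n => ?_⟩
  choose B hB hΦb using hb
  choose C k hC h using hg.2
  set D := 1 + ∑ i ∈ Finset.range (n + 1), C i with hD
  set m := ∑ i ∈ Finset.range (n + 1), k i with hm
  have hC0 : 0 ≤ ∑ i ∈ Finset.range (n + 1), C i := Finset.sum_nonneg fun i _ => hC i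
  refine ⟨n.factorial * (∑ i ∈ Finset.range (n + 1), B i) * D ^ n, m * n, ?_, fun x hx => ?_⟩
  · have : 0 ≤ ∑ i ∈ Finset.range (n + 1), B i := Finset.sum_nonneg fun i _ => hB i
    positivity
  have h1 : 1 ≤ 1 + ‖x.2‖ := le_add_of_nonneg_right (norm_nonneg _)
  refine (norm_iteratedFDeriv_comp_le hΦ hg.1 (by exact_mod_cast le_top) x
    (C := ∑ i ∈ Finset.range (n + 1), B i) (D := D * (1 + ‖x.2‖) ^ m)
    (fun i hi => (hΦb i _).trans
      (Finset.single_le_sum (fun i _ => hB i) (Finset.mem_range.2 (by omega)))) fun i h1i hin => ?_).trans_eq ?_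
  · obtain ⟨j, rfl⟩ : ∃ j, i = j + 1 := ⟨i - 1, by omega⟩
    have hj : j ∈ Finset.range (n + 1) := Finset.mem_range.2 (by omega)
    refine le_trans ?_ (le_self_pow₀ (one_le_mul_of_one_le_of_one_le (by linarith) (one_le_pow₀ h1))
      (Nat.succ_ne_zero j))
    refine (h j x hx).trans (mul_le_mul ?_
      (pow_le_pow_right₀ h1 (Finset.single_le_sum (fun _ _ => Nat.zero_le _) hj)) (by positivity)
      (by linarith))
    linarith [Finset.single_le_sum (fun i _ => hC i) hj]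
  · rw [mul_pow, ← pow_mul]; ring

theorem GaussB.poly_smul {f : P × Q → ℝ} {g : P × Q → F} (hc : 0 < c) (hf : PolyB S f)
    (hg : GaussB S c g) : GaussB S (c / 2) (fun x => f x • g x) := by
  refine ⟨hf.1.smul hg.1, fun n => ?_⟩
  choose C k hC h using hf.2
  choose C' hC' h' using hg.2
  refine ⟨∑ i ∈ Finset.range (n + 1), (n.choose i : ℝ) * C i * C' (n - i) *
      Real.exp ((k i : ℝ) ^ 2 / (4 * (c / 2))),
    Finset.sum_nonneg fun i _ => by have := hC i; have := hC' (n - i); positivity, fun x hx => ?_⟩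
  refine (norm_iteratedFDeriv_smul_le hf.1 hg.1 x (by exact_mod_cast le_top)).trans ?_
  rw [Finset.sum_mul]
  refine Finset.sum_le_sum fun i _ => ?_
  have hp := pow_le_exp (show 0 < c / 2 by positivity) (k i) (norm_nonneg x.2)
  calc (n.choose i : ℝ) * ‖iteratedFDeriv ℝ i f x‖ * ‖iteratedFDeriv ℝ (n - i) g x‖
      ≤ (n.choose i : ℝ) * (C i * (1 + ‖x.2‖) ^ k i) * (C' (n - i) * Real.exp (-c * ‖x.2‖ ^ 2)) := by
        gcongr
        · have := hC i; positivity
        · exact h i x hx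
        · exact h' _ x hx
    _ ≤ (n.choose i : ℝ) * (C i * (Real.exp ((k i : ℝ) ^ 2 / (4 * (c / 2))) *
          Real.exp (c / 2 * ‖x.2‖ ^ 2))) * (C' (n - i) * Real.exp (-c * ‖x.2‖ ^ 2)) := by
        gcongr
        · have := hC' (n - i); positivity
        · exact hC i
    _ = (n.choose i : ℝ) * C i * C' (n - i) * Real.exp ((k i : ℝ) ^ 2 / (4 * (c / 2))) *
        (Real.exp (-c * ‖x.2‖ ^ 2) * Real.exp (c / 2 * ‖x.2‖ ^ 2)) := by ring
    _ = _ := by rw [← Real.exp_add]; congr 2; ring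

theorem GaussB.exp_neg {f : P × Q → ℝ} (hf : PolyB S f) (hc : 0 < c) {C₀ : ℝ}
    (hlow : ∀ x ∈ S, c * ‖x.2‖ ^ 2 - C₀ ≤ f x) :
    GaussB S (c / 2) (fun x => Real.exp (-f x)) := by
  have hneg : PolyB S (fun x => (-1 : ℝ) • f x) := (PolyB.const (-1 : ℝ)).smul hf
  refine ⟨Real.contDiff_exp.comp hf.1.neg, fun n => ?_⟩
  choose C k hC h using hneg.2
  set D := 1 + ∑ i ∈ Finset.range (n + 1), C i with hD
  set m := ∑ i ∈ Finset.range (n + 1), k i with hm
  have hC0 : 0 ≤ ∑ i ∈ Finset.range (n + 1), C i := Finset.sum_nonneg fun i _ => hC i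
  refine ⟨n.factorial * Real.exp C₀ * D ^ n * Real.exp (((m * n : ℕ) : ℝ) ^ 2 / (4 * (c / 2))),
    by positivity, fun x hx => ?_⟩
  have h1 : 1 ≤ 1 + ‖x.2‖ := le_add_of_nonneg_right (norm_nonneg _)
  rw [show (fun x => Real.exp (-f x)) = Real.exp ∘ fun x => (-1 : ℝ) • f x by funext x; simp]
  refine (norm_iteratedFDeriv_comp_le (Real.contDiff_exp (n := ∞)) hneg.1 (by exact_mod_cast le_top) x
    (C := Real.exp C₀ * Real.exp (-c * ‖x.2‖ ^ 2)) (D := D * (1 + ‖x.2‖) ^ m) (fun i _ => ?_)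
    fun i h1i hin => ?_).trans ?_
  · rw [norm_iteratedFDeriv_eq_norm_iteratedDeriv, iteratedDeriv_eq_iterate, Real.iter_deriv_exp,
      Real.norm_eq_abs, Real.abs_exp, ← Real.exp_add]
    refine Real.exp_le_exp.2 ?_
    have := hlow x hx
    simp only [smul_eq_mul]; linarith
  · refine (h i x hx).trans (le_trans ?_ (le_self_pow₀
      (one_le_mul_of_one_le_of_one_le (by linarith) (one_le_pow₀ h1)) (by omega)))
    have hi : i ∈ Finset.range (n + 1) := Finset.mem_range.2 (by omega)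
    refine mul_le_mul ?_ (pow_le_pow_right₀ h1 (Finset.single_le_sum (fun _ _ => Nat.zero_le _) hi))
      (by positivity) (by linarith)
    linarith [Finset.single_le_sum (fun i _ => hC i) hi]
  · rw [mul_pow, ← pow_mul]
    have hp := pow_le_exp (show 0 < c / 2 by positivity) (m * n) (norm_nonneg x.2)
    calc (n.factorial : ℝ) * (Real.exp C₀ * Real.exp (-c * ‖x.2‖ ^ 2)) *
          (D ^ n * (1 + ‖x.2‖) ^ (m * n))
        ≤ (n.factorial : ℝ) * (Real.exp C₀ * Real.exp (-c * ‖x.2‖ ^ 2)) *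
          (D ^ n * (Real.exp (((m * n : ℕ) : ℝ) ^ 2 / (4 * (c / 2))) *
            Real.exp (c / 2 * ‖x.2‖ ^ 2))) := by gcongr
      _ = (n.factorial : ℝ) * Real.exp C₀ * D ^ n *
          Real.exp (((m * n : ℕ) : ℝ) ^ 2 / (4 * (c / 2))) *
          (Real.exp (-c * ‖x.2‖ ^ 2) * Real.exp (c / 2 * ‖x.2‖ ^ 2)) := by ring
      _ = _ := by rw [← Real.exp_add]; congr 2; ring

theorem GaussB.add {f g : P × Q → F} (hf : GaussB S c f) (hg : GaussB S c g) :
    GaussB S c (fun x => f x + g x) := by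
  refine ⟨hf.1.add hg.1, fun n => ?_⟩
  obtain ⟨C, hC, h⟩ := hf.2 n
  obtain ⟨C', hC', h'⟩ := hg.2 n
  refine ⟨C + C', by positivity, fun x hx => ?_⟩
  rw [show (fun x => f x + g x) = f + g from rfl, iteratedFDeriv_add_apply
    (hf.1.contDiffAt.of_le (by exact_mod_cast le_top)) (hg.1.contDiffAt.of_le (by exact_mod_cast le_top)),
    add_mul]
  exact (norm_add_le _ _).trans (add_le_add (h x hx) (h' x hx))

theorem GaussB.zero : GaussB S c (fun _ => (0 : F)) := by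
  refine ⟨contDiff_const, fun n => ⟨0, le_rfl, fun x _ => ?_⟩⟩
  rcases eq_or_ne n 0 with rfl | hn
  · simp
  · simp [iteratedFDeriv_const_of_ne hn]

theorem GaussB.sum {ι : Type*} (s : Finset ι) {f : ι → P × Q → F}
    (h : ∀ i ∈ s, GaussB S c (f i)) : GaussB S c (fun x => ∑ i ∈ s, f i x) := by
  classical
  induction s using Finset.induction_on with
  | empty => simpa using GaussB.zero (S := S) (c := c) (F := F)
  | insert i t hi ih =>
    simpa [Finset.sum_insert hi] using (h i (Finset.mem_insert_self i t)).add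
      (ih fun k hk => h k (Finset.mem_insert_of_mem hk))

theorem GaussB.mono {f : P × Q → F} {c' : ℝ} (hf : GaussB S c f) (h : c' ≤ c) : GaussB S c' f :=
  ⟨hf.1, fun n => by
    obtain ⟨C, hC, hb⟩ := hf.2 n
    refine ⟨C, hC, fun x hx => (hb x hx).trans (mul_le_mul_of_nonneg_left (Real.exp_le_exp.2 ?_) hC)⟩
    nlinarith [sq_nonneg ‖x.2‖]⟩

theorem GaussB.deriv {f : P × Q → F} (hf : GaussB S c f) (e : P × Q) :
    GaussB S c (fun x => fderiv ℝ f x e) := by
  have h1 : ContDiff ℝ ∞ (fderiv ℝ f) := hf.1.fderiv_right (by simp)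
  have he : (fun x => fderiv ℝ f x e) =
      ⇑(ContinuousLinearMap.apply ℝ F e) ∘ fderiv ℝ f := rfl
  refine ⟨he ▸ (ContinuousLinearMap.contDiff _).comp h1, fun n => ?_⟩
  obtain ⟨C, hC, h⟩ := hf.2 (n + 1)
  refine ⟨‖e‖ * C, by positivity, fun x hx => ?_⟩
  rw [he, mul_assoc]
  refine (ContinuousLinearMap.norm_iteratedFDeriv_comp_left _ h1.contDiffAt
    (by exact_mod_cast le_top)).trans ?_
  rw [norm_iteratedFDeriv_fderiv]
  refine mul_le_mul ?_ (h x hx) (norm_nonneg _) (norm_nonneg _)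
  exact ContinuousLinearMap.opNorm_le_bound _ (norm_nonneg _) fun L =>
    (L.le_opNorm e).trans_eq (mul_comm _ _)

end growth

/-! ### Iterated partial derivatives -/

theorem contDiff_pd {f : Pt → ℝ} (hf : ContDiff ℝ ∞ f) (i : Fin 4) : ContDiff ℝ ∞ (pd i f) :=
  (hf.fderiv_right (by simp)).clm_apply contDiff_const

theorem contDiff_pdL {f : Pt → ℝ} (hf : ContDiff ℝ ∞ f) :
    ∀ l : List (Fin 4), ContDiff ℝ ∞ (pdL l f)
  | [] => hf
  | i :: l => contDiff_pd (contDiff_pdL hf l) i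

theorem pdL_append (f : Pt → ℝ) :
    ∀ l l' : List (Fin 4), pdL (l ++ l') f = pdL l (pdL l' f)
  | [], _ => rfl
  | i :: l, l' => by simp [pdL, pdL_append f l l']

theorem pdL_congr_nhds {f g : Pt → ℝ} {x : Pt} (h : f =ᶠ[𝓝 x] g) :
    ∀ l : List (Fin 4), pdL l f =ᶠ[𝓝 x] pdL l g
  | [] => h
  | i :: l => (pdL_congr_nhds h l).fderiv.mono fun y hy => by
      show fderiv ℝ (pdL l f) y _ = fderiv ℝ (pdL l g) y _
      rw [hy]

theorem pdL_sum {ι : Type*} (s : Finset ι) {f : ι → Pt → ℝ} (hf : ∀ i ∈ s, ContDiff ℝ ∞ (f i)) :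
    ∀ l : List (Fin 4), pdL l (fun x => ∑ i ∈ s, f i x) = fun x => ∑ i ∈ s, pdL l (f i) x
  | [] => rfl
  | a :: l => by
    funext x
    show fderiv ℝ (pdL l fun x => ∑ i ∈ s, f i x) x _ = _
    rw [pdL_sum s hf l, fderiv_fun_sum fun i hi =>
      ((contDiff_pdL (hf i hi) l).differentiable (by simp)).differentiableAt]
    simp [pdL, pd]

theorem pdL_const_mul {f : Pt → ℝ} (hf : ContDiff ℝ ∞ f) (a : ℝ) :
    ∀ l : List (Fin 4), pdL l (fun x => a * f x) = fun x => a * pdL l f x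
  | [] => rfl
  | i :: l => by
    funext x
    show fderiv ℝ (pdL l fun x => a * f x) x _ = _
    rw [pdL_const_mul hf a l, fderiv_const_mul
      ((contDiff_pdL hf l).differentiable (by simp)).differentiableAt]
    simp [pdL, pd]

/-- The iterated derivative in the second of two variables. -/
noncomputable def dqL : List (Fin 4) → (ℝ × Pt → ℝ) → ℝ × Pt → ℝ
  | [], S => S
  | i :: l, S => fun x => fderiv ℝ (dqL l S) x (0, Pi.single i 1)

theorem contDiffOn_dqL {S : ℝ × Pt → ℝ} {V : Set (ℝ × Pt)} (hV : IsOpen V)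
    (hS : ContDiffOn ℝ ∞ S V) : ∀ l : List (Fin 4), ContDiffOn ℝ ∞ (dqL l S) V
  | [] => hS
  | i :: l => ((contDiffOn_dqL hV hS l).fderiv_of_isOpen hV (by simp)).clm_apply contDiffOn_const

theorem pdL_eq_dqL {S : ℝ × Pt → ℝ} {V : Set (ℝ × Pt)} (hV : IsOpen V)
    (hS : ContDiffOn ℝ ∞ S V) {f : Pt → ℝ} {s : ℝ} :
    ∀ (l : List (Fin 4)) {q : Pt}, (s, q) ∈ V → f =ᶠ[𝓝 q] (fun q => S (s, q)) →
      pdL l f q = dqL l S (s, q)
  | [], q, _, h => h.eq_of_nhds
  | i :: l, q, hq, h => by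
    have hV' : ∀ᶠ y in 𝓝 q, (s, y) ∈ V :=
      (by fun_prop : Continuous fun y : Pt => (s, y)).continuousAt.preimage_mem_nhds (hV.mem_nhds hq)
    have he : pdL l f =ᶠ[𝓝 q] fun y => dqL l S (s, y) := by
      filter_upwards [hV', h.eventuallyEq_nhds] with y hy hy'
      exact pdL_eq_dqL hV hS l hy hy'
    have hd := ((contDiffOn_dqL hV hS l).contDiffAt (hV.mem_nhds hq)).differentiableAt (by simp)
    show fderiv ℝ (pdL l f) q _ = _
    rw [he.fderiv_eq,
      show (fun y => dqL l S (s, y)) = dqL l S ∘ fun y : Pt => (s, y) from rfl,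
      (hd.hasFDerivAt.comp q (hasFDerivAt_prodMk_right s q)).fderiv]
    rfl

theorem abs_pdL_le {f : Pt → ℝ} (hf : ContDiff ℝ ∞ f) :
    ∀ (l : List (Fin 4)) (x : Pt), |pdL l f x| ≤ ‖iteratedFDeriv ℝ l.length f x‖ := by
  intro l
  induction l using List.reverseRecOn generalizing f with
  | nil => intro x; simp [pdL]
  | append_singleton l i ih =>
    intro x
    rw [pdL_append]
    refine (ih (contDiff_pd hf i) x).trans ?_
    rw [List.length_append, List.length_singleton, ← norm_iteratedFDeriv_fderiv,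
      show pd i f = ⇑(ContinuousLinearMap.apply ℝ ℝ (Pi.single i 1 : Pt)) ∘ fderiv ℝ f from rfl]
    refine (ContinuousLinearMap.norm_iteratedFDeriv_comp_left _
      (hf.fderiv_right (m := ∞) (by simp)).contDiffAt (by exact_mod_cast le_top)).trans
      (mul_le_of_le_one_left (norm_nonneg _) ?_)
    refine ContinuousLinearMap.opNorm_le_bound _ zero_le_one fun L => ?_
    refine (L.le_opNorm _).trans_eq ?_
    rw [Pi.norm_single, norm_one, mul_one, one_mul]

theorem sq_sum_le {ι : Type*} (s : Finset ι) (g : ι → ℝ) :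
    (∑ i ∈ s, g i) ^ 2 ≤ s.card * ∑ i ∈ s, g i ^ 2 := sq_sum_le_card_mul_sum_sq

end Vale.Agent.P204.Kernel
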