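import Mathlib
import Vale.Agent.P204.Kernel.Family
import Vale.Agent.P204.General.Basics

/-!
# P204: the functional through derivatives of cut coefficients

Interface of `Kernel/RepFun.lean`; not assumed by the final theorem.
-/

open MeasureTheory Matrix Filter Set
open scoped ContDiff Topology

namespace Vale.Agent.P204.Kernel

open Vale.Agent.P204.General Vale.Agent.P204.Torus

/-- `R` is the pairing of integrable functions with derivatives, of order at most three, of the cut
anti-invariant coefficients. -/
def RepFunStmt : Prop :=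
  ∀ {N K : ℕ} (A : Atlas N K) (J : Amb N → MN N) m R C₁, IsACS A J → IsExtX A J m R C₁ →
    ∃ (W : Finset (List (Fin 4))) (ρ : Fin K → Fin 4 → Fin 4 → List (Fin 4) → Pt → ℝ),
      (∀ w ∈ W, w.length ≤ 3) ∧
      (∀ c i j w, Measurable (ρ c i j w) ∧
        IntegrableOn (ρ c i j w) (Metric.closedBall (0 : Pt) (1 / 2))) ∧
      ∀ a, IsTestX A a → R a = ∑ c, ∑ i, ∑ j, ∑ w ∈ W,
        ∫ q in Metric.closedBall (0 : Pt) (1 / 2),
          ρ c i j w q * pdL w (A.cutCoef c (fun z => antiX J z (a z)) i j) q

end Vale.Agent.P204.Kernel
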