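import Mathlib
import Vale.Agent.P204.Kernel.RepSpec
import Vale.Agent.P204.Kernel.Param
import Vale.Agent.P204.Est.Riesz
import Vale.Agent.P204.General.Ext.Hahn

/-!
# P204: the functional through derivatives of cut coefficients

`R` is bounded by the derivatives, of order at most three, of the cut anti-invariant coefficients;
so it is the pairing with square integrable functions of them.
-/

open MeasureTheory Matrix Filter Set
open scoped ContDiff Topology

namespace Vale.Agent.P204.Kernel

open Vale.Agent.P204.General Vale.Agent.P204.Torus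

/-- The words of length at most three. -/
noncomputable def words3 : Finset (List (Fin 4)) :=
  (Finset.range 4).biUnion fun k => (Finset.univ : Finset (Fin k → Fin 4)).image List.ofFn

theorem mem_words3 {w : List (Fin 4)} : w ∈ words3 ↔ w.length ≤ 3 := by
  constructor
  · intro h
    obtain ⟨k, hk, h⟩ := Finset.mem_biUnion.1 h
    obtain ⟨f, -, rfl⟩ := Finset.mem_image.1 h
    rw [List.length_ofFn]
    have := Finset.mem_range.1 hk
    omega
  · intro h
    exact Finset.mem_biUnion.2 ⟨w.length, Finset.mem_range.2 (by omega),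
      Finset.mem_image.2 ⟨w.get, Finset.mem_univ _, List.ofFn_get w⟩⟩

theorem sobR_le_words (f : Pt → ℝ) : ∀ n (v : List (Fin 4)), v.length + n ≤ 3 →
    sobR n (pdL v f) ≤ 5 ^ n * ∑ w ∈ words3, ∫ x, pdL w f x ^ 2
  | 0, v, h => by
    rw [sobR, pow_zero, one_mul]
    exact Finset.single_le_sum (f := fun w => ∫ x, pdL w f x ^ 2)
      (fun w _ => integral_nonneg fun x => sq_nonneg _) (mem_words3.2 (by omega))
  | n + 1, v, h => by
    have h1 := sobR_le_words f n v (by omega)
    have h2 : ∀ d ∈ (Finset.univ : Finset (Fin 4)), sobR n (pd d (pdL v f)) ≤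
        5 ^ n * ∑ w ∈ words3, ∫ x, pdL w f x ^ 2 := fun d _ => by
      have h3 := sobR_le_words f n (d :: v) (by simp only [List.length_cons]; omega)
      exact h3
    rw [sobR]
    refine (add_le_add h1 (Finset.sum_le_sum h2)).trans_eq ?_
    rw [Finset.sum_const, Finset.card_univ, Fintype.card_fin, nsmul_eq_mul, pow_succ]
    push_cast
    ring

theorem pdL_zero_of_open {f : Pt → ℝ} {x : Pt} (h : f =ᶠ[𝓝 x] fun _ => 0) :
    ∀ w : List (Fin 4), pdL w f =ᶠ[𝓝 x] fun _ => 0
  | [] => h
  | i :: w => (pdL_zero_of_open h w).fderiv.mono fun y hy => by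
      show fderiv ℝ (pdL w f) y _ = 0
      rw [hy]
      simp

theorem cutCoef_zero_off {N K : ℕ} (A : Atlas N K) (c : Fin K) (a : Amb N → MN N) (i k : Fin 4)
    {p : Pt} (hp : p ∉ Metric.closedBall (0 : Pt) (1 / 2)) : A.cutCoef c a i k p = 0 := by
  simp only [Atlas.cutCoef]
  split_ifs with h
  · by_contra hne
    obtain ⟨q, hq, he⟩ := A.chi_supp c _ (A.psi_mem c p h) (left_ne_zero_of_mul hne)
    rw [← A.phi_psi c h, ← he, A.phi_psi c (closedBall_subset_box hq)] at hp
    exact hp hq
  · rfl

theorem repFun : RepFunStmt := by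
  intro N K A J m R C₁ hJ hR
  classical
  set B := Metric.closedBall (0 : Pt) (1 / 2)
  have : IsFiniteMeasure (volume.restrict B) :=
    isFiniteMeasure_restrict.2 (isCompact_closedBall _ _).measure_lt_top.ne
  let W := words3
  let ι := Fin K × Fin 4 × Fin 4 × Fin W.card
  let wd : Fin W.card → List (Fin 4) := fun l => (W.equivFin.symm l).1
  let g : testMod A → ι → Pt → ℝ := fun a s =>
    A.cutCoef s.1 (fun z => antiX J z (a.1 z)) s.2.1 s.2.2.1
  have hg : ∀ a s, ContDiff ℝ ∞ (g a s) := fun a s =>
    (Atlas.sc_cutCoef hJ a.2 s.1 s.2.1 s.2.2.1).1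
  let Φ : testMod A →ₗ[ℝ] (ι × Pt → ℝ) :=
    { toFun := fun a z => pdL (wd z.1.2.2.2) (g a z.1) z.2
      map_add' := fun a b => by
        funext z
        have e : g (a + b) z.1 = fun x => ∑ o : Bool, (bif o then g a z.1 else g b z.1) x := by
          funext x
          show A.cutCoef _ (fun y => antiX J y ((a.1 + b.1) y)) _ _ x = _
          rw [Atlas.cutCoef_anti_add, Fintype.sum_bool]
          rfl
        have h := pdL_sum Finset.univ (f := fun o : Bool => bif o then g a z.1 else g b z.1)
          (fun o _ => by cases o <;> simp [hg]) (wd z.1.2.2.2)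
        simp only [Pi.add_apply]
        rw [e, h]
        simp only [Fintype.sum_bool, cond_true, cond_false]
      map_smul' := fun t a => by
        funext z
        have e : g (t • a) z.1 = fun x => t * g a z.1 x := by
          funext x
          show A.cutCoef _ (fun y => antiX J y ((t • a.1) y)) _ _ x = _
          rw [Atlas.cutCoef_anti_smul]
          rfl
        simp only [Pi.smul_apply, RingHom.id_apply, smul_eq_mul]
        rw [e, pdL_const_mul (hg a z.1)] }
  let μ : Measure (ι × Pt) := (Measure.count : Measure ι).prod (volume.restrict B)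
  have hmem : ∀ a, MemLp (Φ a) 2 μ := fun a => by
    have hc : ∀ s : ι, Continuous fun q => Φ a (s, q) := fun s =>
      (contDiff_pdL (hg a s) (wd s.2.2.2)).continuous
    choose M hM using fun s : ι =>
      (isCompact_closedBall (0 : Pt) (1 / 2)).exists_bound_of_continuousOn (hc s).continuousOn
    have hm : Measurable (Φ a) := measurable_from_prod_countable_right fun s => (hc s).measurable
    refine MemLp.of_bound hm.aestronglyMeasurable (∑ s, |M s|) ?_
    refine (Measure.ae_prod_iff_ae_ae (measurableSet_le hm.norm measurable_const)).2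
      (Eventually.of_forall fun s => ?_)
    refine (ae_restrict_mem Metric.isClosed_closedBall.measurableSet).mono fun q hq => ?_
    exact (hM s q hq).trans ((le_abs_self _).trans
      (Finset.single_le_sum (f := fun s => |M s|) (fun s _ => abs_nonneg _) (Finset.mem_univ s)))
  have hint : ∀ F : ι × Pt → ℝ, Integrable F μ →
      ∫ z, F z ∂μ = ∑ s, ∫ q in B, F (s, q) := fun F hF => by
    rw [integral_prod F hF, integral_fintype hF.integral_prod_left]
    refine Finset.sum_congr rfl fun s _ => ?_
    rw [Measure.real, Measure.count_singleton, ENNReal.toReal_one, one_smul]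
  have hsob : ∀ a : testMod A, A.sob 3 (fun x => antiX J x (a.1 x)) ≤
      125 * ∫ z, Φ a z ^ 2 ∂μ := fun a => by
    rw [hint _ (hmem a).integrable_sq]
    have h : ∀ c i k, sobR 3 (A.cutCoef c (fun x => antiX J x (a.1 x)) i k) ≤
        125 * ∑ l : Fin W.card, ∫ q in B, Φ a ((c, i, k, l), q) ^ 2 := fun c i k => by
      refine (sobR_le_words _ 3 [] (by simp)).trans_eq ?_
      refine congrArg₂ (fun x y : ℝ => x * y) (by norm_num) ((Finset.sum_coe_sort words3 _).symm.trans
        (Fintype.sum_equiv W.equivFin.symm _ _ fun l => ?_).symm)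
      refine setIntegral_eq_integral_of_forall_compl_eq_zero fun q hq => ?_
      have h0 := (pdL_zero_of_open (f := g a (c, i, k, l))
        (eventually_of_mem (Metric.isClosed_closedBall.isOpen_compl.mem_nhds hq)
          fun y hy => cutCoef_zero_off A c _ i k hy) (wd l)).eq_of_nhds
      show pdL (wd l) (g a (c, i, k, l)) q ^ 2 = 0
      rw [h0]
      ring
    refine (Finset.sum_le_sum fun c _ => Finset.sum_le_sum fun i _ =>
      Finset.sum_le_sum fun k _ => h c i k).trans_eq ?_
    simp only [ι, Fintype.sum_prod_type, Finset.mul_sum]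
  have hbound : ∀ a : testMod A, |R a.1| ≤ |C₁| * Real.sqrt 125 *
      Real.sqrt (∫ z, Φ a z ^ 2 ∂μ) := fun a => by
    rw [mul_assoc, ← Real.sqrt_mul (by norm_num)]
    exact (hR.bound a.1 a.2).trans (mul_le_mul (le_abs_self _)
      (Real.sqrt_le_sqrt (hsob a)) (Real.sqrt_nonneg _) (abs_nonneg _))
  have hwd : ∀ a b : testMod A, Φ a = Φ b → R a.1 = R b.1 := fun a b h => by
    have h0 : Φ (a + (-1 : ℝ) • b) = 0 := by rw [map_add, map_smul, h]; simp
    have h1 := hbound (a + (-1 : ℝ) • b)
    rw [h0] at h1
    simp only [Pi.zero_apply, ne_eq, OfNat.ofNat_ne_zero, not_false_eq_true, zero_pow,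
      integral_zero, Real.sqrt_zero, mul_zero, abs_nonpos_iff] at h1
    rw [Submodule.coe_add, Submodule.coe_smul, hR.add _ _ a.2 ((testMod A).smul_mem _ b.2),
      hR.smul _ _ b.2] at h1
    linarith
  set L : (ι × Pt → ℝ) → ℝ := fun f => if h : ∃ a, Φ a = f then R (h.choose).1 else 0
  have hL : ∀ a, L (Φ a) = R a.1 := fun a => by
    have h : ∃ b, Φ b = Φ a := ⟨a, rfl⟩
    simp only [L, dif_pos h]
    exact hwd _ _ h.choose_spec
  obtain ⟨ρ, hρm, hρ, hρR⟩ := Est.exists_repr (LinearMap.range Φ)
    (by rintro _ ⟨a, rfl⟩; exact hmem a) L (C := |C₁| * Real.sqrt 125)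
    (by rintro _ ⟨a, rfl⟩ _ ⟨b, rfl⟩
        rw [← map_add, hL, hL, hL]
        exact hR.add _ _ a.2 b.2)
    (by rintro t _ ⟨a, rfl⟩
        rw [← map_smul, hL, hL]
        exact hR.smul _ _ a.2)
    (by rintro _ ⟨a, rfl⟩; rw [hL]; exact hbound a)
  have hI : ∀ s, IntegrableOn (fun q => ρ (s, q)) B := fun s => by
    have h := (hρ.integrable one_le_two).prod_right_ae
    exact (ae_iff_of_countable.1 h) s (by simp)
  refine ⟨W, fun c i j w q => if h : w ∈ W then ρ ((c, i, j, W.equivFin ⟨w, h⟩), q) else 0,
    fun w hw => mem_words3.1 hw, fun c i j w => ?_, fun a ha => ?_⟩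
  · by_cases h : w ∈ W
    · simp only [dif_pos h]
      exact ⟨hρm.measurable.comp (measurable_const.prodMk measurable_id), hI _⟩
    · simp only [dif_neg h]
      exact ⟨measurable_const, integrableOn_zero⟩
  · rw [← hL ⟨a, ha⟩, hρR _ (LinearMap.mem_range_self Φ _),
      hint (fun x => ρ x * Φ ⟨a, ha⟩ x) (hρ.integrable_mul (hmem _))]
    simp only [ι, Fintype.sum_prod_type]
    refine Finset.sum_congr rfl fun c _ => Finset.sum_congr rfl fun i _ =>
      Finset.sum_congr rfl fun j _ => ?_
    rw [← Finset.sum_coe_sort W]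
    refine Fintype.sum_equiv W.equivFin.symm _ _ fun l => ?_
    refine integral_congr_ae (Eventually.of_forall fun q => ?_)
    simp only [Subtype.coe_eta, dif_pos (W.equivFin.symm l).2, Equiv.apply_symm_apply]
    rfl

end Vale.Agent.P204.Kernel
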