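import Mathlib
import Vale.Agent.P204.Kernel.Local
import Vale.Agent.P204.Kernel.Global

/-!
# P204: the cut coefficients of the kernel as a form in the second point

In the chart `c` they are finite combinations, with coefficients continuous in the first point, of
`prodK σ p q`, products of a fixed cut-off function of `q` with `kerf`.
-/

open MeasureTheory Matrix Filter Topology Set
open scoped ContDiff

namespace Vale.Agent.P204.Kernel

open Vale.Agent.P204.General Vale.Agent.P204.Torus

variable {N K : ℕ} (A : Atlas N K) (J : Amb N → MN N) (c : Fin K) (r e : ℝ)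

/-- The index of a coefficient of a two-form in a chart and of a coefficient of the kernel. -/
abbrev Jdx := (Fin 4 × Fin 4) × Fin 4 × Fin 4

open Classical in
/-- The cut anti-invariant projection in a chart. -/
noncomputable def mmC (i j i' j' : Fin 4) (q : Pt) : ℝ :=
  if q ∈ box then A.chi c (A.psi c q) *
    ((2 : ℝ)⁻¹ * ((1 : M4) i i' * (1 : M4) j' j - A.jc J c q i' i * A.jc J c q j' j)) else 0

theorem chi_half {q : Pt} (hq : q ∈ box) (h : A.chi c (A.psi c q) ≠ 0) :
    q ∈ Metric.closedBall (0 : Pt) (1 / 2) := by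
  obtain ⟨p, hp, he⟩ := A.chi_supp c _ (A.psi_mem c q hq) h
  rw [← A.phi_psi c hq, ← he, A.phi_psi c (closedBall_subset_box hp)]
  exact hp

variable {J} in
theorem mmC_smooth (hJ : IsACS A J) (i j i' j' : Fin 4) :
    ContDiff ℝ ∞ (mmC A J c i j i' j') ∧ HasCompactSupport (mmC A J c i j i' j') ∧
      BddDerivs (mmC A J c i j i' j') := by
  refine smooth_of_supp isOpen_box (isCompact_closedBall (0 : Pt) (1 / 2)) closedBall_subset_box
    ?_ fun q hq => ?_
  · refine ContDiffOn.congr (f := fun q => A.chi c (A.psi c q) * ((2 : ℝ)⁻¹ *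
      ((1 : M4) i i' * (1 : M4) j' j - A.jc J c q i' i * A.jc J c q j' j))) ?_
      fun q hq => if_pos hq
    exact ((A.chi_smooth c).comp (A.psi_smooth c)).contDiffOn.mul (contDiffOn_const.mul
      (contDiffOn_const.sub ((hJ.smooth c i' i).mul (hJ.smooth c j' j))))
  · simp only [mmC]
    split_ifs with hb
    · by_contra hne
      exact hq (chi_half A c hb (left_ne_zero_of_mul hne))
    · rfl

/-- The building block: the cut-off times the chart kernel between two coordinate points. -/
noncomputable def prodK (i j : Fin 4) (l : Jdx) (σ : ℝ) (p q : Pt) : ℝ :=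
  mmC A J c i j l.1.1 l.1.2 q *
    kerf A c r e l.2.1 l.2.2 l.1.1 l.1.2 ((σ, q), σ⁻¹ • (p - q))

open Classical in
/-- The coefficient of the kernel in the first point, extended by zero. -/
noncomputable def xCoef (i k : Fin N) (l : Jdx) (x : Amb N) : ℝ :=
  (if x ∈ A.psi c '' Metric.closedBall 0 (7 / 8) then 1 else 0) *
    ∑ d, A.chi d x * ∑ m, ∑ n, (A.L c * A.dmat d (A.phi d x) * A.L d) m i *
      (A.L c * A.dmat d (A.phi d x) * A.L d) n k *
        dualBiv (Pi.single m 1) (Pi.single n 1) l.2.1 l.2.2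

theorem kk_bilin (σ : ℝ) (z u w x : Amb N) :
    kk A r e σ z u w x = ∑ a, ∑ b, (u a * w b) •
      kk A r e σ z (Pi.single a 1) (Pi.single b 1) x := by
  have h0 : ∀ w, kk A r e σ z 0 w x = 0 := fun w => by
    have h := kk_linear A r e σ z 0 0 w x 1
    simp only [smul_zero, add_zero, one_smul] at h
    exact left_eq_add.1 h
  let f : Amb N → Amb N →ₗ[ℝ] MN N := fun w =>
    { toFun := fun u => kk A r e σ z u w x
      map_add' := fun u u' => by simpa using kk_linear A r e σ z u u' w x 1
      map_smul' := fun t u => by simpa [h0 w] using kk_linear A r e σ z u 0 w x t }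
  have h1 : ∀ u w, kk A r e σ z u w x = ∑ a, u a • kk A r e σ z (Pi.single a 1) w x := fun u w => by
    show f w u = _
    conv_lhs => rw [pi_eq_sum_univ' u, map_sum]
    simp only [map_smul]
    rfl
  rw [h1]
  refine Finset.sum_congr rfl fun a _ => ?_
  rw [kk_swap A r e σ z w (Pi.single a 1) x, h1 w]
  simp only [smul_neg, Finset.smul_sum, ← Finset.sum_neg_distrib]
  refine Finset.sum_congr rfl fun b _ => ?_
  rw [kk_swap A r e σ z (Pi.single a 1) (Pi.single b 1) x, smul_smul, smul_neg, neg_neg]

theorem pull_zForm (σ : ℝ) (x : Amb N) (i k : Fin N) (q : Pt) (a b : Fin 4) :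
    A.pull c (zForm A r e σ x i k) q a b = kk A r e σ (A.psi c q)
      (A.dmat c q *ᵥ Pi.single a 1) (A.dmat c q *ᵥ Pi.single b 1) x i k := by
  rw [kk_bilin]
  simp only [Atlas.pull, Atlas.pullAt, zForm, Matrix.mul_apply, Matrix.transpose_apply,
    Matrix.of_apply, Matrix.sum_apply, Matrix.smul_apply, smul_eq_mul, Finset.sum_mul,
    mulVec_single_one, Matrix.col_apply]
  rw [Finset.sum_comm]
  exact Finset.sum_congr rfl fun u _ => Finset.sum_congr rfl fun w _ => by ring

variable {J} {c₀ C₀ : ℝ}

theorem entry_dualBiv {M : M4} (hM : Mᵀ = -M) (m n : Fin 4) :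
    M m n = ∑ a, ∑ b, dualBiv (Pi.single m 1) (Pi.single n 1) a b *
      wedge (Matrix.single a b 1) M := by
  rw [← wedge_eq_sum, wedge_dualBiv_left, ← dot_mulVec_eq_ev2 hM, mulVec_single_one,
    single_one_dotProduct]
  rfl

/-- The kernel at a point of the manifold, through the chart kernel. -/
theorem kk_eq_kerf (hJ : IsACS A J) (hG : GoodR A r e c₀ C₀) {σ : ℝ} (hσ : 0 < σ) (hσ1 : σ ≤ 1)
    {x : Amb N} (hx : x ∈ A.X) {q : Pt} (hq : q ∈ Metric.closedBall 0 (5 / 8)) (i k : Fin N)
    (a b : Fin 4) :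
    kk A r e σ (A.psi c q) (A.dmat c q *ᵥ Pi.single a 1) (A.dmat c q *ᵥ Pi.single b 1) x i k =
      ∑ s : Fin 4 × Fin 4, xCoef A c i k ((a, b), s) x *
        ((σ ^ 4)⁻¹ * kerf A c r e s.1 s.2 a b ((σ, q), σ⁻¹ • (A.phi c x - q))) := by
  have hqn := mem_closedBall_zero_iff.1 hq
  by_cases hin : x ∈ A.psi c '' Metric.closedBall 0 (7 / 8)
  · obtain ⟨p, hp, rfl⟩ := hin
    have hpb : p ∈ box := Metric.closedBall_subset_ball (by norm_num) hp
    set z := A.psi c q
    set u := A.dmat c q *ᵥ Pi.single a (1 : ℝ)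
    set w := A.dmat c q *ᵥ Pi.single b (1 : ℝ)
    set M := loc22 A c r e σ p z u w
    have hk : kk A r e σ z u w (A.psi c p) = ∑ d, A.chi d (A.psi c p) •
        ((A.L c * A.dmat d (A.phi d (A.psi c p)) * A.L d)ᵀ * M *
          (A.L c * A.dmat d (A.phi d (A.psi c p)) * A.L d)) := by
      refine Finset.sum_congr rfl fun d _ => ?_
      rcases eq_or_ne (A.chi d (A.psi c p)) 0 with h | h
      · simp [h]
      congr 1
      have hdi := A.chi_image hx h
      have hd := A.phi_mem d hdi
      have hc' : A.psi d (A.phi d (A.psi c p)) ∈ A.psi c '' box :=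
        ⟨p, hpb, (A.psi_phi d hdi).symm⟩
      have ht := loc22_trans A c d hd hc' hJ r e σ z u w
      rw [Atlas.trans, A.psi_phi d hdi, A.phi_psi c hpb] at ht
      simp only [Atlas.push, ht, transpose_mul, Matrix.mul_assoc, M]
    have hker : ∀ s : Fin 4 × Fin 4, (σ ^ 4)⁻¹ * kerf A c r e s.1 s.2 a b
        ((σ, q), σ⁻¹ • (p - q)) = wedge (Matrix.single s.1 s.2 1) M := fun s => by
      rw [kerf_eq hG hσ hσ1 hq hpb, ← mul_assoc, inv_mul_cancel₀ (pow_ne_zero 4 hσ.ne'), one_mul]
    simp only [A.phi_psi c hpb, hker, xCoef, if_pos (Set.mem_image_of_mem (A.psi c) hp), one_mul,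
      Finset.sum_mul]
    rw [hk, Finset.sum_comm]
    simp only [Matrix.sum_apply, Matrix.smul_apply, smul_eq_mul]
    refine Finset.sum_congr rfl fun d _ => ?_
    simp only [Finset.mul_sum, Finset.sum_mul]
    generalize A.L c * A.dmat d (A.phi d (A.psi c p)) * A.L d = Z
    simp only [Matrix.mul_apply, Matrix.transpose_apply, Finset.sum_mul, Finset.mul_sum]
    rw [Finset.sum_comm (s := (Finset.univ : Finset (Fin 4 × Fin 4)))]
    rw [Finset.sum_comm]
    refine Finset.sum_congr rfl fun m _ => ?_
    rw [Finset.sum_comm (s := (Finset.univ : Finset (Fin 4 × Fin 4)))]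
    refine Finset.sum_congr rfl fun n _ => ?_
    rw [entry_dualBiv (show Mᵀ = -M from loc22_skew A c r e σ p z u w) m n]
    simp only [Fintype.sum_prod_type, Finset.mul_sum, Finset.sum_mul]
    exact Finset.sum_congr rfl fun _ _ => Finset.sum_congr rfl fun _ _ => by ring
  · simp only [xCoef, if_neg hin, zero_mul, Finset.sum_const_zero]
    have he : etaF r (A.psi c q - x) = 0 := by
      by_contra hne
      obtain ⟨p, hp, hpe⟩ := near_chart hG (Metric.closedBall_subset_closedBall (by norm_num) hq)
        hx hne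
      refine hin ⟨p, mem_closedBall_zero_iff.2 ?_, hpe⟩
      have := norm_add_le (p - q) q
      rw [sub_add_cancel] at this
      linarith
    simp only [kk, Matrix.sum_apply, Matrix.smul_apply, smul_eq_mul]
    refine Finset.sum_eq_zero fun d _ => ?_
    rcases eq_or_ne (A.chi d x) 0 with h | h
    · simp [h]
    · have : ∀ u w, loc22 A d r e σ (A.phi d x) (A.psi c q) u w = 0 := fun u w => by
        ext a b
        simp [loc22, A.psi_phi d (A.chi_image hx h), he]
      simp [Atlas.push, this]

/-- The cut anti-invariant coefficients of the kernel as a form in the second point. -/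
theorem cutCoef_zForm (hJ : IsACS A J) (hG : GoodR A r e c₀ C₀) {σ : ℝ} (hσ : 0 < σ)
    (hσ1 : σ ≤ 1) {x : Amb N} (hx : x ∈ A.X) (i k : Fin N) (a b : Fin 4) (q : Pt) :
    A.cutCoef c (fun z => antiX J z (zForm A r e σ x i k z)) a b q =
      ∑ l : Jdx, xCoef A c i k l x *
        ((σ ^ 4)⁻¹ * prodK A J c r e a b l σ (A.phi c x) q) := by
  by_cases hq : q ∈ box
  · have hanti : A.cutCoef c (fun z => antiX J z (zForm A r e σ x i k z)) a b q =
        ∑ s : Fin 4 × Fin 4, mmC A J c a b s.1 s.2 q *
          A.pull c (zForm A r e σ x i k) q s.1 s.2 := by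
      simp only [Atlas.cutCoef, if_pos hq, Atlas.pull, pullAt_antiX A hJ c hq]
      simp only [antiP, mmC, if_pos hq, Matrix.smul_apply, Matrix.sub_apply, smul_eq_mul,
        Matrix.mul_apply, Matrix.transpose_apply, Fintype.sum_prod_type]
      generalize A.pullAt c (zForm A r e σ x i k (A.psi c q)) q = P
      simp only [Matrix.one_apply, Fin.sum_univ_four]
      fin_cases a <;> fin_cases b <;> simp <;> ring
    rw [hanti, Fintype.sum_prod_type (α₁ := Fin 4 × Fin 4)]
    refine Finset.sum_congr rfl fun s _ => ?_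
    by_cases hhalf : q ∈ Metric.closedBall (0 : Pt) (1 / 2)
    · rw [pull_zForm, kk_eq_kerf A c r e hJ hG hσ hσ1 hx
        (Metric.closedBall_subset_closedBall (by norm_num) hhalf), Finset.mul_sum]
      exact Finset.sum_congr rfl fun _ _ => by simp only [prodK]; ring
    · have h0 : mmC A J c a b s.1 s.2 q = 0 := by
        simp only [mmC, if_pos hq]
        by_contra hne
        exact hhalf (chi_half A c hq (left_ne_zero_of_mul hne))
      simp [prodK, h0]
  · simp [Atlas.cutCoef, prodK, mmC, hq]

end Vale.Agent.P204.Kernel
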