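import Mathlib
import Vale.Agent.P204.Kernel.RepCoef

/-!
# P204: derivatives of the building block

`pdL w` of `prodK σ p` at `q` is smooth in all variables for positive `σ`, is at most `C / σ ^ |w|`
and vanishes when `p` is far out.
-/

open MeasureTheory Matrix Filter Topology Set
open scoped ContDiff

namespace Vale.Agent.P204.Kernel

open Vale.Agent.P204.General Vale.Agent.P204.Torus

variable {N K : ℕ} (A : Atlas N K) (J : Amb N → MN N) (c : Fin K) (r e : ℝ)

/-- Iterated partial derivatives in the second variable stay smooth. -/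
theorem contDiffOn_pdL_snd {P : Type} [NormedAddCommGroup P] [NormedSpace ℝ P] {U : Set P}
    (hU : IsOpen U) : ∀ (w : List (Fin 4)) {F : P × Pt → ℝ}, ContDiffOn ℝ ∞ F (U ×ˢ univ) →
      ContDiffOn ℝ ∞ (fun y : P × Pt => pdL w (fun q => F (y.1, q)) y.2) (U ×ˢ univ)
  | [], _, hF => hF
  | i :: w, F, hF => by
    have hV : IsOpen (U ×ˢ (univ : Set Pt)) := hU.prod isOpen_univ
    have h := contDiffOn_pdL_snd hU w hF
    refine ((h.fderiv_of_isOpen hV (by simp)).clm_apply
      (contDiffOn_const (c := ((0, Pi.single i 1) : P × Pt)))).congr fun y hy => ?_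
    show fderiv ℝ (pdL w fun q => F (y.1, q)) y.2 _ = _
    have hd := ((h.differentiableOn (by simp)).differentiableAt (hV.mem_nhds hy)).hasFDerivAt
    rw [show (pdL w fun q => F (y.1, q)) = (fun z : P × Pt => pdL w (fun q => F (z.1, q)) z.2) ∘
      fun q : Pt => (y.1, q) from rfl, (hd.comp y.2 (hasFDerivAt_prodMk_right y.1 y.2)).fderiv]
    rfl

/-- The typical product: a cut-off times a scaled Gaussian family. -/
theorem scaled_bound {c₁ : ℝ} (hc : 0 < c₁) : ∀ (w : List (Fin 4)) {g : Pt → ℝ} {f : X3 → ℝ},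
    ContDiff ℝ ∞ g → HasCompactSupport g → GaussB S3 c₁ f →
    ∃ C : ℝ, 0 ≤ C ∧ ∀ σ : ℝ, 0 < σ → σ ≤ 1 → ∀ p q : Pt,
      |pdL w (fun q => g q * f ((σ, q), σ⁻¹ • (p - q))) q| ≤ C / σ ^ w.length := by
  intro w
  induction w using List.reverseRecOn with
  | nil =>
    intro g f hg hs hf
    obtain ⟨G, hG⟩ := hs.exists_bound_of_continuous hg.continuous
    obtain ⟨C, hC, hb⟩ := hf.2 0
    refine ⟨|G| * C, by positivity, fun σ hσ hσ1 p q => ?_⟩
    simp only [pdL, List.length_nil, pow_zero, div_one, abs_mul]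
    refine mul_le_mul (((Real.norm_eq_abs _).symm.trans_le (hG q)).trans (le_abs_self _)) ?_
      (abs_nonneg _) (abs_nonneg _)
    have h1 := hb ((σ, q), σ⁻¹ • (p - q)) (show |σ| ≤ 1 by rw [abs_of_pos hσ]; exact hσ1)
    rw [norm_iteratedFDeriv_zero, Real.norm_eq_abs] at h1
    refine h1.trans (mul_le_of_le_one_right hC (Real.exp_le_one_iff.2 ?_))
    have := mul_nonneg hc.le (sq_nonneg ‖σ⁻¹ • (p - q)‖)
    linarith
  | append_singleton w i ih =>
    intro g f hg hs hf
    set e₁ : X3 := ((0, Pi.single i 1), 0)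
    set e₂ : X3 := ((0, 0), -Pi.single i 1)
    have hs' : HasCompactSupport (pd i g) :=
      (hs.fderiv (𝕜 := ℝ)).comp_left (g := fun L : Pt →L[ℝ] ℝ => L (Pi.single i 1)) rfl
    obtain ⟨C1, hC1, b1⟩ := ih (contDiff_pd hg i) hs' hf
    obtain ⟨C2, hC2, b2⟩ := ih hg hs (hf.deriv e₁)
    obtain ⟨C3, hC3, b3⟩ := ih hg hs (hf.deriv e₂)
    refine ⟨C1 + C2 + C3, by positivity, fun σ hσ hσ1 p q => ?_⟩
    have hmap : ContDiff ℝ ∞ fun q : Pt => (((σ, q), σ⁻¹ • (p - q)) : X3) := by fun_prop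
    have hfd : ContDiff ℝ ∞ fun x : X3 => fderiv ℝ f x :=
      hf.1.fderiv_right (by simp)
    set T : (X3 → ℝ) → Pt → ℝ := fun f q => f ((σ, q), σ⁻¹ • (p - q))
    have hT : ∀ e, ContDiff ℝ ∞ (T fun x => fderiv ℝ f x e) := fun e =>
      (hfd.clm_apply contDiff_const).comp hmap
    have hpd : pd i (fun q => g q * T f q) = fun q => pd i g q * T f q +
        (g q * T (fun x => fderiv ℝ f x e₁) q + σ⁻¹ * (g q * T (fun x => fderiv ℝ f x e₂) q)) := by
      funext q
      have h1 := hasDerivAt_pd ((hg.differentiable (by simp)).differentiableAt (x := q)) i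
      have hl : HasDerivAt (fun t : ℝ => (((σ, q + t • Pi.single i 1),
          σ⁻¹ • (p - (q + t • Pi.single i 1))) : X3)) (((0, Pi.single i 1), σ⁻¹ • -Pi.single i 1)) 0 := by
        have hq : HasDerivAt (fun t : ℝ => q + t • Pi.single (M := fun _ => ℝ) i 1) (Pi.single i 1) 0 := by
          simpa using ((hasDerivAt_id (0 : ℝ)).smul_const (Pi.single i 1 : Pt)).const_add q
        exact ((hasDerivAt_const (0 : ℝ) σ).prodMk hq).prodMk ((hq.const_sub p).const_smul σ⁻¹)
      have h2 : HasDerivAt (fun t : ℝ => T f (q + t • Pi.single i 1))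
          (fderiv ℝ f ((σ, q), σ⁻¹ • (p - q)) ((0, Pi.single i 1), σ⁻¹ • -Pi.single i 1)) 0 := by
        have := ((hf.1.differentiable (by simp)).differentiableAt).hasFDerivAt.comp_hasDerivAt 0 hl
        simpa [T, Function.comp_def] using this
      have hd : DifferentiableAt ℝ (fun q => g q * T f q) q :=
        ((hg.mul (hf.1.comp hmap)).differentiable (by simp)).differentiableAt
      rw [(hasDerivAt_pd hd i).unique (h1.fun_mul h2),
        show (((0, Pi.single i 1), σ⁻¹ • -Pi.single i 1) : X3) = e₁ + σ⁻¹ • e₂ by simp [e₁, e₂],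
        map_add, map_smul]
      simp only [zero_smul, add_zero, smul_eq_mul, T]
      ring
    have hs1 : ContDiff ℝ ∞ fun q => pd i g q * T f q := (contDiff_pd hg i).mul (hf.1.comp hmap)
    have hs3 : ContDiff ℝ ∞ fun q => σ⁻¹ * (g q * T (fun x => fderiv ℝ f x e₂) q) :=
      contDiff_const.mul (hg.mul (hT e₂))
    have hs2 : ContDiff ℝ ∞ fun q => g q * T (fun x => fderiv ℝ f x e₁) q := hg.mul (hT e₁)
    have hlin : ∀ {F G : Pt → ℝ}, ContDiff ℝ ∞ F → ContDiff ℝ ∞ G →
        pdL w (fun q => F q + G q) = fun q => pdL w F q + pdL w G q := fun {F G} hF hG => by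
      have h := pdL_sum (Finset.univ : Finset (Fin 2)) (f := ![F, G])
        (by intro k _; fin_cases k <;> assumption) w
      simpa [Fin.sum_univ_two] using h
    have hexp : pdL (w ++ [i]) (fun q => g q * T f q) q =
        pdL w (fun q => pd i g q * T f q) q + (pdL w (fun q => g q * T (fun x => fderiv ℝ f x e₁) q) q +
          σ⁻¹ * pdL w (fun q => g q * T (fun x => fderiv ℝ f x e₂) q) q) := by
      rw [pdL_append]
      show pdL w (pd i fun q => g q * T f q) q = _
      rw [hpd, hlin hs1 (hs2.add hs3), hlin hs2 hs3, pdL_const_mul (hg.mul (hT e₂)) σ⁻¹ w]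
    rw [show pdL (w ++ [i]) (fun q => g q * f ((σ, q), σ⁻¹ • (p - q))) q = _ from hexp,
      List.length_append, List.length_singleton]
    have hp : 0 < σ ^ w.length := pow_pos hσ _
    have hp1 : C1 / σ ^ w.length ≤ C1 / σ ^ (w.length + 1) :=
      div_le_div_of_nonneg_left hC1 (pow_pos hσ _) (pow_le_pow_of_le_one hσ.le hσ1 (Nat.le_succ _))
    have hp2 : C2 / σ ^ w.length ≤ C2 / σ ^ (w.length + 1) :=
      div_le_div_of_nonneg_left hC2 (pow_pos hσ _) (pow_le_pow_of_le_one hσ.le hσ1 (Nat.le_succ _))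
    have k3 : |σ⁻¹ * pdL w (fun q => g q * T (fun x => fderiv ℝ f x e₂) q) q| ≤
        C3 / σ ^ (w.length + 1) := by
      rw [abs_mul, abs_inv, abs_of_pos hσ, pow_succ', ← div_div]
      calc σ⁻¹ * |pdL w (fun q => g q * T (fun x => fderiv ℝ f x e₂) q) q|
          ≤ σ⁻¹ * (C3 / σ ^ w.length) :=
            mul_le_mul_of_nonneg_left (b3 σ hσ hσ1 p q) (by positivity)
        _ = C3 / σ / σ ^ w.length := by field_simp
    have := b1 σ hσ hσ1 p q
    have := b2 σ hσ hσ1 p q
    rw [add_div, add_div]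
    refine (abs_add_le _ _).trans ((add_le_add le_rfl (abs_add_le _ _)).trans ?_)
    linarith

variable {J} {c₀ C₀ : ℝ}

/-- The derivatives of the building block lose one power of the width each. -/
theorem prodK_bound (hJ : IsACS A J) (hG : GoodR A r e c₀ C₀) (i j : Fin 4) (l : Jdx)
    (w : List (Fin 4)) : ∃ C : ℝ, 0 ≤ C ∧ ∀ σ : ℝ, 0 < σ → σ ≤ 1 → ∀ p q : Pt,
      |pdL w (prodK A J c r e i j l σ p) q| ≤ C / σ ^ w.length := by
  obtain ⟨c₁, hc, hK⟩ := kerf_gauss (c := c) hG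
  exact scaled_bound hc w (mmC_smooth A c hJ _ _ _ _).1 (mmC_smooth A c hJ _ _ _ _).2.1
    (hK l.2.1 l.2.2 l.1.1 l.1.2)

theorem prodK_smooth (hJ : IsACS A J) (hG : GoodR A r e c₀ C₀) (i j : Fin 4) (l : Jdx) :
    ContDiffOn ℝ ∞ (fun y : (ℝ × Pt) × Pt => prodK A J c r e i j l y.1.1 y.1.2 y.2)
      ((Ioi (0 : ℝ) ×ˢ univ) ×ˢ univ) := by
  obtain ⟨c₁, -, hK⟩ := kerf_gauss (c := c) hG
  refine ((mmC_smooth A c hJ _ _ _ _).1.comp contDiff_snd).contDiffOn.mul
    ((hK l.2.1 l.2.2 l.1.1 l.1.2).1.comp_contDiffOn ?_)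
  have h1 : ContDiff ℝ ∞ fun y : (ℝ × Pt) × Pt => y.1.1 := contDiff_fst.fst
  exact (h1.prodMk contDiff_snd).contDiffOn.prodMk
    ((h1.contDiffOn.inv fun y hy => (show (0 : ℝ) < y.1.1 from hy.1.1).ne').smul
      (contDiff_fst.snd.sub contDiff_snd).contDiffOn)

/-- The derivatives of the building block are smooth in all variables. -/
theorem pdL_prodK_smooth (hJ : IsACS A J) (hG : GoodR A r e c₀ C₀) (i j : Fin 4) (l : Jdx)
    (w : List (Fin 4)) :
    ContDiffOn ℝ ∞ (fun y : (ℝ × Pt) × Pt => pdL w (prodK A J c r e i j l y.1.1 y.1.2) y.2)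
      ((Ioi (0 : ℝ) ×ˢ univ) ×ˢ univ) :=
  contDiffOn_pdL_snd (isOpen_Ioi.prod isOpen_univ) w (prodK_smooth A c r e hJ hG i j l)

/-- The building block vanishes when its first point is outside the chart's core. -/
theorem prodK_far (i j : Fin 4) (l : Jdx) {σ : ℝ} (hσ : 0 < σ) {p : Pt} (hp : 7 / 8 < ‖p‖) :
    prodK A J c r e i j l σ p = fun _ => 0 := by
  funext q
  simp only [prodK]
  rcases eq_or_ne (mmC A J c i j l.1.1 l.1.2 q) 0 with h | h
  · simp [h]
  have hq : ‖q‖ ≤ 1 / 2 := by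
    by_contra h'
    refine h ?_
    simp only [mmC]
    split_ifs with hb
    · by_contra hne
      exact h' (mem_closedBall_zero_iff.1 (chi_half A c hb (left_ne_zero_of_mul hne)))
    · rfl
  have hu : (1 / 16 : ℝ) < ‖p - q‖ := by
    have := norm_add_le (p - q) q
    rw [sub_add_cancel] at this
    linarith
  have ht : tA (σ • σ⁻¹ • (p - q)) = 0 := by
    rw [smul_inv_smul₀ hσ.ne']
    exact tA.zero_of_le_dist (by rw [dist_zero_right]; exact hu.le)
  simp [kerf, amp, ht]

end Vale.Agent.P204.Kernel
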