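import Mathlib
import Vale.Agent.P204.Kernel.RepDeriv
import Vale.Agent.P204.Est.Param

/-!
# P204: derivatives of the cut coefficients, pointwise and after smoothing

`Kq` is a derivative of a cut anti-invariant coefficient of `zForm`, `Qd` the corresponding
derivative for the smoothing of a continuous form.
-/

open MeasureTheory Matrix Filter Topology Set
open scoped ContDiff

namespace Vale.Agent.P204.Kernel

open Vale.Agent.P204.General Vale.Agent.P204.Torus

variable {N K : ℕ}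

/-- Derivatives under a weighted integral. -/
theorem pdL_param {α : Type*} [MeasurableSpace α] {μ : Measure α} {wt : α → ℝ} {pr : α → Pt}
    {S : Set Pt} (hw : Integrable wt μ) (hpr : Measurable pr) (hS : IsCompact S)
    (hsupp : ∀ᵐ z ∂μ, wt z ≠ 0 → pr z ∈ S) {F : Pt × Pt → ℝ} (hF : ContDiff ℝ ∞ F) :
    ∀ w : List (Fin 4), pdL w (fun q => ∫ z, wt z • F (q, pr z) ∂μ) =
      fun q => ∫ z, wt z • pdL w (fun q => F (q, pr z)) q ∂μ
  | [] => rfl
  | i :: w => by
    funext q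
    show fderiv ℝ (pdL w fun q => ∫ z, wt z • F (q, pr z) ∂μ) q _ = _
    rw [pdL_param hw hpr hS hsupp hF w]
    have hF' : ContDiff ℝ ∞ fun y : Pt × Pt => pdL w (fun q => F (q, y.2)) y.1 := by
      have h := contDiffOn_pdL_snd (P := Pt) isOpen_univ w (F := fun y => F (y.2, y.1))
        ((hF.comp (contDiff_snd.prodMk contDiff_fst)).contDiffOn)
      rw [univ_prod_univ, contDiffOn_univ] at h
      exact h.comp (contDiff_snd.prodMk contDiff_fst)
    rw [Est.fderiv_param_apply hF' hw hpr hS hsupp q]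
    rfl

variable (A : Atlas N K) (J : Amb N → MN N) (r e : ℝ)

/-- A derivative of a cut coefficient of the kernel as a form in the second point. -/
noncomputable def Kq (c : Fin K) (a b : Fin 4) (w : List (Fin 4)) (i k : Fin N) (σ : ℝ)
    (x : Amb N) (q : Pt) : ℝ :=
  ∑ l : Jdx, xCoef A c i k l x * ((σ ^ 4)⁻¹ * pdL w (prodK A J c r e a b l σ (A.phi c x)) q)

open Classical in
/-- The indicator of the core of a chart. -/
noncomputable def gateX (c : Fin K) (x : Amb N) : ℝ :=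
  if x ∈ A.psi c '' Metric.closedBall 0 (7 / 8) then 1 else 0

/-- The coefficient without its indicator. -/
noncomputable def xSum (c : Fin K) (i k : Fin N) (l : Jdx) (x : Amb N) : ℝ :=
  ∑ d, A.chi d x * ∑ m, ∑ n,
      (A.L c * A.dmat d (A.phi d x) * A.L d) m i * (A.L c * A.dmat d (A.phi d x) * A.L d) n k *
        dualBiv (Pi.single m 1) (Pi.single n 1) l.2.1 l.2.2

theorem xCoef_eq (c : Fin K) (i k : Fin N) (l : Jdx) (x : Amb N) :
    xCoef A c i k l x = gateX A c x * xSum A c i k l x := rfl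

theorem xSum_continuous (c : Fin K) (i k : Fin N) (l : Jdx) : Continuous (xSum A c i k l) := by
  unfold xSum
  have h1 : ∀ d j o, Continuous fun x => A.dmat d (A.phi d x) j o := fun d j o =>
    (A.dmat_cont d j o).comp (A.phi_cont d)
  have h2 := fun d => A.chi_cont d
  simp only [Matrix.mul_apply]
  fun_prop

variable {A J r e} {c₀ C₀ : ℝ} (hJ : IsACS A J) (hG : GoodR A r e c₀ C₀)
include hJ hG

theorem prodK_smoothQ (c : Fin K) (a b : Fin 4) (l : Jdx) {σ : ℝ} (hσ : 0 < σ) :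
    ContDiff ℝ ∞ fun y : Pt × Pt => prodK A J c r e a b l σ y.2 y.1 := by
  rw [← contDiffOn_univ]
  exact (prodK_smooth A c r e hJ hG a b l).comp
    ((contDiff_const.prodMk contDiff_snd).prodMk contDiff_fst).contDiffOn
    fun y _ => ⟨⟨hσ, trivial⟩, trivial⟩

theorem pdL_zForm (c : Fin K) (a b : Fin 4) (w : List (Fin 4)) (i k : Fin N) {σ : ℝ} (hσ : 0 < σ)
    (hσ1 : σ ≤ 1) {x : Amb N} (hx : x ∈ A.X) (q : Pt) :
    pdL w (A.cutCoef c (fun z => antiX J z (zForm A r e σ x i k z)) a b) q =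
      Kq A J r e c a b w i k σ x q := by
  have hs : ∀ l, ContDiff ℝ ∞ fun q => prodK A J c r e a b l σ (A.phi c x) q := fun l =>
    (prodK_smoothQ hJ hG c a b l hσ).comp (contDiff_id.prodMk contDiff_const)
  rw [show A.cutCoef c (fun z => antiX J z (zForm A r e σ x i k z)) a b = fun q => ∑ l : Jdx,
      (xCoef A c i k l x * (σ ^ 4)⁻¹) * prodK A J c r e a b l σ (A.phi c x) q from
    funext fun q => (cutCoef_zForm A c r e hJ hG hσ hσ1 hx i k a b q).trans
      (Finset.sum_congr rfl fun l _ => by ring),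
    pdL_sum _ (fun l _ => contDiff_const.mul (hs l))]
  simp only [Kq]
  refine Finset.sum_congr rfl fun l _ => ?_
  rw [pdL_const_mul (hs l)]
  ring

omit hG hJ in
theorem xCoef_bounded (c : Fin K) (i k : Fin N) (l : Jdx) :
    ∃ C : ℝ, 0 ≤ C ∧ ∀ x ∈ A.X, |xCoef A c i k l x| ≤ C := by
  classical
  obtain ⟨C, hC⟩ :=
    A.compact.exists_bound_of_continuousOn (xSum_continuous A c i k l).continuousOn
  refine ⟨max C 0, le_max_right _ _, fun x hx => ?_⟩
  rw [xCoef_eq, abs_mul]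
  refine (mul_le_of_le_one_left (abs_nonneg _) ?_).trans ((hC x hx).trans (le_max_left _ _))
  unfold gateX
  split_ifs <;> simp

theorem Kq_bound (c : Fin K) (a b : Fin 4) (w : List (Fin 4)) (i k : Fin N) :
    ∃ C : ℝ, 0 ≤ C ∧ ∀ σ : ℝ, 0 < σ → σ ≤ 1 → ∀ x ∈ A.X, ∀ q,
      |Kq A J r e c a b w i k σ x q| ≤ C / σ ^ (4 + w.length) := by
  choose Cx hCx hx using fun l => xCoef_bounded (A := A) c i k l
  choose Cp hCp hp using fun l => prodK_bound A c r e hJ hG a b l w
  refine ⟨∑ l, Cx l * Cp l, Finset.sum_nonneg fun l _ => mul_nonneg (hCx l) (hCp l),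
    fun σ hσ hσ1 x hxX q => ?_⟩
  rw [Finset.sum_div]
  refine (Finset.abs_sum_le_sum_abs _ _).trans (Finset.sum_le_sum fun l _ => ?_)
  rw [abs_mul, abs_mul, abs_inv, abs_of_pos (pow_pos hσ 4)]
  refine (mul_le_mul (hx l x hxX) (mul_le_mul_of_nonneg_left (hp l σ hσ hσ1 (A.phi c x) q)
    (by positivity)) (by positivity) (hCx l)).trans_eq ?_
  rw [pow_add]
  field_simp

theorem Kq_continuous (c : Fin K) (a b : Fin 4) (w : List (Fin 4)) (i k : Fin N) :
    ContinuousOn (fun y : (ℝ × Amb N) × Pt => Kq A J r e c a b w i k y.1.1 y.1.2 y.2)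
      ((Ioi 0 ×ˢ A.X) ×ˢ univ) := by
  classical
  simp only [Kq, xCoef_eq]
  refine continuousOn_finsetSum _ fun l _ => ?_
  set D : (ℝ × Pt) × Pt → ℝ := fun y => pdL w (prodK A J c r e a b l y.1.1 y.1.2) y.2 with hDdef
  have hD : ContinuousOn D ((Ioi 0 ×ˢ univ) ×ˢ univ) :=
    (pdL_prodK_smooth A c r e hJ hG a b l w).continuousOn
  have hm : Continuous fun y : (ℝ × Amb N) × Pt => (((y.1.1, A.phi c y.1.2), y.2) : (ℝ × Pt) × Pt) :=
    (continuous_fst.fst.prodMk ((A.phi_cont c).comp continuous_fst.snd)).prodMk continuous_snd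
  have hD' : ContinuousOn (fun y : (ℝ × Amb N) × Pt => D ((y.1.1, A.phi c y.1.2), y.2))
      ((Ioi 0 ×ˢ univ) ×ˢ univ) :=
    hD.comp hm.continuousOn fun y hy => ⟨⟨hy.1.1, trivial⟩, trivial⟩
  have hσ : ContinuousOn (fun y : (ℝ × Amb N) × Pt => (y.1.1 ^ 4)⁻¹) ((Ioi 0 ×ˢ univ) ×ˢ univ) :=
    (continuous_fst.fst.pow 4).continuousOn.inv₀ fun y hy =>
      pow_ne_zero 4 (show (0 : ℝ) < y.1.1 from hy.1.1).ne'
  have hS : Continuous fun y : (ℝ × Amb N) × Pt => xSum A c i k l y.1.2 :=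
    (xSum_continuous A c i k l).comp continuous_fst.snd
  set G : (ℝ × Amb N) × Pt → ℝ := fun y =>
    xSum A c i k l y.1.2 * ((y.1.1 ^ 4)⁻¹ * D ((y.1.1, A.phi c y.1.2), y.2))
  have hGc : ContinuousOn G ((Ioi 0 ×ˢ univ) ×ˢ univ) := hS.continuousOn.mul (hσ.mul hD')
  have hzero : ∀ y : (ℝ × Amb N) × Pt, 0 < y.1.1 → 7 / 8 < ‖A.phi c y.1.2‖ → G y = 0 := by
    intro y hy hp
    simp only [G, D, prodK_far A c r e a b l hy hp]
    have h0 : pdL w (fun _ : Pt => (0 : ℝ)) y.2 = 0 := by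
      have := congrFun (pdL_const_mul (f := fun _ : Pt => (0 : ℝ)) contDiff_const 0 w) y.2
      simpa using this
    rw [h0, mul_zero, mul_zero]
  have hK : IsClosed (A.psi c '' Metric.closedBall 0 (7 / 8)) :=
    ((isCompact_closedBall _ _).image (A.psi_cont c)).isClosed
  refine ContinuousOn.congr (f := fun y => gateX A c y.1.2 * G y) ?_ fun y _ => by
    simp only [G, D]; ring
  intro y hy
  by_cases hin : y.1.2 ∈ A.psi c '' box
  · obtain ⟨U, hU, hXU⟩ := A.open_image c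
    have hyU : y.1.2 ∈ U := (hXU.symm ▸ hin : y.1.2 ∈ A.X ∩ U).2
    have hG' : ContinuousWithinAt G ((Ioi 0 ×ˢ A.X) ×ˢ univ) y :=
      (hGc y ⟨⟨hy.1.1, trivial⟩, trivial⟩).mono
        (prod_mono (prod_mono le_rfl (subset_univ _)) le_rfl)
    have heq : ∀ z : (ℝ × Amb N) × Pt, 0 < z.1.1 → z.1.2 ∈ A.X → z.1.2 ∈ U →
        gateX A c z.1.2 * G z = G z := by
      intro z hz hzX hzU
      by_cases hg : z.1.2 ∈ A.psi c '' Metric.closedBall 0 (7 / 8)
      · rw [gateX, if_pos hg, one_mul]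
      · have hzi : z.1.2 ∈ A.psi c '' box := hXU ▸ ⟨hzX, hzU⟩
        have : 7 / 8 < ‖A.phi c z.1.2‖ := by
          by_contra h
          exact hg ⟨_, mem_closedBall_zero_iff.2 (not_lt.1 h), A.psi_phi c hzi⟩
        rw [hzero z hz this, mul_zero]
    refine hG'.congr_of_eventuallyEq ?_ (heq y hy.1.1 hy.1.2 hyU)
    filter_upwards [nhdsWithin_le_nhds ((hU.preimage continuous_fst.snd).mem_nhds hyU),
      self_mem_nhdsWithin] with z hz hz'
    exact heq z hz'.1.1 hz'.1.2 hz
  · have hg : y.1.2 ∉ A.psi c '' Metric.closedBall 0 (7 / 8) := fun h =>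
      hin (Set.image_mono (Metric.closedBall_subset_ball (by norm_num)) h)
    refine (continuousWithinAt_const (b := (0 : ℝ))).congr_of_eventuallyEq ?_
      (by show gateX A c y.1.2 * G y = 0; rw [gateX, if_neg hg, zero_mul])
    filter_upwards [nhdsWithin_le_nhds ((hK.isOpen_compl.preimage continuous_fst.snd).mem_nhds hg)]
      with z hz
    have hz' : z.1.2 ∉ A.psi c '' Metric.closedBall 0 (7 / 8) := hz
    show gateX A c z.1.2 * G z = 0
    rw [gateX, if_neg hz', zero_mul]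

end Vale.Agent.P204.Kernel
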