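import Mathlib
import Vale.Agent.P204.Kernel.RepKer
import Vale.Agent.P204.Kernel.RepDom
import Vale.Agent.P204.Kernel.LocalRep
import Vale.Agent.P204.Kernel.RepFun
import Vale.Agent.P204.General.Basic.Bounds
import Vale.Agent.P204.General.Basic.Stokes

/-!
# P204: the functional on the smoothing of a continuous form

`hH` is the functional on the kernel as a form in the second point; the functional on a smoothed
continuous form is the integral of the form against it.
-/

open MeasureTheory Matrix Filter Topology Set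
open scoped ContDiff

namespace Vale.Agent.P204.Kernel

open Vale.Agent.P204.General Vale.Agent.P204.Torus

variable {N K : ℕ}

/-- The closed half ball. -/
abbrev hB : Set Pt := Metric.closedBall 0 (1 / 2)

/-- The wedge product with an elementary matrix. -/
noncomputable def wI (A : Atlas N K) (b : Amb N → MN N) (i k : Fin N) (x : Amb N) : ℝ :=
  A.wedgePt x (b x) (Matrix.single i k 1)

theorem wedgePt_entries (A : Atlas N K) (b : Amb N → MN N) (x : Amb N) (M : MN N) :
    A.wedgePt x (b x) M = ∑ i, ∑ k, wI A b i k x * M i k := by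
  rw [A.wedgePt_comm]
  conv_lhs => rw [Matrix.matrix_eq_sum_single M]
  simp only [A.wedgePt_sum_left]
  refine Finset.sum_congr rfl fun i _ => Finset.sum_congr rfl fun k _ => ?_
  rw [show Matrix.single i k (M i k) = M i k • Matrix.single i k (1 : ℝ) by simp,
    A.wedgePt_smul_left, A.wedgePt_comm, mul_comm]
  rfl

theorem wI_continuousOn {A : Atlas N K} {J : Amb N → MN N} (hJ : IsACS A J) {b : Amb N → MN N}
    (hb : IsContX A b) (i k : Fin N) : ContinuousOn (wI A b i k) A.X := by
  have h : ContinuousOn (fun x => ∑ d, A.chi d x * (fun p => wedge (A.pull d b p)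
      (A.pullAt d (Matrix.single i k 1) p) / A.dens d p) (A.phi d x)) A.X := by
    refine continuousOn_finsetSum _ fun d _ => A.continuousOn_term d
      (F := fun p => wedge (A.pull d b p) (A.pullAt d (Matrix.single i k 1) p) / A.dens d p) ?_
    have h1 : ∀ m n, ContinuousOn (fun p => A.pullAt d (Matrix.single i k 1) p m n) box :=
      fun m n => by
      simp only [Atlas.pullAt_apply]
      exact (continuous_finsetSum _ fun l _ => (continuous_finsetSum _ fun q _ =>
        (A.dmat_cont d q m).mul continuous_const).mul (A.dmat_cont d l n)).continuousOn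
    have h2 := hb.cont d
    refine ContinuousOn.div ?_ (continuousOn_dens A d) fun p hp => (dens_pos A hJ d hp).ne'
    simp only [wedge]
    fun_prop
  refine h.congr fun x hx => ?_
  simp only [wI, Atlas.wedgePt]
  refine Finset.sum_congr rfl fun d _ => ?_
  rcases eq_or_ne (A.chi d x) 0 with hd | hd
  · simp [hd]
  · simp only [Atlas.pull, A.psi_phi d (A.supp_box hx hd)]

theorem ae_X (A : Atlas N K) : ∀ᵐ x ∂A.vol, x ∈ A.X := ae_mem_X A

variable {A : Atlas N K} {J : Amb N → MN N} {r d c₀ C₀ : ℝ}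
  (hJ : IsACS A J) (hG : GoodR A r d c₀ C₀)

theorem cut_anti (hJ : IsACS A J) (c : Fin K) (F : Amb N → MN N) (a a' : Fin 4) (q : Pt) :
    A.cutCoef c (fun z => antiX J z (F z)) a a' q =
      ∑ s : Fin 4 × Fin 4, mmC A J c a a' s.1 s.2 q * A.pull c F q s.1 s.2 := by
  by_cases hq : q ∈ box
  · simp only [Atlas.cutCoef, if_pos hq, Atlas.pull, pullAt_antiX A hJ c hq]
    simp only [antiP, mmC, if_pos hq, Matrix.smul_apply, Matrix.sub_apply, smul_eq_mul,
      Matrix.mul_apply, Matrix.transpose_apply, Fintype.sum_prod_type]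
    generalize A.pullAt c (F (A.psi c q)) q = P
    simp only [Matrix.one_apply, Fin.sum_univ_four]
    fin_cases a <;> fin_cases a' <;> simp <;> ring
  · simp [Atlas.cutCoef, mmC, hq]

include hJ hG

omit hG in
theorem cut_GS {b : Amb N → MN N} (hb : IsContX A b) {σ : ℝ} (c : Fin K) (a a' : Fin 4)
    (q : Pt) :
    A.cutCoef c (fun z => antiX J z (GS A r d σ b z)) a a' q = ∫ x, ∑ i, ∑ k,
      wI A b i k x * A.cutCoef c (fun z => antiX J z (zForm A r d σ x i k z)) a a' q ∂A.vol := by
  simp only [cut_anti hJ]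
  set U : Fin 4 → Amb N := fun v => A.dmat c q *ᵥ Pi.single v 1
  have e : ∀ m n, A.pull c (GS A r d σ b) q m n =
      ∫ x, A.wedgePt x (b x) (kk A r d σ (A.psi c q) (U m) (U n) x) ∂A.vol := fun m n => by
    refine Eq.trans ?_ (GS_apply hJ σ hb (A.psi c q) (U m) (U n))
    simp only [Atlas.pull, Atlas.pullAt, U, dotProduct, mulVec, Matrix.mul_apply,
      Matrix.transpose_apply, Finset.sum_mul, Finset.mul_sum]
    rw [Finset.sum_comm]
    refine Finset.sum_congr rfl fun k _ => Finset.sum_congr rfl fun l _ => ?_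
    simp [Pi.single_apply]; ring
  have hi : ∀ m n, Integrable
      (fun x => A.wedgePt x (b x) (kk A r d σ (A.psi c q) (U m) (U n) x)) A.vol := fun m n =>
    integrable_of_continuousOn A (continuousOn_wedge_cont hJ hb (kk_contX A r d σ _ _ _ hJ))
  simp only [e, ← integral_const_mul]
  rw [← integral_finsetSum _ fun s _ => (hi s.1 s.2).const_mul _]
  refine integral_congr_ae (ae_of_all _ fun x => ?_)
  simp only [wedgePt_entries, Finset.mul_sum, pull_zForm, U]
  rw [Finset.sum_comm]
  refine Finset.sum_congr rfl fun i _ => ?_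
  rw [Finset.sum_comm]
  exact Finset.sum_congr rfl fun k _ => Finset.sum_congr rfl fun s _ => by ring

omit hJ hG in
/-- The weight of the form against a coefficient of the kernel. -/
noncomputable def wK (A : Atlas N K) (b : Amb N → MN N) (c : Fin K) (σ : ℝ) (l : Jdx)
    (x : Amb N) : ℝ :=
  (σ ^ 4)⁻¹ * ∑ i, ∑ k, wI A b i k x * xCoef A c i k l x

omit hG in
theorem wK_integrable {b : Amb N → MN N} (hb : IsContX A b) (c : Fin K) (σ : ℝ) (l : Jdx) :
    Integrable (wK A b c σ l) A.vol := by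
  classical
  have hmK : MeasurableSet (A.psi c '' Metric.closedBall (0 : Pt) (7 / 8)) :=
    ((isCompact_closedBall _ _).image (A.psi_cont c)).isClosed.measurableSet
  refine Integrable.const_mul (integrable_finsetSum _ fun i _ =>
    integrable_finsetSum _ fun k _ => ?_) _
  refine ((integrable_of_continuousOn A ((wI_continuousOn hJ hb i k).mul
    (xSum_continuous A c i k l).continuousOn)).indicator hmK).congr (ae_of_all _ fun x => ?_)
  simp only [xCoef_eq, gateX, Set.indicator_apply, Pi.mul_apply]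
  split_ifs <;> simp

omit hJ hG in
theorem wK_supp (b : Amb N → MN N) (c : Fin K) (σ : ℝ) (l : Jdx) :
    ∀ᵐ x ∂A.vol, wK A b c σ l x ≠ 0 → A.phi c x ∈ Metric.closedBall (0 : Pt) (7 / 8) :=
  ae_of_all _ fun x hx => by
    by_contra hp
    refine hx ?_
    have : x ∉ A.psi c '' Metric.closedBall (0 : Pt) (7 / 8) := by
      rintro ⟨p, hp', rfl⟩
      exact hp (by rwa [A.phi_psi c (Metric.closedBall_subset_ball (by norm_num) hp')])
    simp only [wK, xCoef, if_neg this, zero_mul, mul_zero, Finset.sum_const_zero]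

omit hJ hG in
theorem wK_sum (b : Amb N → MN N) (c : Fin K) (σ : ℝ) (x : Amb N) (G : Jdx → ℝ) :
    ∑ l, wK A b c σ l x * G l =
      ∑ i, ∑ k, wI A b i k x * ∑ l, xCoef A c i k l x * ((σ ^ 4)⁻¹ * G l) := by
  simp only [wK, Finset.mul_sum, Finset.sum_mul]
  rw [Finset.sum_comm (s := (Finset.univ : Finset Jdx))]
  refine Finset.sum_congr rfl fun i _ => ?_
  rw [Finset.sum_comm (s := (Finset.univ : Finset Jdx))]
  exact Finset.sum_congr rfl fun k _ => Finset.sum_congr rfl fun l _ => by ring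

theorem prodK_carried {b : Amb N → MN N} (hb : IsContX A b) {σ : ℝ} (hσ : 0 < σ)
    (c : Fin K) (a a' : Fin 4) (w : List (Fin 4)) (q : Pt) (l : Jdx) :
    Integrable (fun x => wK A b c σ l x •
      pdL w (prodK A J c r d a a' l σ (A.phi c x)) q) A.vol := by
  refine Est.integrable_carried (g := fun p => pdL w (prodK A J c r d a a' l σ p) q) ?_
    (wK_integrable hJ hb c σ l) (A.phi_cont c).measurable (isCompact_closedBall _ _)
    (wK_supp b c σ l)
  have h := (pdL_prodK_smooth A c r d hJ hG a a' l w).continuousOn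
  have hm : Continuous fun p : Pt => (((σ, p), q) : (ℝ × Pt) × Pt) := by fun_prop
  exact h.comp_continuous (f := fun p : Pt => (((σ, p), q) : (ℝ × Pt) × Pt)) hm
    fun p => mk_mem_prod (mk_mem_prod (mem_Ioi.2 hσ) (mem_univ p)) (mem_univ q)

theorem cut_GS_prodK {b : Amb N → MN N} (hb : IsContX A b) {σ : ℝ} (hσ : 0 < σ) (hσ1 : σ ≤ 1)
    (c : Fin K) (a a' : Fin 4) :
    A.cutCoef c (fun z => antiX J z (GS A r d σ b z)) a a' = fun q =>
      ∑ l, ∫ x, wK A b c σ l x • prodK A J c r d a a' l σ (A.phi c x) q ∂A.vol := by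
  funext q
  rw [cut_GS hJ hb, ← integral_finsetSum Finset.univ (f := fun l x =>
    wK A b c σ l x • prodK A J c r d a a' l σ (A.phi c x) q)
    fun l _ => prodK_carried hJ hG hb hσ c a a' [] q l]
  refine integral_congr_ae ((ae_X A).mono fun x hx => ?_)
  simp only [cutCoef_zForm A c r d hJ hG hσ hσ1 hx, smul_eq_mul, wK_sum]

theorem pdL_GS {b : Amb N → MN N} (hb : IsContX A b) {σ : ℝ} (hσ : 0 < σ) (hσ1 : σ ≤ 1)
    (c : Fin K) (a a' : Fin 4) (w : List (Fin 4)) (q : Pt) :
    pdL w (A.cutCoef c (fun z => antiX J z (GS A r d σ b z)) a a') q = ∫ x, ∑ i, ∑ k,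
      wI A b i k x * Kq A J r d c a a' w i k σ x q ∂A.vol := by
  have hF : ∀ l, ContDiff ℝ ∞ fun y : Pt × Pt => prodK A J c r d a a' l σ y.2 y.1 := fun l =>
    prodK_smoothQ hJ hG c a a' l hσ
  have hp : ∀ l, pdL w (fun q => ∫ x, wK A b c σ l x •
      prodK A J c r d a a' l σ (A.phi c x) q ∂A.vol) q =
      ∫ x, wK A b c σ l x • pdL w (prodK A J c r d a a' l σ (A.phi c x)) q ∂A.vol := fun l =>
    congrFun (pdL_param (F := fun y : Pt × Pt => prodK A J c r d a a' l σ y.2 y.1)
      (wK_integrable hJ hb c σ l) (A.phi_cont c).measurable (isCompact_closedBall _ _)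
      (wK_supp b c σ l) (hF l) w) q
  rw [cut_GS_prodK hJ hG hb hσ hσ1, congrFun (pdL_sum Finset.univ (fun l _ => ?_) w) q]
  · rw [Finset.sum_congr rfl fun l _ => hp l,
      ← integral_finsetSum Finset.univ fun l _ => prodK_carried hJ hG hb hσ c a a' w q l]
    refine integral_congr_ae (ae_of_all _ fun x => ?_)
    simp only [smul_eq_mul, wK_sum, Kq]
  · exact Est.contDiff_param (F := fun y : Pt × Pt => prodK A J c r d a a' l σ y.2 y.1) (hF l)
      (wK_integrable hJ hb c σ l) (A.phi_cont c).measurable (isCompact_closedBall _ _)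
      (wK_supp b c σ l)

/-- The representing functions. -/
structure RepData (A : Atlas N K) (J : Amb N → MN N) (R : (Amb N → MN N) → ℝ) where
  W : Finset (List (Fin 4))
  ρ : Fin K → Fin 4 → Fin 4 → List (Fin 4) → Pt → ℝ
  len : ∀ w ∈ W, w.length ≤ 3
  int : ∀ c a a' w, IntegrableOn (ρ c a a' w) hB
  eq : ∀ f, IsTestX A f → R f = ∑ c, ∑ a, ∑ a', ∑ w ∈ W,
    ∫ q in hB, ρ c a a' w q * pdL w (A.cutCoef c (fun z => antiX J z (f z)) a a') q

omit hJ hG in
theorem repData {m : Measure (Amb N × Amb N)} {R : (Amb N → MN N) → ℝ} {C₁ : ℝ} (hJ : IsACS A J)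
    (hR : IsExtX A J m R C₁) : Nonempty (RepData A J R) := by
  obtain ⟨W, ρ, hW, hρ, he⟩ := repFun A J m R C₁ hJ hR
  exact ⟨⟨W, ρ, hW, fun c a a' w => (hρ c a a' w).2, he⟩⟩

variable {R : (Amb N → MN N) → ℝ} (D : RepData A J R)

/-- The functional on the kernel as a form in the second point. -/
noncomputable def hH (r d : ℝ) (σ : ℝ) (x : Amb N) (i k : Fin N) : ℝ :=
  ∑ c, ∑ a, ∑ a', ∑ w ∈ D.W,
    ∫ q in hB, D.ρ c a a' w q * Kq A J r d c a a' w i k σ x q

theorem R_zForm {σ : ℝ} (hσ : σ ∈ Ioc (0 : ℝ) 1) {x : Amb N} (hx : x ∈ A.X) (i k : Fin N) :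
    R (zForm A r d σ x i k) = hH D r d σ x i k := by
  rw [D.eq _ (zForm_test A r d σ x i k)]
  simp only [hH, pdL_zForm hJ hG _ _ _ _ _ _ hσ.1 hσ.2 hx]

theorem Kq_bound7 (c : Fin K) (a a' : Fin 4) {w : List (Fin 4)} (hw : w.length ≤ 3)
    (i k : Fin N) :
    ∃ C : ℝ, 0 ≤ C ∧ ∀ σ ∈ Ioc (0 : ℝ) 1, ∀ x ∈ A.X, ∀ q,
      |Kq A J r d c a a' w i k σ x q| ≤ C / σ ^ 7 := by
  obtain ⟨C, hC, hb⟩ := Kq_bound hJ hG c a a' w i k
  refine ⟨C, hC, fun σ hσ x hx q => (hb σ hσ.1 hσ.2 x hx q).trans
    (div_le_div_of_nonneg_left hC (pow_pos hσ.1 7) ?_)⟩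
  exact pow_le_pow_of_le_one hσ.1.le hσ.2 (by omega)

theorem Kq_slice (c : Fin K) (a a' : Fin 4) (w : List (Fin 4)) (i k : Fin N) {σ : ℝ}
    (hσ : 0 < σ) :
    ContinuousOn (fun z : Pt × Amb N => Kq A J r d c a a' w i k σ z.2 z.1) (univ ×ˢ A.X) :=
  ContinuousOn.comp (f := fun z : Pt × Amb N => (((σ, z.2), z.1) : (ℝ × Amb N) × Pt))
    (Kq_continuous hJ hG c a a' w i k)
    (by fun_prop : Continuous fun z : Pt × Amb N => (((σ, z.2), z.1) : (ℝ × Amb N) × Pt)).continuousOn
    fun z hz => mk_mem_prod (mk_mem_prod (mem_Ioi.2 hσ) hz.2) (mem_univ _)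

theorem hH_bound (i k : Fin N) :
    ∃ C : ℝ, 0 ≤ C ∧ ∀ σ ∈ Ioc (0 : ℝ) 1, ∀ x ∈ A.X, |hH D r d σ x i k| ≤ C / σ ^ 7 := by
  choose C hC hb using fun c a a' (w : D.W) => Kq_bound7 hJ hG c a a' (D.len w.1 w.2) i k
  refine ⟨∑ c, ∑ a, ∑ a', ∑ w : D.W, (∫ q in hB, |D.ρ c a a' w q|) * C c a a' w, ?_, ?_⟩
  · exact Finset.sum_nonneg fun c _ => Finset.sum_nonneg fun a _ => Finset.sum_nonneg fun a' _ =>
      Finset.sum_nonneg fun w _ => mul_nonneg (integral_nonneg fun q => abs_nonneg _) (hC c a a' w)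
  intro σ hσ x hx
  simp only [hH, ← Finset.sum_coe_sort D.W, Finset.sum_div]
  refine (Finset.abs_sum_le_sum_abs _ _).trans (Finset.sum_le_sum fun c _ => ?_)
  refine (Finset.abs_sum_le_sum_abs _ _).trans (Finset.sum_le_sum fun a _ => ?_)
  refine (Finset.abs_sum_le_sum_abs _ _).trans (Finset.sum_le_sum fun a' _ => ?_)
  refine (Finset.abs_sum_le_sum_abs _ _).trans (Finset.sum_le_sum fun w _ => ?_)
  rw [mul_div_assoc, ← integral_mul_const, ← Real.norm_eq_abs]
  refine norm_integral_le_of_norm_le ((D.int c a a' w).abs.mul_const _) (ae_of_all _ fun q => ?_)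
  rw [norm_mul, Real.norm_eq_abs, Real.norm_eq_abs]
  exact mul_le_mul_of_nonneg_left (hb c a a' w σ hσ x hx q) (abs_nonneg _)

theorem hH_continuous (i k : Fin N) :
    ContinuousOn (fun y : ℝ × Amb N => hH D r d y.1 y.2 i k) (Ioc 0 1 ×ˢ A.X) := by
  simp only [hH]
  refine continuousOn_finsetSum _ fun c _ => continuousOn_finsetSum _ fun a _ =>
    continuousOn_finsetSum _ fun a' _ => continuousOn_finsetSum _ fun w hw => ?_
  obtain ⟨C, hC, hb⟩ := Kq_bound7 hJ hG c a a' (D.len w hw) i k
  intro y hy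
  refine continuousWithinAt_of_dominated
    (bound := fun q => |D.ρ c a a' w q| * (C / (y.1 / 2) ^ 7)) ?_ ?_
    ((D.int c a a' w).abs.mul_const _) (ae_of_all _ fun q => ?_)
  · refine eventually_of_mem self_mem_nhdsWithin fun z hz => ?_
    refine (D.int c a a' w).aestronglyMeasurable.mul ?_
    refine ContinuousOn.aestronglyMeasurable ?_ measurableSet_closedBall
    exact ContinuousOn.comp (f := fun q : Pt => (q, z.2)) (Kq_slice hJ hG c a a' w i k hz.1.1)
      (by fun_prop : Continuous fun q : Pt => (q, z.2)).continuousOn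
      fun q _ => mk_mem_prod (mem_univ q) hz.2
  · have hy0 : 0 < y.1 := hy.1.1
    filter_upwards [self_mem_nhdsWithin, mem_nhdsWithin_of_mem_nhds
      ((continuous_fst.tendsto y).eventually (Ioi_mem_nhds (half_lt_self hy0)))] with z hz hz2
    refine ae_of_all _ fun q => ?_
    rw [norm_mul, Real.norm_eq_abs, Real.norm_eq_abs]
    refine mul_le_mul_of_nonneg_left ((hb z.1 hz.1 z.2 hz.2 q).trans ?_) (abs_nonneg _)
    exact div_le_div_of_nonneg_left hC (by positivity) (pow_le_pow_left₀ (by positivity) hz2.le 7)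
  · have h := (Kq_continuous hJ hG c a a' w i k) (y, q)
      (mk_mem_prod (mk_mem_prod hy.1.1 hy.2) (mem_univ q))
    have hm : Continuous fun z : ℝ × Amb N => ((z, q) : (ℝ × Amb N) × Pt) := by fun_prop
    exact continuousWithinAt_const.mul (h.comp (f := fun z : ℝ × Amb N => (z, q))
      hm.continuousWithinAt fun z hz => mk_mem_prod (mk_mem_prod hz.1.1 hz.2) (mem_univ q))

/-- The functional on a smoothed continuous form. -/
theorem R_GS {b : Amb N → MN N} (hb : IsContX A b) {σ : ℝ} (hσ : σ ∈ Ioc (0 : ℝ) 1) :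
    R (GS A r d σ b) = ∫ x, ∑ i, ∑ k, wI A b i k x * hH D r d σ x i k ∂A.vol := by
  rw [D.eq _ (GS_test r d σ hJ hb)]
  simp only [pdL_GS hJ hG hb hσ.1 hσ.2]
  set g : Fin K → Fin 4 → Fin 4 → List (Fin 4) → Pt × Amb N → ℝ := fun c a a' w z =>
    ∑ i, ∑ k, wI A b i k z.2 * Kq A J r d c a a' w i k σ z.2 z.1
  have key : ∀ c a a', ∀ w ∈ D.W,
      Integrable (fun x => ∫ q in hB, D.ρ c a a' w q * g c a a' w (q, x)) A.vol ∧
      ∫ q in hB, D.ρ c a a' w q * ∫ x, g c a a' w (q, x) ∂A.vol =
        ∫ x, (∫ q in hB, D.ρ c a a' w q * g c a a' w (q, x)) ∂A.vol := by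
    intro c a a' w hw
    choose C hC hKb using fun i k => Kq_bound7 hJ hG c a a' (D.len w hw) i k
    have hgc : ContinuousOn (g c a a' w) (univ ×ˢ A.X) :=
      continuousOn_finsetSum _ fun i _ => continuousOn_finsetSum _ fun k _ =>
        ((wI_continuousOn hJ hb i k).comp continuousOn_snd fun z hz => hz.2).mul
          (Kq_slice hJ hG c a a' w i k hσ.1)
    have := swap_dom (μ := volume.restrict hB) (ν := A.vol) MeasurableSet.univ (measurableSet_X A)
      (ae_of_all _ fun _ => trivial) (ae_X A) (D.int c a a' w)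
      (h := fun x => ∑ i, ∑ k, |wI A b i k x| * (C i k / σ ^ 7))
      (integrable_finsetSum _ fun i _ => integrable_finsetSum _ fun k _ =>
        (integrable_of_continuousOn A (wI_continuousOn hJ hb i k)).abs.mul_const _) hgc
      fun q _ x hx => (Finset.abs_sum_le_sum_abs _ _).trans (Finset.sum_le_sum fun i _ =>
        (Finset.abs_sum_le_sum_abs _ _).trans (Finset.sum_le_sum fun k _ => by
          rw [abs_mul]
          exact mul_le_mul_of_nonneg_left (hKb i k σ hσ x hx q) (abs_nonneg _)))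
    exact ⟨this.1, this.2.2⟩
  rw [Finset.sum_congr rfl fun c _ => Finset.sum_congr rfl fun a _ => Finset.sum_congr rfl fun a' _ =>
    Finset.sum_congr rfl fun w hw => (key c a a' w hw).2]
  rw [Finset.sum_congr rfl fun c _ => Finset.sum_congr rfl fun a _ => Finset.sum_congr rfl fun a' _ =>
      (integral_finsetSum _ fun w hw => (key c a a' w hw).1).symm,
    Finset.sum_congr rfl fun c _ => Finset.sum_congr rfl fun a _ =>
      (integral_finsetSum _ fun a' _ => integrable_finsetSum _ fun w hw =>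
        (key c a a' w hw).1).symm,
    Finset.sum_congr rfl fun c _ => (integral_finsetSum _ fun a _ => integrable_finsetSum _
      fun a' _ => integrable_finsetSum _ fun w hw => (key c a a' w hw).1).symm,
    ← integral_finsetSum _ fun c _ => integrable_finsetSum _ fun a _ => integrable_finsetSum _
      fun a' _ => integrable_finsetSum _ fun w hw => (key c a a' w hw).1]
  refine integral_congr_ae ((ae_X A).mono fun x hx => ?_)
  have hI : ∀ c a a', ∀ w ∈ D.W, ∀ i k, Integrable
      (fun q => D.ρ c a a' w q * Kq A J r d c a a' w i k σ x q) (volume.restrict hB) := by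
    intro c a a' w hw i k
    obtain ⟨C, -, hb'⟩ := Kq_bound7 hJ hG c a a' (D.len w hw) i k
    refine (D.int c a a' w).mul_bdd (c := C / σ ^ 7) ?_
      (ae_of_all _ fun q => hb' σ hσ x hx q)
    exact (ContinuousOn.comp (f := fun q : Pt => (q, x)) (Kq_slice hJ hG c a a' w i k hσ.1)
      (by fun_prop : Continuous fun q : Pt => (q, x)).continuousOn
      fun q _ => mk_mem_prod (mem_univ q) hx).aestronglyMeasurable measurableSet_closedBall
  have e : ∀ c a a', ∀ w ∈ D.W, ∫ q in hB, D.ρ c a a' w q * g c a a' w (q, x) =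
      ∑ v : Fin N × Fin N, wI A b v.1 v.2 x *
        ∫ q in hB, D.ρ c a a' w q * Kq A J r d c a a' w v.1 v.2 σ x q := fun c a a' w hw => by
    simp only [g, ← Fintype.sum_prod_type', Finset.mul_sum, ← integral_const_mul]
    rw [← integral_finsetSum _ fun v _ => (hI c a a' w hw v.1 v.2).const_mul _]
    exact integral_congr_ae (ae_of_all _ fun q => Finset.sum_congr rfl fun v _ => by ring)
  beta_reduce
  rw [Finset.sum_congr rfl fun c _ => Finset.sum_congr rfl fun a _ =>
    Finset.sum_congr rfl fun a' _ => (Finset.sum_congr rfl fun w hw => e c a a' w hw).trans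
      Finset.sum_comm]
  rw [Finset.sum_congr rfl fun c _ => Finset.sum_congr rfl fun a _ => Finset.sum_comm,
    Finset.sum_congr rfl fun c _ => Finset.sum_comm, Finset.sum_comm, Fintype.sum_prod_type]
  simp only [hH, Finset.mul_sum]

end Vale.Agent.P204.Kernel
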