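import Mathlib
import Vale.Agent.P204.Kernel.RepStep
import Vale.Agent.P204.Kernel.Parts2
import Vale.Agent.P204.Kernel.Approx.Main

/-!
# P204: the smoothed functional represents the functional after smoothing

The proof of `RepStmt`.
-/

open MeasureTheory Matrix Filter Topology Set
open scoped ContDiff

namespace Vale.Agent.P204.Kernel

open Vale.Agent.P204.General Vale.Agent.P204.Torus

variable {N K : ℕ} {A : Atlas N K} {J : Amb N → MN N} {r d c₀ C₀ : ℝ}

theorem gCut_eq (hJ : IsACS A J) {a F : Amb N → MN N} (c : Fin K) (i k : Fin 4) (p : Pt) {s : ℝ}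
    (h : p ∈ Metric.closedBall (0 : Pt) (5 / 8) →
      ∀ m n, A.pull c F p m n = sCh A r d a c m n (s, p)) :
    A.cutCoef c (fun x => antiX J x (F x)) i k p = gCut A J r d a c i k (s, p) := by
  by_cases hp : p ∈ Metric.ball (0 : Pt) (5 / 8)
  · have hb : p ∈ box := Metric.ball_subset_ball (by norm_num) hp
    simp only [gCut, hp, if_true, Atlas.cutCoef, hb, ← h (Metric.ball_subset_closedBall hp)]
    rw [Atlas.pull, pullAt_antiX A hJ c hb, antiP_entry, Finset.mul_sum]
    refine Finset.sum_congr rfl fun m _ => ?_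
    rw [Finset.mul_sum]
    exact Finset.sum_congr rfl fun n _ => by simp only [Atlas.pull]; ring
  · have h' : p ∉ Metric.closedBall (0 : Pt) (1 / 2) := fun hp' =>
      hp (Metric.closedBall_subset_ball (by norm_num) hp')
    rw [cutCoef_zero_off A c _ i k h', gCut_supp a c i k s h']

variable (hJ : IsACS A J) (hG : GoodR A r d c₀ C₀)
include hJ hG

theorem cut_GS_gCut {a : Amb N → MN N} (ha : IsTestX A a) {σ : ℝ}
    (hσ : σ ∈ Ioc (0 : ℝ) (1 / 2)) (c : Fin K) (i k : Fin 4) :
    A.cutCoef c (fun x => antiX J x (GS A r d σ a x)) i k =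
      fun p => gCut A J r d a c i k (σ, p) :=
  funext fun p => gCut_eq hJ c i k p fun hp m n => sCh_eq hJ hG ha c hp hσ m n

theorem cut_GE_gCut {a : Amb N → MN N} (ha : IsTestX A a) {ε : ℝ} (hε : 0 < ε) (hε4 : ε ≤ 1 / 4)
    (c : Fin K) (i k : Fin 4) :
    A.cutCoef c (fun x => antiX J x (GE A r d ε a x)) i k =
      fun p => ∫ s, gCut A J r d a c i k (s, p) ∂omNu ε := by
  funext p
  have e : GE A r d ε a = (fun x => GE A r d ε a x - a x) + a := by funext x; simp
  conv_lhs => rw [e, Atlas.cutCoef_anti_add, Pi.add_apply]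
  rw [cutCoef_GE hJ hG ha hε hε4, gCut_eq (r := r) (d := d) (a := a) (s := 0) hJ c i k p fun hp m n =>
    (sCh_zero hG ha c hp m n).symm, sub_add_cancel]

theorem pdL_GE {a : Amb N → MN N} (ha : IsTestX A a) {ε : ℝ} (hε : 0 < ε) (hε4 : ε ≤ 1 / 4)
    (c : Fin K) (i k : Fin 4) (w : List (Fin 4)) (q : Pt) :
    pdL w (A.cutCoef c (fun x => antiX J x (GE A r d ε a x)) i k) q =
      ∫ t in Ioc 0 (1 / ε), pW t * dqL w (gCut A J r d a c i k) (ε * Real.sqrt t, q) := by
  have hS := gCut_smooth hJ hG ha c i k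
  rw [cut_GE_gCut hJ hG ha hε hε4, (avg_deriv isOpen_univ hS hε hε4).2 w q (mem_univ q),
    integral_omNu hε hε4 (continuousOn_slice
      (contDiffOn_dqL (isOpen_wdSet isOpen_univ) hS w).continuousOn (mem_univ q)), omW_set]

theorem pdL_GS_gCut {a : Amb N → MN N} (ha : IsTestX A a) {σ : ℝ} (hσ : σ ∈ Ioc (0 : ℝ) (1 / 2))
    (c : Fin K) (i k : Fin 4) (w : List (Fin 4)) (q : Pt) :
    pdL w (A.cutCoef c (fun x => antiX J x (GS A r d σ a x)) i k) q =
      dqL w (gCut A J r d a c i k) (σ, q) :=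
  pdL_eq_dqL (isOpen_wdSet isOpen_univ) (gCut_smooth hJ hG ha c i k) w
    ⟨Icc_half_subset (Ioc_subset_Icc_self hσ), mem_univ q⟩
    (Eventually.of_forall fun p => congrFun (cut_GS_gCut hJ hG ha hσ c i k) p)

variable {R : (Amb N → MN N) → ℝ} (D : RepData A J R)

include D in
/-- The functional on the superposed smoothing of a test form. -/
theorem R_GE {a : Amb N → MN N} (ha : IsTestX A a) {ε : ℝ} (hε : 0 < ε) (hε4 : ε ≤ 1 / 4) :
    R (GE A r d ε a) = ∫ t, omW ε t * R (GS A r d (ε * Real.sqrt t) a) := by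
  rw [D.eq _ (GE_test hJ hG ha hε hε4), omW_set]
  simp only [pdL_GE hJ hG ha hε hε4]
  set g : Fin K → Fin 4 → Fin 4 → List (Fin 4) → Pt × ℝ → ℝ := fun c i k w z =>
    pW z.2 * dqL w (gCut A J r d a c i k) (ε * Real.sqrt z.2, z.1)
  have key : ∀ c i k w,
      Integrable (fun t => ∫ q in hB, D.ρ c i k w q * g c i k w (q, t))
        (volume.restrict (Ioc 0 (1 / ε))) ∧
      ∫ q in hB, D.ρ c i k w q * ∫ t in Ioc 0 (1 / ε), g c i k w (q, t) =
        ∫ t in Ioc 0 (1 / ε), (∫ q in hB, D.ρ c i k w q * g c i k w (q, t)) := by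
    intro c i k w
    set E := dqL w (gCut A J r d a c i k)
    have hE : ContinuousOn E (wdSet univ) :=
      (contDiffOn_dqL (isOpen_wdSet isOpen_univ) (gCut_smooth hJ hG ha c i k) w).continuousOn
    obtain ⟨B, hB'⟩ := (isCompact_Icc.prod
      (isCompact_closedBall (0 : Pt) (1 / 2))).exists_bound_of_continuousOn
      (hE.mono (prod_mono Icc_half_subset (subset_univ _)))
    have hmap : Continuous fun z : Pt × ℝ => ((ε * Real.sqrt z.2, z.1) : ℝ × Pt) := by fun_prop
    have hp : Continuous fun z : Pt × ℝ => pW z.2 := by unfold pW; fun_prop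
    have hgc : ContinuousOn (g c i k w) (hB ×ˢ Ioc 0 (1 / ε)) :=
      hp.continuousOn.mul (ContinuousOn.comp (f := fun z : Pt × ℝ => (ε * Real.sqrt z.2, z.1)) hE
        hmap.continuousOn fun z hz =>
          ⟨Icc_half_subset (Ioc_subset_Icc_self (width_mem hε hε4 hz.2)), mem_univ _⟩)
    have := swap_dom (μ := volume.restrict hB) (ν := volume.restrict (Ioc 0 (1 / ε)))
      measurableSet_closedBall measurableSet_Ioc (ae_restrict_mem measurableSet_closedBall)
      (ae_restrict_mem measurableSet_Ioc) (D.int c i k w) (h := fun t => pW t * B)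
      ((by unfold pW; fun_prop : Continuous fun t => pW t * B).integrableOn_Ioc) hgc
      fun q hq t ht => by
        have h0 : 0 ≤ pW t := by unfold pW; positivity
        show |pW t * E _| ≤ _
        rw [abs_mul, abs_of_nonneg h0]
        exact mul_le_mul_of_nonneg_left
          (hB' _ (mk_mem_prod (Ioc_subset_Icc_self (width_mem hε hε4 ht)) hq)) h0
    exact ⟨this.1, this.2.2⟩
  rw [Finset.sum_congr rfl fun c _ => Finset.sum_congr rfl fun i _ => Finset.sum_congr rfl fun k _ =>
      Finset.sum_congr rfl fun w _ => (key c i k w).2,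
    Finset.sum_congr rfl fun c _ => Finset.sum_congr rfl fun i _ => Finset.sum_congr rfl fun k _ =>
      (integral_finsetSum _ fun w _ => (key c i k w).1).symm,
    Finset.sum_congr rfl fun c _ => Finset.sum_congr rfl fun i _ =>
      (integral_finsetSum _ fun k _ => integrable_finsetSum _ fun w _ => (key c i k w).1).symm,
    Finset.sum_congr rfl fun c _ => (integral_finsetSum _ fun i _ => integrable_finsetSum _
      fun k _ => integrable_finsetSum _ fun w _ => (key c i k w).1).symm,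
    ← integral_finsetSum _ fun c _ => integrable_finsetSum _ fun i _ => integrable_finsetSum _
      fun k _ => integrable_finsetSum _ fun w _ => (key c i k w).1]
  refine setIntegral_congr_fun measurableSet_Ioc fun t ht => ?_
  rw [D.eq _ (GS_test r d _ hJ ha.contX)]
  simp only [pdL_GS_gCut hJ hG ha (width_mem hε hε4 ht), g, Finset.mul_sum, ← integral_const_mul]
  refine Finset.sum_congr rfl fun c _ => Finset.sum_congr rfl fun i _ =>
    Finset.sum_congr rfl fun k _ => Finset.sum_congr rfl fun w _ => ?_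
  exact integral_congr_ae (ae_of_all _ fun q => by ring)

omit hJ hG in
theorem width_one {ε t : ℝ} (hε : 0 < ε) (hε4 : ε ≤ 1 / 4) (ht : t ∈ Ioc 0 (1 / ε)) :
    ε * Real.sqrt t ∈ Ioc (0 : ℝ) 1 :=
  Ioc_subset_Ioc_right (by norm_num) (width_mem hε hε4 ht)

/-- The integrand of the smoothed functional, scaled. -/
theorem scaled_hH (i k : Fin N) {ε : ℝ} (hε : 0 < ε) (hε4 : ε ≤ 1 / 4) :
    ∃ C : ℝ, 0 ≤ C ∧
      ContinuousOn (fun z : ℝ × Amb N =>
        (ε * Real.sqrt z.1) ^ 7 * hH D r d (ε * Real.sqrt z.1) z.2 i k) (Ioc 0 (1 / ε) ×ˢ A.X) ∧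
      ∀ t ∈ Ioc 0 (1 / ε), ∀ x ∈ A.X,
        |(ε * Real.sqrt t) ^ 7 * hH D r d (ε * Real.sqrt t) x i k| ≤ C := by
  obtain ⟨C, hC, hb⟩ := hH_bound hJ hG D i k
  refine ⟨C, hC, ?_, fun t ht x hx => ?_⟩
  · have hm : Continuous fun z : ℝ × Amb N => ((ε * Real.sqrt z.1, z.2) : ℝ × Amb N) := by fun_prop
    refine ((hm.fst).pow 7).continuousOn.mul ?_
    exact ContinuousOn.comp (f := fun z : ℝ × Amb N => (ε * Real.sqrt z.1, z.2))
      (hH_continuous hJ hG D i k) hm.continuousOn
      fun z hz => mk_mem_prod (width_one hε hε4 hz.1) hz.2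
  · have hw := width_one hε hε4 ht
    rw [abs_mul, abs_of_pos (pow_pos hw.1 7)]
    exact (mul_le_mul_of_nonneg_left (hb _ hw x hx) (pow_pos hw.1 7).le).trans_eq
      (mul_div_cancel₀ _ (pow_pos hw.1 7).ne')

theorem VE_eq {ε : ℝ} (hε : 0 < ε) (hε4 : ε ≤ 1 / 4) {x : Amb N} (hx : x ∈ A.X) (i k : Fin N) :
    VE A r d ε R x i k = ∫ t in Ioc 0 (1 / ε),
      fW ε t * ((ε * Real.sqrt t) ^ 7 * hH D r d (ε * Real.sqrt t) x i k) := by
  show ∫ t, omW ε t * R (zForm A r d (ε * Real.sqrt t) x i k) = _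
  rw [omW_set]
  refine setIntegral_congr_fun measurableSet_Ioc fun t ht => ?_
  rw [R_zForm hJ hG D (width_one hε hε4 ht) hx, ← mul_assoc, fW_mul hε ht.1]

include D in
theorem VE_continuous {ε : ℝ} (hε : 0 < ε) (hε4 : ε ≤ 1 / 4) (i k : Fin N) :
    ContinuousOn (fun x => VE A r d ε R x i k) A.X := by
  obtain ⟨C, -, hc, hb⟩ := scaled_hH hJ hG D i k hε hε4
  refine ContinuousOn.congr ?_ fun x hx => VE_eq hJ hG D hε hε4 hx i k
  refine continuousOn_of_dominated (bound := fun t => |fW ε t| * C) (fun x hx => ?_) (fun x hx => ?_)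
    ((integrableOn_fW hε).abs.mul_const _) ?_
  · exact (integrableOn_fW hε).aestronglyMeasurable.mul
      ((ContinuousOn.comp (f := fun t : ℝ => (t, x)) hc
        (by fun_prop : Continuous fun t : ℝ => (t, x)).continuousOn
        fun t ht => mk_mem_prod ht hx).aestronglyMeasurable measurableSet_Ioc)
  · refine (ae_restrict_mem measurableSet_Ioc).mono fun t ht => ?_
    rw [norm_mul, Real.norm_eq_abs, Real.norm_eq_abs]
    exact mul_le_mul_of_nonneg_left (hb t ht x hx) (abs_nonneg _)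
  · refine (ae_restrict_mem measurableSet_Ioc).mono fun t ht => continuousOn_const.mul ?_
    exact ContinuousOn.comp (f := fun x : Amb N => (t, x)) hc
      (by fun_prop : Continuous fun x : Amb N => (t, x)).continuousOn fun x hx => mk_mem_prod ht hx

theorem wedgeInt_VE {b : Amb N → MN N} (hb : IsContX A b) {ε : ℝ} (hε : 0 < ε) (hε4 : ε ≤ 1 / 4)
    (D : RepData A J R) :
    Integrable (fun t => omW ε t * R (GS A r d (ε * Real.sqrt t) b)) ∧
      A.wedgeInt (VE A r d ε R) b = ∫ t, omW ε t * R (GS A r d (ε * Real.sqrt t) b) := by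
  choose C hC0 hc hbd using fun i k => scaled_hH hJ hG D i k hε hε4
  set G : ℝ × Amb N → ℝ := fun z => ∑ i, ∑ k, wI A b i k z.2 *
    ((ε * Real.sqrt z.1) ^ 7 * hH D r d (ε * Real.sqrt z.1) z.2 i k)
  have hgc : ContinuousOn G (Ioc 0 (1 / ε) ×ˢ A.X) :=
    continuousOn_finsetSum _ fun i _ => continuousOn_finsetSum _ fun k _ =>
      (ContinuousOn.comp (f := fun z : ℝ × Amb N => z.2) (wI_continuousOn hJ hb i k) continuousOn_snd
        fun z hz => hz.2).mul (hc i k)
  obtain ⟨hI1, hI2, hsw⟩ := swap_dom (μ := volume.restrict (Ioc 0 (1 / ε))) (ν := A.vol)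
    measurableSet_Ioc (measurableSet_X A) (ae_restrict_mem measurableSet_Ioc) (ae_X A)
    (integrableOn_fW hε) (h := fun x => ∑ i, ∑ k, |wI A b i k x| * C i k)
    (integrable_finsetSum _ fun i _ => integrable_finsetSum _ fun k _ =>
      (integrable_of_continuousOn A (wI_continuousOn hJ hb i k)).abs.mul_const _) hgc
    fun t ht x hx => (Finset.abs_sum_le_sum_abs _ _).trans (Finset.sum_le_sum fun i _ =>
      (Finset.abs_sum_le_sum_abs _ _).trans (Finset.sum_le_sum fun k _ => by
        rw [abs_mul]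
        exact mul_le_mul_of_nonneg_left (hbd i k t ht x hx) (abs_nonneg _)))
  have hR : ∀ t ∈ Ioc 0 (1 / ε),
      pW t * R (GS A r d (ε * Real.sqrt t) b) = fW ε t * ∫ x, G (t, x) ∂A.vol := fun t ht => by
    rw [R_GS hJ hG D hb (width_one hε hε4 ht), ← fW_mul hε ht.1, mul_assoc,
      ← integral_const_mul]
    congr 1
    refine integral_congr_ae (ae_of_all _ fun x => ?_)
    simp only [G, Finset.mul_sum]
    exact Finset.sum_congr rfl fun i _ => Finset.sum_congr rfl fun k _ => by ring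
  refine ⟨integrable_omW_mul (IntegrableOn.congr_fun hI2 (fun t ht => (hR t ht).symm)
    measurableSet_Ioc), ?_⟩
  rw [omW_set, setIntegral_congr_fun measurableSet_Ioc hR, hsw, Atlas.wedgeInt]
  refine integral_congr_ae ((ae_X A).mono fun x hx => ?_)
  have hint : ∀ i k, IntegrableOn (fun t => fW ε t *
      ((ε * Real.sqrt t) ^ 7 * hH D r d (ε * Real.sqrt t) x i k)) (Ioc 0 (1 / ε)) := fun i k =>
    (integrableOn_fW hε).mul_bdd (c := C i k)
      ((ContinuousOn.comp (f := fun t : ℝ => (t, x)) (hc i k)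
        (by fun_prop : Continuous fun t : ℝ => (t, x)).continuousOn
        fun t ht => mk_mem_prod ht hx).aestronglyMeasurable measurableSet_Ioc)
      ((ae_restrict_mem measurableSet_Ioc).mono fun t ht => hbd i k t ht x hx)
  show A.wedgePt x (VE A r d ε R x) (b x) = _
  rw [A.wedgePt_comm, wedgePt_entries]
  simp only [VE_eq hJ hG D hε hε4 hx, ← integral_const_mul]
  rw [Finset.sum_congr rfl fun i _ => (integral_finsetSum _ fun k _ =>
      (hint i k).const_mul (wI A b i k x)).symm,
    ← integral_finsetSum _ fun i _ => integrable_finsetSum _ fun k _ =>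
      (hint i k).const_mul (wI A b i k x)]
  refine integral_congr_ae (ae_of_all _ fun t => ?_)
  simp only [G, Finset.mul_sum]
  exact Finset.sum_congr rfl fun i _ => Finset.sum_congr rfl fun k _ => by ring

omit hJ hG in
theorem VE_skew {m : Measure (Amb N × Amb N)} {C₁ : ℝ} (hR : IsExtX A J m R C₁) (ε : ℝ)
    (x : Amb N) : (VE A r d ε R x)ᵀ = -VE A r d ε R x := by
  ext i k
  simp only [VE, Matrix.transpose_apply, Matrix.neg_apply, Matrix.of_apply, ← integral_neg]
  refine integral_congr_ae (ae_of_all _ fun t => ?_)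
  show omW ε t * _ = -(omW ε t * _)
  have e : zForm A r d (ε * Real.sqrt t) x k i = (-1 : ℝ) • zForm A r d (ε * Real.sqrt t) x i k := by
    funext z
    ext u w
    simp only [Pi.smul_apply, Matrix.smul_apply, zForm, Matrix.of_apply, smul_eq_mul, neg_one_mul]
    exact congrFun (congrFun (kk_skew A r d (ε * Real.sqrt t) z (Pi.single u 1) (Pi.single w 1) x) i) k
  rw [e, hR.smul _ _ (zForm_test A r d _ x i k)]
  ring

omit hJ hG in
/-- The smoothed functional represents the functional after smoothing. -/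
theorem repStmt : RepStmt := by
  intro N K A J r d c₀ C₀ m R C₁ hJ hG hR
  obtain ⟨D⟩ := repData hJ hR
  refine ⟨1 / 4, by norm_num, fun ε hε hε4 => ⟨fun x => VE_skew hR ε x,
    fun i k => VE_continuous hJ hG D hε hε4 i k, fun b hb => wedgeInt_VE hJ hG hb hε hε4 D,
    fun b hb => ?_⟩⟩
  rw [R_GE hJ hG D hb hε hε4, (wedgeInt_VE hJ hG hb.contX hε hε4 D).2]

end Vale.Agent.P204.Kernel
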