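import Mathlib
import Vale.Agent.P204.Kernel.Assembly
import Vale.Agent.P204.Kernel.Radius
import Vale.Agent.P204.Kernel.Point
import Vale.Agent.P204.Kernel.Approx.Main
import Vale.Agent.P204.Kernel.Density.Main
import Vale.Agent.P204.Kernel.MeasClosed
import Vale.Agent.P204.Kernel.RepMain

/-!
# P204: the smoothing, from its parts
-/

namespace Vale.Agent.P204.Kernel

/-- The smoothing of the extension, from the bound of the smoothed functional. -/
theorem smoothStmt_of (hTau : TauberStmt) : General.SmoothStmt :=
  smooth_of_parts radiusStmt pointStmt approxStmt hTau densityStmt exactStmt repStmt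

end Vale.Agent.P204.Kernel
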