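import Vale.Agent.P204.Kernel.TauberKer
import Vale.Agent.P204.Kernel.Parts2

/-!
# P204: the invariant part of the smoothed functional is small

If the functional is bounded by `M` times the energy at scale `ε`, the invariant part of `VE` is
`O(ε M)` in `L²`.
-/

open MeasureTheory Matrix Filter Topology Set
open scoped ContDiff

namespace Vale.Agent.P204.Kernel

open Vale.Agent.P204.General Vale.Agent.P204.Torus

variable {N K : ℕ} {A : Atlas N K} {J : Amb N → MN N} {r d c₀ C₀ : ℝ}
  {m : Measure (Amb N × Amb N)} {R : (Amb N → MN N) → ℝ} {C₁ : ℝ} {c : Fin K}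

/-- A continuous invariant form in a chart, supported in the half ball. -/
structure InvForm (A : Atlas N K) (J : Amb N → MN N) (c : Fin K) (F : Pt → M4) : Prop where
  cont : ∀ i k, Continuous fun p => F p i k
  skew : ∀ p, (F p)ᵀ = -F p
  supp : ∀ p, 1 / 2 < ‖p‖ → F p = 0
  inv : ∀ p ∈ box, inv11 (A.jc J c p) (F p) = F p

theorem InvForm.zero_out {F : Pt → M4} (hF : InvForm A J c F) {x : Amb N}
    (hx : x ∉ A.psi c '' Metric.closedBall 0 (1 / 2)) : ext A c F x = 0 := by
  unfold ext
  split_ifs with h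
  · have : F (A.phi c x) = 0 := hF.supp _ (lt_of_not_ge fun hle =>
      hx ⟨A.phi c x, mem_closedBall_zero_iff.2 hle, A.psi_phi c h⟩)
    simp [Atlas.push, this]
  · rfl

theorem InvForm.contX {F : Pt → M4} (hF : InvForm A J c F) : IsContX A (ext A c F) := by
  refine ⟨fun x => ?_, fun e i k p hp => ContinuousAt.continuousWithinAt ?_⟩
  · unfold ext
    split_ifs
    · exact skew_conj' (hF.skew _) _
    · simp
  by_cases hc : A.psi e p ∈ A.psi c '' box
  · have h : Continuous
        fun q => ((A.L c * A.dmat e q)ᵀ * F (A.trans c e q) * (A.L c * A.dmat e q)) i k := by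
      simp only [conj_entry']
      exact continuous_finsetSum _ fun a _ => continuous_finsetSum _ fun b _ =>
        ((hF.cont a b).comp (trans_smooth A c e).continuous).mul
          ((jac_smooth A c e a i).continuous.mul (jac_smooth A c e b k).continuous)
    refine h.continuousAt.congr ((A.psi_trans_eventually c e hp hc).mono fun q hq => ?_)
    show _ = A.pull e (ext A c F) q i k
    rw [pull_ext_mem A c e F hq.2]
  · have hcl : IsClosed (A.psi c '' Metric.closedBall 0 (1 / 2)) :=
      ((isCompact_closedBall _ _).image (A.psi_cont c)).isClosed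
    refine (continuousAt_const (y := (0 : ℝ))).congr ?_
    filter_upwards [(A.psi_cont e).continuousAt.preimage_mem_nhds (hcl.isOpen_compl.mem_nhds
      fun h => hc (Set.image_mono closedBall_subset_box h))] with q hq
    simp [Atlas.pull, Atlas.pullAt, hF.zero_out hq]

theorem InvForm.nice_entry {F : Pt → M4} (hF : InvForm A J c F) (i k : Fin 4) :
    Continuous (fun p => F p i k) ∧ HasCompactSupport (fun p => F p i k) :=
  ⟨hF.cont i k, HasCompactSupport.intro (isCompact_closedBall 0 (1 / 2)) fun p hp => by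
    simp [hF.supp p (lt_of_not_ge fun h => hp (mem_closedBall_zero_iff.2 h))]⟩

theorem InvForm.hco_eq {F : Pt → M4} (hF : InvForm A J c F) (k l : Fin 4) (p : Pt) :
    hco A c (ext A c F) k l p = F p k l := by
  rcases le_or_gt ‖p‖ (3 / 4) with h | h
  · rw [hco, bC.one_of_mem_closedBall (mem_closedBall_zero_iff.2 h), one_mul,
      pull_ext_self A c F (mem_ball_zero_iff.2 (by linarith))]
  · have h0 : F p = 0 := hF.supp p (by linarith)
    by_cases hp : p ∈ box
    · rw [hco, pull_ext_self A c F hp, h0]; simp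
    · rw [hco, bC.zero_of_le_dist (by
        rw [dist_zero_right]; exact (show (7 / 8 : ℝ) ≤ 1 by norm_num).trans
          (not_lt.1 fun h => hp (mem_ball_zero_iff.2 h))), h0]
      simp

theorem InvForm.cutI_apply {F : Pt → M4} (hF : InvForm A J c F) (k l : Fin 4) (p : Pt) :
    ∑ w : Fin 4 × Fin 4, cutI A J c k l w.1 w.2 p * F p w.1 w.2 = F p k l := by
  rcases le_or_gt ‖p‖ (1 / 2) with h | h
  · have hb : p ∈ box := mem_ball_zero_iff.2 (by linarith)
    simp only [cutI, bC.one_of_mem_closedBall (mem_closedBall_zero_iff.2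
      (show ‖p‖ ≤ 3 / 4 by linarith)), one_mul]
    rw [← inv11_entry, hF.inv p hb]
  · simp [hF.supp p h]

theorem InvForm.abs_le {F : Pt → M4} (hF : InvForm A J c F) (i k : Fin 4) :
    ∃ B, ∀ p, |F p i k| ≤ B := by
  obtain ⟨B, hB⟩ := (hF.cont i k).bounded_above_of_compact_support (hF.nice_entry i k).2
  exact ⟨B, fun p => by simpa [Real.norm_eq_abs] using hB p⟩

open Classical in
/-- The cut anti-invariant part of the smoothing. -/
noncomputable def eForm (A : Atlas N K) (J : Amb N → MN N) (c : Fin K) (a : Amb N → MN N)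
    (q : Pt) : M4 :=
  if q ∈ Metric.closedBall (0 : Pt) (5 / 8) then bE q • antiP (A.jc J c q) (A.pull c a q) else 0

theorem InvForm.eForm_eq {F : Pt → M4} (hF : InvForm A J c F) (hJ : IsACS A J)
    (hG : GoodR A r d c₀ C₀) {σ : ℝ} (hσ : 0 < σ) (hσ1 : σ ≤ 1) (i j : Fin 4) (q : Pt) :
    eForm A J c (GS A r d σ (ext A c F)) q i j =
      ∑ w : Fin 4 × Fin 4, σ * Op (dq (invKer A J c r d i j w)) σ (fun p => F p w.1 w.2) q := by
  obtain ⟨c₁, hc₁, hg⟩ := invKer_gauss (A := A) (J := J) (c := c) (r := r) (d := d) hJ hG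
  obtain ⟨c₂, hc₂, hk⟩ := kerf_gauss (c := c) hG
  choose B hB using fun w : Fin 4 × Fin 4 => hF.abs_le w.1 w.2
  have hσa : |σ| ≤ 1 := by rwa [abs_of_pos hσ]
  have h0a : |(0 : ℝ)| ≤ 1 := by simp
  have hi1 : ∀ w : Fin 4 × Fin 4, Integrable fun z =>
      invKer A J c r d i j w ((σ, q), z) * F (q + σ • z) w.1 w.2 := fun w =>
    integrable_ker hc₁ (hg i j w) hσa q (hF.cont w.1 w.2) (hB w) σ
  have hi0 : ∀ w : Fin 4 × Fin 4, Integrable fun z =>
      invKer A J c r d i j w ((0, q), z) * F (q + σ • z) w.1 w.2 := fun w =>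
    integrable_ker hc₁ (hg i j w) h0a q (hF.cont w.1 w.2) (hB w) σ
  have hzero : ∫ z, ∑ w, invKer A J c r d i j w ((0, q), z) * F (q + σ • z) w.1 w.2 = 0 := by
    refine integral_eq_zero_of_ae (ae_of_all _ fun z => ?_)
    show _ = (0 : ℝ)
    exact (Finset.sum_congr rfl fun w _ => mul_comm _ _).trans
      (invKer_zero (c := c) hJ hG i j q z (hF.skew (q + σ • z)))
  have hr : ∑ w : Fin 4 × Fin 4, σ * Op (dq (invKer A J c r d i j w)) σ (fun p => F p w.1 w.2) q =
      ∫ z, ∑ w, invKer A J c r d i j w ((σ, q), z) * F (q + σ • z) w.1 w.2 := by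
    have e : ∀ w : Fin 4 × Fin 4,
        σ * Op (dq (invKer A J c r d i j w)) σ (fun p => F p w.1 w.2) q =
        (∫ z, invKer A J c r d i j w ((σ, q), z) * F (q + σ • z) w.1 w.2) -
          ∫ z, invKer A J c r d i j w ((0, q), z) * F (q + σ • z) w.1 w.2 := fun w => by
      rw [← integral_sub (hi1 w) (hi0 w), Op, ← integral_const_mul]
      refine integral_congr_ae (ae_of_all _ fun z => ?_)
      simp only [dq, ← mul_assoc, mul_inv_cancel₀ hσ.ne', one_mul]
      ring
    simp only [e, Finset.sum_sub_distrib]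
    rw [← integral_finsetSum _ fun w _ => hi0 w, hzero, sub_zero,
      ← integral_finsetSum _ fun w _ => hi1 w]
  rw [hr]
  by_cases hq : q ∈ Metric.closedBall (0 : Pt) (5 / 8)
  swap
  · simp only [eForm, hq, if_false, Matrix.zero_apply, invKer_supp i j _ σ hq, zero_mul,
      Finset.sum_const_zero, integral_zero]
  have hint : ∀ y x : Fin 4 × Fin 4, Integrable fun z =>
      cutA A J c i j y.1 y.2 q * (kerf A c r d x.1 x.2 y.1 y.2 ((σ, q), z) * F (q + σ • z) x.1 x.2) :=
    fun y x => (integrable_ker hc₂ (hk x.1 x.2 y.1 y.2) hσa q (hF.cont x.1 x.2) (hB x) σ).const_mul _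
  calc eForm A J c (GS A r d σ (ext A c F)) q i j
      = ∑ y : Fin 4 × Fin 4, cutA A J c i j y.1 y.2 q *
          A.pull c (GS A r d σ (ext A c F)) q y.1 y.2 := by
        simp only [eForm, hq, if_true, Matrix.smul_apply, smul_eq_mul, antiP_entry, Finset.mul_sum,
          Fintype.sum_prod_type, cutA, mul_assoc]
    _ = ∑ y : Fin 4 × Fin 4, ∑ x : Fin 4 × Fin 4, ∫ z,
          cutA A J c i j y.1 y.2 q *
            (kerf A c r d x.1 x.2 y.1 y.2 ((σ, q), z) * F (q + σ • z) x.1 x.2) := by
        refine Finset.sum_congr rfl fun y _ => ?_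
        rw [pull_GS hJ hG hF.contX hσ hσ1 hq, Finset.mul_sum, Fintype.sum_prod_type]
        refine Finset.sum_congr rfl fun k _ => ?_
        rw [Finset.mul_sum]
        refine Finset.sum_congr rfl fun l _ => ?_
        rw [integral_const_mul, Op]
        simp only [fam, hF.hco_eq]
    _ = ∫ z, ∑ y : Fin 4 × Fin 4, ∑ x : Fin 4 × Fin 4,
          cutA A J c i j y.1 y.2 q *
            (kerf A c r d x.1 x.2 y.1 y.2 ((σ, q), z) * F (q + σ • z) x.1 x.2) := by
        rw [integral_finsetSum _ fun y _ => integrable_finsetSum _ fun x _ => hint y x]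
        exact Finset.sum_congr rfl fun y _ => (integral_finsetSum _ fun x _ => hint y x).symm
    _ = _ := by
        refine integral_congr_ae (ae_of_all _ fun z => ?_)
        simp only [invKer, Finset.sum_mul]
        conv_rhs => rw [Finset.sum_comm]
        refine Finset.sum_congr rfl fun y _ => ?_
        conv_rhs => rw [Finset.sum_comm]
        refine Finset.sum_congr rfl fun x _ => ?_
        conv_lhs => rw [← hF.cutI_apply x.1 x.2 (q + σ • z)]
        simp only [Finset.mul_sum]
        exact Finset.sum_congr rfl fun w _ => by ring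

theorem eForm_skew {a : Amb N → MN N} (ha : IsTestX A a) :
    ∀ q, (eForm A J c a q)ᵀ = -eForm A J c a q := fun q => by
  unfold eForm
  split_ifs
  · have h : (A.pull c a q)ᵀ = -A.pull c a q := pullAt_skew A c q (ha.skew _)
    rw [transpose_smul, antiP_skew h, smul_neg]
  · simp

/-- The anti-invariant part of a form supported near the centre of a chart is the cut one. -/
theorem R_eForm (hJ : IsACS A J) (hR : IsExtX A J m R C₁) {a : Amb N → MN N} (ha : IsTestX A a)
    (he : ChartForm (5 / 8) (eForm A J c a))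
    (hsupp : ∀ z ∈ A.X, z ∉ A.psi c '' Metric.closedBall 0 (9 / 16) → a z = 0) :
    R a = R (ext A c (eForm A J c a)) := by
  rw [R_anti hJ hR ha]
  refine R_congr hR (isTestX_anti hJ ha) (ext_test A c (by norm_num) he) fun e p hp => ?_
  have hl : A.pull e (fun x => antiX J x (a x)) p = antiP (A.jc J e p) (A.pull e a p) :=
    pullAt_antiX A hJ e hp _
  by_cases hc : A.psi e p ∈ A.psi c '' box
  · rw [pull_ext_mem A c e _ hc, A.pull_trans c e hp hc (fun x => antiX J x (a x))]
    congr 2
    have hq : A.trans c e p ∈ box := A.phi_mem c hc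
    show A.pullAt c (antiX J _ (a (A.psi c (A.trans c e p)))) (A.trans c e p) = _
    rw [pullAt_antiX A hJ c hq]
    set q := A.trans c e p
    by_cases h9 : q ∈ Metric.closedBall (0 : Pt) (9 / 16)
    · rw [eForm, if_pos (Metric.closedBall_subset_closedBall (by norm_num) h9),
        bE.one_of_mem_closedBall h9, one_smul]
      rfl
    · have h0 : a (A.psi c q) = 0 := hsupp _ (A.psi_mem c q hq) fun ⟨q', hq', he'⟩ => h9 (by
        rwa [← A.phi_psi c hq, ← he', A.phi_psi c (Metric.closedBall_subset_ball (by norm_num) hq')])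
      simp [eForm, Atlas.pull, Atlas.pullAt, h0, antiP]
  · rw [hl, pull_ext_notMem A c e _ hc]
    have h0 : a (A.psi e p) = 0 := hsupp _ (A.psi_mem e p hp) fun h =>
      hc (Set.image_mono (Metric.closedBall_subset_ball (by norm_num)) h)
    simp [Atlas.pull, Atlas.pullAt, h0, antiP]

/-- The functional on the smoothing of an invariant chart form. -/
theorem exists_R_GS (hJ : IsACS A J) (hG : GoodR A r d c₀ C₀) (hR : IsExtX A J m R C₁) (c : Fin K) :
    ∃ C : ℝ, 0 ≤ C ∧ ∀ ε M t : ℝ, 0 < ε → ε ≤ 1 / 4 → 0 ≤ M → Bnd A R ε M → t ∈ Ioc 0 (1 / ε) →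
      ∀ F, InvForm A J c F →
        |R (GS A r d (ε * Real.sqrt t) (ext A c F))| ≤
          C * M * (ε * Real.sqrt t * (1 + 1 / t) ^ 5) *
            Real.sqrt (∑ w : Fin 4 × Fin 4, ∫ p, F p w.1 w.2 ^ 2) := by
  obtain ⟨Cb, hCb, hbig⟩ := exists_bnd_big hJ hR (ρ := 5 / 8) (by norm_num)
  obtain ⟨c₁, hc₁, hg⟩ := invKer_gauss (A := A) (J := J) (c := c) (r := r) (d := d) hJ hG
  have hS : ∀ σ ∈ Ioc (0 : ℝ) 1, 0 < σ ∧ σ ≤ 1 := fun σ h => ⟨h.1, h.2⟩
  choose D hD0 hD using fun x : (Fin 4 × Fin 4) × (Fin 4 × Fin 4) × List (Fin 4) =>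
    (gaussFam_dq (hg x.1.1 x.1.2 x.2.1) hc₁).sq_pdL_Op hS x.2.2
  set CD := ∑ y : Fin 4 × Fin 4, ∑ w : Fin 4 × Fin 4, ∑ l ∈ LL 10, D (y, w, l)
  have hCD : 0 ≤ CD :=
    Finset.sum_nonneg fun y _ => Finset.sum_nonneg fun w _ => Finset.sum_nonneg fun l _ => hD0 _
  refine ⟨Cb * Real.sqrt (16 * CD), mul_nonneg hCb (Real.sqrt_nonneg _), fun ε M t hε hε4 hM hB ht F hF => ?_⟩
  have hσm := width_mem hε hε4 ht
  set σ := ε * Real.sqrt t with hσdef
  have hσ := hσm.1
  have hσ1 : σ ≤ 1 := hσm.2.trans (by norm_num)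
  set S := ∑ w : Fin 4 × Fin 4, ∫ p, F p w.1 w.2 ^ 2
  have hS0 : 0 ≤ S := Finset.sum_nonneg fun w _ => integral_nonneg fun p => sq_nonneg _
  set a := GS A r d σ (ext A c F)
  have ha : IsTestX A a := GS_test r d σ hJ hF.contX
  set g : (Fin 4 × Fin 4) → (Fin 4 × Fin 4) → Pt → ℝ := fun y w q =>
    σ * Op (dq (invKer A J c r d y.1 y.2 w)) σ (fun p => F p w.1 w.2) q
  have hFi : ∀ w : Fin 4 × Fin 4, Integrable (fun p => F p w.1 w.2) ∧ MemLp (fun p => F p w.1 w.2) 2 :=
    fun w => ⟨(hF.cont w.1 w.2).integrable_of_hasCompactSupport (hF.nice_entry w.1 w.2).2,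
      (hF.cont w.1 w.2).memLp_of_hasCompactSupport (hF.nice_entry w.1 w.2).2⟩
  have hOp : ∀ y w : Fin 4 × Fin 4,
      ContDiff ℝ ∞ (Op (dq (invKer A J c r d y.1 y.2 w)) σ fun p => F p w.1 w.2) := fun y w =>
    (gaussFam_dq (hg y.1 y.2 w) hc₁).contDiff_Op hS ⟨hσ, hσ1⟩ (hFi w).1
  have hgn : ∀ y w, Nice (g y w) := fun y w => by
    refine ⟨contDiff_const.mul (hOp y w),
      HasCompactSupport.intro (isCompact_closedBall (0 : Pt) (5 / 8)) fun q hq => ?_⟩
    simp [g, Op, dq, invKer_supp _ _ w _ hq]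
  have he : ∀ i j, (fun q => eForm A J c a q i j) = fun q => ∑ w, g (i, j) w q := fun i j =>
    funext fun q => hF.eForm_eq hJ hG hσ hσ1 i j q
  have hcf : ChartForm (5 / 8) (eForm A J c a) :=
    ⟨fun i j => by rw [he]; exact ContDiff.sum fun w _ => (hgn (i, j) w).1, eForm_skew ha,
      fun p hp => by
        rw [eForm, if_neg fun h => not_le.2 hp (mem_closedBall_zero_iff.1 h)]⟩
  set X := 16 * CD * S * (σ * (1 + 1 / t) ^ 5) ^ 2
  have hX : ∀ i j, EB ε X fun q => eForm A J c a q i j := fun i j => by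
    rw [he]
    have hw : ∀ w : Fin 4 × Fin 4, EB ε (CD * (σ * (1 + 1 / t) ^ 5) ^ 2 * ∫ p, F p w.1 w.2 ^ 2)
        (g (i, j) w) := fun w l hl => by
      obtain ⟨-, h2⟩ := hD ((i, j), w, l) σ ⟨hσ, hσ1⟩ _ (hFi w).1 (hFi w).2
      set P := ∫ q, pdL l (Op (dq (invKer A J c r d i j w)) σ fun p => F p w.1 w.2) q ^ 2
      have hP : 0 ≤ P := integral_nonneg fun q => sq_nonneg _
      have hDle : D ((i, j), w, l) ≤ CD :=
        (Finset.single_le_sum (f := fun l => D ((i, j), w, l)) (fun l _ => hD0 _)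
          ((mem_LL 10 l).2 hl)).trans <|
        (Finset.single_le_sum (f := fun w => ∑ l ∈ LL 10, D ((i, j), w, l))
          (fun w _ => Finset.sum_nonneg fun l _ => hD0 _) (Finset.mem_univ w)).trans
        (Finset.single_le_sum (f := fun y => ∑ w : Fin 4 × Fin 4, ∑ l ∈ LL 10, D (y, w, l))
          (fun y _ => Finset.sum_nonneg fun w _ => Finset.sum_nonneg fun l _ => hD0 _)
          (Finset.mem_univ (i, j)))
      rw [show g (i, j) w = fun q =>
        σ * Op (dq (invKer A J c r d i j w)) σ (fun p => F p w.1 w.2) q from rfl,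
        pdL_const_mul (hOp (i, j) w) σ l]
      simp only [mul_pow σ, integral_const_mul]
      set n := l.length
      have ht0 := ht.1
      have hpow : ε ^ (2 * n) ≤ σ ^ (2 * n) * ((1 + 1 / t) ^ 5) ^ 2 := by
        have e : σ ^ (2 * n) = ε ^ (2 * n) * t ^ n := by
          rw [hσdef, mul_pow, pow_mul (Real.sqrt t), Real.sq_sqrt ht0.le]
        have h1 : 1 ≤ t ^ n * (1 + 1 / t) ^ 10 := by
          have hb : 1 ≤ 1 + 1 / t := by
            have : 0 < 1 / t := by positivity
            linarith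
          calc (1 : ℝ) ≤ (t * (1 + 1 / t)) ^ n := one_le_pow₀ (by field_simp; linarith)
            _ = t ^ n * (1 + 1 / t) ^ n := mul_pow _ _ _
            _ ≤ _ := mul_le_mul_of_nonneg_left (pow_le_pow_right₀ hb hl) (by positivity)
        rw [e, ← pow_mul, mul_assoc]
        exact le_mul_of_one_le_right (by positivity) h1
      calc ε ^ (2 * n) * (σ ^ 2 * P) ≤ σ ^ (2 * n) * ((1 + 1 / t) ^ 5) ^ 2 * (σ ^ 2 * P) :=
            mul_le_mul_of_nonneg_right hpow (by positivity)
        _ = σ ^ 2 * ((1 + 1 / t) ^ 5) ^ 2 * (σ ^ (2 * n) * P) := by ring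
        _ ≤ σ ^ 2 * ((1 + 1 / t) ^ 5) ^ 2 * (D ((i, j), w, l) * ∫ p, F p w.1 w.2 ^ 2) :=
            mul_le_mul_of_nonneg_left h2 (by positivity)
        _ ≤ σ ^ 2 * ((1 + 1 / t) ^ 5) ^ 2 * (CD * ∫ p, F p w.1 w.2 ^ 2) :=
            mul_le_mul_of_nonneg_left (mul_le_mul_of_nonneg_right hDle
              (integral_nonneg fun p => sq_nonneg _)) (by positivity)
        _ = _ := by ring
    refine (EB.sum Finset.univ (fun w _ => hgn (i, j) w) fun w _ => hw w).mono (le_of_eq ?_)
    rw [← Finset.mul_sum]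
    simp only [Finset.card_univ, Fintype.card_prod, Fintype.card_fin, X, S]
    push_cast; ring
  have hsupp : ∀ z ∈ A.X, z ∉ A.psi c '' Metric.closedBall 0 (9 / 16) → a z = 0 := fun z hz hz' =>
    GS_eq_zero hG σ (ρ := 1 / 2) (by norm_num) (fun x _ hx => hF.zero_out hx) hz fun h =>
      hz' (Set.image_mono (Metric.closedBall_subset_closedBall (by norm_num)) h)
  rw [R_eForm hJ hR ha hcf hsupp]
  refine (hbig ε M hε (hε4.trans (by norm_num)) hM hB c _ X hcf hX).trans_eq ?_
  rw [Real.sqrt_mul (mul_nonneg (mul_nonneg (by norm_num) hCD) hS0),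
    Real.sqrt_sq (mul_nonneg hσ.le (by have := ht.1; positivity)),
    Real.sqrt_mul (mul_nonneg (by norm_num) hCD)]
  ring

open Classical in
/-- The invariant part of the smoothed functional is small. -/
theorem tauber_inv (hJ : IsACS A J) (hG : GoodR A r d c₀ C₀) (hR : IsExtX A J m R C₁)
    (hRep : RepStmt) :
    ∃ C ε₁ : ℝ, 0 ≤ C ∧ 0 < ε₁ ∧ ∀ ε, 0 < ε → ε ≤ ε₁ → ∀ M, 0 ≤ M → Bnd A R ε M →
      A.n2 (fun x => inv11X J x (VE A r d ε R x)) ≤ C * ε * M := by
  obtain ⟨ε₀, hε₀, hrep⟩ := hRep A J r d c₀ C₀ m R C₁ hJ hG hR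
  obtain ⟨CT, hCT, hT⟩ := exists_super_bound
  choose CR hCR0 hCR using fun c => exists_R_GS hJ hG hR c
  have hJc : ∀ c i k, ContinuousOn (fun p => A.jc J c p i k) box := fun c i k =>
    (hJ.smooth c i k).continuousOn
  have hWc : ∀ (c : Fin K) i k u v,
      ContinuousOn (fun p => invW (A.jc J c p) i k u v) (Metric.closedBall (0 : Pt) (1 / 2)) :=
    fun c i k u v => (continuousOn_const.mul (continuousOn_const.add
      ((hJc c u i).mul (hJc c v k)))).mono closedBall_subset_box
  choose BW hBW using fun z : Fin K × (Fin 4 × Fin 4) × (Fin 4 × Fin 4) =>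
    (isCompact_closedBall (0 : Pt) (1 / 2)).exists_bound_of_continuousOn
      (hWc z.1 z.2.1.1 z.2.1.2 z.2.2.1 z.2.2.2)
  choose BD hBD using fun c : Fin K => (isCompact_closedBall (0 : Pt) (1 / 2)).exists_bound_of_continuousOn
    ((continuousOn_dens A c).mono closedBall_subset_box)
  set W := ∑ z, |BW z|
  set D := ∑ c, |BD c|
  have hW : 0 ≤ W := Finset.sum_nonneg fun z _ => abs_nonneg _
  have hD : 0 ≤ D := Finset.sum_nonneg fun c _ => abs_nonneg _
  set C : Fin K → ℝ := fun c => 2 * (CR c * CT * Real.sqrt (256 * W ^ 2))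
  have hC : ∀ c, 0 ≤ C c := fun c => by have := hCR0 c; positivity
  refine ⟨Real.sqrt (∑ c, D * C c ^ 2), min ε₀ (1 / 4), Real.sqrt_nonneg _,
    lt_min hε₀ (by norm_num), fun ε hε hεm M hM hB => ?_⟩
  obtain ⟨hVs, hVc, hVw, -⟩ := hrep ε hε (hεm.trans (min_le_left _ _))
  have hε4 : ε ≤ 1 / 4 := hεm.trans (min_le_right _ _)
  set V := VE A r d ε R
  set Vi : Amb N → MN N := fun x => inv11X J x (V x)
  have hVX : IsContX A V := ⟨hVs, fun e i k => by
    show ContinuousOn (fun p => A.pullAt e (V (A.psi e p)) p i k) box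
    simp only [Atlas.pullAt_apply]
    exact continuousOn_finsetSum _ fun b _ => (continuousOn_finsetSum _ fun a _ =>
      (A.dmat_cont e a i).continuousOn.mul ((hVc a b).comp (A.psi_cont e).continuousOn
        fun p hp => A.psi_mem e p hp)).mul (A.dmat_cont e b k).continuousOn⟩
  have hPi : ∀ c, ∀ p ∈ box, A.pull c Vi p = inv11 (A.jc J c p) (A.pull c V p) := fun c p hp =>
    pullAt_inv11X A hJ c hp _
  have hViX : IsContX A Vi := ⟨fun x => inv11X_skew (hVs x), fun e i k => by
    refine ContinuousOn.congr (f := fun p => inv11 (A.jc J e p) (A.pull e V p) i k) ?_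
      fun p hp => by simp only [hPi e p hp]
    simp only [inv11_entry]
    exact continuousOn_finsetSum _ fun z _ => (continuousOn_const.mul (continuousOn_const.add
      ((hJc e z.1 i).mul (hJc e z.2 k)))).mul (hVX.cont e z.1 z.2)⟩
  have hPs : ∀ c p, (A.pull c Vi p)ᵀ = -A.pull c Vi p := fun c p => pullAt_skew A c p (hViX.skew _)
  have hVps : ∀ c p, (A.pull c V p)ᵀ = -A.pull c V p := fun c p => pullAt_skew A c p (hVs _)
  have hsqc : ∀ c, ContinuousOn (fun p => sq2 (A.pull c Vi p)) box := fun c => by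
    simp only [sq2]
    exact continuousOn_finsetSum _ fun i _ => continuousOn_finsetSum _ fun k _ =>
      (hViX.cont c i k).pow 2
  set X : Fin K → ℝ := fun c => ∫ p in box, A.chi c (A.psi c p) * sq2 (A.pull c Vi p)
  have hsq0 : ∀ P : M4, 0 ≤ sq2 P := fun P =>
    Finset.sum_nonneg fun i _ => Finset.sum_nonneg fun k _ => sq_nonneg _
  have hX0 : ∀ c, 0 ≤ X c := fun c =>
    integral_nonneg fun p => mul_nonneg (A.chi_nonneg c _) (hsq0 _)
  have hXi : ∀ c, IntegrableOn (fun p => A.chi c (A.psi c p) * sq2 (A.pull c Vi p)) box := fun c =>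
    IntegrableOn.of_forall_sdiff_eq_zero
      (((((A.chi_cont c).comp (A.psi_cont c)).continuousOn.mul (hsqc c)).mono
        closedBall_subset_box).integrableOn_compact (isCompact_closedBall (0 : Pt) (1 / 2)))
      isOpen_box.measurableSet fun p hp => by
        have : A.chi c (A.psi c p) = 0 := by
          by_contra h; exact hp.2 (mem_half hp.1 h)
        show A.chi c (A.psi c p) * _ = 0
        rw [this, zero_mul]
  have hXc : ∀ c, X c ≤ (C c * ε * M) ^ 2 := by
    intro c
    have hchi1 : ∀ p ∈ box, A.chi c (A.psi c p) ≤ 1 := fun p hp =>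
      (A.chi_sum _ (A.psi_mem c p hp)).symm ▸
        Finset.single_le_sum (fun e _ => A.chi_nonneg e _) (Finset.mem_univ c)
    set F : Pt → M4 := fun p => if p ∈ box then
      A.chi c (A.psi c p) • inv11 (A.jc J c p) (hdual (A.pull c Vi p)) else 0
    have hz : ∀ p, 1 / 2 < ‖p‖ → F p = 0 := fun p hp => by
      simp only [F]
      split_ifs with h
      · have : A.chi c (A.psi c p) = 0 := by
          by_contra h'; exact not_le.2 hp (mem_closedBall_zero_iff.1 (mem_half h h'))
        rw [this, zero_smul]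
      · rfl
    have hF : InvForm A J c F := by
      refine ⟨fun i k => continuous_iff_continuousAt.2 fun p => ?_, fun p => ?_, hz, fun p hp => ?_⟩
      · by_cases hp : p ∈ box
        · have h : ContinuousOn (fun p => A.chi c (A.psi c p) *
              ∑ z : Fin 4 × Fin 4, invW (A.jc J c p) i k z.1 z.2 * hdual (A.pull c Vi p) z.1 z.2) box := by
            refine ((A.chi_cont c).comp (A.psi_cont c)).continuousOn.mul
              (continuousOn_finsetSum _ fun z _ => (continuousOn_const.mul (continuousOn_const.add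
                ((hJc c z.1 i).mul (hJc c z.2 k)))).mul ?_)
            have hc := hViX.cont c
            obtain ⟨u, v⟩ := z
            fin_cases u <;> fin_cases v <;> simp [hdual] <;>
              first | exact continuousOn_const | exact hc _ _ | exact (hc _ _).neg
          refine (h.continuousAt (isOpen_box.mem_nhds hp)).congr
            (eventually_of_mem (isOpen_box.mem_nhds hp) fun q hq => ?_)
          simp only [F, hq, if_true, Matrix.smul_apply, smul_eq_mul, inv11_entry]
        · refine (continuousAt_const (y := (0 : ℝ))).congr ?_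
          filter_upwards [(Metric.isClosed_closedBall (x := (0 : Pt)) (ε := 1 / 2)).isOpen_compl.mem_nhds
            fun h => hp (closedBall_subset_box h)] with q hq
          rw [hz q (lt_of_not_ge fun h => hq (mem_closedBall_zero_iff.2 h))]; rfl
      · simp only [F]
        split_ifs
        · rw [transpose_smul, inv11_skew (hdual_skew _), smul_neg]
        · simp
      · simp only [F, hp, if_true]
        rw [inv11, Matrix.mul_smul, Matrix.smul_mul, ← smul_add, smul_comm, ← inv11,
          (antiP_inv11 (hJ.sq c p hp)).2]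
    have hS : ∑ w : Fin 4 × Fin 4, ∫ p, F p w.1 w.2 ^ 2 ≤ 256 * W ^ 2 * X c := by
      have hb : ∀ w : Fin 4 × Fin 4, ∫ p, F p w.1 w.2 ^ 2 ≤ 16 * W ^ 2 * X c := by
        intro w
        rw [← setIntegral_eq_integral_of_forall_compl_eq_zero (s := box) fun p hp => by
          simp [F, hp], ← integral_const_mul]
        refine integral_mono_of_nonneg (ae_of_all _ fun p => sq_nonneg _) ((hXi c).const_mul _)
          ((ae_restrict_mem isOpen_box.measurableSet).mono fun p hp => ?_)
        show F p w.1 w.2 ^ 2 ≤ _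
        simp only [F, hp, if_true, Matrix.smul_apply, smul_eq_mul, inv11_entry, mul_pow]
        set χ := A.chi c (A.psi c p)
        have hχ0 : 0 ≤ χ := A.chi_nonneg c _
        rcases eq_or_ne χ 0 with h | h
        · simp [h]
        have hpb := mem_half hp h
        have hsum : (∑ z : Fin 4 × Fin 4, invW (A.jc J c p) w.1 w.2 z.1 z.2 *
            hdual (A.pull c Vi p) z.1 z.2) ^ 2 ≤ 16 * W ^ 2 * sq2 (A.pull c Vi p) := by
          rw [← (sq2_hdual (hPs c p)).1, sq2, ← Fintype.sum_prod_type']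
          refine (sq_sum_le _ _).trans ?_
          simp only [Finset.card_univ, Fintype.card_prod, Fintype.card_fin]
          rw [mul_assoc, Finset.mul_sum (a := W ^ 2)]
          push_cast
          refine mul_le_mul_of_nonneg_left (Finset.sum_le_sum fun z _ => ?_) (by norm_num)
          rw [mul_pow]
          refine mul_le_mul_of_nonneg_right (sq_le_sq' ?_ ?_) (sq_nonneg _)
          all_goals
            have h1 := (hBW (c, w, z) p hpb).trans (le_abs_self _)
            rw [Real.norm_eq_abs] at h1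
            have h2 := h1.trans (Finset.single_le_sum (f := fun z => |BW z|) (fun _ _ => abs_nonneg _)
              (Finset.mem_univ (c, w, z)))
            linarith [abs_le.1 h2]
        calc χ ^ 2 * _ ≤ χ * (16 * W ^ 2 * sq2 (A.pull c Vi p)) :=
              mul_le_mul (by nlinarith [hchi1 p hp]) hsum (sq_nonneg _) hχ0
          _ = _ := by ring
      refine (Finset.sum_le_sum fun w _ => hb w).trans_eq ?_
      simp only [Finset.sum_const, Finset.card_univ, Fintype.card_prod, Fintype.card_fin, nsmul_eq_mul]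
      push_cast; ring
    have hw : A.wedgeInt V (ext A c F) = X c / 2 := by
      rw [Atlas.wedgeInt, integral_eq_chart' A hJ c (continuousOn_wedge_cont hJ hVX hF.contX)
        (ρ := 1 / 2) (by norm_num) fun x _ hx => by
          rw [hF.zero_out hx]; simp [Atlas.wedgePt, Atlas.pullAt, wedge], ← integral_div]
      refine setIntegral_congr_fun isOpen_box.measurableSet fun p hp => ?_
      rw [wedgePt_chart A (hVs _) (hF.contX.skew _) c hp,
        mul_div_cancel₀ _ (dens_pos A hJ c hp).ne']
      show wedge (A.pull c V p) (A.pull c (ext A c F) p) = _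
      rw [pull_ext_self A c F hp]
      simp only [F, hp, if_true]
      rw [wedge_comm, wedge_smul_left, wedge_comm, wedge_inv_dual (hJ.sq c p hp) (hdual_skew _)
        (hVps c p), ← hPi c p hp, (sq2_hdual (hPs c p)).2]
      ring
    have hmain : |A.wedgeInt V (ext A c F)| ≤
        CR c * M * Real.sqrt (∑ w : Fin 4 × Fin 4, ∫ p, F p w.1 w.2 ^ 2) * CT * ε := by
      rw [(hVw _ hF.contX).2]
      refine hT ε _ hε (by have := hCR0 c; positivity) _ fun t ht => ?_
      exact (hCR c ε M t hε hε4 hM hB ht F hF).trans_eq (by ring)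
    rw [hw, abs_of_nonneg (by linarith [hX0 c])] at hmain
    have hs : Real.sqrt (∑ w : Fin 4 × Fin 4, ∫ p, F p w.1 w.2 ^ 2) ≤
        Real.sqrt (256 * W ^ 2) * Real.sqrt (X c) :=
      (Real.sqrt_le_sqrt hS).trans_eq (Real.sqrt_mul (by positivity) _)
    have h2 : X c ≤ C c * ε * M * Real.sqrt (X c) := by
      have := mul_le_mul_of_nonneg_left hs (show 0 ≤ CR c * M * CT * ε by
        have := hCR0 c; positivity)
      simp only [C]
      linarith
    have hsx := Real.sq_sqrt (hX0 c)
    have hle : Real.sqrt (X c) ≤ C c * ε * M := by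
      by_contra hlt
      have hpos : 0 < Real.sqrt (X c) := lt_of_le_of_lt (by have := hC c; positivity) (not_le.1 hlt)
      nlinarith [mul_lt_mul_of_pos_right (not_le.1 hlt) hpos]
    rw [← hsx]
    exact pow_le_pow_left₀ (Real.sqrt_nonneg _) hle 2
  have hn : A.n2 Vi ^ 2 ≤ ∑ c, D * X c := by
    have hterm : ∀ c, ContinuousOn
        (fun x => A.chi c x * (fun p => sq2 (A.pull c Vi p)) (A.phi c x)) A.X := fun c =>
      A.continuousOn_term c (F := fun p => sq2 (A.pull c Vi p)) (hsqc c)
    have e : ∫ x, A.sqX x (Vi x) ∂A.vol =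
        ∑ c, ∫ x, A.chi c x * sq2 (A.pull c Vi (A.phi c x)) ∂A.vol := by
      rw [← integral_finsetSum _ fun c _ => integrable_of_continuousOn A (hterm c)]
      refine integral_congr_ae ((ae_mem_X A).mono fun x hx => ?_)
      refine Finset.sum_congr rfl fun c _ => ?_
      rcases eq_or_ne (A.chi c x) 0 with h | h
      · simp [h]
      · simp only [Atlas.pull, A.psi_phi c (A.supp_box hx h)]
    rw [Atlas.n2, Real.sq_sqrt (integral_nonneg fun x => A.sqX_nonneg _ _), e]
    refine Finset.sum_le_sum fun c _ => ?_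
    rw [integral_eq_chart' A hJ c (hterm c) (ρ := 1 / 2) (by norm_num) fun x hx hx' => by
      have : A.chi c x = 0 := by by_contra h; exact hx' (A.chi_supp c x hx h)
      simp [this], ← integral_const_mul]
    refine integral_mono_of_nonneg ((ae_restrict_mem isOpen_box.measurableSet).mono fun p hp =>
      mul_nonneg (dens_pos A hJ c hp).le (mul_nonneg (A.chi_nonneg c _) (hsq0 _)))
      ((hXi c).const_mul _) ((ae_restrict_mem isOpen_box.measurableSet).mono fun p hp => ?_)
    show A.dens c p * (A.chi c (A.psi c p) * sq2 (A.pull c Vi (A.phi c (A.psi c p)))) ≤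
      D * (A.chi c (A.psi c p) * sq2 (A.pull c Vi p))
    rw [A.phi_psi c hp]
    rcases eq_or_ne (A.chi c (A.psi c p)) 0 with h | h
    · simp [h]
    · refine mul_le_mul_of_nonneg_right ?_ (mul_nonneg (A.chi_nonneg c _) (hsq0 _))
      exact ((le_abs_self _).trans (hBD c p (mem_half hp h))).trans ((le_abs_self _).trans
        (Finset.single_le_sum (f := fun c => |BD c|) (fun _ _ => abs_nonneg _) (Finset.mem_univ c)))
  have hn' : A.n2 Vi ^ 2 ≤ (∑ c, D * C c ^ 2) * (ε * M) ^ 2 := by
    refine hn.trans ?_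
    rw [Finset.sum_mul]
    refine Finset.sum_le_sum fun c _ => ?_
    rw [mul_assoc]
    exact mul_le_mul_of_nonneg_left ((hXc c).trans_eq (by ring)) hD
  have h := Real.sqrt_le_sqrt hn'
  rwa [Real.sqrt_sq (show 0 ≤ A.n2 Vi from Real.sqrt_nonneg _), Real.sqrt_mul (Finset.sum_nonneg fun c _ => by
    positivity), Real.sqrt_sq (by positivity), ← mul_assoc] at h

end Vale.Agent.P204.Kernel
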