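import Vale.Agent.P204.Kernel.TauberBnd
import Vale.Agent.P204.Kernel.TauberInv
import Vale.Agent.P204.Kernel.RepMain

/-!
# P204: the bound on the invariant part of the smoothed functional
-/

open MeasureTheory

namespace Vale.Agent.P204.Kernel

open Vale.Agent.P204.General

/-- The invariant part of the smoothed functional is small relative to the whole. -/
theorem tauberStmt : TauberStmt := by
  intro N K A J r d c₀ C₀ m R C₁ hJ hG hR
  obtain ⟨C, ε₁, hC, hε₁, hB⟩ := tauber_bnd hJ hG hR repStmt
  obtain ⟨C', ε₂, -, hε₂, hI⟩ := tauber_inv hJ hG hR repStmt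
  refine ⟨C' * C, min ε₁ ε₂, lt_min hε₁ hε₂, fun ε hε hle => ?_⟩
  refine (hI ε hε (hle.trans (min_le_right _ _)) _
    (mul_nonneg hC (show 0 ≤ A.n2 (VE A r d ε R) from Real.sqrt_nonneg _))
    (hB ε hε (hle.trans (min_le_left _ _)))).trans_eq ?_
  ring

end Vale.Agent.P204.Kernel
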