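import Vale.Agent.P204.Kernel.TauberStep
import Vale.Agent.P204.Kernel.Parts2

/-!
# P204: the bootstrap for the smoothed functional

The functional is bounded, on chart forms at scale `ε`, by the size of the smoothed functional.
-/

open MeasureTheory Matrix Filter Topology Set
open scoped ContDiff

namespace Vale.Agent.P204.Kernel

open Vale.Agent.P204.General Vale.Agent.P204.Torus

/-- The cut-off of the error. -/
noncomputable def b9 : ContDiffBump (0 : Pt) := ⟨9 / 16, 5 / 8, by norm_num, by norm_num⟩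

variable {N K : ℕ} {A : Atlas N K} {J : Amb N → MN N} {r d c₀ C₀ : ℝ}

theorem b9_nice : Nice b9 := ⟨b9.contDiff, b9.hasCompactSupport⟩

/-- The terms of the error are small. -/
theorem eT_bound (hG : GoodR A r d c₀ C₀) (c : Fin K) (i j : Fin 4) (x : Trm) :
    ∃ C : ℝ, 0 ≤ C ∧ ∀ ε, 0 < ε → ε ≤ 1 / 4 → ∀ f X, ChartForm (1 / 2) f →
      (∀ i k, EB ε X fun p => f p i k) →
      Nice (eT A c r d ε f i j x) ∧ EB ε (C * ε ^ 2 * X) (eT A c r d ε f i j x) := by
  rcases x with ⟨ι, k, l⟩ | ι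
  · obtain ⟨c₁, hc₁, hg⟩ := kI_gauss A c r d hG
    obtain ⟨C, hC, h⟩ := main_bound hc₁ (hg ι k l i j) (ρ := 11 / 16)
      (kI_supp A c r d ι k l i j)
    exact ⟨C, hC, fun ε hε hε4 f X hf hX =>
      h ε hε hε4 _ (hI_props hf hX ι k l).1 X (hI_props hf hX ι k l).2.2⟩
  · obtain ⟨C, hC, h⟩ := tail_term (A := A) (c := c) (H0_nice A c ι).1 (H0_nice A c ι).2.2
      fun p hp => H0_supp A c ι hp
    exact ⟨C, hC, fun ε hε hε4 f X hf hX => h ε hε hε4 _ (hI_props hf hX ι i j).1
      (hI_props hf hX ι i j).2.1 X (hI_props hf hX ι i j).2.2⟩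

/-- A chart form is a smoothing up to a chart form of size `ε`. -/
theorem exists_tauber_step (hJ : IsACS A J) (hG : GoodR A r d c₀ C₀) :
    ∃ D θ : ℝ, 0 ≤ D ∧ 0 ≤ θ ∧ ∀ ε, 0 < ε → ε ≤ 1 / 4 → ∀ c f X, ChartForm (1 / 2) f →
      (∀ i k, EB ε X fun p => f p i k) → ∃ b e, IsTestX A b ∧ A.n2 b ≤ D * Real.sqrt X ∧
        ChartForm (5 / 8) e ∧ (∀ i k, EB ε (θ * ε ^ 2 * X) fun p => e p i k) ∧
        EqPull A (GE A r d ε b) (ext A c f + ext A c e) := by
  choose T hT hTb using fun z : Fin K × Fin 4 × Fin 4 × Trm =>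
    eT_bound hG z.1 z.2.1 z.2.2.1 z.2.2.2
  obtain ⟨C9, hC9, h9⟩ := EB.mul_left b9_nice
  obtain ⟨C2, hC2, h2⟩ := n2_ext_le hJ (A := A) (ρ := 1 / 2) (by norm_num)
  choose B hB using fun z : Fin K × I5 => (cI_nice A z.1 z.2).2.2 0
  set Tm := ∑ z, T z
  set Bm := ∑ z, B z ^ 2
  have hTm : 0 ≤ Tm := Finset.sum_nonneg fun z _ => hT z
  have hBm : 0 ≤ Bm := Finset.sum_nonneg fun z _ => sq_nonneg _
  set nT : ℝ := (Fintype.card Trm : ℝ)
  set nI : ℝ := (Fintype.card I5 : ℝ)
  refine ⟨Real.sqrt (C2 * (16 * (nI * (nI * Bm)))), C9 * (nT * (nT * Tm)),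
    Real.sqrt_nonneg _, by positivity, fun ε hε hε4 c f X hf hX => ?_⟩
  have hX0 := (hX 0 0).nonneg
  have hD := DF_form A c hf hX
  set b := ext A c (DF A c ε f)
  have hb : IsTestX A b := ext_test A c (by norm_num) hD
  have hball : ∀ {p : Pt}, 5 / 8 < ‖p‖ → b9 p = 0 := fun hp =>
    b9.zero_of_le_dist (by rw [dist_zero_right]; exact hp.le)
  set e : Pt → M4 := fun p => b9 p • (A.pull c (GE A r d ε b) p - f p)
  have hent : ∀ i j, (fun p => e p i j) = fun p => b9 p * ∑ x, eT A c r d ε f i j x p := fun i j => by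
    funext p
    simp only [e, Matrix.smul_apply, Matrix.sub_apply, smul_eq_mul]
    rcases le_or_gt ‖p‖ (5 / 8) with hp | hp
    · rw [pull_GE_DF hJ hG hε hε4 hf hX (mem_closedBall_zero_iff.2 hp)]; ring
    · simp [hball hp]
  have hEn : ∀ i j, Nice (fun p => ∑ x, eT A c r d ε f i j x p) ∧
      EB ε (nT * (nT * (Tm * ε ^ 2 * X))) (fun p => ∑ x, eT A c r d ε f i j x p) := fun i j => by
    have h : ∀ x, Nice (eT A c r d ε f i j x) ∧ EB ε (Tm * ε ^ 2 * X) (eT A c r d ε f i j x) :=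
      fun x => by
        obtain ⟨h1, h2⟩ := hTb (c, i, j, x) ε hε hε4 f X hf hX
        exact ⟨h1, h2.mono (mul_le_mul_of_nonneg_right (mul_le_mul_of_nonneg_right
          (Finset.single_le_sum (fun z _ => hT z) (Finset.mem_univ _)) (sq_nonneg ε)) hX0)⟩
    refine ⟨Nice.sum _ fun x _ => (h x).1, (EB.sum _ (fun x _ => (h x).1) fun x _ => (h x).2).mono
      (le_of_eq ?_)⟩
    simp only [Finset.sum_const, Finset.card_univ, nsmul_eq_mul, nT]
  refine ⟨b, e, hb, ?_, ⟨fun i j => ?_, fun p => ?_, fun p hp => by simp [e, hball hp]⟩,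
    fun i j => ?_, fun c' p hp => ?_⟩
  · refine (Real.sqrt_le_sqrt (x := ∫ x, A.sqX x (b x) ∂A.vol) ?_).trans_eq
      (Real.sqrt_mul (by positivity) X)
    have h := h2 c _ hD
    rw [Atlas.n2, Real.sq_sqrt (integral_nonneg fun x => A.sqX_nonneg _ _)] at h
    refine h.trans ?_
    rw [mul_assoc C2]
    refine mul_le_mul_of_nonneg_left ((Finset.sum_le_sum (g := fun _ => ∑ _k : Fin 4, nI * (nI * Bm) * X)
      fun i _ => Finset.sum_le_sum fun k _ => ?_).trans_eq ?_) hC2
    · have hi : ∀ ι, Integrable (fun p => (cI A c ι p * hI ε f ι i k p) ^ 2) ∧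
          ∫ p, (cI A c ι p * hI ε f ι i k p) ^ 2 ≤ Bm * X := fun ι => by
        have hn := (hI_props hf hX ι i k).1
        refine ⟨Nice.integrable_sq ⟨(cI_nice A c ι).1.mul hn.1, hn.2.mul_left⟩, ?_⟩
        refine (integral_mono_of_nonneg (g := fun p => B (c, ι) ^ 2 * hI ε f ι i k p ^ 2)
          (ae_of_all _ fun p => sq_nonneg _) (hn.integrable_sq.const_mul _)
          (ae_of_all _ fun p => ?_)).trans ?_
        · show (cI A c ι p * hI ε f ι i k p) ^ 2 ≤ B (c, ι) ^ 2 * hI ε f ι i k p ^ 2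
          rw [mul_pow, ← sq_abs (cI A c ι p)]
          refine mul_le_mul_of_nonneg_right (pow_le_pow_left₀ (abs_nonneg _) ?_ 2) (sq_nonneg _)
          simpa using (hB (c, ι)).2 p
        · rw [integral_const_mul]
          exact mul_le_mul (Finset.single_le_sum (fun z _ => sq_nonneg (B z)) (Finset.mem_univ _))
            (hI_props hf hX ι i k).2.2 (integral_nonneg fun p => sq_nonneg _) hBm
      simp only [DF, Matrix.of_apply]
      refine (integral_sq_sum_le _ fun ι _ => (hi ι).1).trans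
        ((mul_le_mul_of_nonneg_left (Finset.sum_le_sum fun ι _ => (hi ι).2) (Nat.cast_nonneg _)).trans_eq ?_)
      simp only [Finset.sum_const, Finset.card_univ, nsmul_eq_mul, nI]
      ring
    · simp only [Finset.sum_const, Finset.card_univ, Fintype.card_fin, nsmul_eq_mul]
      push_cast; ring
  · rw [hent]; exact b9.contDiff.mul (hEn i j).1.1
  · show (b9 p • (A.pull c (GE A r d ε b) p - f p))ᵀ = -(b9 p • (A.pull c (GE A r d ε b) p - f p))
    rw [transpose_smul, transpose_sub, Atlas.pull, pullAt_skew A c p (GE_skew b ε _), hf.skew,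
      ← smul_neg]
    congr 1
    abel
  · rw [hent]
    exact (h9 ε hε (hε4.trans (by norm_num)) _ (hEn i j).1 _ (hEn i j).2).mono (le_of_eq (by ring))
  · have hadd : A.pull c' (ext A c f + ext A c e) p =
        A.pull c' (ext A c f) p + A.pull c' (ext A c e) p := by
      simp only [Atlas.pull, Atlas.pullAt, Pi.add_apply, Matrix.mul_add, Matrix.add_mul]
    have hb0 : ∀ x ∈ A.X, x ∉ A.psi c '' Metric.closedBall 0 (1 / 2) → b x = 0 := fun x _ hx =>
      ext_eq_zero A c hD hx
    have hz := fun z hz => GE_eq_zero hG ε (c := c) (ρ := 1 / 2) (by norm_num) hb0 (z := z) hz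
    rw [hadd]
    by_cases hc : A.psi c' p ∈ A.psi c '' box
    · rw [pull_ext_mem A c c' f hc, pull_ext_mem A c c' e hc, A.pull_trans c c' hp hc,
        ← Matrix.add_mul, ← Matrix.mul_add]
      set q := A.trans c c' p
      have hq : q ∈ box := A.phi_mem c hc
      congr 2
      show A.pull c (GE A r d ε b) q = f q + b9 q • (A.pull c (GE A r d ε b) q - f q)
      rcases le_or_gt ‖q‖ (9 / 16) with hq' | hq'
      · rw [b9.one_of_mem_closedBall (mem_closedBall_zero_iff.2 hq'), one_smul]; abel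
      · have h0 : A.pull c (GE A r d ε b) q = 0 := by
          rw [Atlas.pull, hz _ (A.psi_mem c q hq) fun ⟨y, hy, he⟩ => ?_]
          · simp [Atlas.pullAt]
          · have hyb : y ∈ box := Metric.closedBall_subset_ball (by norm_num) hy
            have := congrArg (A.phi c) he
            rw [A.phi_psi c hyb, A.phi_psi c hq] at this
            rw [this, mem_closedBall_zero_iff] at hy
            linarith
        rw [h0, hf.supp q (by linarith)]; simp
    · rw [pull_ext_notMem A c c' f hc, pull_ext_notMem A c c' e hc, add_zero, Atlas.pull,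
        hz _ (A.psi_mem c' p hp) fun ⟨y, hy, he⟩ => hc ⟨y, Metric.closedBall_subset_ball (by norm_num) hy, he⟩]
      simp [Atlas.pullAt]

/-- The functional is bounded at scale `ε` by the size of the smoothed functional. -/
theorem tauber_bnd {m : Measure (Amb N × Amb N)} {R : (Amb N → MN N) → ℝ} {C₁ : ℝ}
    (hJ : IsACS A J) (hG : GoodR A r d c₀ C₀) (hR : IsExtX A J m R C₁) (hRep : RepStmt) :
    ∃ C ε₁ : ℝ, 0 ≤ C ∧ 0 < ε₁ ∧ ∀ ε, 0 < ε → ε ≤ ε₁ →
      Bnd A R ε (C * A.n2 (VE A r d ε R)) := by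
  obtain ⟨ε₀, hε₀, hrep⟩ := hRep A J r d c₀ C₀ m R C₁ hJ hG hR
  obtain ⟨D, θ, hD, hθ, hstep⟩ := exists_tauber_step hJ hG
  obtain ⟨Cw, hCw, hw⟩ := abs_wedgeInt_le (A := A) hJ
  obtain ⟨Cb, hCb, hbig⟩ := exists_bnd_big hJ hR (ρ := 5 / 8) (by norm_num)
  obtain ⟨C3, hC3, hbase⟩ := exists_bnd_base hJ hR
  set L := Cb * Real.sqrt θ
  have hL : 0 ≤ L := by positivity
  refine ⟨2 * (Cw * D), min (min ε₀ (1 / 4)) (1 / (2 * (L + 1))), by positivity,
    lt_min (lt_min hε₀ (by norm_num)) (by positivity), fun ε hε hεle => ?_⟩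
  have hε4 : ε ≤ 1 / 4 := (hεle.trans (min_le_left _ _)).trans (min_le_right _ _)
  have hε1 : ε ≤ 1 := hε4.trans (by norm_num)
  obtain ⟨hskew, hcontV, -, hGE⟩ := hrep ε hε ((hεle.trans (min_le_left _ _)).trans (min_le_left _ _))
  have hV : IsContX A (VE A r d ε R) := ⟨hskew, fun e i k => by
    simp only [Atlas.pull, Atlas.pullAt_apply]
    exact continuousOn_finsetSum _ fun l _ => ContinuousOn.mul (continuousOn_finsetSum _ fun a _ =>
      (A.dmat_smooth e a i).continuous.continuousOn.mul ((hcontV a l).comp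
        (A.psi_cont e).continuousOn fun p hp => A.psi_mem e p hp)) (A.dmat_smooth e l k).continuous.continuousOn⟩
  have hLε : L * ε ≤ 1 / 2 := by
    have h := hεle.trans (min_le_right _ _)
    rw [le_div_iff₀ (by positivity)] at h
    nlinarith
  set a := Cw * D * A.n2 (VE A r d ε R)
  have ha : 0 ≤ a := by have : 0 ≤ A.n2 (VE A r d ε R) := Real.sqrt_nonneg _; positivity
  have step : ∀ M, 0 ≤ M → Bnd A R ε M → Bnd A R ε (a + L * ε * M) := by
    intro M hM hB c f X hf hX
    obtain ⟨b, e, hb, hbn, he, heX, heq⟩ := hstep ε hε hε4 c f X hf hX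
    have hft := ext_test A c (by norm_num) hf
    have het := ext_test A c (by norm_num) he
    have hsum : R (GE A r d ε b) = R (ext A c f) + R (ext A c e) := by
      rw [R_congr hR (GE_test hJ hG hb hε hε4) (isTestX_add hft het) heq, hR.add _ _ hft het]
    have h1 : |R (GE A r d ε b)| ≤ a * Real.sqrt X := by
      rw [hGE b hb]
      refine (hw _ _ hV hb.contX).trans ((mul_le_mul_of_nonneg_left hbn
        (mul_nonneg hCw (Real.sqrt_nonneg _))).trans_eq ?_)
      simp only [a, Atlas.n2]; ring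
    have h2 : |R (ext A c e)| ≤ L * ε * M * Real.sqrt X := by
      refine (hbig ε M hε hε1 hM hB c e _ he heX).trans_eq ?_
      rw [Real.sqrt_mul (by positivity), Real.sqrt_mul hθ, Real.sqrt_sq hε.le]
      simp only [L]; ring
    calc |R (ext A c f)| = |R (GE A r d ε b) - R (ext A c e)| := by rw [hsum, add_sub_cancel_right]
      _ ≤ |R (GE A r d ε b)| + |R (ext A c e)| := abs_sub _ _
      _ ≤ _ := by rw [add_mul]; exact add_le_add h1 h2
  set M₀ := C3 / ε ^ 3
  have hM₀ : 0 ≤ M₀ := by positivity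
  have hall : ∀ n : ℕ, Bnd A R ε (2 * a + M₀ / 2 ^ n) := by
    intro n
    induction n with
    | zero =>
      intro c f X hf hX
      exact (hbase ε hε hε1 c f X hf hX).trans
        (mul_le_mul_of_nonneg_right (by simp only [M₀]; linarith) (Real.sqrt_nonneg _))
    | succ n ih =>
      intro c f X hf hX
      have hn : 0 ≤ M₀ / 2 ^ n := by positivity
      refine (step _ (by linarith) ih c f X hf hX).trans
        (mul_le_mul_of_nonneg_right ?_ (Real.sqrt_nonneg _))
      have h := mul_le_mul_of_nonneg_right hLε (show 0 ≤ 2 * a + M₀ / 2 ^ n by linarith)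
      rw [pow_succ, ← div_div]
      linarith
  intro c f X hf hX
  have hlim : Tendsto (fun n : ℕ => (2 * a + M₀ / 2 ^ n) * Real.sqrt X) atTop
      (𝓝 ((2 * a + 0) * Real.sqrt X)) :=
    ((tendsto_const_nhds.div_atTop (tendsto_pow_atTop_atTop_of_one_lt one_lt_two)).const_add
      (2 * a)).mul_const _
  refine (ge_of_tendsto' hlim fun n => hall n c f X hf hX).trans_eq ?_
  simp only [a]; ring

end Vale.Agent.P204.Kernel
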