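import Vale.Agent.P204.Kernel.Ext

/-!
# P204: the expansion of the fifth power of `1 - ε² Δ`

The power is a finite sum of coefficients times scaled derivatives of order at most ten.
-/

open MeasureTheory Matrix Filter Topology Set
open scoped ContDiff

namespace Vale.Agent.P204.Kernel

open Vale.Agent.P204.General Vale.Agent.P204.Torus

/-- The choices of terms. -/
abbrev Ix (n : ℕ) := Fin n → Option (Fin 4 × Fin 4)

/-- The coefficient of a term. -/
noncomputable def coefI (H : M4) : ∀ n, Ix n → ℝ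
  | 0, _ => 1
  | n + 1, ι => (ι 0).elim 1 (fun z => -H z.1 z.2) * coefI H n (Fin.tail ι)

/-- The derivatives of a term. -/
def lI : ∀ n, Ix n → List (Fin 4)
  | 0, _ => []
  | n + 1, ι => ((ι 0).elim [] fun z => [z.2, z.1]) ++ lI n (Fin.tail ι)

theorem lI_length : ∀ n (ι : Ix n), (lI n ι).length ≤ 2 * n
  | 0, _ => le_rfl
  | n + 1, ι => by
    have := lI_length n (Fin.tail ι)
    rw [lI, List.length_append]
    rcases ι 0 with _ | z <;> simp <;> omega

theorem coefI_smooth {H : Pt → M4} {O : Set Pt}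
    (hH : ∀ i k, ContDiffOn ℝ ∞ (fun q => H q i k) O) :
    ∀ n (ι : Ix n), ContDiffOn ℝ ∞ (fun q => coefI (H q) n ι) O
  | 0, _ => contDiffOn_const
  | n + 1, ι => by
    simp only [coefI]
    refine ContDiffOn.mul ?_ (coefI_smooth hH n _)
    rcases ι 0 with _ | z
    · exact contDiffOn_const
    · exact (hH z.1 z.2).neg

theorem oneSubLap_iter (g : M4) {φ : Pt → ℝ} (hφ : ContDiff ℝ ∞ φ) : ∀ n w,
    (oneSubLap g)^[n] φ w = ∑ ι : Ix n, coefI g⁻¹ n ι * pdL (lI n ι) φ w := by
  intro n
  induction n with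
  | zero => intro w; simp [coefI, lI, pdL]
  | succ n ih =>
    intro w
    rw [Function.iterate_succ_apply', funext ih, oneSubLap,
      ← (Fin.consEquiv fun _ : Fin (n + 1) => Option (Fin 4 × Fin 4)).sum_comp,
      Fintype.sum_prod_type, Fintype.sum_option, Fintype.sum_prod_type, sub_eq_add_neg]
    simp only [Fin.consEquiv, Equiv.coe_fn_mk, coefI, lI, Fin.cons_zero, Fin.tail_cons,
      Option.elim_none, Option.elim_some, one_mul, List.nil_append, ← Finset.sum_neg_distrib]
    congr 1
    refine Finset.sum_congr rfl fun j _ => Finset.sum_congr rfl fun i _ => ?_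
    have hsum : ∀ ι : Ix n, ContDiff ℝ ∞ fun w => coefI g⁻¹ n ι * pdL (lI n ι) φ w := fun ι =>
      contDiff_const.mul (contDiff_pdL hφ _)
    show -(g⁻¹ j i * pdL [i, j] (fun w => ∑ ι, coefI g⁻¹ n ι * pdL (lI n ι) φ w) w) = _
    rw [pdL_sum _ fun ι _ => hsum ι, Finset.mul_sum, ← Finset.sum_neg_distrib]
    refine Finset.sum_congr rfl fun ι _ => ?_
    rw [pdL_const_mul (contDiff_pdL hφ _), ← pdL_append]
    simp only [List.cons_append, List.nil_append]
    ring

theorem pdL_affine {f : Pt → ℝ} (hf : ContDiff ℝ ∞ f) (q : Pt) (ε : ℝ) :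
    ∀ l : List (Fin 4),
      pdL l (fun w => f (q + ε • w)) = fun w => ε ^ l.length * pdL l f (q + ε • w)
  | [] => by simp [pdL]
  | i :: l => by
    funext w
    show fderiv ℝ (pdL l fun w => f (q + ε • w)) w _ = _
    rw [pdL_affine hf q ε l]
    have h1 : HasFDerivAt (fun w : Pt => q + ε • w) (ε • ContinuousLinearMap.id ℝ Pt) w :=
      ((hasFDerivAt_id (𝕜 := ℝ) w).fun_const_smul ε).const_add q
    have h2 := (((contDiff_pdL hf l).differentiable (by simp)) (q + ε • w)).hasFDerivAt.comp w h1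
    rw [show (fun w : Pt => ε ^ l.length * pdL l f (q + ε • w)) =
      fun w => ε ^ l.length * (pdL l f ∘ fun w => q + ε • w) w from rfl,
      fderiv_const_mul h2.differentiableAt, h2.fderiv]
    simp [pdL, pd, pow_succ]
    ring

/-- Derivatives of a function vanishing outside a closed set vanish there. -/
theorem pdL_eq_zero_off {f : Pt → ℝ} {ρ : ℝ} (h : ∀ p, ρ < ‖p‖ → f p = 0) (l : List (Fin 4))
    {p : Pt} (hp : ρ < ‖p‖) : pdL l f p = 0 := by
  have he : f =ᶠ[𝓝 p] fun _ => 0 :=
    eventually_of_mem ((isOpen_lt continuous_const continuous_norm).mem_nhds hp) fun y hy => h y hy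
  rw [(pdL_congr_nhds he l).eq_of_nhds]
  simpa using congrFun (pdL_const_mul (f := fun _ => (0 : ℝ)) contDiff_const 0 l) p

end Vale.Agent.P204.Kernel
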