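import Vale.Agent.P204.Kernel.Ext
import Vale.Agent.P204.Kernel.Approx.Main

/-!
# P204: the smoothing of invariant forms is almost invariant

In a chart the anti-invariant part of the smoothed invariant form is a family of Gaussian
operators which vanishes at width zero; its functional is small by the Tauberian bound.
-/

open MeasureTheory Matrix Filter Topology Set
open scoped ContDiff

namespace Vale.Agent.P204.Kernel

open Vale.Agent.P204.General Vale.Agent.P204.Torus

/-! ### Algebra -/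

/-- The Euclidean dual of a two-form value. -/
def hdual (P : M4) : M4 :=
  !![0, P 2 3, -P 1 3, P 1 2;
    -P 2 3, 0, P 0 3, -P 0 2;
    P 1 3, -P 0 3, 0, P 0 1;
    -P 1 2, P 0 2, -P 0 1, 0]

theorem hdual_skew (P : M4) : (hdual P)ᵀ = -hdual P := by
  ext i k
  fin_cases i <;> fin_cases k <;> simp [hdual]

theorem skew_entries {P : M4} (hP : Pᵀ = -P) (i k : Fin 4) : P k i = -P i k := by
  have := congrFun (congrFun hP i) k
  simpa using this

theorem sq2_hdual {P : M4} (hP : Pᵀ = -P) :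
    sq2 (hdual P) = sq2 P ∧ wedge P (hdual P) = sq2 P / 2 := by
  have h := skew_entries hP
  have d : ∀ i, P i i = 0 := fun i => by linarith [h i i]
  refine ⟨?_, ?_⟩ <;>
    simp [sq2, wedge, hdual, Fin.sum_univ_four, d, h 0 1, h 0 2, h 0 3, h 1 2, h 1 3, h 2 3] <;>
    ring

/-- The weights of the invariant part. -/
noncomputable def invW (jm : M4) (i k m n : Fin 4) : ℝ :=
  (2 : ℝ)⁻¹ * ((if m = i then 1 else 0) * (if n = k then 1 else 0) + jm m i * jm n k)

theorem inv11_entry (jm M : M4) (i k : Fin 4) :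
    inv11 jm M i k = ∑ z : Fin 4 × Fin 4, invW jm i k z.1 z.2 * M z.1 z.2 := by
  rw [Fintype.sum_prod_type]
  simp only [inv11, invW, Matrix.smul_apply, Matrix.add_apply, Matrix.mul_apply,
    Matrix.transpose_apply, smul_eq_mul, mul_add, add_mul, Finset.sum_add_distrib, Finset.mul_sum,
    Finset.sum_mul]
  congr 1
  · simp [Finset.sum_ite_eq']
  · rw [Finset.sum_comm]
    exact Finset.sum_congr rfl fun m _ => Finset.sum_congr rfl fun n _ => by ring

theorem antiP_inv11 {j M : M4} (hj : j * j = -1) :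
    antiP j (inv11 j M) = 0 ∧ inv11 j (inv11 j M) = inv11 j M := by
  have hj' : jᵀ * jᵀ = -1 := by rw [← transpose_mul, hj]; simp
  have h : jᵀ * inv11 j M * j = inv11 j M := by
    have e : jᵀ * (jᵀ * M * j) * j = M := by
      rw [show jᵀ * (jᵀ * M * j) * j = (jᵀ * jᵀ) * M * (j * j) by simp only [Matrix.mul_assoc], hj, hj']
      simp
    simp only [inv11, Matrix.mul_smul, Matrix.smul_mul, Matrix.mul_add, Matrix.add_mul, e]
    rw [add_comm]
  refine ⟨by rw [antiP, h, sub_self, smul_zero], ?_⟩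
  rw [show inv11 j (inv11 j M) = (2 : ℝ)⁻¹ • (inv11 j M + jᵀ * inv11 j M * j) from rfl, h,
    ← two_smul ℝ (inv11 j M), smul_smul]
  norm_num

theorem inv11_add_antiP (j M : M4) : inv11 j M + antiP j M = M := by
  rw [inv11, antiP]; module

theorem wedge_inv_dual {j P B : M4} (hj : j * j = -1) (hP : Pᵀ = -P) (hB : Bᵀ = -B) :
    wedge B (inv11 j P) = wedge (inv11 j B) P := by
  have h1 : wedge B (inv11 j P) = wedge (inv11 j B) (inv11 j P) := by
    conv_lhs => rw [← inv11_add_antiP j B]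
    rw [wedge_add_left, wedge_comm (antiP j B), wedge_inv11_antiP hj hP hB, add_zero]
  have h2 : wedge (inv11 j B) P = wedge (inv11 j B) (inv11 j P) := by
    conv_lhs => rw [← inv11_add_antiP j P]
    rw [wedge_comm, wedge_add_left, wedge_comm (antiP j P), wedge_inv11_antiP hj hB hP, add_zero,
      wedge_comm]
  rw [h1, h2]

/-! ### The time integral -/

theorem time_weight_le {t : ℝ} (ht : 0 < t) :
    t ^ 4 / 24 * Real.exp (-t) * (Real.sqrt t * (1 + 1 / t) ^ 5) ≤
      32 * (Real.exp (-t) * t ^ ((1 / 2 : ℝ) - 1) + Real.exp (-t) * t ^ ((11 / 2 : ℝ) - 1)) := by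
  have hs := Real.sqrt_pos.2 ht
  have hsq : Real.sqrt t ^ 2 = t := Real.sq_sqrt ht.le
  have e1 : t ^ ((1 / 2 : ℝ) - 1) = 1 / Real.sqrt t := by
    rw [show (1 / 2 : ℝ) - 1 = -(1 / 2) by norm_num, Real.rpow_neg ht.le, Real.sqrt_eq_rpow, one_div]
    norm_num
  have e2 : t ^ ((11 / 2 : ℝ) - 1) = t ^ 5 / Real.sqrt t := by
    rw [Real.sqrt_eq_rpow, ← Real.rpow_natCast, ← Real.rpow_sub ht]
    norm_num
  have hid : t ^ 4 * (Real.sqrt t * (1 + 1 / t) ^ 5) = (1 + t) ^ 5 / Real.sqrt t := by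
    rw [eq_div_iff hs.ne', show t ^ 4 * (Real.sqrt t * (1 + 1 / t) ^ 5) * Real.sqrt t =
      t ^ 4 * Real.sqrt t ^ 2 * (1 + 1 / t) ^ 5 by ring, hsq]
    field_simp
    ring
  have h5 : (1 + t) ^ 5 ≤ 32 * (1 + t ^ 5) := by
    rcases le_total t 1 with h | h
    · calc (1 + t) ^ 5 ≤ 2 ^ 5 := pow_le_pow_left₀ (by positivity) (by linarith) 5
        _ ≤ _ := by nlinarith [pow_pos ht 5]
    · calc (1 + t) ^ 5 ≤ (2 * t) ^ 5 := pow_le_pow_left₀ (by positivity) (by linarith) 5
        _ = 32 * t ^ 5 := by ring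
        _ ≤ _ := by linarith
  rw [e1, e2]
  calc t ^ 4 / 24 * Real.exp (-t) * (Real.sqrt t * (1 + 1 / t) ^ 5)
      = Real.exp (-t) / 24 * (t ^ 4 * (Real.sqrt t * (1 + 1 / t) ^ 5)) := by ring
    _ ≤ Real.exp (-t) * (32 * (1 + t ^ 5) / Real.sqrt t) := by
        rw [hid]
        exact mul_le_mul (div_le_self (Real.exp_pos _).le (by norm_num))
          (div_le_div_of_nonneg_right h5 hs.le) (by positivity) (Real.exp_pos _).le
    _ = _ := by ring

theorem exists_super_bound : ∃ C : ℝ, 0 ≤ C ∧ ∀ ε B : ℝ, 0 < ε → 0 ≤ B → ∀ f : ℝ → ℝ,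
    (∀ t ∈ Ioc 0 (1 / ε), |f t| ≤ B * (ε * Real.sqrt t * (1 + 1 / t) ^ 5)) →
      |∫ t, omW ε t * f t| ≤ B * C * ε := by
  set G : ℝ → ℝ := fun t =>
    32 * (Real.exp (-t) * t ^ ((1 / 2 : ℝ) - 1) + Real.exp (-t) * t ^ ((11 / 2 : ℝ) - 1))
  have hGi : IntegrableOn G (Ioi 0) :=
    ((Real.GammaIntegral_convergent (by norm_num : (0 : ℝ) < 1 / 2)).add
      (Real.GammaIntegral_convergent (by norm_num : (0 : ℝ) < 11 / 2))).const_mul 32
  have hG0 : ∀ t ∈ Ioi (0 : ℝ), 0 ≤ G t := fun t (ht : 0 < t) => by simp only [G]; positivity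
  refine ⟨∫ t in Ioi 0, G t, setIntegral_nonneg measurableSet_Ioi hG0, fun ε B hε hB f hf => ?_⟩
  have hi : Integrable ((Ioi (0 : ℝ)).indicator fun t => B * ε * G t) :=
    (integrable_indicator_iff measurableSet_Ioi).2 (hGi.const_mul _)
  refine (Real.norm_eq_abs _).symm.trans_le
    ((norm_integral_le_of_norm_le hi (ae_of_all _ fun t => ?_)).trans_eq ?_)
  · by_cases ht : t ∈ Ioc 0 (1 / ε)
    · rw [omW, indicator_of_mem ht, indicator_of_mem (show t ∈ Ioi (0 : ℝ) from ht.1), Real.norm_eq_abs,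
        abs_mul, abs_of_nonneg (by have := ht.1; positivity : 0 ≤ t ^ 4 / 24 * Real.exp (-t))]
      calc t ^ 4 / 24 * Real.exp (-t) * |f t|
          ≤ t ^ 4 / 24 * Real.exp (-t) * (B * (ε * Real.sqrt t * (1 + 1 / t) ^ 5)) :=
            mul_le_mul_of_nonneg_left (hf t ht) (by have := ht.1; positivity)
        _ = B * ε * (t ^ 4 / 24 * Real.exp (-t) * (Real.sqrt t * (1 + 1 / t) ^ 5)) := by ring
        _ ≤ _ := mul_le_mul_of_nonneg_left (time_weight_le ht.1) (by positivity)
    · rw [omW, indicator_of_notMem ht, zero_mul, norm_zero]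
      exact indicator_nonneg (fun t ht => mul_nonneg (by positivity) (hG0 t ht)) t
  · rw [integral_indicator measurableSet_Ioi, integral_const_mul]; ring

/-! ### The kernel -/

/-- A bump at the centre of a chart. -/
noncomputable def bE : ContDiffBump (0 : Pt) := ⟨9 / 16, 5 / 8, by norm_num, by norm_num⟩

variable {N K : ℕ} (A : Atlas N K) (J : Amb N → MN N) (c : Fin K) (r d : ℝ)

/-- The cut anti-invariant weights. -/
noncomputable def cutA (i j m n : Fin 4) (q : Pt) : ℝ := bE q * antiW (A.jc J c q) i j m n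

/-- The cut invariant weights. -/
noncomputable def cutI (k l u v : Fin 4) (p : Pt) : ℝ := bC p * invW (A.jc J c p) k l u v

/-- The kernel of the anti-invariant part of the smoothed invariant part. -/
noncomputable def invKer (i j : Fin 4) (w : Fin 4 × Fin 4) (x : X3) : ℝ :=
  ∑ y : Fin 4 × Fin 4, ∑ z : Fin 4 × Fin 4,
    cutA A J c i j y.1 y.2 x.1.2 * cutI A J c z.1 z.2 w.1 w.2 (x.1.2 + x.1.1 • x.2) *
      kerf A c r d z.1 z.2 y.1 y.2 x

variable {A J c r d} {c₀ C₀ : ℝ}

theorem cut_smooth (hJ : IsACS A J) (i j m n : Fin 4) :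
    (ContDiff ℝ ∞ (cutA A J c i j m n) ∧ BddDerivs (cutA A J c i j m n)) ∧
      (ContDiff ℝ ∞ (cutI A J c i j m n) ∧ BddDerivs (cutI A J c i j m n)) := by
  have h1 := smooth_of_supp (f := cutA A J c i j m n) isOpen_box
    (isCompact_closedBall (0 : Pt) (5 / 8)) (Metric.closedBall_subset_ball (by norm_num))
    (bE.contDiff.contDiffOn.mul (contDiffOn_const.mul (contDiffOn_const.sub
      ((hJ.smooth c m i).mul (hJ.smooth c n j))))) fun p hp => by
        rw [cutA, bE.zero_of_le_dist (not_le.1 hp).le, zero_mul]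
  have h2 := smooth_of_supp (f := cutI A J c i j m n) isOpen_box
    (isCompact_closedBall (0 : Pt) (7 / 8)) (Metric.closedBall_subset_ball (by norm_num))
    (bC.contDiff.contDiffOn.mul (contDiffOn_const.mul (contDiffOn_const.add
      ((hJ.smooth c m i).mul (hJ.smooth c n j))))) fun p hp => by
        rw [cutI, bC.zero_of_le_dist (not_le.1 hp).le, zero_mul]
  exact ⟨⟨h1.1, h1.2.2⟩, h2.1, h2.2.2⟩

theorem invKer_gauss (hJ : IsACS A J) (hG : GoodR A r d c₀ C₀) :
    ∃ c₁ : ℝ, 0 < c₁ ∧ ∀ i j w, GaussB S3 c₁ (invKer A J c r d i j w) := by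
  obtain ⟨c₁, hc₁, hg⟩ := kerf_gauss (c := c) hG
  refine ⟨c₁ / 2, half_pos hc₁, fun i j w => GaussB.sum _ fun y _ => GaussB.sum _ fun z _ => ?_⟩
  have hq : PolyD S3 fun x : X3 => x.1.2 :=
    PolyD.linear ((ContinuousLinearMap.snd ℝ ℝ Pt).comp (ContinuousLinearMap.fst ℝ (ℝ × Pt) Pt))
  have hp := hq.add (polyB_sigma.smul
    (PolyB.linear (ContinuousLinearMap.snd ℝ (ℝ × Pt) Pt) zero_le_one fun x _ => by simp)).polyD
  obtain ⟨⟨a1, a2⟩, -⟩ := cut_smooth (c := c) hJ i j y.1 y.2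
  obtain ⟨-, b1, b2⟩ := cut_smooth (c := c) hJ z.1 z.2 w.1 w.2
  simpa only [smul_eq_mul, ContinuousLinearMap.coe_snd'] using
    GaussB.poly_smul hc₁ ((PolyB.comp a1 a2 hq).smul (PolyB.comp b1 b2 hp)) (hg z.1 z.2 y.1 y.2)

theorem invKer_supp (i j : Fin 4) (w : Fin 4 × Fin 4) (s : ℝ) {q : Pt}
    (hq : q ∉ Metric.closedBall (0 : Pt) (5 / 8)) (z : Pt) :
    invKer A J c r d i j w ((s, q), z) = 0 :=
  Finset.sum_eq_zero fun y _ => Finset.sum_eq_zero fun x _ => by
    simp only [cutA, bE.zero_of_le_dist (not_le.1 hq).le, zero_mul]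

/-- At width zero the kernel kills every form. -/
theorem invKer_zero (hJ : IsACS A J) (hG : GoodR A r d c₀ C₀) (i j : Fin 4) (q z : Pt) {h : M4}
    (hh : hᵀ = -h) : ∑ w, h w.1 w.2 * invKer A J c r d i j w ((0, q), z) = 0 := by
  by_cases hq : q ∈ Metric.closedBall (0 : Pt) (5 / 8)
  swap
  · exact Finset.sum_eq_zero fun w _ => by rw [invKer_supp i j w 0 hq z, mul_zero]
  have hqb : q ∈ box := Metric.closedBall_subset_ball (by norm_num) hq
  set H : M4 := bC q • inv11 (A.jc J c q) h with hH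
  have hHs : Hᵀ = -H := by rw [hH, transpose_smul, inv11_skew hh, smul_neg]
  have hHe : ∀ y : Fin 4 × Fin 4,
      ∑ w : Fin 4 × Fin 4, cutI A J c y.1 y.2 w.1 w.2 q * h w.1 w.2 = H y.1 y.2 := fun y => by
    simp only [hH, cutI, Matrix.smul_apply, smul_eq_mul, inv11_entry, Finset.mul_sum, mul_assoc]
  calc ∑ w, h w.1 w.2 * invKer A J c r d i j w ((0, q), z)
      = ∑ y : Fin 4 × Fin 4, cutA A J c i j y.1 y.2 q *
          ∑ x : Fin 4 × Fin 4, (∑ w : Fin 4 × Fin 4, cutI A J c x.1 x.2 w.1 w.2 q * h w.1 w.2) *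
            kerf A c r d x.1 x.2 y.1 y.2 ((0, q), z) := by
        simp only [invKer, zero_smul, add_zero, Finset.mul_sum, Finset.sum_mul]
        rw [Finset.sum_comm]
        refine Finset.sum_congr rfl fun y _ => ?_
        rw [Finset.sum_comm]
        exact Finset.sum_congr rfl fun x _ => Finset.sum_congr rfl fun w _ => by ring
    _ = ∑ y : Fin 4 × Fin 4, cutA A J c i j y.1 y.2 q *
          (bA q * (((4 * Real.pi) ^ 2)⁻¹ * vs A c q *
            Real.exp (-(z ⬝ᵥ (gram A c q *ᵥ z)) / 4)) * H y.1 y.2) := by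
        refine Finset.sum_congr rfl fun y _ => ?_
        simp only [hHe]
        rw [← sum_kerf_zero hG q z hHs y.1 y.2]
        simp only [Fintype.sum_prod_type]
    _ = bA q * (((4 * Real.pi) ^ 2)⁻¹ * vs A c q * Real.exp (-(z ⬝ᵥ (gram A c q *ᵥ z)) / 4)) *
          (bE q * antiP (A.jc J c q) H i j) := by
        rw [antiP_entry, Finset.mul_sum, Finset.mul_sum, Fintype.sum_prod_type]
        refine Finset.sum_congr rfl fun m _ => ?_
        rw [Finset.mul_sum, Finset.mul_sum]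
        refine Finset.sum_congr rfl fun n _ => ?_
        simp only [cutA]; ring
    _ = 0 := by
        have : antiP (A.jc J c q) H = 0 := by
          rw [hH, antiP, Matrix.mul_smul, Matrix.smul_mul, ← smul_sub, smul_comm, ← antiP,
            (antiP_inv11 (hJ.sq c q hqb)).1, smul_zero]
        simp [this]

theorem integrable_ker {f : X3 → ℝ} {c₁ : ℝ} (hc : 0 < c₁) (hf : GaussB S3 c₁ f) {s : ℝ}
    (hs : |s| ≤ 1) (q : Pt) {h : Pt → ℝ} (hh : Continuous h) {B : ℝ} (hB : ∀ p, |h p| ≤ B) (t : ℝ) :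
    Integrable fun z => f ((s, q), z) * h (q + t • z) := by
  obtain ⟨C, -, hb⟩ := hf.2 0
  have hi : Integrable fun z => f ((s, q), z) :=
    ((integrable_gw hc).const_mul C).mono'
      (hf.1.continuous.comp (by fun_prop : Continuous fun w : Pt => (((s, q), w) : X3))
        ).aestronglyMeasurable (ae_of_all _ fun w => by
          simpa [norm_iteratedFDeriv_zero, gw] using hb ((s, q), w) hs)
  exact hi.mul_bdd (c := B) (hh.comp (by fun_prop)).aestronglyMeasurable (ae_of_all _ fun z => hB _)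

end Vale.Agent.P204.Kernel
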