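import Vale.Agent.P204.Kernel.Estimates
import Vale.Agent.P204.Kernel.Approx.Rep

/-!
# P204: the width-dependent part of the smoothing

For a kernel `g`, the part `g - g|_{σ=0}` gives, averaged over the widths, an operator of size
`ε` at scale `ε`, with ten derivatives.
-/

open MeasureTheory Matrix Filter Topology Set
open scoped ContDiff

namespace Vale.Agent.P204.Kernel

open Vale.Agent.P204.General Vale.Agent.P204.Torus

/-- The projection to width zero. -/
noncomputable def sfL : X3 →L[ℝ] X3 :=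
  ((0 : X3 →L[ℝ] ℝ).prod ((ContinuousLinearMap.snd ℝ ℝ Pt).comp
    (ContinuousLinearMap.fst ℝ (ℝ × Pt) Pt))).prod (ContinuousLinearMap.snd ℝ (ℝ × Pt) Pt)

/-- A kernel frozen at width zero. -/
noncomputable def sfK (g : X3 → ℝ) (x : X3) : ℝ := g ((0, x.1.2), x.2)

/-- The width-dependent part of a kernel. -/
noncomputable def dkK (g : X3 → ℝ) (x : X3) : ℝ := g x + -sfK g x

theorem sfK_eq (g : X3 → ℝ) : sfK g = g ∘ sfL := rfl

theorem GaussB.sfK {g : X3 → ℝ} {c : ℝ} (hg : GaussB S3 c g) : GaussB S3 c (Kernel.sfK g) := by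
  rw [sfK_eq]
  refine ⟨hg.1.comp sfL.contDiff, fun n => ?_⟩
  obtain ⟨C, hC, h⟩ := hg.2 n
  refine ⟨C * ‖sfL‖ ^ n, by positivity, fun x hx => ?_⟩
  rw [sfL.iteratedFDeriv_comp_right hg.1 x (by exact_mod_cast le_top)]
  refine (ContinuousMultilinearMap.norm_compContinuousLinearMap_le _ _).trans ?_
  rw [Finset.prod_const, Finset.card_univ, Fintype.card_fin, mul_right_comm]
  refine mul_le_mul_of_nonneg_right ?_ (by positivity)
  exact h (sfL x) (show |(0 : ℝ)| ≤ 1 by norm_num)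

theorem GaussB.neg' {g : X3 → ℝ} {c : ℝ} (hg : GaussB S3 c g) : GaussB S3 c fun x => -g x := by
  refine ⟨hg.1.neg, fun n => ?_⟩
  obtain ⟨C, hC, h⟩ := hg.2 n
  refine ⟨C, hC, fun x hx => ?_⟩
  rw [show (fun x => -g x) = -g from rfl, iteratedFDeriv_neg_apply, norm_neg]
  exact h x hx

theorem GaussB.dkK {g : X3 → ℝ} {c : ℝ} (hg : GaussB S3 c g) : GaussB S3 c (Kernel.dkK g) :=
  hg.add hg.sfK.neg'

theorem integrable_opS {g : X3 → ℝ} {c : ℝ} (hc : 0 < c) (hg : GaussB S3 c g) {h : Pt → ℝ}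
    (hh : Nice h) {s : ℝ} (hs : |s| ≤ 1) (q : Pt) :
    Integrable fun w => g ((s, q), w) * h (q + s • w) := by
  obtain ⟨C, -, hb⟩ := hg.2 0
  obtain ⟨B, -, hB⟩ := hh.bound
  have hi : Integrable fun w => g ((s, q), w) := by
    refine ((integrable_gw hc).const_mul C).mono'
      (hg.1.continuous.comp (by fun_prop : Continuous fun w : Pt => (((s, q), w) : X3))
        ).aestronglyMeasurable (ae_of_all _ fun w => ?_)
    simpa [norm_iteratedFDeriv_zero, gw] using hb ((s, q), w) hs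
  exact hi.mul_bdd (c := B) (hh.1.continuous.comp (by fun_prop)).aestronglyMeasurable
    (ae_of_all _ fun w => hB _)

theorem opS_split {g : X3 → ℝ} {c : ℝ} (hc : 0 < c) (hg : GaussB S3 c g) {h : Pt → ℝ}
    (hh : Nice h) {s : ℝ} (hs : |s| ≤ 1) (q : Pt) :
    opS g h (s, q) = opS (sfK g) h (s, q) + opS (dkK g) h (s, q) := by
  rw [opS, opS, opS, ← integral_add (integrable_opS hc hg.sfK hh hs q)
    (integrable_opS hc hg.dkK hh hs q)]
  refine integral_congr_ae (ae_of_all _ fun w => ?_)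
  simp only [dkK]; ring

theorem opS_dk_eq (g : X3 → ℝ) (h : Pt → ℝ) {σ : ℝ} (hσ : σ ≠ 0) (q : Pt) :
    opS (dkK g) h (σ, q) = σ * Op (dq g) σ h q := by
  rw [opS, Op, ← integral_const_mul]
  refine integral_congr_ae (ae_of_all _ fun w => ?_)
  simp only [dkK, sfK, dq]
  field_simp
  ring

/-- The width-dependent part of the smoothing, averaged over the widths. -/
noncomputable def mainI (ε : ℝ) (g : X3 → ℝ) (h : Pt → ℝ) (q : Pt) : ℝ :=
  ∫ s, opS (dkK g) h (s, q) ∂omNu ε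

/-- The weight of the times. -/
noncomputable def psiT (t : ℝ) : ℝ := Real.exp (-t) * (t ^ 4 * Real.sqrt t + (Real.sqrt t)⁻¹)

theorem integrable_psiT : IntegrableOn psiT (Ioi 0) := by
  have h1 := Real.GammaIntegral_convergent (s := 11 / 2) (by norm_num)
  have h2 := Real.GammaIntegral_convergent (s := 1 / 2) (by norm_num)
  refine (h1.add h2).congr_fun (fun t (ht : 0 < t) => ?_) measurableSet_Ioi
  show Real.exp (-t) * t ^ (11 / 2 - 1 : ℝ) + Real.exp (-t) * t ^ (1 / 2 - 1 : ℝ) = psiT t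
  rw [psiT, mul_add]
  congr 2
  · rw [show (11 / 2 - 1 : ℝ) = ((4 : ℕ) : ℝ) + 1 / 2 by norm_num, Real.rpow_add ht,
      Real.rpow_natCast, Real.sqrt_eq_rpow]
  · rw [show (1 / 2 - 1 : ℝ) = -(1 / 2) by norm_num, Real.rpow_neg ht.le, Real.sqrt_eq_rpow]

theorem psiT_pos {t : ℝ} (ht : 0 < t) : 0 < psiT t :=
  mul_pos (Real.exp_pos _) (add_pos (mul_pos (pow_pos ht 4) (Real.sqrt_pos.2 ht))
    (inv_pos.2 (Real.sqrt_pos.2 ht)))

theorem weight_le_psiT {t : ℝ} (ht : 0 < t) {n : ℕ} (hn : n ≤ 10) :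
    t ^ 4 * Real.sqrt t * (Real.sqrt t)⁻¹ ^ n ≤ t ^ 4 * Real.sqrt t + (Real.sqrt t)⁻¹ := by
  have hs := Real.sqrt_pos.2 ht
  rcases le_total 1 t with h1 | h1
  · refine le_trans (mul_le_of_le_one_right (by positivity) (pow_le_one₀ (by positivity) ?_))
      (le_add_of_nonneg_right (by positivity))
    exact inv_le_one_of_one_le₀ (Real.one_le_sqrt.2 h1)
  · have h2 : 1 ≤ (Real.sqrt t)⁻¹ := (one_le_inv₀ hs).2 (Real.sqrt_le_one.2 h1)
    calc t ^ 4 * Real.sqrt t * (Real.sqrt t)⁻¹ ^ n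
        ≤ t ^ 4 * Real.sqrt t * (Real.sqrt t)⁻¹ ^ 10 :=
          mul_le_mul_of_nonneg_left (pow_le_pow_right₀ h2 hn) (by positivity)
      _ = (Real.sqrt t)⁻¹ := by
          have e : t ^ 4 = Real.sqrt t ^ 8 := by
            rw [show (8 : ℕ) = 2 * 4 from rfl, pow_mul, Real.sq_sqrt ht.le]
          rw [e]; field_simp
      _ ≤ _ := le_add_of_nonneg_left (by positivity)

theorem main_bound {g : X3 → ℝ} {c : ℝ} (hc : 0 < c) (hg : GaussB S3 c g) {ρ : ℝ}
    (hsupp : ∀ x : X3, x.1.2 ∉ Metric.closedBall (0 : Pt) ρ → g x = 0) :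
    ∃ C : ℝ, 0 ≤ C ∧ ∀ ε, 0 < ε → ε ≤ 1 / 4 → ∀ h : Pt → ℝ, Nice h → ∀ X, ∫ y, h y ^ 2 ≤ X →
      Nice (mainI ε g h) ∧ EB ε (C * ε ^ 2 * X) (mainI ε g h) := by
  have G := gaussFam_dq hg hc
  choose C hC hb using fun l => G.sq_pdL_Op (σ₀ := 1) (fun σ hσ => ⟨hσ.1, hσ.2⟩) l
  obtain ⟨I, hI, hIeq⟩ : ∃ I : ℝ, 0 ≤ I ∧ ∫ t in Ioi (0 : ℝ), psiT t = I :=
    ⟨_, setIntegral_nonneg measurableSet_Ioi fun t ht => (psiT_pos ht).le, rfl⟩
  obtain ⟨Cm, hCm, hCl⟩ : ∃ Cm : ℝ, 0 < Cm ∧ ∀ l : List (Fin 4), l.length ≤ 10 → C l ≤ Cm := by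
    obtain ⟨s, hs⟩ : ∃ s, LL 10 = s := ⟨_, rfl⟩
    exact ⟨(∑ l ∈ s, C l) + 1,
      add_pos_of_nonneg_of_pos (Finset.sum_nonneg fun l _ => hC l) zero_lt_one,
      fun l hl => (Finset.single_le_sum (fun l _ => hC l) (hs ▸ (mem_LL 10 l).2 hl)).trans
        (le_add_of_nonneg_right zero_le_one)⟩
  refine ⟨Cm * I ^ 2, by positivity, fun ε hε hε4 h hh X hX => ?_⟩
  have hX0 : 0 ≤ X := le_trans (integral_nonneg fun y => sq_nonneg _) hX
  have hS := opS_smooth hc hg.dkK hh.1 (bddDerivs_of_compactSupport hh.1 hh.2)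
  obtain ⟨hsm, hder⟩ := avg_deriv isOpen_univ hS hε hε4
  have hnice : Nice (mainI ε g h) := by
    refine ⟨contDiffOn_univ.1 hsm, HasCompactSupport.intro (isCompact_closedBall 0 ρ) fun q hq => ?_⟩
    have : ∀ s, opS (dkK g) h (s, q) = 0 := fun s =>
      integral_eq_zero_of_ae (ae_of_all _ fun w => by
        simp [dkK, sfK, hsupp ((s, q), w) hq, hsupp ((0, q), w) hq])
    simp [mainI, this]
  refine ⟨hnice, fun l hl => ?_⟩
  set n := l.length
  set μ := volume.restrict (Ioc (0 : ℝ) (1 / ε))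
  set F : ℝ → Pt → ℝ := fun t q =>
    t ^ 4 / 24 * Real.exp (-t) * dqL l (opS (dkK g) h) (ε * Real.sqrt t, q)
  have hcont := (contDiffOn_dqL (isOpen_wdSet isOpen_univ) hS l).continuousOn
  have hFint : ∀ q, pdL l (mainI ε g h) q = ∫ t, F t q ∂μ := fun q => by
    show pdL l (fun q => ∫ s, opS (dkK g) h (s, q) ∂omNu ε) q = _
    rw [hder l q (mem_univ q), integral_omNu hε hε4 (continuousOn_slice hcont (mem_univ q)),
      ← integral_indicator measurableSet_Ioc]
    refine integral_congr_ae (ae_of_all _ fun t => ?_)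
    show omW ε t * _ = _
    rw [omW]
    by_cases ht : t ∈ Ioc 0 (1 / ε)
    · rw [indicator_of_mem ht, indicator_of_mem ht]
    · rw [indicator_of_notMem ht, indicator_of_notMem ht, zero_mul]
  have hmeas : AEStronglyMeasurable (fun z : ℝ × Pt => F z.1 z.2) (μ.prod volume) := by
    rw [Measure.restrict_prod_eq_prod_univ]
    refine ContinuousOn.aestronglyMeasurable ?_ (measurableSet_Ioc.prod MeasurableSet.univ)
    refine (by fun_prop : Continuous fun z : ℝ × Pt => z.1 ^ 4 / 24 * Real.exp (-z.1)).continuousOn.mul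
      (hcont.comp (by fun_prop : Continuous fun z : ℝ × Pt => (ε * Real.sqrt z.1, z.2)).continuousOn
        fun z hz => ⟨Icc_half_subset (Ioc_subset_Icc_self (width_mem hε hε4 hz.1)), mem_univ _⟩)
  set Y := Cm * ε ^ 2 * X / ε ^ (2 * n)
  have hcore : ∀ t ∈ Ioc (0 : ℝ) (1 / ε),
      Integrable (fun q => F t q ^ 2) ∧ ∫ q, F t q ^ 2 ≤ psiT t ^ 2 * Y := fun t ht => by
    have hw := width_mem hε hε4 ht
    have ht0 := ht.1
    set σ := ε * Real.sqrt t with hσdef
    have hσ : σ ∈ Ioc (0 : ℝ) 1 := ⟨hw.1, hw.2.trans (by norm_num)⟩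
    have hs := G.contDiff_Op (σ₀ := 1) (fun σ hσ => ⟨hσ.1, hσ.2⟩) hσ
      (hh.1.continuous.integrable_of_hasCompactSupport hh.2)
    have he : ∀ q, dqL l (opS (dkK g) h) (σ, q) = σ * pdL l (Op (dq g) σ h) q := fun q => by
      rw [← congrFun (pdL_const_mul hs σ l) q]
      refine (pdL_eq_dqL (isOpen_wdSet isOpen_univ) hS l
        ⟨Icc_half_subset (Ioc_subset_Icc_self hw), mem_univ q⟩ (Eventually.of_forall fun p => ?_)).symm
      exact (opS_dk_eq g h hσ.1.ne' p).symm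
    obtain ⟨hi, hle⟩ := hb l σ hσ h (hh.1.continuous.integrable_of_hasCompactSupport hh.2)
      (hh.1.continuous.memLp_of_hasCompactSupport hh.2)
    simp only [F, ← hσdef, he, ← mul_assoc, mul_pow]
    refine ⟨hi.const_mul _, ?_⟩
    rw [integral_const_mul]
    have hsq := Real.sqrt_pos.2 ht0
    have hle' : ∫ q, pdL l (Op (dq g) σ h) q ^ 2 ≤ Cm * X / σ ^ (2 * n) := by
      rw [le_div_iff₀ (pow_pos hσ.1 _), mul_comm]
      exact hle.trans (mul_le_mul (hCl l hl) hX (integral_nonneg fun y => sq_nonneg _) hCm.le)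
    refine (mul_le_mul_of_nonneg_left hle' (mul_nonneg (by positivity) (sq_nonneg σ))).trans ?_
    have key := weight_le_psiT ht0 (n := n) hl
    calc (t ^ 4 / 24) ^ 2 * Real.exp (-t) ^ 2 * σ ^ 2 * (Cm * X / σ ^ (2 * n))
        = (Real.exp (-t) * (t ^ 4 * Real.sqrt t * (Real.sqrt t)⁻¹ ^ n) / 24) ^ 2 * Y := by
          simp only [Y, hσdef, mul_pow, pow_mul' _ 2 n, inv_pow]
          field_simp
      _ ≤ psiT t ^ 2 * Y := by
          refine mul_le_mul_of_nonneg_right (pow_le_pow_left₀ (by positivity) ?_ 2) (by positivity)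
          exact (div_le_self (by positivity) (by norm_num)).trans
            (mul_le_mul_of_nonneg_left key (Real.exp_pos _).le)
  have hψi : Integrable psiT μ := integrable_psiT.mono_set Ioc_subset_Ioi_self
  obtain ⟨-, hsq⟩ := integral_sq_super hψi
    ((ae_restrict_mem measurableSet_Ioc).mono fun t ht => psiT_pos ht.1) hmeas
    ((ae_restrict_mem measurableSet_Ioc).mono fun t ht => (hcore t ht).1)
    ((ae_restrict_mem measurableSet_Ioc).mono fun t ht => (hcore t ht).2)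
  have hI1 : ∫ t, psiT t ∂μ ≤ I := hIeq ▸
    setIntegral_mono_set integrable_psiT
      ((ae_restrict_mem measurableSet_Ioi).mono fun t ht => (psiT_pos ht).le)
      Ioc_subset_Ioi_self.eventuallyLE
  have hI0 : 0 ≤ ∫ t, psiT t ∂μ :=
    setIntegral_nonneg measurableSet_Ioc fun t ht => (psiT_pos ht.1).le
  simp only [hFint]
  refine (mul_le_mul_of_nonneg_left (hsq.trans (mul_le_mul_of_nonneg_right
    (pow_le_pow_left₀ hI0 hI1 2) (by positivity))) (by positivity)).trans_eq ?_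
  simp only [Y]
  field_simp

end Vale.Agent.P204.Kernel
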