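import Vale.Agent.P204.Kernel.Ext

/-!
# P204: the tail of the subordination

Beyond the time `1 / ε` the heat averages of a form are of size `ε` at scale `ε`.
-/

open MeasureTheory Matrix Filter Topology Set
open scoped ContDiff

namespace Vale.Agent.P204.Kernel

open Vale.Agent.P204.General Vale.Agent.P204.Torus

variable {N K : ℕ} (A : Atlas N K) (c : Fin K)

/-- The squared distance frozen at the first point. -/
noncomputable def Qf (z : Pt × Pt) : ℝ := (z.2 - z.1) ⬝ᵥ (gram A c z.1 *ᵥ (z.2 - z.1))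

/-- The integrand of the tail. -/
noncomputable def tailG (ε : ℝ) (h : Pt → ℝ) (x : Pt × (ℝ × Pt)) : ℝ :=
  x.2.1 ^ 4 / 24 * Real.exp (-x.2.1) / ((ε * Real.sqrt x.2.1) ^ 4) *
    Real.exp (-(Qf A c (x.1, x.2.2) / (4 * (ε ^ 2 * x.2.1)))) * h x.2.2

/-- The tail of the heat averages. -/
noncomputable def tailI (ε : ℝ) (h : Pt → ℝ) (q : Pt) : ℝ :=
  ∫ x, tailG A c ε h (q, x) ∂(volume.restrict (Ioi (1 / ε))).prod (volume : Measure Pt)

theorem Qf_nonneg (z : Pt × Pt) : 0 ≤ Qf A c z := by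
  rw [Qf, gram_quad]
  exact Finset.sum_nonneg fun i _ => mul_self_nonneg _

theorem Qf_smooth : ContDiff ℝ ∞ (Qf A c) := by
  unfold Qf
  simp only [quad_sum]
  refine ContDiff.sum fun i _ => ContDiff.sum fun j _ => ContDiff.mul ?_ ?_
  · have h : ∀ i : Fin 4, ContDiff ℝ ∞ fun z : Pt × Pt => (z.2 - z.1) i :=
      fun i => (contDiff_apply ℝ ℝ i).comp (contDiff_snd.sub contDiff_fst)
    exact (h i).mul (h j)
  · exact (gram_smoothK A c i j).comp contDiff_fst

theorem Qf_bound (n : ℕ) : ∃ B : ℝ, 0 ≤ B ∧ ∀ q ∈ Metric.ball (0 : Pt) 1,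
    ∀ y ∈ Metric.closedBall (0 : Pt) 1, ‖iteratedFDeriv ℝ n (fun q => Qf A c (q, y)) q‖ ≤ B := by
  obtain ⟨B, hB⟩ := ((isCompact_closedBall (0 : Pt) 1).prod (isCompact_closedBall (0 : Pt) 1)
    ).exists_bound_of_continuousOn ((Qf_smooth A c).continuous_iteratedFDeriv
      (m := n) (by exact_mod_cast le_top)).continuousOn
  refine ⟨max B 0, le_max_right _ _, fun q hq y hy => ?_⟩
  set L := ContinuousLinearMap.inl ℝ Pt Pt
  have e : (fun q => Qf A c (q, y)) = (fun z => Qf A c (((0 : Pt), y) + z)) ∘ L := by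
    funext q; simp [L]
  have hL : ‖L‖ ≤ 1 := ContinuousLinearMap.opNorm_le_bound _ zero_le_one fun v => by
    simp [L, Prod.norm_def]
  have hcd : ContDiff ℝ ∞ fun z => Qf A c (((0 : Pt), y) + z) :=
    (Qf_smooth A c).comp (contDiff_const.add contDiff_id)
  rw [e, L.iteratedFDeriv_comp_right hcd q (by exact_mod_cast le_top), iteratedFDeriv_comp_add_left]
  refine (ContinuousMultilinearMap.norm_compContinuousLinearMap_le _ _).trans ?_
  rw [Finset.prod_const, Finset.card_univ, Fintype.card_fin]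
  refine (mul_le_of_le_one_right (norm_nonneg _) (pow_le_one₀ (norm_nonneg _) hL)).trans ?_
  refine le_trans ?_ (le_max_left _ _)
  refine hB (((0 : Pt), y) + L q) ⟨?_, ?_⟩
  · simpa [L] using (Metric.ball_subset_closedBall hq)
  · simpa [L] using hy

theorem exp_deriv_bound (n : ℕ) : ∃ C : ℝ, 0 ≤ C ∧ ∀ τ : ℝ, 0 ≤ τ → ∀ q ∈ Metric.ball (0 : Pt) 1,
    ∀ y ∈ Metric.closedBall (0 : Pt) 1,
      ‖iteratedFDeriv ℝ n (fun q => Real.exp (-(τ * Qf A c (q, y)))) q‖ ≤ C * (1 + τ) ^ n := by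
  choose B hB hb using Qf_bound A c
  set D := 1 + ∑ i ∈ Finset.range (n + 1), B i
  have hB0 : 0 ≤ ∑ i ∈ Finset.range (n + 1), B i := Finset.sum_nonneg fun i _ => hB i
  refine ⟨n.factorial * D ^ n, by positivity, fun τ hτ q hq y hy => ?_⟩
  have hs : ContDiff ℝ ∞ fun q => Qf A c (q, y) :=
    (Qf_smooth A c).comp (contDiff_id.prodMk contDiff_const)
  have hu : ContDiff ℝ ∞ fun q => (-τ) * Qf A c (q, y) := contDiff_const.mul hs
  rw [show (fun q => Real.exp (-(τ * Qf A c (q, y)))) = Real.exp ∘ fun q => (-τ) * Qf A c (q, y) by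
    funext p; simp]
  refine (norm_iteratedFDeriv_comp_le (Real.contDiff_exp (n := ∞)) hu (by exact_mod_cast le_top) q
    (C := 1) (D := D * (1 + τ)) (fun i _ => ?_) fun i h1 hin => ?_).trans_eq (by rw [mul_pow]; ring)
  · rw [norm_iteratedFDeriv_eq_norm_iteratedDeriv, iteratedDeriv_eq_iterate, Real.iter_deriv_exp,
      Real.norm_eq_abs, Real.abs_exp]
    exact Real.exp_le_one_iff.2 (mul_nonpos_of_nonpos_of_nonneg (neg_nonpos.2 hτ) (Qf_nonneg A c _))
  · have hi : i ∈ Finset.range (n + 1) := Finset.mem_range.2 (by omega)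
    refine le_trans ?_ (le_self_pow₀ (one_le_mul_of_one_le_of_one_le (le_add_of_nonneg_right hB0)
      (le_add_of_nonneg_right hτ)) (by omega))
    rw [show (fun q => (-τ) * Qf A c (q, y)) = (-τ) • fun q => Qf A c (q, y) from rfl,
      iteratedFDeriv_const_smul_apply (hs.contDiffAt.of_le (by exact_mod_cast le_top)), norm_smul,
      Real.norm_eq_abs, abs_neg, abs_of_nonneg hτ, mul_comm D]
    exact mul_le_mul (le_add_of_nonneg_left zero_le_one) ((hb i q hq y hy).trans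
      ((Finset.single_le_sum (fun i _ => hB i) hi).trans (le_add_of_nonneg_left zero_le_one)))
      (norm_nonneg _) (by positivity)

theorem tail_weight {ε t : ℝ} (hε : 0 < ε) (ht : 1 / ε < t) :
    t ^ 4 / 24 * Real.exp (-t) / (ε * Real.sqrt t) ^ 4 ≤ ε * (t ^ 7 * Real.exp (-t)) ∧
      0 < t ∧ 0 ≤ 1 / (4 * (ε ^ 2 * t)) ∧ 1 / (4 * (ε ^ 2 * t)) ≤ 1 / (4 * ε) := by
  have h1 : 1 ≤ ε * t := by
    have := (div_lt_iff₀ hε).1 ht
    linarith
  have ht0 : 0 < t := (by positivity : 0 < 1 / ε).trans ht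
  refine ⟨?_, ht0, by positivity, ?_⟩
  · have h4 : Real.sqrt t ^ 4 = t ^ 2 := by
      rw [show (4 : ℕ) = 2 * 2 from rfl, pow_mul, Real.sq_sqrt ht0.le]
    rw [mul_pow, h4, div_le_iff₀ (by positivity)]
    have h5 : 1 ≤ (ε * t) ^ 5 := one_le_pow₀ h1
    calc t ^ 4 / 24 * Real.exp (-t) ≤ t ^ 4 * Real.exp (-t) * (ε * t) ^ 5 :=
          mul_le_mul (mul_le_mul_of_nonneg_right (div_le_self (by positivity) (by norm_num))
            (Real.exp_pos _).le) h5 zero_le_one (by positivity) |>.trans' (le_of_eq (mul_one _).symm)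
      _ = ε * (t ^ 7 * Real.exp (-t)) * (ε ^ 4 * t ^ 2) := by ring
  · refine one_div_le_one_div_of_le (by positivity) ?_
    nlinarith

theorem tail_bound : ∀ n : ℕ, ∃ C : ℝ, 0 ≤ C ∧ ∀ ε, 0 < ε → ε ≤ 1 / 4 → ∀ h : Pt → ℝ, Nice h →
    (∀ y, 1 / 2 < ‖y‖ → h y = 0) →
    ContDiffOn ℝ ∞ (tailI A c ε h) (Metric.ball 0 1) ∧
    (∀ q ∈ Metric.ball (0 : Pt) 1, Integrable (fun x => tailG A c ε h (q, x))
      ((volume.restrict (Ioi (1 / ε))).prod (volume : Measure Pt))) ∧
    ∀ q ∈ Metric.ball (0 : Pt) 1, ε ^ n * ‖iteratedFDeriv ℝ n (tailI A c ε h) q‖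
      ≤ C * ε * Real.sqrt (∫ y, h y ^ 2) := by
  intro n
  choose E hE he using exp_deriv_bound A c
  obtain ⟨ζ, hζ, hζ1, L, hL, -, hζ0⟩ :=
    exists_cutoff (isCompact_closedBall (0 : Pt) (1 / 2)) isOpen_univ (subset_univ _)
  set M7 := ∫ t in Ioi (0 : ℝ), t ^ 7 * Real.exp (-t)
  set Z := Real.sqrt (∫ y : Pt, ζ y ^ 2)
  have hM7 : 0 ≤ M7 := setIntegral_nonneg measurableSet_Ioi fun t (ht : 0 < t) => by positivity
  refine ⟨E n * 2 ^ n * M7 * Z, by have := hE n; positivity, fun ε hε hε4 h hh hsupp => ?_⟩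
  set μ := (volume.restrict (Ioi (1 / ε))).prod (volume : Measure Pt)
  set W : Set (ℝ × Pt) := Ioi 0 ×ˢ univ
  have hμ : ∀ᵐ x ∂μ, x ∈ Ioi (1 / ε) ×ˢ (univ : Set Pt) := by
    simp only [μ, Measure.restrict_prod_eq_prod_univ]
    exact ae_restrict_mem (measurableSet_Ioi.prod MeasurableSet.univ)
  have hsm : ContDiffOn ℝ ∞ (tailG A c ε h) (Metric.ball (0 : Pt) 1 ×ˢ W) := by
    intro x hx
    have ht : 0 < x.2.1 := hx.2.1
    refine ContDiffAt.contDiffWithinAt ?_
    unfold tailG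
    have hf : ContDiff ℝ ∞ fun x : Pt × (ℝ × Pt) => x.2.1 := by fun_prop
    have hq := ((Qf_smooth A c).comp (contDiff_fst.prodMk (contDiff_snd.snd))).contDiffAt (x := x)
    refine (((((hf.pow 4).div_const 24).mul (Real.contDiff_exp.comp hf.neg)).contDiffAt).div
      ((contDiffAt_const.mul ((Real.contDiffAt_sqrt ht.ne').comp x hf.contDiffAt)).pow 4)
      (pow_ne_zero 4 (mul_ne_zero hε.ne' (Real.sqrt_pos.2 ht).ne'))).mul ?_ |>.mul (hh.1.comp contDiff_snd.snd).contDiffAt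
    exact Real.contDiff_exp.contDiffAt.comp x ((hq.div (contDiffAt_const.mul
      (contDiffAt_const.mul hf.contDiffAt)) (by positivity)).neg)
  set a : ℝ × Pt → ℝ := fun x => x.1 ^ 7 * Real.exp (-x.1) * |h x.2|
  set b : ℕ → ℝ × Pt → ℝ := fun m x => ε * E m * (2 / ε) ^ m * a x
  have ha : Integrable a μ := by
    refine Integrable.mul_prod (f := fun t : ℝ => t ^ 7 * Real.exp (-t)) ?_
      (hh.1.continuous.integrable_of_hasCompactSupport hh.2).abs
    exact (integrableOn_pow_exp 7).mono_set fun t (ht : 1 / ε < t) => (tail_weight hε ht).2.1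
  have hb : ∀ m, Integrable (b m) μ := fun m => ha.const_mul _
  have hGb : ∀ m, ∀ᵐ x ∂μ, ∀ q ∈ Metric.ball (0 : Pt) 1,
      ‖iteratedFDeriv ℝ m (fun q => tailG A c ε h (q, x)) q‖ ≤ b m x := fun m =>
    hμ.mono fun x hx q hq => by
      obtain ⟨hw, ht0, hτ0, hτ⟩ := tail_weight hε hx.1
      set τ := 1 / (4 * (ε ^ 2 * x.1))
      set k := x.1 ^ 4 / 24 * Real.exp (-x.1) / (ε * Real.sqrt x.1) ^ 4 * h x.2
      have heq : (fun q => tailG A c ε h (q, x)) = k • fun q => Real.exp (-(τ * Qf A c (q, x.2))) := by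
        funext p
        simp only [tailG, Pi.smul_apply, smul_eq_mul, k, τ]
        ring_nf
      have hsmq : ContDiff ℝ ∞ fun q => Real.exp (-(τ * Qf A c (q, x.2))) :=
        Real.contDiff_exp.comp (contDiff_const.mul ((Qf_smooth A c).comp
          (contDiff_id.prodMk contDiff_const))).neg
      rw [heq, iteratedFDeriv_const_smul_apply (hsmq.contDiffAt.of_le (by exact_mod_cast le_top)),
        norm_smul]
      have hk0 : 0 ≤ x.1 ^ 4 / 24 * Real.exp (-x.1) / (ε * Real.sqrt x.1) ^ 4 := by positivity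
      simp only [b, a, k, Real.norm_eq_abs, abs_mul _ (h x.2), abs_of_nonneg hk0]
      rcases eq_or_ne (h x.2) 0 with h0 | h0
      · simp [h0]
      have hy : x.2 ∈ Metric.closedBall (0 : Pt) 1 := mem_closedBall_zero_iff.2
        ((le_of_not_gt fun hgt => h0 (hsupp x.2 hgt)).trans (by norm_num))
      have hτ2 : 1 + τ ≤ 2 / ε := by
        refine (add_le_add le_rfl hτ).trans ?_
        rw [show 1 + 1 / (4 * ε) = (4 * ε + 1) / (4 * ε) by field_simp, div_le_div_iff₀ (by positivity) hε]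
        nlinarith
      refine le_trans (mul_le_mul (mul_le_mul_of_nonneg_right hw (abs_nonneg _))
        ((he m τ hτ0 q hq x.2 hy).trans (mul_le_mul_of_nonneg_left
          (pow_le_pow_left₀ (by positivity) hτ2 m) (hE m))) (norm_nonneg _)
        (by positivity)) (le_of_eq (by ring))
  have hWo : IsOpen W := isOpen_Ioi.prod isOpen_univ
  have hμW : ∀ᵐ x ∂μ, x ∈ W := hμ.mono fun x hx => ⟨(tail_weight hε hx.1).2.1, trivial⟩
  obtain ⟨h1, h2⟩ := param_integral' Metric.isOpen_ball hWo hμW hsm hb hGb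
  refine ⟨h1, fun q hq => (hb 0).mono' (aesm_section hWo hμW hsm.continuousOn hq)
    ((hGb 0).mono fun x hx => by simpa using hx q hq), fun q hq => ?_⟩
  have hh1 : ∫ y, |h y| ≤ Z * Real.sqrt (∫ y, h y ^ 2) := by
    have hm : MemLp ζ 2 := hζ.continuous.memLp_of_hasCompactSupport (HasCompactSupport.intro hL hζ0)
    have hn : MemLp (fun y => |h y|) 2 :=
      hh.1.continuous.abs.memLp_of_hasCompactSupport hh.2.norm
    have hA := Est.abs_integral_mul_le hm hn
    simp only [sq_abs] at hA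
    refine le_trans (le_of_eq (integral_congr_ae (ae_of_all _ fun y => ?_)))
      ((le_abs_self _).trans hA)
    show |h y| = ζ y * |h y|
    by_cases hy : ‖y‖ ≤ 1 / 2
    · rw [hζ1 y (mem_closedBall_zero_iff.2 hy), one_mul]
    · rw [hsupp y (not_le.1 hy)]; simp
  have hI : ∫ x, a x ∂μ ≤ M7 * (Z * Real.sqrt (∫ y, h y ^ 2)) := by
    simp only [a, μ, integral_prod_mul (fun t : ℝ => t ^ 7 * Real.exp (-t)) fun y => |h y|]
    refine mul_le_mul ?_ hh1 (integral_nonneg fun y => abs_nonneg _) hM7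
    exact setIntegral_mono_set (integrableOn_pow_exp 7)
      ((ae_restrict_mem measurableSet_Ioi).mono fun t (ht : 0 < t) => by positivity)
      (Ioi_subset_Ioi (by positivity : (0 : ℝ) ≤ 1 / ε)).eventuallyLE
  calc ε ^ n * ‖iteratedFDeriv ℝ n (tailI A c ε h) q‖ ≤ ε ^ n * ∫ x, b n x ∂μ :=
        mul_le_mul_of_nonneg_left (h2 n q hq) (by positivity)
    _ = ε * E n * 2 ^ n * ∫ x, a x ∂μ := by
        simp only [b]
        rw [integral_const_mul, div_pow]
        field_simp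
    _ ≤ ε * E n * 2 ^ n * (M7 * (Z * Real.sqrt (∫ y, h y ^ 2))) :=
        mul_le_mul_of_nonneg_left hI (by have := hE n; positivity)
    _ = _ := by ring

end Vale.Agent.P204.Kernel
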