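import Vale.Agent.P204.Kernel.TauberMain
import Vale.Agent.P204.Kernel.TauberTail
import Vale.Agent.P204.Kernel.TauberExpand
import Vale.Agent.P204.Kernel.Approx.Main

/-!
# P204: a chart form as a smoothing, up to a small chart form

For a chart form `f` the smoothing of `(1 - ε² Δ)⁵ f` is `f` plus a chart form of size `ε` at
scale `ε`, with ten derivatives.
-/

open MeasureTheory Matrix Filter Topology Set
open scoped ContDiff

namespace Vale.Agent.P204.Kernel

open Vale.Agent.P204.General Vale.Agent.P204.Torus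

/-- The terms of the expansion. -/
structure I5 where
  /-- The choices. -/
  ix : Ix 5

/-- The terms correspond to the choices. -/
def I5.equiv : I5 ≃ Ix 5 := ⟨I5.ix, I5.mk, fun _ => rfl, fun _ => rfl⟩

instance : Finite I5 := Finite.of_equiv _ I5.equiv.symm

-- not computable on purpose: the kernel must not enumerate the terms
noncomputable instance : Fintype I5 := Fintype.ofFinite _

/-- The terms of the error. -/
abbrev Trm := I5 × Fin 4 × Fin 4 ⊕ I5

variable {N K : ℕ} (A : Atlas N K) (c : Fin K) (r d : ℝ)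

/-- The coefficients of the expansion, cut off. -/
noncomputable def cI (ι : I5) (q : Pt) : ℝ := bC q * coefI (gram A c q)⁻¹ 5 ι.ix

/-- The kernels with the coefficients. -/
noncomputable def kI (ι : I5) (k l i j : Fin 4) (x : X3) : ℝ :=
  cI A c ι (x.1.2 + x.1.1 • x.2) • kerf A c r d k l i j x

/-- The coefficients of the tail. -/
noncomputable def H0 (ι : I5) (q : Pt) : ℝ :=
  -(bA q * (((4 * Real.pi) ^ 2)⁻¹ * vs A c q) * cI A c ι q)

/-- The scaled derivatives of a form. -/
noncomputable def hI (ε : ℝ) (f : Pt → M4) (ι : I5) (k l : Fin 4) (y : Pt) : ℝ :=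
  ε ^ (lI 5 ι.ix).length * pdL (lI 5 ι.ix) (fun p => f p k l) y

/-- The fifth power applied to a form. -/
noncomputable def DF (ε : ℝ) (f : Pt → M4) (p : Pt) : M4 :=
  Matrix.of fun k l => ∑ ι, cI A c ι p * hI ε f ι k l p

/-- One term of the error. -/
noncomputable def eT (ε : ℝ) (f : Pt → M4) (i j : Fin 4) : Trm → Pt → ℝ
  | Sum.inl (ι, k, l) => mainI ε (kI A c r d ι k l i j) (hI ε f ι k l)
  | Sum.inr ι => fun q => H0 A c ι q * tailI A c ε (hI ε f ι i j) q

theorem cI_nice (ι : I5) : ContDiff ℝ ∞ (cI A c ι) ∧ HasCompactSupport (cI A c ι) ∧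
    BddDerivs (cI A c ι) := by
  refine smooth_of_supp isOpen_box (isCompact_closedBall (0 : Pt) (7 / 8))
    (Metric.closedBall_subset_ball (by norm_num))
    (bC.contDiff.contDiffOn.mul (coefI_smooth (gram_inv_smooth A c) 5 ι.ix)) fun p hp => ?_
  rw [cI, bC.zero_of_le_dist (not_le.1 hp).le, zero_mul]

theorem H0_nice (ι : I5) : ContDiff ℝ ∞ (H0 A c ι) ∧ HasCompactSupport (H0 A c ι) ∧
    BddDerivs (H0 A c ι) := by
  refine smooth_of_supp isOpen_box (isCompact_closedBall (0 : Pt) (11 / 16))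
    (Metric.closedBall_subset_ball (by norm_num))
    ((bA.contDiff.contDiffOn.mul (contDiffOn_const.mul (vs_smoothOn A c))).mul
      (cI_nice A c ι).1.contDiffOn).neg fun p hp => ?_
  simp [H0, bA.zero_of_le_dist (not_le.1 hp).le]

theorem H0_supp (ι : I5) {p : Pt} (hp : p ∉ Metric.closedBall (0 : Pt) (11 / 16)) :
    H0 A c ι p = 0 := by
  simp [H0, bA.zero_of_le_dist (not_le.1 hp).le]

theorem hI_props {ε X : ℝ} {f : Pt → M4} (hf : ChartForm (1 / 2) f)
    (hX : ∀ i k, EB ε X fun p => f p i k) (ι : I5) (k l : Fin 4) :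
    Nice (hI ε f ι k l) ∧ (∀ y, 1 / 2 < ‖y‖ → hI ε f ι k l y = 0) ∧
      ∫ y, hI ε f ι k l y ^ 2 ≤ X := by
  have hn := (hf.nice k l).pdL (lI 5 ι.ix)
  refine ⟨⟨contDiff_const.mul hn.1, hn.2.mul_left⟩, fun y hy => ?_, ?_⟩
  · rw [hI, pdL_eq_zero_off (f := fun p => f p k l) (fun p hp => by rw [hf.supp p hp]; rfl) _ hy,
      mul_zero]
  · simp only [hI, mul_pow, ← pow_mul]
    rw [integral_const_mul, mul_comm _ 2]
    exact hX k l _ (lI_length 5 ι.ix)

theorem hI_skew {ε : ℝ} {f : Pt → M4} (hf : ChartForm (1 / 2) f) (ι : I5) (k l : Fin 4) (y : Pt) :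
    hI ε f ι l k y = -hI ε f ι k l y := by
  have e : (fun p => f p l k) = fun p => (-1 : ℝ) * f p k l := funext fun p => by
    have := congrFun (congrFun (hf.skew p) k) l
    simpa using this
  simp only [hI]
  rw [e, pdL_const_mul (hf.smooth k l)]
  ring

theorem DF_form {ε X : ℝ} {f : Pt → M4} (hf : ChartForm (1 / 2) f)
    (hX : ∀ i k, EB ε X fun p => f p i k) : ChartForm (1 / 2) (DF A c ε f) := by
  refine ⟨fun k l => ?_, fun p => ?_, fun p hp => ?_⟩
  · simp only [DF, Matrix.of_apply]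
    exact ContDiff.sum fun ι _ => (cI_nice A c ι).1.mul (hI_props hf hX ι k l).1.1
  · ext k l
    simp only [Matrix.transpose_apply, Matrix.neg_apply, DF, Matrix.of_apply,
      ← Finset.sum_neg_distrib]
    refine Finset.sum_congr rfl fun ι _ => ?_
    rw [hI_skew hf ι k l, mul_neg]
  · ext k l
    simp only [DF, Matrix.of_apply, Matrix.zero_apply]
    exact Finset.sum_eq_zero fun ι _ => by rw [(hI_props hf hX ι k l).2.1 p hp, mul_zero]

theorem omW_mul_integrable {f : ℝ → ℝ} (hf : ContinuousOn f (Ioo (-1) 1)) {ε : ℝ} (hε : 0 < ε)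
    (hε4 : ε ≤ 1 / 4) : Integrable fun t => omW ε t * f (ε * Real.sqrt t) := by
  have hint : IntegrableOn (fun t => t ^ 4 / 24 * Real.exp (-t) * f (ε * Real.sqrt t))
      (Ioc 0 (1 / ε)) := by
    refine IntegrableOn.mono_set (ContinuousOn.integrableOn_compact isCompact_Icc ?_) Ioc_subset_Icc_self
    refine (by fun_prop : Continuous fun t : ℝ => t ^ 4 / 24 * Real.exp (-t)).continuousOn.mul
      (hf.comp (by fun_prop : Continuous fun t : ℝ => ε * Real.sqrt t).continuousOn fun t ht => ?_)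
    rcases eq_or_lt_of_le ht.1 with rfl | h0
    · simp
    · exact Icc_half_subset (Ioc_subset_Icc_self (width_mem hε hε4 ⟨h0, ht.2⟩))
  refine (hint.integrable_indicator measurableSet_Ioc).congr (ae_of_all _ fun t => ?_)
  show _ = (Ioc 0 (1 / ε)).indicator _ t * _
  by_cases ht : t ∈ Ioc 0 (1 / ε)
  · rw [indicator_of_mem ht, indicator_of_mem ht]
  · rw [indicator_of_notMem ht, indicator_of_notMem ht, zero_mul]

theorem kI_gauss {c₀ C₀ : ℝ} (hG : GoodR A r d c₀ C₀) :
    ∃ c₁ : ℝ, 0 < c₁ ∧ ∀ ι k l i j, GaussB S3 c₁ (kI A c r d ι k l i j) := by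
  obtain ⟨c₁, hc₁, hg⟩ := kerf_gauss (c := c) hG
  have hgy : PolyD S3 fun x : X3 => x.1.2 + x.1.1 • x.2 :=
    (PolyD.linear ((ContinuousLinearMap.snd ℝ ℝ Pt).comp
      (ContinuousLinearMap.fst ℝ (ℝ × Pt) Pt))).add (polyB_sigma.smul
        (PolyB.linear (ContinuousLinearMap.snd ℝ (ℝ × Pt) Pt) zero_le_one fun x _ => by simp)).polyD
  exact ⟨c₁ / 2, by positivity, fun ι k l i j =>
    GaussB.poly_smul hc₁ (PolyB.comp (cI_nice A c ι).1 (cI_nice A c ι).2.2 hgy) (hg k l i j)⟩

theorem kI_supp (ι : I5) (k l i j : Fin 4) (x : X3)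
    (hx : x.1.2 ∉ Metric.closedBall (0 : Pt) (11 / 16)) : kI A c r d ι k l i j x = 0 := by
  simp [kI, kerf, amp, bA.zero_of_le_dist (not_le.1 hx).le]

variable {A c r d} {J : Amb N → MN N} {c₀ C₀ : ℝ}

/-- The frozen part of the smoothing is the heat average of the expansion. -/
theorem sum_frozen (hG : GoodR A r d c₀ C₀) {ε X : ℝ} {f : Pt → M4} (hf : ChartForm (1 / 2) f)
    (hX : ∀ i k, EB ε X fun p => f p i k) {q : Pt} {s : ℝ} (hs : |s| ≤ 1)
    (i j : Fin 4) (ι : I5) :
    ∑ k, ∑ l, opS (sfK (kI A c r d ι k l i j)) (hI ε f ι k l) (s, q) =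
      bA q * (((4 * Real.pi) ^ 2)⁻¹ * vs A c q) * cI A c ι q *
        ∫ w, gE (gram A c q) w * hI ε f ι i j (q + s • w) := by
  obtain ⟨c₁, hc₁, hg⟩ := kI_gauss A c r d hG
  have hi : ∀ k l, Integrable fun w =>
      sfK (kI A c r d ι k l i j) ((s, q), w) * hI ε f ι k l (q + s • w) := fun k l =>
    integrable_opS hc₁ (hg ι k l i j).sfK (hI_props hf hX ι k l).1 hs q
  simp only [opS]
  rw [Finset.sum_congr rfl fun k _ => (integral_finsetSum _ fun l _ => hi k l).symm,
    ← integral_finsetSum _ fun k _ => integrable_finsetSum _ fun l _ => hi k l, ← integral_const_mul]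
  refine integral_congr_ae (ae_of_all _ fun w => ?_)
  show ∑ k, ∑ l, sfK (kI A c r d ι k l i j) ((s, q), w) * hI ε f ι k l (q + s • w) = _
  have hh : (Matrix.of fun k l => hI ε f ι k l (q + s • w) : M4)ᵀ =
      -(Matrix.of fun k l => hI ε f ι k l (q + s • w) : M4) := by
    ext k l
    simp only [Matrix.transpose_apply, Matrix.neg_apply, Matrix.of_apply, hI_skew hf ι k l]
  have h := sum_kerf_zero (c := c) hG q w hh i j
  simp only [Matrix.of_apply] at h
  simp only [sfK, kI, zero_smul, add_zero, smul_eq_mul, gE]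
  calc ∑ k, ∑ l, cI A c ι q * kerf A c r d k l i j ((0, q), w) * hI ε f ι k l (q + s • w)
      = cI A c ι q * ∑ k, ∑ l, hI ε f ι k l (q + s • w) * kerf A c r d k l i j ((0, q), w) := by
        rw [Finset.mul_sum]
        refine Finset.sum_congr rfl fun k _ => ?_
        rw [Finset.mul_sum]
        exact Finset.sum_congr rfl fun l _ => by ring
    _ = _ := by rw [h]; ring

/-- The smoothing of the fifth power is the form plus the error terms. -/
theorem pull_GE_DF (hJ : IsACS A J) (hG : GoodR A r d c₀ C₀) {ε X : ℝ} (hε : 0 < ε)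
    (hε4 : ε ≤ 1 / 4) {f : Pt → M4} (hf : ChartForm (1 / 2) f)
    (hX : ∀ i k, EB ε X fun p => f p i k) {q : Pt} (hq : q ∈ Metric.closedBall (0 : Pt) (5 / 8))
    (i j : Fin 4) :
    A.pull c (GE A r d ε (ext A c (DF A c ε f))) q i j =
      f q i j + ∑ x, eT A c r d ε f i j x q := by
  have hD := DF_form A c hf hX
  have hb := ext_test A c (by norm_num) hD
  have hqn := mem_closedBall_zero_iff.1 hq
  have hqb : q ∈ box := mem_ball_zero_iff.2 (by linarith)
  have hq1 : q ∈ Metric.ball (0 : Pt) 1 := mem_ball_zero_iff.2 (by linarith)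
  obtain ⟨c₁, hc₁, hg⟩ := kI_gauss A c r d hG
  set G := gram A c q
  set Kc := ((4 * Real.pi) ^ 2)⁻¹ * vs A c q with hKc
  have hbA : bA q = 1 := bA.one_of_mem_closedBall hq
  have hbC : bC q = 1 := bC.one_of_mem_closedBall (mem_closedBall_zero_iff.2 (by
    show ‖q‖ ≤ 3 / 4; linarith))
  have hp : ∀ z : Pt, z ≠ 0 → 0 < z ⬝ᵥ G *ᵥ z := fun z hz => by
    rw [gram_quad]
    refine lt_of_lt_of_le ?_ (norm_sq_le_dot _)
    refine pow_pos (norm_pos_iff.2 fun h => hz ?_) 2
    have := A.L_mulVec_dmat c hqb z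
    rwa [h, mulVec_zero, eq_comm] at this
  set φ : Pt → ℝ := fun w => f (q + ε • w) i j
  have hφ : Nice φ := by
    refine ⟨(hf.smooth i j).comp (contDiff_const.add (contDiff_id.const_smul ε)),
      HasCompactSupport.intro (isCompact_closedBall (0 : Pt) ((‖q‖ + 1) / ε)) fun w hw => ?_⟩
    have h1 : ‖q‖ + 1 < ε * ‖w‖ := by
      have h0 : (‖q‖ + 1) / ε < ‖w‖ := lt_of_not_ge fun h => hw (mem_closedBall_zero_iff.2 h)
      have := (div_lt_iff₀ hε).1 h0
      linarith
    have h2 : 1 / 2 < ‖q + ε • w‖ := by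
      have := norm_sub_norm_le (ε • w) (-q)
      rw [sub_neg_eq_add, add_comm, norm_neg, norm_smul, Real.norm_eq_abs, abs_of_pos hε] at this
      linarith
    simp [φ, hf.supp _ h2]
  set ψ := (oneSubLap G)^[5] φ
  have hψn : Nice ψ := hφ.iter G 5
  have hψ : ∀ w, ψ w = ∑ ι, cI A c ι q * hI ε f ι i j (q + ε • w) := fun w => by
    simp only [ψ, oneSubLap_iter G hφ.1 5 w]
    rw [← I5.equiv.sum_comp]
    refine Finset.sum_congr rfl fun ι _ => ?_
    rw [cI, hbC, one_mul, show I5.equiv ι = ι.ix from rfl, show φ = fun w => f (q + ε • w) i j from rfl,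
      pdL_affine (hf.smooth i j) q ε]
    rfl
  set P : ℝ → ℝ := heat G ψ
  have hgi : ∀ ι (σ : ℝ), Integrable fun z => gE G z * hI ε f ι i j (q + σ • z) := fun ι σ => by
    obtain ⟨B, -, hB⟩ := (hI_props hf hX ι i j).1.bound
    exact (integrable_gE hp).mul_bdd (c := B)
      ((hI_props hf hX ι i j).1.1.continuous.comp (by fun_prop)).aestronglyMeasurable
      (ae_of_all _ fun z => hB _)
  have hP : ∀ t, P t = ∑ ι, cI A c ι q *
      ∫ z, gE G z * hI ε f ι i j (q + (ε * Real.sqrt t) • z) := fun t => by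
    simp only [← integral_const_mul]
    rw [← integral_finsetSum _ fun ι _ => (hgi ι _).const_mul _]
    refine integral_congr_ae (ae_of_all _ fun z => ?_)
    simp only [hψ, smul_smul, Finset.mul_sum]
    exact Finset.sum_congr rfl fun ι _ => by ring
  set S : ℝ → ℝ := fun s => ∑ k, ∑ l, ∑ ι, opS (dkK (kI A c r d ι k l i j)) (hI ε f ι k l) (s, q)
  have hcont : ∀ ι k l, ContinuousOn
      (fun s => opS (dkK (kI A c r d ι k l i j)) (hI ε f ι k l) (s, q)) (Ioo (-1) 1) := fun ι k l =>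
    continuousOn_slice (opS_smooth hc₁ (hg ι k l i j).dkK (hI_props hf hX ι k l).1.1
      (bddDerivs_of_compactSupport (hI_props hf hX ι k l).1.1 (hI_props hf hX ι k l).1.2)).continuousOn
      (mem_univ q)
  have hco_eq : ∀ k l, hco A c (ext A c (DF A c ε f)) k l = fun y => DF A c ε f y k l := fun k l =>
    funext fun y => by
      simp only [hco]
      rcases le_or_gt ‖y‖ (1 / 2) with hy | hy
      · rw [pull_ext_self A c _ (mem_ball_zero_iff.2 (by linarith)),
          bC.one_of_mem_closedBall (mem_closedBall_zero_iff.2 (by show ‖y‖ ≤ 3 / 4; linarith)), one_mul]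
      · rw [hD.supp y hy]
        by_cases hyb : y ∈ box
        · rw [pull_ext_self A c _ hyb, hD.supp y hy]; simp
        · have h1 : 1 ≤ ‖y‖ := not_lt.1 fun h => hyb (mem_ball_zero_iff.2 h)
          simp [bC.zero_of_le_dist (x := y) (by rw [dist_zero_right]; show 7 / 8 ≤ ‖y‖; linarith)]
  have hpt : ∀ t, omW ε t * A.pull c (GS A r d (ε * Real.sqrt t) (ext A c (DF A c ε f))) q i j =
      omW ε t * (Kc * P t) + omW ε t * S (ε * Real.sqrt t) := fun t => by
    rcases eq_or_ne (omW ε t) 0 with h0 | h0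
    · simp [h0]
    have hw := width_mem hε hε4 (omW_ne h0)
    set σ := ε * Real.sqrt t with hσ
    have hσ1 : |σ| ≤ 1 := by rw [abs_of_pos hw.1]; linarith [hw.2]
    rw [← mul_add, pull_GS hJ hG hb.contX hw.1 (hw.2.trans (by norm_num)) hq]
    simp only [hco_eq]
    congr 1
    have e : ∀ k l, Op (fam (kerf A c r d k l i j)) σ (fun y => DF A c ε f y k l) q =
        ∑ ι, (opS (sfK (kI A c r d ι k l i j)) (hI ε f ι k l) (σ, q) +
          opS (dkK (kI A c r d ι k l i j)) (hI ε f ι k l) (σ, q)) := fun k l => by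
      simp only [← opS_split hc₁ (hg _ k l i j) (hI_props hf hX _ k l).1 hσ1 q]
      simp only [opS, Op, fam]
      rw [← integral_finsetSum _ fun ι _ => integrable_opS hc₁ (hg ι k l i j)
        (hI_props hf hX ι k l).1 hσ1 q]
      refine integral_congr_ae (ae_of_all _ fun w => ?_)
      simp only [DF, kI, Matrix.of_apply, smul_eq_mul, Finset.mul_sum]
      exact Finset.sum_congr rfl fun ι _ => by ring
    simp only [e, Finset.sum_add_distrib]
    show (∑ k, ∑ l, ∑ ι, opS (sfK (kI A c r d ι k l i j)) (hI ε f ι k l) (σ, q)) + S σ = _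
    congr 1
    rw [Finset.sum_congr rfl fun k _ => Finset.sum_comm, Finset.sum_comm]
    simp only [sum_frozen hG hf hX hσ1 i j, hbA, one_mul, hP, ← hσ, Finset.mul_sum, ← hKc]
    exact Finset.sum_congr rfl fun ι _ => by ring
  have hPi : IntegrableOn (fun t => t ^ 4 / 24 * Real.exp (-t) * P t) (Ioi 0) := by
    obtain ⟨B, -, hB⟩ := abs_heat_le hp hψn
    refine Integrable.mul_bdd (c := B) ?_
      (continuous_iff_continuousAt.2 (continuousAt_heat hp hψn)).aestronglyMeasurable
      (ae_of_all _ fun t => hB t)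
    refine IntegrableOn.congr_fun ((integrableOn_pow_exp 4).div_const 24)
      (fun t _ => by ring) measurableSet_Ioi
  have hsub : Ioc (0 : ℝ) (1 / ε) ⊆ Ioi 0 := Ioc_subset_Ioi_self
  have hom : ∀ t, omW ε t * (Kc * P t) = (Ioc 0 (1 / ε)).indicator
      (fun t => Kc * (t ^ 4 / 24 * Real.exp (-t) * P t)) t := fun t => by
    rw [omW]
    by_cases ht : t ∈ Ioc 0 (1 / ε)
    · rw [indicator_of_mem ht, indicator_of_mem ht]; ring
    · rw [indicator_of_notMem ht, indicator_of_notMem ht, zero_mul]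
  have hiP : Integrable fun t => omW ε t * (Kc * P t) := by
    simp only [hom]
    exact (integrable_indicator_iff measurableSet_Ioc).2 ((hPi.mono_set hsub).const_mul Kc)
  have hiS : ∀ ι k l, Integrable fun t => omW ε t *
      opS (dkK (kI A c r d ι k l i j)) (hI ε f ι k l) (ε * Real.sqrt t, q) := fun ι k l =>
    omW_mul_integrable (hcont ι k l) hε hε4
  have hmain : ∫ t, omW ε t * S (ε * Real.sqrt t) =
      ∑ x : I5 × Fin 4 × Fin 4, eT A c r d ε f i j (Sum.inl x) q := by
    simp only [S, Finset.mul_sum]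
    rw [integral_finsetSum _ fun k _ => integrable_finsetSum _ fun l _ =>
      integrable_finsetSum _ fun ι _ => hiS ι k l, Fintype.sum_prod_type]
    simp only [Fintype.sum_prod_type]
    conv_rhs => rw [Finset.sum_comm]
    refine Finset.sum_congr rfl fun k _ => ?_
    rw [integral_finsetSum _ fun l _ => integrable_finsetSum _ fun ι _ => hiS ι k l]
    conv_rhs => rw [Finset.sum_comm]
    refine Finset.sum_congr rfl fun l _ => ?_
    rw [integral_finsetSum _ fun ι _ => hiS ι k l]
    exact Finset.sum_congr rfl fun ι _ => (integral_omNu hε hε4 (hcont ι k l)).symm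
  have hT : ∀ ι, tailI A c ε (hI ε f ι i j) q = ∫ t in Ioi (1 / ε),
      t ^ 4 / 24 * Real.exp (-t) * (∫ z, gE G z * hI ε f ι i j (q + (ε * Real.sqrt t) • z)) ∧
      IntegrableOn (fun t => t ^ 4 / 24 * Real.exp (-t) *
        (∫ z, gE G z * hI ε f ι i j (q + (ε * Real.sqrt t) • z))) (Ioi (1 / ε)) := fun ι => by
    obtain ⟨C, -, hC⟩ := tail_bound A c 0
    have hint := (hC ε hε hε4 _ (hI_props hf hX ι i j).1 (hI_props hf hX ι i j).2.1).2.1 q hq1
    have hin : ∀ t ∈ Ioi (1 / ε), (∫ y, tailG A c ε (hI ε f ι i j) (q, (t, y))) =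
        t ^ 4 / 24 * Real.exp (-t) * ∫ z, gE G z * hI ε f ι i j (q + (ε * Real.sqrt t) • z) :=
      fun t ht => by
      obtain ⟨-, ht0, -, -⟩ := tail_weight hε ht
      set σ := ε * Real.sqrt t with hσ
      have hσ0 : 0 < σ := mul_pos hε (Real.sqrt_pos.2 ht0)
      have hσ2 : σ ^ 2 = ε ^ 2 * t := by rw [hσ, mul_pow, Real.sq_sqrt ht0.le]
      rw [← integral_scale hσ0 q fun z => gE G z * hI ε f ι i j (q + σ • z), ← integral_const_mul]
      refine integral_congr_ae (ae_of_all _ fun y => ?_)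
      simp only [tailG, Qf, gE, ← hσ, smul_inv_smul₀ hσ0.ne', add_sub_cancel, mulVec_smul,
        dotProduct_smul, smul_dotProduct, smul_eq_mul, G]
      rw [show -(σ⁻¹ * (σ⁻¹ * ((y - q) ⬝ᵥ gram A c q *ᵥ (y - q)))) / 4 =
        -((y - q) ⬝ᵥ gram A c q *ᵥ (y - q) / (4 * (ε ^ 2 * t))) by rw [← hσ2]; field_simp]
      ring
    refine ⟨?_, hint.integral_prod_left.congr
      ((ae_restrict_mem measurableSet_Ioi).mono hin)⟩
    rw [tailI, integral_prod _ hint]
    exact setIntegral_congr_fun measurableSet_Ioi hin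
  have htail : ∑ ι, eT A c r d ε f i j (Sum.inr ι) q =
      -(Kc * ∫ t in Ioi (1 / ε), t ^ 4 / 24 * Real.exp (-t) * P t) := by
    simp only [hP, Finset.mul_sum]
    rw [integral_finsetSum _ fun ι _ => ((hT ι).2.const_mul (cI A c ι q)).congr
      (ae_of_all _ fun t => by ring), Finset.mul_sum, ← Finset.sum_neg_distrib]
    refine Finset.sum_congr rfl fun ι _ => ?_
    simp only [eT, H0, hbA, one_mul, ← hKc]
    rw [(hT ι).1, neg_mul, mul_assoc, ← integral_const_mul]
    congr 2
    exact integral_congr_ae (ae_of_all _ fun t => by ring)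
  have hfull : Kc * ∫ t in Ioi 0, t ^ 4 / 24 * Real.exp (-t) * P t = f q i j := by
    rw [heat_identity (gram_symm A c) hp hφ, integral_gE (gram_symm A c) hp]
    have hdet := gram_det_pos A c hqb
    have := Real.sqrt_pos.2 hdet
    simp only [Kc, vs, φ, smul_zero, add_zero]
    field_simp
    ring
  rw [pull_GE hJ hG hb hε hε4, integral_congr_ae (ae_of_all _ hpt),
    integral_add hiP (omW_mul_integrable (continuousOn_finsetSum _ fun k _ =>
      continuousOn_finsetSum _ fun l _ => continuousOn_finsetSum _ fun ι _ => hcont ι k l) hε hε4),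
    hmain, Fintype.sum_sum_type, htail, ← hfull]
  simp only [hom]
  rw [integral_indicator measurableSet_Ioc, integral_const_mul,
    ← Ioc_union_Ioi_eq_Ioi (show (0 : ℝ) ≤ 1 / ε by positivity),
    setIntegral_union Ioc_disjoint_Ioi_same measurableSet_Ioi (hPi.mono_set hsub)
      (hPi.mono_set (Ioi_subset_Ioi (by positivity)))]
  ring

theorem tail_term {H : Pt → ℝ} (hH : ContDiff ℝ ∞ H) (hHb : BddDerivs H)
    (hH0 : ∀ p ∉ Metric.closedBall (0 : Pt) (11 / 16), H p = 0) :
    ∃ C : ℝ, 0 ≤ C ∧ ∀ ε, 0 < ε → ε ≤ 1 / 4 → ∀ h : Pt → ℝ, Nice h →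
      (∀ y, 1 / 2 < ‖y‖ → h y = 0) → ∀ X, ∫ y, h y ^ 2 ≤ X →
      Nice (fun q => H q * tailI A c ε h q) ∧
        EB ε (C * ε ^ 2 * X) fun q => H q * tailI A c ε h q := by
  choose B hB hBb using hHb
  choose T hT hTb using tail_bound A c
  set Kn : ℕ → ℝ := fun n => ∑ m ∈ Finset.range (n + 1), (n.choose m : ℝ) * B m * T (n - m)
  have hKn : ∀ n, 0 ≤ Kn n := fun n => Finset.sum_nonneg fun m _ =>
    mul_nonneg (mul_nonneg (Nat.cast_nonneg _) (hB m)) (hT _)
  obtain ⟨V, hV0, hV⟩ : ∃ V : ℝ, 0 ≤ V ∧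
      (volume (Metric.closedBall (0 : Pt) (11 / 16))).toReal = V := ⟨_, ENNReal.toReal_nonneg, rfl⟩
  obtain ⟨Km, hKm0, hKm⟩ : ∃ Km : ℝ, 0 ≤ Km ∧ ∀ n ≤ 10, Kn n ≤ Km :=
    ⟨∑ n ∈ Finset.range 11, Kn n, Finset.sum_nonneg fun n _ => hKn n, fun n hn =>
      Finset.single_le_sum (fun n _ => hKn n) (Finset.mem_range.2 (by omega))⟩
  refine ⟨Km ^ 2 * V, by positivity, fun ε hε hε4 h hh hsupp X hX => ?_⟩
  have hts := (hTb 0 ε hε hε4 h hh hsupp).1
  have hO : IsOpen (Metric.ball (0 : Pt) 1) := Metric.isOpen_ball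
  have hF0 : ∀ p ∉ Metric.closedBall (0 : Pt) (11 / 16), H p * tailI A c ε h p = 0 := fun p hp => by
    rw [hH0 p hp, zero_mul]
  obtain ⟨hsm, hcs, -⟩ := smooth_of_supp hO (isCompact_closedBall (0 : Pt) (11 / 16))
    (Metric.closedBall_subset_ball (by norm_num)) (hH.contDiffOn.mul hts) hF0
  refine ⟨⟨hsm, hcs⟩, fun l hl => ?_⟩
  set n := l.length
  set Y := Km * ε * Real.sqrt X
  have hpt : ∀ q, (ε ^ n * pdL l (fun q => H q * tailI A c ε h q) q) ^ 2 ≤
      (Metric.closedBall (0 : Pt) (11 / 16)).indicator (fun _ => Y ^ 2) q := fun q => by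
    by_cases hq : q ∈ Metric.closedBall (0 : Pt) (11 / 16)
    · rw [indicator_of_mem hq, ← sq_abs, abs_mul, abs_of_pos (pow_pos hε n)]
      refine pow_le_pow_left₀ (by positivity) ?_ 2
      have hq1 : q ∈ Metric.ball (0 : Pt) 1 := Metric.closedBall_subset_ball (by norm_num) hq
      have hu := hO.uniqueDiffOn (𝕜 := ℝ)
      have hm := norm_iteratedFDerivWithin_mul_le (hH.contDiffOn (s := Metric.ball (0 : Pt) 1)) hts
        hu hq1 (n := n) (by exact_mod_cast le_top)
      simp only [iteratedFDerivWithin_of_isOpen _ hO hq1] at hm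
      refine (mul_le_mul_of_nonneg_left ((abs_pdL_le hsm l q).trans hm) (by positivity)).trans ?_
      rw [Finset.mul_sum]
      refine le_trans (Finset.sum_le_sum (g := fun m => (n.choose m : ℝ) * B m * T (n - m) *
        (ε * Real.sqrt X)) fun m hm' => ?_) ?_
      · have hmn : m ≤ n := by have := Finset.mem_range.1 hm'; omega
        have h1 := (hTb (n - m) ε hε hε4 h hh hsupp).2.2 q hq1
        have h2 : ε ^ n = ε ^ m * ε ^ (n - m) := by rw [← pow_add, Nat.add_sub_cancel' hmn]
        calc ε ^ n * ((n.choose m : ℝ) * ‖iteratedFDeriv ℝ m H q‖ *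
              ‖iteratedFDeriv ℝ (n - m) (tailI A c ε h) q‖)
            = (n.choose m : ℝ) * (ε ^ m * ‖iteratedFDeriv ℝ m H q‖) *
              (ε ^ (n - m) * ‖iteratedFDeriv ℝ (n - m) (tailI A c ε h) q‖) := by rw [h2]; ring
          _ ≤ (n.choose m : ℝ) * B m * (T (n - m) * ε * Real.sqrt X) := by
              refine mul_le_mul (mul_le_mul_of_nonneg_left ?_ (Nat.cast_nonneg _))
                (h1.trans (mul_le_mul_of_nonneg_left (Real.sqrt_le_sqrt hX)
                  (mul_nonneg (hT _) hε.le))) (by positivity) (mul_nonneg (Nat.cast_nonneg _) (hB m))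
              exact (mul_le_of_le_one_left (norm_nonneg _)
                (pow_le_one₀ hε.le (by linarith))).trans (hBb m q)
          _ = _ := by ring
      · rw [← Finset.sum_mul, ← mul_assoc]
        exact mul_le_mul_of_nonneg_right (mul_le_mul_of_nonneg_right (hKm n hl) hε.le)
          (Real.sqrt_nonneg _)
    · rw [indicator_of_notMem hq, pdL_eq_zero_off (f := fun q => H q * tailI A c ε h q) (ρ := 11 / 16)
        (fun p hp => hF0 p fun h' => not_le.2 hp (mem_closedBall_zero_iff.1 h')) l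
        (lt_of_not_ge fun h' => hq (mem_closedBall_zero_iff.2 h'))]
      simp
  calc ε ^ (2 * n) * ∫ p, pdL l (fun q => H q * tailI A c ε h q) p ^ 2
      = ∫ p, (ε ^ n * pdL l (fun q => H q * tailI A c ε h q) p) ^ 2 := by
        rw [← integral_const_mul]; simp only [mul_pow, ← pow_mul, mul_comm 2 n]
    _ ≤ ∫ p, (Metric.closedBall (0 : Pt) (11 / 16)).indicator (fun _ => Y ^ 2) p :=
        integral_mono_of_nonneg (ae_of_all _ fun p => sq_nonneg _)
          ((integrable_indicator_iff measurableSet_closedBall).2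
            (integrableOn_const measure_closedBall_lt_top.ne)) (ae_of_all _ hpt)
    _ = V * Y ^ 2 := by
        rw [integral_indicator measurableSet_closedBall, setIntegral_const, smul_eq_mul, ← hV]; rfl
    _ = _ := by
        simp only [Y, mul_pow, Real.sq_sqrt (le_trans (integral_nonneg fun y => sq_nonneg _) hX)]
        ring

end Vale.Agent.P204.Kernel
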